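/-
CONTRACT  (row252, unit S6a = 06-isotropic.tex l.1-1112; architect helper234; prefix `k6a_`).

Paper-free ONE-SCALE cores of the first half of Section 6 (velocity graph, coarse lists,
common choice, strip filling, fibre lists, box sampling, tensor interpolation).
Every statement below is a leaf `L-252-S6a-*`; a leaf is PROVED IN ITS OWN FILE
`Claimed/Agent/R252/S6a/<Name>.lean` (theorem name = the name here without the final `_stmt`),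
this file only fixes the statements as `def ... : Prop`.  No `sorry` is needed that way:
the assembly takes the proved theorems, the contract is the list of types.
-/
import Mathlib

namespace Claimed.Agent.R252

open MeasureTheory
open scoped ENNReal Classical

/-- index of the half-open cell of side `w` that contains `x` -/
noncomputable def k6a_cell {D : ℕ} (w : ℝ) (x : Fin D → ℝ) : Fin D → ℤ := fun j => ⌊x j / w⌋

theorem k6a_cell_eqns_cite : True := by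
  have := @k6a_cell.eq_1
  trivial

/-- value at `y` of the `i`-th Lagrange basis polynomial of the nodes `x` -/
noncomputable def k6a_lag {M : ℕ} (x : Fin (M + 1) → ℝ) (i : Fin (M + 1)) (y : ℝ) : ℝ :=
  ∏ j ∈ Finset.univ.erase i, (y - x j) / (x i - x j)

theorem k6a_lag_eqns_cite : True := by
  have := @k6a_lag.eq_1
  trivial

/-! ### A. paying / double counting -/

/-- A2 (measure form). Every bin `b` is witnessed on a set of mass `≥ c`, every point pays for at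
most `k` bins: at most `k μ(univ) / c` bins.  Used l.452-460, 791-799, 985-995. -/
def k6a_pay_count_stmt : Prop :=
  ∀ {Ω β : Type} [MeasurableSpace Ω] (μ : Measure Ω) (s : Finset β) (A : β → Set Ω),
    (∀ b ∈ s, MeasurableSet (A b)) → ∀ (k : ℕ),
    (∀ ω, (s.filter (fun b => ω ∈ A b)).card ≤ k) → ∀ (c : ℝ≥0∞), (∀ b ∈ s, c ≤ μ (A b)) →
    (s.card : ℝ≥0∞) * c ≤ k * μ Set.univ

/-- A2 (finite weighted form). -/
def k6a_pay_count_fin_stmt : Prop :=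
  ∀ {α β : Type} (s : Finset β) (t : Finset α) (w : α → ℝ), (∀ a ∈ t, 0 ≤ w a) →
    ∀ (r : β → α → Prop) (k : ℕ), (∀ a ∈ t, (s.filter (fun b => r b a)).card ≤ k) →
    ∀ (c : ℝ), (∀ b ∈ s, c ≤ ∑ a ∈ t.filter (fun a => r b a), w a) →
    (s.card : ℝ) * c ≤ k * ∑ a ∈ t, w a

/-! ### B. Lemma 6.4 (a common choice from local lists), l.491-560 -/

/-- one world `Ω₀`. -/
def k6a_common_choice_stmt : Prop :=
  ∀ {Ω : Type} [MeasurableSpace Ω] (μ : Measure Ω) (Ω₀ : Set Ω), MeasurableSet Ω₀ →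
    ∀ (D q L : ℕ) (Z : Ω → Fin D → ℝ) (Y : Ω → Fin q → ℝ), Measurable Z → Measurable Y →
    ∀ (B A r : ℝ), (∀ e ∈ Ω₀, ‖Y e‖ ≤ B) → 1 ≤ A →
    ∀ (s : ℕ → ℝ), s 0 = 1 → s L = r → (∀ i ≤ L, 0 < s i) → (∀ i < L, s (i + 1) ≤ s i) →
      (∀ i < L, s i ≤ A * s (i + 1)) →
    ∀ (K : ℕ → ℕ),
      (∀ i ≤ L, ∀ n : Fin D → ℤ, ∃ T : Finset (Fin q → ℤ), T.card ≤ K i ∧
        ∀ e ∈ Ω₀, k6a_cell (s i) (Z e) = n → k6a_cell (s i) (Y e) ∈ T) →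
    ∃ S : Set Ω, MeasurableSet S ∧ S ⊆ Ω₀ ∧
      μ Ω₀ ≤ (∏ i ∈ Finset.range (L + 1), ((4 : ℝ≥0∞) ^ D * (K i : ℝ≥0∞))) * μ S ∧
      (∀ e ∈ S, ∀ e' ∈ S, ‖Y e - Y e'‖ ≤ (A + 2 * B) * (‖Z e - Z e'‖ + r)) ∧
      (∀ e ∈ Ω₀, ∀ e' ∈ Ω₀, Z e = Z e' → Y e = Y e' → (e ∈ S ↔ e' ∈ S))

/-- countably many worlds `W e`; coordinates `Z`, `Y` may depend on the world. -/
def k6a_common_choice_worlds_stmt : Prop :=
  ∀ {Ω ι : Type} [MeasurableSpace Ω] [Countable ι] (μ : Measure Ω) (W : Ω → ι),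
    (∀ o, MeasurableSet (W ⁻¹' {o})) →
    ∀ (D q L : ℕ) (Z : Ω → Fin D → ℝ) (Y : Ω → Fin q → ℝ), Measurable Z → Measurable Y →
    ∀ (B A r : ℝ), (∀ e, ‖Y e‖ ≤ B) → 1 ≤ A →
    ∀ (s : ℕ → ℝ), s 0 = 1 → s L = r → (∀ i ≤ L, 0 < s i) → (∀ i < L, s (i + 1) ≤ s i) →
      (∀ i < L, s i ≤ A * s (i + 1)) →
    ∀ (K : ℕ → ℕ),
      (∀ o, ∀ i ≤ L, ∀ n : Fin D → ℤ, ∃ T : Finset (Fin q → ℤ), T.card ≤ K i ∧
        ∀ e, W e = o → k6a_cell (s i) (Z e) = n → k6a_cell (s i) (Y e) ∈ T) →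
    ∃ S : Set Ω, MeasurableSet S ∧
      (∀ o, μ (W ⁻¹' {o}) ≤
        (∏ i ∈ Finset.range (L + 1), ((4 : ℝ≥0∞) ^ D * (K i : ℝ≥0∞))) * μ (S ∩ W ⁻¹' {o})) ∧
      (∀ e ∈ S, ∀ e' ∈ S, W e = W e' → ‖Y e - Y e'‖ ≤ (A + 2 * B) * (‖Z e - Z e'‖ + r)) ∧
      (∀ e e', W e = W e' → Z e = Z e' → Y e = Y e' → (e ∈ S ↔ e' ∈ S))

/-! ### C. spanning, determinants, the plane is a graph (l.385-392, 441-447, 316-324) -/

/-- C1. `U Eᵀ` upper triangular with diagonal `≥ η`, rows of `U` bounded by one. -/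
def k6a_det_ge_of_triangular_stmt : Prop :=
  ∀ (n : ℕ) (e u : Fin n → Fin n → ℝ) (η : ℝ), 0 ≤ η → (∀ i k, |u i k| ≤ 1) →
    (∀ i j, j < i → u i ⬝ᵥ e j = 0) → (∀ i, η ≤ |u i ⬝ᵥ e i|) →
    η ^ n ≤ (n.factorial : ℝ) * |Matrix.det (Matrix.of e)|

/-- C2. No hyperplane captures more than `1 - c` of the law within `η`: `n` independent draws have
determinant `≥ η ^ n / n!` with probability `≥ c ^ n`. -/
def k6a_span_prob_stmt : Prop :=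
  ∀ {Ω : Type} [MeasurableSpace Ω] (P : Measure Ω) [IsProbabilityMeasure P] (n : ℕ)
    (e : Ω → Fin n → ℝ), Measurable e → ∀ (η c : ℝ), 0 ≤ η → 0 ≤ c →
    (∀ u : Fin n → ℝ, u ⬝ᵥ u = 1 → ENNReal.ofReal c ≤ P {ω | η ≤ |u ⬝ᵥ e ω|}) →
    ENNReal.ofReal (c ^ n) ≤ (Measure.pi fun _ : Fin n => P)
      {ω | η ^ n ≤ (n.factorial : ℝ) * |Matrix.det (Matrix.of fun i => e (ω i))|}

/-- C3. entries of the inverse. -/
def k6a_inv_entry_bound_stmt : Prop :=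
  ∀ (m : ℕ) (A : Matrix (Fin m) (Fin m) ℝ) (K δ : ℝ), 1 ≤ K → 0 < δ → (∀ i j, |A i j| ≤ K) →
    δ ≤ |A.det| → ∀ i j, |A⁻¹ i j| ≤ (m.factorial : ℝ) * K ^ m / δ

/-- C4. A hyperplane with unit normal `(νb, νl)` which passes within `η` of `m` lifted vectors
`(V i, x i)` with well conditioned base part has `|νl| ≥ 1 / K'`. -/
def k6a_plane_graph_stmt : Prop :=
  ∀ (m : ℕ) (V : Matrix (Fin m) (Fin m) ℝ) (x νb : Fin m → ℝ) (νl K δ η : ℝ), 1 ≤ K → 0 < δ →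
    0 ≤ η → (∀ i j, |V i j| ≤ K) → δ ≤ |V.det| → (∀ i, |x i| ≤ K) → νb ⬝ᵥ νb + νl ^ 2 = 1 →
    (∀ i, |V i ⬝ᵥ νb + x i * νl| ≤ η) →
    2 * ((m : ℝ) ^ 2 * ((m.factorial : ℝ) * K ^ m / δ)) * η ≤ 1 →
    1 ≤ 2 * ((m : ℝ) ^ 2 * ((m.factorial : ℝ) * K ^ m / δ) * K + 1) * |νl|

/-- C5. the row of the graph. -/
def k6a_graph_row_stmt : Prop :=
  ∀ (m : ℕ) (νb : Fin m → ℝ) (νl K' : ℝ), νb ⬝ᵥ νb + νl ^ 2 = 1 → 1 ≤ K' * |νl| → 0 ≤ K' →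
    (∀ j, |-νb j / νl| ≤ K') ∧
    ∀ (v : Fin m → ℝ) (x' η' : ℝ), |v ⬝ᵥ νb + x' * νl| ≤ η' →
      |x' - (fun j => -νb j / νl) ⬝ᵥ v| ≤ K' * η'

/-- C6. perturbation of determinants. -/
def k6a_det_perturb_stmt : Prop :=
  ∀ (n : ℕ) (A B : Matrix (Fin n) (Fin n) ℝ) (δ : ℝ), (∀ i j, |A i j| ≤ 1) → (∀ i j, |B i j| ≤ 1) →
    (∀ i j, |A i j - B i j| ≤ δ) → |A.det - B.det| ≤ n * n.factorial * δ

/-! ### D. multilinear Kakeya: the consumer's form and the cell count (l.404-441, 640-668) -/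

/-- D0. WHAT S6a NEEDS FROM THE BOX `BP-252-MLK` (eps-loss, polynomial loss in the transversality
`θ` and in the radius factor `lam`).  Lines `a l + t e l`, `|e l|_∞ ≤ 1`, weights `w l`, cells of side
`r` with integer index `E` inside `[0, R + r]^n`; a tuple counts at `E` when each of its lines passes
within `lam r` (sup norm) of the centre of the cell and its determinant is `≥ θ`. -/
def k6a_MLK (n : ℕ) (ε C : ℝ) : Prop :=
  ∀ (ι : Type) [Fintype ι] (a e : ι → Fin n → ℝ) (w : ι → ℝ) (r R θ lam : ℝ)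
    (cells : Finset (Fin n → ℤ)),
    0 < r → r ≤ R → 0 < θ → θ ≤ 1 → 1 ≤ lam → (∀ l k, |e l k| ≤ 1) → (∀ l, 0 ≤ w l) →
    (∀ E ∈ cells, ∀ k, 0 ≤ E k ∧ (E k : ℝ) * r ≤ R) →
    ∑ E ∈ cells,
      (∑ τ ∈ (Finset.univ : Finset (Fin n → ι)).filter (fun τ =>
          (∀ i, ∃ t : ℝ, ∀ k, |((E k : ℝ) + 1 / 2) * r - (a (τ i) k + t * e (τ i) k)| ≤ lam * r) ∧
          θ ≤ |Matrix.det (Matrix.of fun i => e (τ i))|),
        ∏ i, w (τ i)) ^ ((1 : ℝ) / ((n : ℝ) - 1))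
      ≤ C * lam ^ C * θ ^ (-C) * (R / r) ^ ε * (∑ l, w l) ^ ((n : ℝ) / ((n : ℝ) - 1))

theorem k6a_MLK_eqns_cite : True := by
  have := @k6a_MLK.eq_1
  trivial

/-- D1. power mean inversion. -/
def k6a_power_mean_count_stmt : Prop :=
  ∀ {α : Type} (cells : Finset α) (mass : α → ℝ) (n : ℕ) (a R : ℝ), 2 ≤ n → 0 ≤ a → 0 ≤ R →
    (∀ E ∈ cells, 0 ≤ mass E) →
    ∑ E ∈ cells, (a * mass E ^ n) ^ ((1 : ℝ) / ((n : ℝ) - 1)) ≤ R ^ ((1 : ℝ) / ((n : ℝ) - 1)) →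
    a * (∑ E ∈ cells, mass E) ^ n ≤ R * cells.card

/-- D2. the cell count.  `ν l` prior weight of the line, `d l E` its weighted duration in the cell,
`∑ l, ν l * d l E` the mass of the cell, `c` the probability of determinant success. -/
def k6a_kakeya_cells_stmt : Prop :=
  ∀ (n : ℕ) (ε C : ℝ), 2 ≤ n → k6a_MLK n ε C → 0 ≤ C →
  ∀ (ι : Type) [Fintype ι] (a e : ι → Fin n → ℝ) (ν : ι → ℝ) (d : ι → (Fin n → ℤ) → ℝ)
    (b w0 θ lam K c M : ℝ) (cells : Finset (Fin n → ℤ)),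
    0 < b → b ≤ w0 → 0 < θ → θ ≤ 1 → 1 ≤ lam → 1 ≤ K → 0 ≤ c → 0 < M →
    (∀ l k, |e l k| ≤ 1) → (∀ l, 0 ≤ ν l) →
    (∀ E ∈ cells, ∀ k, 0 ≤ E k ∧ (E k : ℝ) * b ≤ w0) →
    (∀ l E, 0 ≤ d l E) → (∀ l, ∀ E ∈ cells, d l E ≤ K * b) →
    (∀ l, ∀ E ∈ cells, 0 < d l E →
      ∃ t : ℝ, ∀ k, |((E k : ℝ) + 1 / 2) * b - (a l k + t * e l k)| ≤ lam * b) →
    (∀ E ∈ cells, c * (∑ l, ν l * d l E) ^ n ≤
      ∑ τ ∈ (Finset.univ : Finset (Fin n → ι)).filter (fun τ =>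
          θ ≤ |Matrix.det (Matrix.of fun i => e (τ i))|), ∏ i, (ν (τ i) * d (τ i) E)) →
    M ≤ K * ∑ E ∈ cells, ∑ l, ν l * d l E →
    ∑ l, ν l ≤ K * M / w0 →
    c * (w0 / b) ^ n ≤
      (C * lam ^ C * θ ^ (-C) * (w0 / b) ^ ε) ^ (n - 1) * K ^ (3 * n) * cells.card

/-! ### F. trajectories and cells -/

/-- F1. a Lipschitz curve meets few cells (l.395, 628, 290, 725). -/
def k6a_curve_cells_stmt : Prop :=
  ∀ (n : ℕ) (γ : ℝ → Fin n → ℝ) (Kl T w : ℝ), 0 ≤ Kl → 0 ≤ T → 0 < w →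
    (∀ s ∈ Set.Icc 0 T, ∀ t ∈ Set.Icc 0 T, ‖γ s - γ t‖ ≤ Kl * |s - t|) →
    ∃ F : Finset (Fin n → ℤ), (F.card : ℝ) ≤ 2 ^ n * (Kl * T / w + 1) ∧
      ∀ t ∈ Set.Icc 0 T, k6a_cell w (γ t) ∈ F

/-! ### G. the fibre polynomial list (l.975-995) -/

/-- G1. Lagrange stability in coefficient form. -/
def k6a_lagrange_coeff_stmt : Prop :=
  ∀ (M : ℕ) (p : Polynomial ℝ), p.natDegree ≤ M → ∀ (t : Fin (M + 1) → ℝ) (g ε : ℝ), 0 < g →
    (∀ i, |t i| ≤ 1) → (∀ i j, i ≠ j → g ≤ |t i - t j|) → (∀ i, |p.eval (t i)| ≤ ε) →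
    ∀ k, |p.coeff k| ≤ (M + 1) * (2 / g) ^ M * ε

/-- G2. `M + 1` independent uniform times all fall in `A` with pairwise gaps `≥ g`. -/
def k6a_random_times_stmt : Prop :=
  ∀ (M : ℕ) (A : Set ℝ), MeasurableSet A → A ⊆ Set.Icc 0 1 → ∀ (g : ℝ), 0 ≤ g →
    ENNReal.ofReal ((volume A).toReal ^ (M + 1) - ((M : ℝ) + 1) ^ 2 * g) ≤
      (volume : Measure (Fin (M + 1) → ℝ))
        {t | (∀ i, t i ∈ A) ∧ ∀ i j, i ≠ j → g ≤ |t i - t j|}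

/-- G3. separated polynomials which follow a time-only list of `≤ K0` values on witness sets of
measure `≥ κ` are few. -/
def k6a_fibre_list_stmt : Prop :=
  ∀ (M : ℕ) (polys : Finset (Polynomial ℝ)), (∀ p ∈ polys, p.natDegree ≤ M) →
    ∀ (Wt : Polynomial ℝ → Set ℝ), (∀ p ∈ polys, MeasurableSet (Wt p)) →
    (∀ p ∈ polys, Wt p ⊆ Set.Icc 0 1) →
    ∀ (κ : ℝ), 0 < κ → (∀ p ∈ polys, κ ≤ (volume (Wt p)).toReal) →
    ∀ (Φ : ℝ → Finset ℝ) (K0 : ℕ), (∀ t, (Φ t).card ≤ K0) →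
    ∀ (ε : ℝ), (∀ p ∈ polys, ∀ t ∈ Wt p, ∃ φ ∈ Φ t, |p.eval t - φ| ≤ ε) →
    ∀ (g : ℝ), 0 < g → ((M : ℝ) + 1) ^ 2 * g ≤ κ ^ (M + 1) / 2 →
    (∀ p ∈ polys, ∀ q ∈ polys, p ≠ q →
      ∃ k, ((M : ℝ) + 1) * (2 / g) ^ M * (2 * ε) < |p.coeff k - q.coeff k|) →
    (polys.card : ℝ) * (κ ^ (M + 1) / 2) ≤ (K0 : ℝ) ^ (M + 1)

/-! ### H. box sampling and anchors (l.1012-1030) -/

/-- H1. `r` independent coordinates on each of the `m` axes: all `r ^ m` product vertices lie in `S`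
with probability at least `density ^ (r ^ m)`. -/
def k6a_box_sampling_stmt : Prop :=
  ∀ (m r : ℕ) (X : Type) [Fintype X] (S : Finset (Fin m → X)),
    (S.card : ℝ) ^ (r ^ m) * (Fintype.card X : ℝ) ^ (m * r) ≤
      (((Finset.univ : Finset (Fin m → Fin r → X)).filter
        (fun c => ∀ f : Fin m → Fin r, (fun a => c a (f a)) ∈ S)).card : ℝ) *
        ((Fintype.card X : ℝ) ^ m) ^ (r ^ m)

/-- H2. separated anchors with many successful targets. -/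
def k6a_anchor_selection_stmt : Prop :=
  ∀ (m M N g : ℕ) (S : Finset (Fin m → Fin N)) (η : ℝ), 0 < η → η * (N : ℝ) ^ m ≤ S.card →
    2 * (m : ℝ) * ((M : ℝ) + 1) ^ 2 * (2 * g + 1) ≤ η ^ ((M + 2) ^ m) * N →
    ∃ α : Fin m → Fin (M + 1) → Fin N,
      (∀ a i j, i ≠ j → (g : ℤ) < |((α a i : ℕ) : ℤ) - ((α a j : ℕ) : ℤ)|) ∧
      η ^ ((M + 2) ^ m) / 2 * (N : ℝ) ^ m ≤
        (((Finset.univ : Finset (Fin m → Fin N)).filter (fun τ =>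
          ∀ f : Fin m → Option (Fin (M + 1)), (fun a => (f a).elim (τ a) (α a)) ∈ S)).card : ℝ)

/-! ### I. tensor Lagrange interpolation (l.1031-1048) -/

/-- I1. error at a successful target. -/
def k6a_tensor_interp_stmt : Prop :=
  ∀ (m M : ℕ) {X : Type} (pos : X → ℝ) (S : Set (Fin m → X)) (gval : (Fin m → X) → ℝ) (ε gap : ℝ),
    0 ≤ ε → 0 < gap → (∀ x, |pos x| ≤ 1) →
    (∀ (a : Fin m) (c : Fin m → X), ∃ p : Polynomial ℝ, p.natDegree ≤ M ∧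
      ∀ x : X, Function.update c a x ∈ S → |gval (Function.update c a x) - p.eval (pos x)| ≤ ε) →
    ∀ (α : Fin m → Fin (M + 1) → X),
    (∀ a i j, i ≠ j → gap ≤ |pos (α a i) - pos (α a j)|) →
    ∀ (τ : Fin m → X),
    (∀ f : Fin m → Option (Fin (M + 1)), (fun a => (f a).elim (τ a) (α a)) ∈ S) →
    |gval τ - ∑ f : Fin m → Fin (M + 1), gval (fun a => α a (f a)) *
        ∏ a, k6a_lag (fun i => pos (α a i)) (f a) (pos (τ a))|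
      ≤ m * (((M : ℝ) + 1) * (2 / gap) ^ M + 1) ^ m * ε

end Claimed.Agent.R252
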