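/-
ROW 252, unit S6a (06-isotropic.tex l.1-1112), chief helper234.     THE INTERFACES BETWEEN THE FIVE SUB-UNITS.
Definitions only (no `sorry`).   Prefix `k6a` / `K6a`.

DESIGN (same as S5 `k5_Snd`, S6b `k6b_Sw`): the interior of S6a does NOT see `KpTan` / `KsRef`.
It lives on ONE self-contained abstract record at ONE scale:

* `K6aDat j`   ONE PARENT (the reduction of the mixture to a typical parent is made once, in S6a1:
               `ks_one_parent` + Markov for breadth).  Trajectories `l : L` (any measurable space, prior `ν`),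
               `y = y0 + t V` in `ℝ^j`, native signal `X = xc 0 + xc 1 t + xc 2 t²`, palette `pal` (a measure on velocities),
               a finite path label `lab` (true packets of the needed nodes).  Time = Lebesgue on `[0,1]`.
* the CURRENT FAMILY is a measurable SET `E ⊆ L × [0,1]`; its law is `D.prior` restricted to `E`, never normalised
  (`G_wt ∈ {0,1}`; the factor `s_A⁻¹ ≤ K` of the paper goes into `K`).  Support statements are POINTWISE on `E`.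
* ALL WIDTHS ARE DYADIC, indexed by their LEVEL `i : ℕ` (width `(1/2)^i`), bins `k6aBin i x = ⌊x 2^i⌋` (nested).
  The preparation is made at ALL levels `i ≤ n0` at once: `n0 ≲ log N` deletions of cost `K/K₁` each, still subpower.
  So there are no 'required grids' and no intermediate widths.  Only the common choice (Lemma 6.4) uses a sparse grid.
* every clause of `K6aPhys`, `K6aGraph`, `K6aPk.Ok` is HEREDITARY: it survives `E' ⊆ E` (measurable) verbatim.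
  Floors refer to the fixed prior `ν°` = `ν` restricted to `Lc`.
* breadth = `K6aBrd`: hereditary by definition (quantified over all measurable `E' ⊆ E`), usable only against masses `≫ ε`.

CHAIN.   S6a1: tangent data  ⟹ `K6aPhys` + `K6aPk.Ok` + `K6aBrd`      (06 l.50-296)
         S6a2: ⟹ `K6aGraph`                                            (Prop 6.2, l.296-462)
         S6a3+S6a4: discovery ⟹ `K6aQual`                              (Prop 6.3, l.463-885; exit of S5: `k5_higher_jets_inc`)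
         S6a5: ⟹ `K6aField` = entry of S6b                             (l.886-1112)
Sub-architects: a clause you cannot deliver / a clause you miss = ONE line to helper234.
-/
import Mathlib

set_option autoImplicit false

namespace Claimed.Agent.R252

open MeasureTheory
open scoped ENNReal BigOperators

noncomputable section

/-! ## 0. dyadic bins -/

/-- the width of the level `i` -/
def k6aW (i : ℕ) : ℝ := (1 / 2 : ℝ) ^ i

/-- the bin of `x` at the level `i` -/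
def k6aBin (i : ℕ) (x : ℝ) : ℤ := ⌊x * 2 ^ i⌋

/-- the bin of a vector -/
def k6aVBin {n : ℕ} (i : ℕ) (x : Fin n → ℝ) : Fin n → ℤ := fun a => k6aBin i (x a)

/-- the dyadic cube of the level `i` with index `J` -/
def k6aCube {n : ℕ} (i : ℕ) (J : Fin n → ℤ) : Set (Fin n → ℝ) := {u | k6aVBin i u = J}

/-- rows `G = (G_0, G_y)`; also lifted velocities `(1, V)` -/
abbrev K6aRow (j : ℕ) := ℝ × (Fin j → ℝ)

/-- `G · (1, V)` -/
def k6aAt {j : ℕ} (g : K6aRow j) (V : Fin j → ℝ) : ℝ := g.1 + g.2 ⬝ᵥ V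

/-- base cells (bins of `(t, y)`); also bins of rows -/
abbrev K6aZc (j : ℕ) := ℤ × (Fin j → ℤ)

/-- physical cells (bins of `(t, y, X)`) -/
abbrev K6aWc (j : ℕ) := K6aZc j × ℤ

/-- coefficient blocks (bins of `(y0, V, xc)`) -/
abbrev K6aBc (j : ℕ) := (Fin j → ℤ) × (Fin j → ℤ) × (Fin 3 → ℤ)

/-- the bin of a row -/
def k6aRowBin {j : ℕ} (i : ℕ) (g : K6aRow j) : K6aZc j := (k6aBin i g.1, k6aVBin i g.2)

/-! ## 1. the record -/

/-- **one prepared parent at one scale** (data only) -/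
structure K6aDat (j : ℕ) where
  L : Type
  mL : MeasurableSpace L
  /-- the parent prior -/
  ν : Measure L
  y0 : L → Fin j → ℝ
  V : L → Fin j → ℝ
  /-- coefficients of the native signal along the trajectory -/
  xc : L → Fin 3 → ℝ
  /-- the fixed palette -/
  pal : Measure (Fin j → ℝ)
  /-- the path label of an incidence (true packets at the needed nodes) -/
  Lb : Type
  fLb : Fintype Lb
  lab : L × ℝ → Lb

attribute [instance] K6aDat.mL K6aDat.fLb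

namespace K6aDat

variable {j : ℕ} (D : K6aDat j)

def y (l : D.L) (t : ℝ) : Fin j → ℝ := D.y0 l + t • D.V l
def X (l : D.L) (t : ℝ) : ℝ := D.xc l 0 + D.xc l 1 * t + D.xc l 2 * t ^ 2
/-- `X'` -/
def Xd (l : D.L) (t : ℝ) : ℝ := D.xc l 1 + 2 * D.xc l 2 * t
/-- prior times parent time -/
def prior : Measure (D.L × ℝ) := D.ν.prod (volume.restrict (Set.Icc (0 : ℝ) 1))
/-- exact base -/
def base (e : D.L × ℝ) : ℝ × (Fin j → ℝ) := (e.2, D.y e.1 e.2)
/-- base cell `z_p` -/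
def zc (i : ℕ) (e : D.L × ℝ) : K6aZc j := (k6aBin i e.2, k6aVBin i (D.y e.1 e.2))
/-- physical cell `W_p` -/
def wc (i : ℕ) (e : D.L × ℝ) : K6aWc j := (D.zc i e, k6aBin i (D.X e.1 e.2))
/-- spatial cell at a fixed time -/
def sc (i : ℕ) (l : D.L) (t : ℝ) : (Fin j → ℤ) × ℤ := (k6aVBin i (D.y l t), k6aBin i (D.X l t))
/-- velocity bin `[V]_p` -/
def vb (i : ℕ) (l : D.L) : Fin j → ℤ := k6aVBin i (D.V l)
/-- coefficient block `B_p` -/
def bc (i : ℕ) (l : D.L) : K6aBc j := (k6aVBin i (D.y0 l), k6aVBin i (D.V l), k6aVBin i (D.xc l))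
/-- the master state: path label and finest physical cell -/
def ms (n0 : ℕ) (e : D.L × ℝ) : D.Lb × K6aWc j := (D.lab e, D.wc n0 e)
/-- labelled times of a line -/
def fib (E : Set (D.L × ℝ)) (l : D.L) : Set ℝ := {t | (l, t) ∈ E}

/-- well-formedness and bounded coefficients (slack `K`) -/
structure WF (K : ℝ) : Prop where
  prob : IsProbabilityMeasure D.ν
  m_y0 : Measurable D.y0
  m_V : Measurable D.V
  m_xc : Measurable D.xc
  m_lab : ∀ a, MeasurableSet (D.lab ⁻¹' {a})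
  pal_le : D.pal Set.univ ≤ 1
  bd : ∀ l, ‖D.y0 l‖ ≤ K ∧ ‖D.V l‖ ≤ K ∧ ‖D.xc l‖ ≤ K

end K6aDat

variable {j : ℕ}

/-! ## 2. breadth -/

/-- the conditional velocity law of the state `s0` in the family `E` puts a fraction `≥ κ` within `w` of an affine hyperplane -/
def K6aNarrow (D : K6aDat j) {S : Type} (E : Set (D.L × ℝ)) (s : D.L × ℝ → S) (κ w : ℝ) (s0 : S) : Prop :=
  ∃ (n : Fin j → ℝ) (c : ℝ), n ⬝ᵥ n = 1 ∧
    ENNReal.ofReal κ * D.prior (E ∩ s ⁻¹' {s0}) ≤ D.prior (E ∩ s ⁻¹' {s0} ∩ {e | |n ⬝ᵥ D.V e.1 - c| ≤ w})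

/-- **hereditary breadth**: in EVERY measurable sub-family the narrow states carry mass `≤ ε` -/
def K6aBrd (D : K6aDat j) {S : Type} (E : Set (D.L × ℝ)) (s : D.L × ℝ → S) (κ w ε : ℝ) : Prop :=
  ∀ E' : Set (D.L × ℝ), MeasurableSet E' → E' ⊆ E →
    D.prior (E' ∩ {e | K6aNarrow D E' s κ w (s e)}) ≤ ENNReal.ofReal ε

/-! ## 3. exit of S6a1: physical support and parameter masses (06 l.96-296) -/

/-- **the state of knowledge at 06 l.296**.  `d` cap exponent, `K` slack, `n0` finest level, `E` current family,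
`Lc` = the long lines (`ν° = ν|_{Lc}`), `m0` = the earlier unnormalised weights of the master states. -/
structure K6aPhys (D : K6aDat j) (d K : ℝ) (n0 : ℕ) (E : Set (D.L × ℝ)) (Lc : Set D.L)
    (m0 : D.Lb × K6aWc j → ℝ≥0∞) : Prop where
  E_meas : MeasurableSet E
  Lc_meas : MeasurableSet Lc
  E_sub : E ⊆ Lc ×ˢ Set.Icc (0 : ℝ) 1
  /-- `∑_W m_0(W) ≤ K_pre` -/
  m0_sum : ∀ F : Finset (D.Lb × K6aWc j), ∑ s ∈ F, m0 s ≤ ENNReal.ofReal K
  /-- `λ(W, J) ≤ K_pre m_0(W) π(J)` at the master states, velocity bins of every level -/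
  joint : ∀ i ≤ n0, ∀ (s : D.Lb × K6aWc j) (J : Fin j → ℤ),
    D.prior (E ∩ D.ms n0 ⁻¹' {s} ∩ {e | D.vb i e.1 = J}) ≤ ENNReal.ofReal K * D.pal (k6aCube i J) * m0 s
  /-- (6.3) mass ceilings -/
  capW : ∀ i ≤ n0, ∀ c : K6aWc j, D.prior (E ∩ D.wc i ⁻¹' {c}) ≤ ENNReal.ofReal (K * k6aW i ^ ((j : ℝ) + 1 + d))
  /-- the pure cap in DENSITY form, about an arbitrary measurable offset (`KsRef.Ok.capX`; used at 06 l.1301 with the centre `P(u) + C`) -/
  capX : ∀ i ≤ n0, ∀ (U : Set (ℝ × (Fin j → ℝ))) (f : ℝ × (Fin j → ℝ) → ℝ), MeasurableSet U → Measurable f →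
    D.prior (E ∩ D.base ⁻¹' U ∩ {e | |D.X e.1 e.2 - f (D.base e)| ≤ k6aW i}) ≤ ENNReal.ofReal (K * k6aW i ^ d) * volume U
  /-- (6.5) hereditary support, cells of level `i'` inside a cell of level `i ≤ i'` -/
  loc : ∀ i i', i ≤ i' → i' ≤ n0 → ∀ c : K6aWc j, ∃ F : Finset (K6aWc j),
    (F.card : ℝ) ≤ K * ((2 : ℝ) ^ (i' - i)) ^ ((j : ℝ) + 1 + d) ∧ ∀ e ∈ E, D.wc i e = c → D.wc i' e ∈ F
  /-- (6.5) scalar options over a base cell -/
  fibre : ∀ i ≤ n0, ∀ c : K6aZc j, ∃ F : Finset ℤ,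
    (F.card : ℝ) ≤ K * ((2 : ℝ) ^ i) ^ d ∧ ∀ e ∈ E, D.zc i e = c → k6aBin i (D.X e.1 e.2) ∈ F
  /-- (6.8) fixed-time cap for the labelled lines: spatial cube of level `i'`, velocity bin of level `i`, EVERY time -/
  slice : ∀ i ≤ n0, ∀ i' ≤ n0, ∀ (t : ℝ) (c : (Fin j → ℤ) × ℤ) (J : Fin j → ℤ),
    D.ν {l | (l, t) ∈ E ∧ D.sc i' l t = c ∧ D.vb i l = J}
      ≤ ENNReal.ofReal (K * k6aW i' ^ ((j : ℝ) + d)) * D.pal (k6aCube i J)
  /-- (6.6) upper half, every block -/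
  blk_hi : ∀ i ≤ n0, ∀ B : K6aBc j,
    D.ν (Lc ∩ D.bc i ⁻¹' {B}) ≤ ENNReal.ofReal (K * k6aW i ^ ((j : ℝ) + d)) * D.pal (k6aCube i B.2.1)
  /-- (6.6) lower half, participating blocks -/
  blk_lo : ∀ i ≤ n0, ∀ e ∈ E,
    ENNReal.ofReal (k6aW i ^ ((j : ℝ) + d)) * D.pal (k6aCube i (D.vb i e.1))
      ≤ ENNReal.ofReal K * D.ν (Lc ∩ D.bc i ⁻¹' {D.bc i e.1})
  /-- a physical cell and a velocity bin admit `≤ K` participating blocks (hence (6.10)) -/
  blk_list : ∀ i ≤ n0, ∀ (c : K6aWc j) (J : Fin j → ℤ), ∃ F : Finset (K6aBc j),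
    (F.card : ℝ) ≤ K ∧ ∀ e ∈ E, D.wc i e = c → D.vb i e.1 = J → D.bc i e.1 ∈ F

/-! ## 4. packets (true labels of one node) with Lipschitz graph lists -/

/-- the true labels of one node (data only) -/
structure K6aPk (D : K6aDat j) where
  Q : Type
  fQ : Fintype Q
  /-- thickness -/
  a : ℝ
  /-- level of the time blocks: `H = (1/2)^lev` -/
  lev : ℕ
  iv : Q → ℤ
  asg : Q → Set D.L
  /-- the moving centre `yc0 + t yc1` -/
  yc0 : Q → Fin j → ℝ
  yc1 : Q → Fin j → ℝ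
  /-- the packet of a path label -/
  ofLab : D.Lb → Q

attribute [instance] K6aPk.fQ

namespace K6aPk

variable {D : K6aDat j} (Pk : K6aPk D)

def H : ℝ := k6aW Pk.lev
def blk (q : Pk.Q) : Set ℝ := {t | k6aBin Pk.lev t = Pk.iv q}
def inc (q : Pk.Q) : Set (D.L × ℝ) := Pk.asg q ×ˢ Pk.blk q
def νQ (q : Pk.Q) : ℝ≥0∞ := D.ν (Pk.asg q)

/-- item (1) of the tangent data, packet base cap, gradient-bounded graph lists (06 l.86-186), for the family `E` -/
structure Ok (d k K : ℝ) (E : Set (D.L × ℝ)) : Prop where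
  a_pos : 0 < Pk.a
  H_lo : Pk.a ^ k ≤ K * Pk.H
  H_hi : Pk.H ≤ K * Pk.a ^ k
  asg_meas : ∀ q, MeasurableSet (Pk.asg q)
  disj : ∀ q q', q ≠ q' → Pk.iv q = Pk.iv q' → Disjoint (Pk.asg q) (Pk.asg q')
  /-- lower bound of the assigned mass, for the PARTICIPATING labels -/
  ν_lo : ∀ q, (E ∩ Pk.inc q).Nonempty → ENNReal.ofReal (Pk.a ^ d * Pk.H ^ j) ≤ ENNReal.ofReal K * Pk.νQ q
  ν_hi : ∀ q, Pk.νQ q ≤ ENNReal.ofReal (K * Pk.a ^ d * Pk.H ^ j)
  /-- the true label -/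
  cov : ∀ e ∈ E, e ∈ Pk.inc (Pk.ofLab (D.lab e))
  box : ∀ q, ∀ l ∈ Pk.asg q, ∀ t ∈ Pk.blk q, ‖D.y l t - (Pk.yc0 q + t • Pk.yc1 q)‖ ≤ K * Pk.H
  cen : ∀ q, (Pk.asg q).Nonempty → ‖Pk.yc1 q‖ ≤ K
  /-- base density `≤ K H ν_Q` in unit coordinates of the packet -/
  capQ : ∀ q (U : Set (ℝ × (Fin j → ℝ))), MeasurableSet U →
    ENNReal.ofReal (Pk.H ^ j) * D.prior (E ∩ Pk.inc q ∩ D.base ⁻¹' U) ≤ ENNReal.ofReal K * Pk.νQ q * volume U
  /-- `≤ K` local predictions `X = f(z) + O(K a)` with PHYSICAL gradient `≤ K` -/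
  graphs : ∀ q, ∃ (n : ℕ) (f : Fin n → ℝ × (Fin j → ℝ) → ℝ) (Dm : Fin n → Set (ℝ × (Fin j → ℝ))), (n : ℝ) ≤ K ∧
    (∀ i, ∀ z ∈ Dm i, ∀ z' ∈ Dm i, |f i z - f i z'| ≤ K * ‖z - z'‖) ∧
    ∀ e ∈ E ∩ Pk.inc q, ∃ i, D.base e ∈ Dm i ∧ |D.X e.1 e.2 - f i (D.base e)| ≤ K * Pk.a

/-- `Pk'` is a node below `Pk` -/
structure Below (Pk' : K6aPk D) : Prop where
  lev_le : Pk.lev ≤ Pk'.lev
  nest : ∀ q', (Pk'.asg q').Nonempty → ∃ q, Pk'.asg q' ⊆ Pk.asg q ∧ Pk'.blk q' ⊆ Pk.blk q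

end K6aPk

/-! ## 5. exit of S6a2: the velocity graph (Prop 6.2) -/

/-- **the velocity graph**: `g` = the row, a function of the cell `W_b` (`b` = level `nb`), error `ε = b^κ`;
coarse lists at every level `i` whose width is `≥ ε` -/
structure K6aGraph (D : K6aDat j) (K ε : ℝ) (nb : ℕ) (E : Set (D.L × ℝ)) (g : K6aWc j → K6aRow j) : Prop where
  E_meas : MeasurableSet E
  bound : ∀ c, ‖g c‖ ≤ K
  /-- (6.13) -/
  est : ∀ e ∈ E, |D.Xd e.1 e.2 - k6aAt (g (D.wc nb e)) (D.V e.1)| ≤ ε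
  lists : ∀ i ≤ nb, ε ≤ k6aW i → ∀ c : K6aWc j, ∃ F : Finset (K6aZc j),
    (F.card : ℝ) ≤ K ∧ ∀ e ∈ E, D.wc i e = c → k6aRowBin i (g (D.wc nb e)) ∈ F

/-! ## 6. exit of S6a3 + S6a4: qualification (Prop 6.3) -/

/-- the value at `t` of the row-valued polynomial with coefficients `a` -/
def k6aPoly {M : ℕ} (a : Fin (M + 1) → K6aRow j) (t : ℝ) : K6aRow j := ∑ i : Fin (M + 1), t ^ (i : ℕ) • a i

/-- the incidence `e` is qualified: a polynomial row of degree `≤ M`, coefficients `≤ Kq`, within `η` of `g` at `e` and on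
labelled times of the SAME line in the SAME block of level `kh`, of length `≥ h / Kq` -/
def K6aQualAt (D : K6aDat j) (kh M : ℕ) (Kq η : ℝ) (nb : ℕ) (E : Set (D.L × ℝ)) (g : K6aWc j → K6aRow j)
    (e : D.L × ℝ) : Prop :=
  ∃ a : Fin (M + 1) → K6aRow j, (∀ i, ‖a i‖ ≤ Kq) ∧ ‖g (D.wc nb e) - k6aPoly a e.2‖ ≤ η ∧
    k6aW kh / Kq ≤ volume.real {t | (e.1, t) ∈ E ∧ k6aBin kh t = k6aBin kh e.2 ∧ ‖g (D.wc nb (e.1, t)) - k6aPoly a t‖ ≤ η}

/-- **qualification**: outside `U`, of relative mass `≤ eN`, every incidence of the reference family is qualified -/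
structure K6aQual (D : K6aDat j) (kh M : ℕ) (Kq η eN : ℝ) (nb : ℕ) (E U : Set (D.L × ℝ)) (g : K6aWc j → K6aRow j) :
    Prop where
  U_meas : MeasurableSet U
  U_sub : U ⊆ E
  U_small : D.prior U ≤ ENNReal.ofReal eN * D.prior E
  qual : ∀ e ∈ E, e ∉ U → K6aQualAt D kh M Kq η nb E g e

/-! ## 7. exit of S6a5 = entry of S6b: the interpolated field (06 l.886-1112) -/

/-- block-normalised base coordinates `u = (z - z_c) / h`, as a vector of `ℝ^(j+1)` -/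
def k6aU (h : ℝ) (zc : ℝ × (Fin j → ℝ)) (z : ℝ × (Fin j → ℝ)) : Fin (j + 1) → ℝ :=
  Fin.cons ((z.1 - zc.1) / h) (fun a => (z.2 a - zc.2 a) / h)

/-- a polynomial field as a row -/
def k6aFld (T : Fin (j + 1) → MvPolynomial (Fin (j + 1)) ℝ) (u : Fin (j + 1) → ℝ) : K6aRow j :=
  (MvPolynomial.eval u (T 0), fun a => MvPolynomial.eval u (T a.succ))

/-- **the data alive at 06 l.1112**: packet `q` of the node `Pk`, origin `zc`, polynomial field `T`, selected family `Es` = all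
prepared edges (`Ep`) of the selected good states `(Q_s, W_b)`.  `εT` field error, `nx` level of the base mesh `ξ` (in `u`),
`a1, a2` the two finer thicknesses, `κ, w` breadth, `nv` level of the velocity bins. -/
structure K6aField (D : K6aDat j) (Pk : K6aPk D) (d K εT : ℝ) (nb nx nv Dg : ℕ) (a1 a2 κ w : ℝ) (Ep Es : Set (D.L × ℝ))
    (g : K6aWc j → K6aRow j) (q : Pk.Q) (zc : ℝ × (Fin j → ℝ)) (T : Fin (j + 1) → MvPolynomial (Fin (j + 1)) ℝ) :
    Prop where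
  Es_meas : MeasurableSet Es
  Es_sub : Es ⊆ Ep ∩ Pk.inc q
  /-- nondegenerate packet -/
  pos : Pk.νQ q ≠ 0
  /-- whole states of the prepared family -/
  whole : ∀ e ∈ Es, ∀ e' ∈ Ep ∩ Pk.inc q, D.wc nb e' = D.wc nb e → e' ∈ Es
  /-- mass `≥ h ν_Q / K` -/
  mass : ENNReal.ofReal Pk.H * Pk.νQ q ≤ ENNReal.ofReal K * D.prior Es
  /-- `|u| ≤ K` on the whole block -/
  u_bd : ∀ l ∈ Pk.asg q, ∀ t ∈ Pk.blk q, ‖k6aU Pk.H zc (t, D.y l t)‖ ≤ K
  deg : ∀ i, (T i).totalDegree ≤ Dg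
  coef : ∀ i m, |(T i).coeff m| ≤ K
  /-- (6.27) -/
  field : ∀ e ∈ Es, ‖g (D.wc nb e) - k6aFld T (k6aU Pk.H zc (D.base e))‖ ≤ K * εT
  /-- (6.28) on the lines of duration `≥ h / K1` (ANY `K1 ≥ 1`; Remez costs `K1^(Dg+1)`), throughout the block -/
  line : ∀ K1 : ℝ, 1 ≤ K1 → ∀ l, Pk.H / K1 ≤ volume.real (D.fib Es l) → ∀ t ∈ Pk.blk q,
    |D.Xd l t - k6aAt (k6aFld T (k6aU Pk.H zc (t, D.y l t))) (D.V l)| ≤ K * K1 ^ (Dg + 1) * εT
  /-- (6.29) joint support, `a_i ∈ {a1, a2}` -/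
  joint1 : ∃ F : Finset ((Fin (j + 1) → ℤ) × ℤ), (F.card : ℝ) ≤ K * ((2 : ℝ) ^ nx) ^ (j + 1) * (Pk.a / a1) ^ d ∧
    ∀ e ∈ Es, (k6aVBin nx (k6aU Pk.H zc (D.base e)), ⌊D.X e.1 e.2 / a1⌋) ∈ F
  joint2 : ∃ F : Finset ((Fin (j + 1) → ℤ) × ℤ), (F.card : ℝ) ≤ K * ((2 : ℝ) ^ nx) ^ (j + 1) * (Pk.a / a2) ^ d ∧
    ∀ e ∈ Es, (k6aVBin nx (k6aU Pk.H zc (D.base e)), ⌊D.X e.1 e.2 / a2⌋) ∈ F
  /-- no selected state is narrow -/
  broad : ∀ e ∈ Es, ¬ K6aNarrow D Es (D.wc nb) κ w (D.wc nb e)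
  /-- conditional palette domination in the selected states -/
  dom : ∀ (c : K6aWc j) (J : Fin j → ℤ),
    D.prior (Es ∩ D.wc nb ⁻¹' {c} ∩ {e | D.vb nv e.1 = J}) ≤ ENNReal.ofReal K * D.pal (k6aCube nv J) * D.prior (Es ∩ D.wc nb ⁻¹' {c})

theorem k6a_layers_eqns_cite : True := by
  have := @k6aW.eq_1
  have := @k6aBin.eq_1
  have := @k6aVBin.eq_1
  have := @k6aCube.eq_1
  have := @k6aAt.eq_1
  have := @k6aRowBin.eq_1
  have := @K6aDat.y.eq_1
  have := @K6aDat.X.eq_1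
  have := @K6aDat.Xd.eq_1
  have := @K6aDat.prior.eq_1
  have := @K6aDat.base.eq_1
  have := @K6aDat.zc.eq_1
  have := @K6aDat.wc.eq_1
  have := @K6aDat.sc.eq_1
  have := @K6aDat.vb.eq_1
  have := @K6aDat.bc.eq_1
  have := @K6aDat.ms.eq_1
  have := @K6aDat.fib.eq_1
  have := @K6aNarrow.eq_1
  have := @K6aBrd.eq_1
  have := @K6aPk.H.eq_1
  have := @K6aPk.blk.eq_1
  have := @K6aPk.inc.eq_1
  have := @K6aPk.νQ.eq_1
  have := @k6aPoly.eq_1
  have := @K6aQualAt.eq_1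
  have := @k6aU.eq_1
  have := @k6aFld.eq_1
  trivial

end

end Claimed.Agent.R252
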