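/-
ROW 252, unit S6a, chief helper234.     THE BRIDGE  `KsRef` (State/KsCore, helper31)  ⟶  `K6aDat` (S6a/Layers),  AND THE EXIT OF S6a1.
Definitions and statements only (no `sorry`).

* `k6aOf R A s s1 s2 : K6aDat v.j`   DEFINITIONAL: same trajectory space, same prior, coefficients put to `0` off `R.Sp`
  (so that the bounds hold for ALL lines), `xc` = the three coefficients of the quadratic `t ↦ R.X l t` (exact finite differences),
  palette of the parent `A`, path label = the true labels at the three depths `s` (packet `Q_s`), `s1`, `s2` (thicknesses `a_1`, `a_2`).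
  Incidences are the SAME type `R.L × ℝ`: a family `E` of `R` is a family of `k6aOf R ..` and `(k6aOf R ..).prior = R.prior` (leaf).
* `k6aPkOf R A s s1 s2 σ lv pick`    the true labels of depth `σ` (time level `lv`) as a `K6aPk`; labels of other depths get the empty assignment.
* `k6a_hub_phys_stmt`                exit of S6a1 (06 l.50-296) in the quantifier shape of `KsLocalBr`.
-/
import Claimed.Agent.R252.State.KsTan
import Claimed.Agent.R252.S6a.Layers

set_option autoImplicit false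

namespace Claimed.Agent.R252

open MeasureTheory
open scoped ENNReal BigOperators

noncomputable section

variable {v : KbVer}

open Classical in
/-- **the abstract record of one prepared parent** -/
def k6aOf (R : KsRef v) (A : R.Par) (s s1 s2 : ℝ) : K6aDat v.j where
  L := R.L
  mL := R.mL
  ν := R.ν
  y0 := fun l => if l ∈ R.Sp then (R.co l).1 else 0
  V := fun l => if l ∈ R.Sp then kbV (R.co l) else 0
  xc := fun l => if l ∈ R.Sp then
      ![R.X l 0, (R.X l 1 - R.X l (-1)) / 2, (R.X l 1 - 2 * R.X l 0 + R.X l (-1)) / 2] else 0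
  pal := R.pal A
  Lb := R.Lab × R.Lab × R.Lab
  fLb := inferInstance
  lab := fun e => (R.labAt s e, R.labAt s1 e, R.labAt s2 e)

open Classical in
/-- **the true labels of one depth** -/
def k6aPkOf (R : KsRef v) (A : R.Par) (s s1 s2 σ : ℝ) (lv : ℕ) (pick : R.Lab × R.Lab × R.Lab → R.Lab) :
    K6aPk (k6aOf R A s s1 s2) where
  Q := R.Lab
  fQ := R.fLab
  a := R.a σ
  lev := lv
  iv := fun Q => (R.iv Q : ℤ)
  asg := fun Q => if R.dep Q = σ ∧ R.lev Q = lv then R.asg Q else ∅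
  yc0 := fun Q => if R.dep Q = σ ∧ R.lev Q = lv then (R.ch Q).y0 else 0
  yc1 := fun Q => if R.dep Q = σ ∧ R.lev Q = lv then (R.ch Q).y1 else 0
  ofLab := pick

theorem k6a_adapt_eqns_cite : True := by
  have := @k6aOf.eq_1
  have := @k6aPkOf.eq_1
  trivial

/-- what S6a1 delivers for one record (slack `K`, breadth width `w`, breadth fraction `κb`, breadth error and loss `δ`, finest level `n0`, time levels of the three nodes) -/
structure K6aEntry (R : KsRef v) (A : R.Par) (s s1 s2 K w κb δ : ℝ) (n0 lv lv1 lv2 : ℕ) (E E' : Set (R.L × ℝ)) (Lc : Set R.L)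
    (m0 : (R.Lab × R.Lab × R.Lab) × K6aWc v.j → ℝ≥0∞) : Prop where
  sub : E' ⊆ E
  loss : R.prior E ≤ R.prior E' + ENNReal.ofReal δ
  wf : (k6aOf R A s s1 s2).WF K
  phys : K6aPhys (k6aOf R A s s1 s2) R.d K n0 E' Lc m0
  pk : (k6aPkOf R A s s1 s2 s lv (fun x => x.1)).Ok R.d R.k K E'
  pk1 : (k6aPkOf R A s s1 s2 s1 lv1 (fun x => x.2.1)).Ok R.d R.k K E'
  pk2 : (k6aPkOf R A s s1 s2 s2 lv2 (fun x => x.2.2)).Ok R.d R.k K E'
  below1 : (k6aPkOf R A s s1 s2 s lv (fun x => x.1)).Below (k6aPkOf R A s s1 s2 s1 lv1 (fun x => x.2.1))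
  below2 : (k6aPkOf R A s s1 s2 s lv (fun x => x.1)).Below (k6aPkOf R A s s1 s2 s2 lv2 (fun x => x.2.2))
  brd : K6aBrd (k6aOf R A s s1 s2) E' ((k6aOf R A s s1 s2).ms n0) κb w δ
  /-- the time levels are those of the labels -/
  lev : ∀ Q, (R.dep Q = s → R.lev Q = lv) ∧ (R.dep Q = s1 → R.lev Q = lv1) ∧ (R.dep Q = s2 → R.lev Q = lv2)

/-- **exit of S6a1** (06 l.50-296).   `s ≤ s1, s2` the three depths, `U0` the exponent of the finest level (`(1/2)^n0 ≈ N^(-U0)`),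
`η` the substantial fraction, `δ` the admissible RELATIVE loss and breadth error, `κb` the breadth fraction wanted, `τ₁` the tolerance of the output (`K = N^τ₁`).
The breadth width is `w = N^(-u)` with `u ≤ τ₁`.   Hypotheses = those of `KsLocalBr`, verbatim (the absolute floor `1 ≤ N^τ m0 A` is a field of `KsSub`). -/
def k6a_hub_phys_stmt : Prop :=
  ∀ (v : KbVer) (p : KpPrm), p.Ok → p.ell = 0 → ∀ s s1 s2 U0 : ℝ, 0 < s → s ≤ s1 → s ≤ s2 → 0 < U0 →
  ∀ η δ τ₁ κb : ℝ, 0 < η → 0 < δ → 0 < τ₁ → 0 < κb →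
  ∃ G : KsReq, G.Ok ∧ s ∈ G.depths ∧ s1 ∈ G.depths ∧ s2 ∈ G.depths ∧ s2 ∈ G.widths ∧
  ∃ κ u ε τ : ℝ, 0 < κ ∧ 0 < u ∧ u ≤ τ₁ ∧ 0 < ε ∧ 0 < τ ∧ τ ≤ τ₁ ∧ ∃ N₁ : ℝ,
  ∀ (R : KsRef v) (A : R.Par) (E : Set (R.L × ℝ)),
    N₁ ≤ R.N → R.Rich p G → R.Ok (R.N ^ τ) → R.One A → R.Brd κ u ε → KsSub R A E η (R.N ^ τ) →
    ∃ (n0 lv lv1 lv2 : ℕ) (E' : Set (R.L × ℝ)) (Lc : Set R.L) (m0 : (R.Lab × R.Lab × R.Lab) × K6aWc v.j → ℝ≥0∞),
      k6aW n0 ≤ 2 * R.N ^ (-U0) ∧ R.N ^ (-U0) ≤ 2 * k6aW n0 ∧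
      K6aEntry R A s s1 s2 (R.N ^ τ₁) (R.N ^ (-u)) κb (δ * (R.m0 A).toReal) n0 lv lv1 lv2 E E' Lc m0

end

end Claimed.Agent.R252
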