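/-
Proof of leaf L-252-S6a-BOX (row252, unit S6a, architect helper234).
Replace every `sorry`, then delete the word in capitals at the start of this header.
Helpers: prefix `k6a_bx_`.  Never edit Contract.lean; a false or awkward statement = one line to
helper234.  Statements of other leaves may be used as hypotheses `(h : k6a_xxx_stmt)` in helper
lemmas until their files are on main; the final theorem must have exactly the type given here.

PLAN.
Prove the functional form by induction on m: for F : (Fin m -> X) -> R, F >= 0, E_c prod_{f : Fin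
m -> Fin r} F(fun a => c a (f a)) >= (E F)^(r^m), E = normalised sums (or clear denominators).
Step (Fin.consEquiv / Fin.cons, Fintype.sum_pow, Finset.prod_univ_sum): E_{c'} E_{c0 : Fin r -> X}
prod_{f'} prod_k F(cons (c0 k) (c' o f')) = E_{c'} (E_x prod_{f'} F_x(c' o f'))^r >= (E_x E_{c'}
prod_{f'} F_x)^r (Jensen = inner_le_nnorm_mul_nnorm / pow_arith_mean_le_arith_mean_pow /
Finset.inner_mul_le_norm_mul_norm: (avg y)^r <= avg y^r) >= (E_x (E F_x)^(r^(m-1)))^r >= (E
F)^(r^m). Then F = indicator of S. X empty and r = 0 are degenerate cases: check them first. ~300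
lines.

PROVED (helper259): functional form `k6a_bx_main` with normalised sums (X nonempty), degenerate cases at the end.
-/
import Claimed.Agent.R252.S6a.Contract

namespace Claimed.Agent.R252

open MeasureTheory
open scoped ENNReal Classical

/-- Jensen for normalised sums -/
theorem k6a_bx_jensen {ι : Type} [Fintype ι] (N : ℝ) (hN : (Fintype.card ι : ℝ) = N) (hN0 : 0 < N) (z : ι → ℝ) (hz : ∀ i, 0 ≤ z i) (k : ℕ) :
    ((∑ i, z i) / N) ^ k ≤ (∑ i, z i ^ k) / N := by
  have h := Real.pow_arith_mean_le_arith_mean_pow Finset.univ (fun _ => 1 / N) z (fun _ _ => by positivity)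
    (by rw [Finset.sum_const, Finset.card_univ, nsmul_eq_mul, hN]; field_simp) (fun i _ => hz i) k
  rw [← Finset.mul_sum, ← Finset.mul_sum] at h
  calc ((∑ i, z i) / N) ^ k = (1 / N * ∑ i, z i) ^ k := by congr 1; ring
    _ ≤ 1 / N * ∑ i, z i ^ k := h
    _ = _ := by ring

/-- the sum over all boxes of the product over the vertices -/
noncomputable def k6a_bx_T (m r : ℕ) (X : Type) [Fintype X] (F : (Fin m → X) → ℝ) : ℝ :=
  ∑ c : Fin m → Fin r → X, ∏ f : Fin m → Fin r, F (fun a => c a (f a))

theorem k6a_bx_T_succ (m r : ℕ) (X : Type) [Fintype X] (F : (Fin (m + 1) → X) → ℝ) :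
    k6a_bx_T (m + 1) r X F = ∑ c' : Fin m → Fin r → X, (∑ x, ∏ f' : Fin m → Fin r, F (Fin.cons x fun a => c' a (f' a))) ^ r := by
  calc k6a_bx_T (m + 1) r X F
      = ∑ c0 : Fin r → X, ∑ c' : Fin m → Fin r → X, ∏ k : Fin r, ∏ f' : Fin m → Fin r, F (Fin.cons (c0 k) fun a => c' a (f' a)) := by
        unfold k6a_bx_T
        rw [← (Fin.consEquiv fun _ : Fin (m + 1) => Fin r → X).sum_comp, Fintype.sum_prod_type]
        refine Finset.sum_congr rfl fun c0 _ => Finset.sum_congr rfl fun c' _ => ?_
        rw [← (Fin.consEquiv fun _ : Fin (m + 1) => Fin r).prod_comp, Fintype.prod_prod_type]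
        refine Finset.prod_congr rfl fun k _ => Finset.prod_congr rfl fun f' _ => ?_
        congr 1
        funext a
        refine Fin.cases ?_ (fun a' => ?_) a <;> simp [Fin.consEquiv_apply]
    _ = ∑ c' : Fin m → Fin r → X, ∑ c0 : Fin r → X, ∏ k : Fin r, ∏ f' : Fin m → Fin r, F (Fin.cons (c0 k) fun a => c' a (f' a)) :=
        Finset.sum_comm
    _ = _ := by
        refine Finset.sum_congr rfl fun c' _ => ?_
        rw [Fintype.sum_pow]

theorem k6a_bx_sum_succ (m : ℕ) (X : Type) [Fintype X] (F : (Fin (m + 1) → X) → ℝ) :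
    ∑ z, F z = ∑ x, ∑ y : Fin m → X, F (Fin.cons x y) := by
  rw [← (Fin.consEquiv fun _ : Fin (m + 1) => X).sum_comp, Fintype.sum_prod_type]
  rfl

theorem k6a_bx_main (r : ℕ) (X : Type) [Fintype X] (N : ℝ) (hN : (Fintype.card X : ℝ) = N) (hN0 : 0 < N) (m : ℕ) :
    ∀ F : (Fin m → X) → ℝ, (∀ x, 0 ≤ F x) → ((∑ x, F x) / N ^ m) ^ (r ^ m) ≤ k6a_bx_T m r X F / N ^ (m * r) := by
  induction m with
  | zero =>
    intro F _
    unfold k6a_bx_T
    have h1 : ∀ (c : Fin 0 → Fin r → X) (f : Fin 0 → Fin r), (fun a => c a (f a)) = (default : Fin 0 → X) := fun c f => Subsingleton.elim _ _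
    simp [h1]
  | succ m ih =>
    intro F hF
    have hcard : (Fintype.card (Fin m → Fin r → X) : ℝ) = N ^ (m * r) := by
      rw [← hN]
      simp only [Fintype.card_pi, Finset.prod_const, Finset.card_univ, Fintype.card_fin]
      push_cast
      rw [← pow_mul, mul_comm]
    have hy0 : ∀ c' : Fin m → Fin r → X, 0 ≤ ∑ x, ∏ f' : Fin m → Fin r, F (Fin.cons x fun a => c' a (f' a)) :=
      fun c' => Finset.sum_nonneg fun x _ => Finset.prod_nonneg fun f' _ => hF _
    have hs0 : ∀ x, 0 ≤ ∑ y : Fin m → X, F (Fin.cons x y) := fun x => Finset.sum_nonneg fun y _ => hF _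
    -- Jensen over `x`
    have J1 := k6a_bx_jensen N hN hN0 (fun x => (∑ y : Fin m → X, F (Fin.cons x y)) / N ^ m) (fun x => div_nonneg (hs0 x) (by positivity)) (r ^ m)
    -- induction hypothesis
    have I1 : (∑ x, ((∑ y : Fin m → X, F (Fin.cons x y)) / N ^ m) ^ (r ^ m)) / N
        ≤ (∑ x, k6a_bx_T m r X (fun y => F (Fin.cons x y)) / N ^ (m * r)) / N := by
      refine div_le_div_of_nonneg_right (Finset.sum_le_sum fun x _ => ih (fun y => F (Fin.cons x y)) fun y => hF _) hN0.le
    -- exchange of the sums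
    have E1 : (∑ x, k6a_bx_T m r X (fun y => F (Fin.cons x y)) / N ^ (m * r)) / N
        = (∑ c' : Fin m → Fin r → X, (∑ x, ∏ f' : Fin m → Fin r, F (Fin.cons x fun a => c' a (f' a))) / N) / N ^ (m * r) := by
      unfold k6a_bx_T
      rw [← Finset.sum_div, ← Finset.sum_div, Finset.sum_comm]
      ring
    -- Jensen over `c'`
    have J2 := k6a_bx_jensen (N ^ (m * r)) hcard (by positivity)
      (fun c' : Fin m → Fin r → X => (∑ x, ∏ f' : Fin m → Fin r, F (Fin.cons x fun a => c' a (f' a))) / N) (fun c' => div_nonneg (hy0 c') hN0.le) r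
    have E2 : (∑ c' : Fin m → Fin r → X, ((∑ x, ∏ f' : Fin m → Fin r, F (Fin.cons x fun a => c' a (f' a))) / N) ^ r) / N ^ (m * r)
        = k6a_bx_T (m + 1) r X F / N ^ ((m + 1) * r) := by
      rw [k6a_bx_T_succ]
      simp only [div_pow]
      rw [← Finset.sum_div, add_mul, one_mul, pow_add]
      field_simp
    have E0 : ((∑ z, F z) / N ^ (m + 1)) ^ (r ^ (m + 1)) = (((∑ x, (∑ y : Fin m → X, F (Fin.cons x y)) / N ^ m) / N) ^ (r ^ m)) ^ r := by
      rw [← pow_mul, ← pow_succ, k6a_bx_sum_succ, ← Finset.sum_div]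
      congr 1
      rw [pow_succ]
      field_simp
    rw [E0, ← E2]
    have hb0 : 0 ≤ ((∑ x, (∑ y : Fin m → X, F (Fin.cons x y)) / N ^ m) / N) ^ (r ^ m) :=
      pow_nonneg (div_nonneg (Finset.sum_nonneg fun x _ => div_nonneg (hs0 x) (by positivity)) hN0.le) _
    refine le_trans (pow_le_pow_left₀ hb0 ((J1.trans I1).trans_eq E1) r) J2

theorem k6a_box_sampling : k6a_box_sampling_stmt := by
  intro m r X _ S
  have hT : k6a_bx_T m r X (fun x => if x ∈ S then (1 : ℝ) else 0)
      = (((Finset.univ : Finset (Fin m → Fin r → X)).filter (fun c => ∀ f : Fin m → Fin r, (fun a => c a (f a)) ∈ S)).card : ℝ) := by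
    unfold k6a_bx_T
    simp only [Finset.prod_boole, Finset.mem_univ, true_implies]
    rw [Finset.sum_boole]
  have hS : ∑ x : Fin m → X, (if x ∈ S then (1 : ℝ) else 0) = S.card := by
    rw [Finset.sum_boole]
    congr 2
    ext x
    simp
  by_cases hX : 0 < (Fintype.card X : ℝ)
  · have h := k6a_bx_main r X _ rfl hX m (fun x => if x ∈ S then (1 : ℝ) else 0) (fun x => by split_ifs <;> norm_num)
    rw [hT, hS, div_pow, div_le_div_iff₀ (by positivity) (by positivity)] at h
    exact h
  · have hX0 : Fintype.card X = 0 := by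
      by_contra hne
      exact hX (by exact_mod_cast Nat.pos_of_ne_zero hne)
    have hemp : IsEmpty X := Fintype.card_eq_zero_iff.1 hX0
    rcases Nat.eq_zero_or_pos m with rfl | hm
    · have h1 : ∀ (c : Fin 0 → Fin r → X) (f : Fin 0 → Fin r), (fun a => c a (f a)) = (default : Fin 0 → X) := fun c f => Subsingleton.elim _ _
      rw [← hT, ← hS]
      unfold k6a_bx_T
      simp only [h1, pow_zero, pow_one, zero_mul, mul_one, Finset.univ_unique, Finset.sum_singleton, Finset.prod_singleton]
      exact le_rfl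
    · rcases Nat.eq_zero_or_pos r with rfl | hr
      · have h2 : IsEmpty (Fin m → Fin 0) := ⟨fun f => (f ⟨0, hm⟩).elim0⟩
        have h3 : ((Finset.univ : Finset (Fin m → Fin 0 → X)).filter (fun c => ∀ f : Fin m → Fin 0, (fun a => c a (f a)) ∈ S)) = Finset.univ := by
          ext c
          simp only [Finset.mem_filter, Finset.mem_univ, true_and, iff_true]
          exact fun f => (h2.false f).elim
        rw [h3]
        simp [zero_pow hm.ne']
      · rw [hX0]
        have h4 : m * r ≠ 0 := (Nat.mul_pos hm hr).ne'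
        simp only [Nat.cast_zero, zero_pow h4, mul_zero]
        positivity

end Claimed.Agent.R252
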