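/-
Leaf L-252-S6a-ANCHOR (row252, unit S6a, architect helper234; proved by helper67).
Helpers: prefix `k6a_an_`.

PROOF.
From k6a_box_sampling with r = M+2, X = Fin N: #good c >= eta' * N^(m(M+2)), eta' = eta^((M+2)^m).
Split c a : Fin (M+2) -> Fin N into the target (index 0) and the anchors (indices i.succ).
N * #(c with two anchors on an axis at index distance <= g) <= m*(M+1)^2*(2g+1)*N^(m(M+2))
(`k6a_an_pair`: injection (c, x) |-> (difference, c with one coordinate replaced by x)), hence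
#bad <= eta'/2 * N^(m(M+2)).  So the separated good c number >= eta'/2*N^(m(M+2)); pigeonhole over the
N^(m(M+1)) anchor choices.
-/
import Claimed.Agent.R252.S6a.Contract
import Claimed.Agent.R252.S6a.Box

namespace Claimed.Agent.R252

open MeasureTheory
open scoped ENNReal Classical

/-- two prescribed coordinates are close: at most a fraction `(2g+1)/N` of all configurations -/
theorem k6a_an_pair (m r N g : ℕ) (a : Fin m) (i j : Fin r) (hij : i ≠ j) :
    N * ((Finset.univ : Finset (Fin m → Fin r → Fin N)).filter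
      (fun c => |((c a i : ℕ) : ℤ) - ((c a j : ℕ) : ℤ)| ≤ (g : ℤ))).card
      ≤ (2 * g + 1) * Fintype.card (Fin m → Fin r → Fin N) := by
  have h1 : (((Finset.univ : Finset (Fin m → Fin r → Fin N)).filter
      (fun c => |((c a i : ℕ) : ℤ) - ((c a j : ℕ) : ℤ)| ≤ (g : ℤ))) ×ˢ (Finset.univ : Finset (Fin N))).card
      ≤ (Finset.univ : Finset (Fin (2 * g + 1) × (Fin m → Fin r → Fin N))).card := by
    refine Finset.card_le_card_of_injOn
      (fun q => (⟨(((q.1 a i : ℕ) : ℤ) - ((q.1 a j : ℕ) : ℤ) + g).toNat % (2 * g + 1),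
          Nat.mod_lt _ (by omega)⟩,
        Function.update q.1 a (Function.update (q.1 a) i q.2)))
      (fun _ _ => Finset.mem_coe.2 (Finset.mem_univ _)) ?_
    rintro ⟨c, x⟩ hc ⟨c', x'⟩ hc' h
    have hcB : |((c a i : ℕ) : ℤ) - ((c a j : ℕ) : ℤ)| ≤ (g : ℤ) :=
      (Finset.mem_filter.1 (Finset.mem_product.1 (Finset.mem_coe.1 hc)).1).2
    have hcB' : |((c' a i : ℕ) : ℤ) - ((c' a j : ℕ) : ℤ)| ≤ (g : ℤ) :=
      (Finset.mem_filter.1 (Finset.mem_product.1 (Finset.mem_coe.1 hc')).1).2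
    obtain ⟨l1, u1⟩ := abs_le.1 hcB
    obtain ⟨l2, u2⟩ := abs_le.1 hcB'
    have hA : (((c a i : ℕ) : ℤ) - ((c a j : ℕ) : ℤ) + g).toNat % (2 * g + 1)
        = (((c' a i : ℕ) : ℤ) - ((c' a j : ℕ) : ℤ) + g).toNat % (2 * g + 1) :=
      congrArg Fin.val (congrArg Prod.fst h)
    have hU : Function.update c a (Function.update (c a) i x)
        = Function.update c' a (Function.update (c' a) i x') := congrArg Prod.snd h
    have hx : x = x' := by
      have := congrFun (congrFun hU a) i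
      simpa using this
    have hoff : ∀ b k, ¬ (b = a ∧ k = i) → c b k = c' b k := by
      intro b k hbk
      have h2 := congrFun (congrFun hU b) k
      by_cases hb : b = a
      · subst hb
        have hk : k ≠ i := fun hk => hbk ⟨rfl, hk⟩
        simpa [Function.update_of_ne hk] using h2
      · simpa [Function.update_of_ne hb] using h2
    have hj : c a j = c' a j := hoff a j fun h3 => hij h3.2.symm
    have t1 : (((c a i : ℕ) : ℤ) - ((c a j : ℕ) : ℤ) + g).toNat < 2 * g + 1 := by omega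
    have t2 : (((c' a i : ℕ) : ℤ) - ((c' a j : ℕ) : ℤ) + g).toNat < 2 * g + 1 := by omega
    rw [Nat.mod_eq_of_lt t1, Nat.mod_eq_of_lt t2] at hA
    have hj' : (c a j : ℕ) = (c' a j : ℕ) := congrArg Fin.val hj
    have hi : c a i = c' a i := Fin.ext (by omega)
    have hcc : c = c' := by
      funext b k
      by_cases hbk : b = a ∧ k = i
      · obtain ⟨rfl, rfl⟩ := hbk
        exact hi
      · exact hoff b k hbk
    rw [hcc, hx]
  rw [Finset.card_product, Finset.card_univ, Finset.card_univ, Fintype.card_prod, Fintype.card_fin,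
    Fintype.card_fin] at h1
  rw [mul_comm]
  exact h1

/-- the configurations with two close anchors on some axis -/
theorem k6a_an_bad (m M N g : ℕ) :
    N * ((Finset.univ : Finset (Fin m → Fin (M + 2) → Fin N)).filter
      (fun c => ¬ ∀ (a : Fin m) (i j : Fin (M + 1)), i ≠ j →
        (g : ℤ) < |((c a i.succ : ℕ) : ℤ) - ((c a j.succ : ℕ) : ℤ)|)).card
      ≤ m * (M + 1) ^ 2 * (2 * g + 1) * Fintype.card (Fin m → Fin (M + 2) → Fin N) := by
  have hsub : (Finset.univ : Finset (Fin m → Fin (M + 2) → Fin N)).filter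
      (fun c => ¬ ∀ (a : Fin m) (i j : Fin (M + 1)), i ≠ j →
        (g : ℤ) < |((c a i.succ : ℕ) : ℤ) - ((c a j.succ : ℕ) : ℤ)|)
      ⊆ ((Finset.univ : Finset (Fin m × Fin (M + 1) × Fin (M + 1))).filter
          (fun t => t.2.1 ≠ t.2.2)).biUnion
        (fun t => (Finset.univ : Finset (Fin m → Fin (M + 2) → Fin N)).filter
          (fun c => |((c t.1 t.2.1.succ : ℕ) : ℤ) - ((c t.1 t.2.2.succ : ℕ) : ℤ)| ≤ (g : ℤ))) := by
    intro c hc
    have h := (Finset.mem_filter.1 hc).2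
    push Not at h
    obtain ⟨a, i, j, hij, hle⟩ := h
    exact Finset.mem_biUnion.2 ⟨(a, i, j), Finset.mem_filter.2 ⟨Finset.mem_univ _, hij⟩,
      Finset.mem_filter.2 ⟨Finset.mem_univ _, hle⟩⟩
  have hcard : ((Finset.univ : Finset (Fin m × Fin (M + 1) × Fin (M + 1))).filter
      (fun t => t.2.1 ≠ t.2.2)).card ≤ m * (M + 1) ^ 2 := by
    refine (Finset.card_filter_le _ _).trans (le_of_eq ?_)
    rw [Finset.card_univ, Fintype.card_prod, Fintype.card_prod, Fintype.card_fin, Fintype.card_fin]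
    ring
  calc _ ≤ N * _ := Nat.mul_le_mul_left _ (Finset.card_le_card hsub)
    _ ≤ N * ∑ t ∈ (Finset.univ : Finset (Fin m × Fin (M + 1) × Fin (M + 1))).filter
          (fun t => t.2.1 ≠ t.2.2), ((Finset.univ : Finset (Fin m → Fin (M + 2) → Fin N)).filter
          (fun c => |((c t.1 t.2.1.succ : ℕ) : ℤ) - ((c t.1 t.2.2.succ : ℕ) : ℤ)| ≤ (g : ℤ))).card :=
        Nat.mul_le_mul_left _ Finset.card_biUnion_le
    _ = ∑ t ∈ (Finset.univ : Finset (Fin m × Fin (M + 1) × Fin (M + 1))).filter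
          (fun t => t.2.1 ≠ t.2.2), N * ((Finset.univ : Finset (Fin m → Fin (M + 2) → Fin N)).filter
          (fun c => |((c t.1 t.2.1.succ : ℕ) : ℤ) - ((c t.1 t.2.2.succ : ℕ) : ℤ)| ≤ (g : ℤ))).card :=
        Finset.mul_sum _ _ _
    _ ≤ ∑ _t ∈ (Finset.univ : Finset (Fin m × Fin (M + 1) × Fin (M + 1))).filter
          (fun t => t.2.1 ≠ t.2.2), (2 * g + 1) * Fintype.card (Fin m → Fin (M + 2) → Fin N) :=
        Finset.sum_le_sum fun t ht => k6a_an_pair m (M + 2) N g t.1 _ _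
          fun h => (Finset.mem_filter.1 ht).2 (Fin.succ_injective _ h)
    _ = ((Finset.univ : Finset (Fin m × Fin (M + 1) × Fin (M + 1))).filter
          (fun t => t.2.1 ≠ t.2.2)).card * ((2 * g + 1) * Fintype.card (Fin m → Fin (M + 2) → Fin N)) := by
        rw [Finset.sum_const, smul_eq_mul]
    _ ≤ (m * (M + 1) ^ 2) * ((2 * g + 1) * Fintype.card (Fin m → Fin (M + 2) → Fin N)) :=
        Nat.mul_le_mul_right _ hcard
    _ = _ := by ring

/-- the fibre of the anchor map injects into the successful targets -/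
theorem k6a_an_fibre (m M N : ℕ) (S : Finset (Fin m → Fin N)) (D : Finset (Fin m → Fin (M + 2) → Fin N))
    (hD : ∀ c ∈ D, ∀ f : Fin m → Fin (M + 2), (fun a => c a (f a)) ∈ S)
    (α : Fin m → Fin (M + 1) → Fin N) :
    (D.filter (fun c => (fun a i => c a (Fin.succ i)) = α)).card ≤
      ((Finset.univ : Finset (Fin m → Fin N)).filter (fun τ =>
          ∀ f : Fin m → Option (Fin (M + 1)), (fun a => (f a).elim (τ a) (α a)) ∈ S)).card := by
  refine Finset.card_le_card_of_injOn (fun c a => c a 0) ?_ ?_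
  · intro c hc
    obtain ⟨hcD, hcα⟩ := Finset.mem_filter.1 (Finset.mem_coe.1 hc)
    refine Finset.mem_coe.2 (Finset.mem_filter.2 ⟨Finset.mem_univ _, fun f => ?_⟩)
    have h1 := hD c hcD (fun a => (f a).elim 0 Fin.succ)
    have h2 : (fun a => c a ((f a).elim 0 Fin.succ)) = fun a => (f a).elim (c a 0) (α a) := by
      funext a
      rw [← hcα]
      cases f a <;> rfl
    rw [h2] at h1
    exact h1
  · intro c hc c' hc' h
    have hcα := (Finset.mem_filter.1 (Finset.mem_coe.1 hc)).2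
    have hcα' := (Finset.mem_filter.1 (Finset.mem_coe.1 hc')).2
    funext a k
    refine Fin.cases ?_ (fun i => ?_) k
    · exact congrFun h a
    · exact congrFun (congrFun (hcα.trans hcα'.symm) a) i

theorem k6a_an_good_aux {C : Type} (p : C → Prop) (dp : DecidablePred p) (s : Finset C) (x z : ℝ)
    (h : x ≤ ((@Finset.filter C p dp s).card : ℝ) * z) :
    ∃ G : Finset C, (∀ c ∈ G, p c) ∧ x ≤ (G.card : ℝ) * z :=
  ⟨_, fun _ hc => (Finset.mem_filter.1 hc).2, h⟩

/-- box sampling, with the set of good configurations as an abstract finite set -/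
theorem k6a_an_good (hbox : k6a_box_sampling_stmt) (m r N : ℕ) (S : Finset (Fin m → Fin N)) :
    ∃ G : Finset (Fin m → Fin r → Fin N), (∀ c ∈ G, ∀ f : Fin m → Fin r, (fun a => c a (f a)) ∈ S) ∧
      (S.card : ℝ) ^ (r ^ m) * (N : ℝ) ^ (m * r) ≤ (G.card : ℝ) * ((N : ℝ) ^ m) ^ (r ^ m) := by
  have h1 := hbox m r (Fin N) S
  have h2 : Fintype.card (Fin N) = N := Fintype.card_fin N
  rw [h2] at h1
  exact k6a_an_good_aux _ _ _ _ _ h1

theorem k6a_an_main (hbox : k6a_box_sampling_stmt) : k6a_anchor_selection_stmt := by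
  intro m M N g S η hη hS hN
  obtain ⟨η', hη'def⟩ : ∃ η' : ℝ, η' = η ^ ((M + 2) ^ m) := ⟨_, rfl⟩
  rw [← hη'def] at hN ⊢
  have hη' : 0 < η' := by
    rw [hη'def]
    positivity
  -- `N = 0` forces `m = 0`
  have hm0 : N = 0 → m = 0 := by
    intro hN0
    by_contra hm
    have hm' : (0 : ℝ) < m := by exact_mod_cast Nat.pos_of_ne_zero hm
    rw [hN0, Nat.cast_zero, mul_zero] at hN
    have : 0 < 2 * (m : ℝ) * ((M : ℝ) + 1) ^ 2 * (2 * g + 1) := by positivity
    linarith
  have hNm : 0 < (N : ℝ) ^ m := by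
    rcases Nat.eq_zero_or_pos N with h0 | h0
    · rw [hm0 h0]
      simp
    · have : (0 : ℝ) < N := by exact_mod_cast h0
      positivity
  obtain ⟨K, hKdef⟩ : ∃ K : ℝ, K = ((N : ℝ) ^ m) ^ (M + 2) := ⟨_, rfl⟩
  have hK : 0 < K := by
    rw [hKdef]
    positivity
  have hcardC : (Fintype.card (Fin m → Fin (M + 2) → Fin N) : ℝ) = K := by
    rw [hKdef, Fintype.card_fun, Fintype.card_fun, Fintype.card_fin, Fintype.card_fin, Fintype.card_fin]
    push_cast
    rw [← pow_mul, ← pow_mul, mul_comm]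
  -- the good configurations
  obtain ⟨G, hGS, hgood⟩ : ∃ G : Finset (Fin m → Fin (M + 2) → Fin N),
      (∀ c ∈ G, ∀ f : Fin m → Fin (M + 2), (fun a => c a (f a)) ∈ S) ∧ η' * K ≤ (G.card : ℝ) := by
    obtain ⟨G, hGS, h1⟩ := k6a_an_good hbox m (M + 2) N S
    refine ⟨G, hGS, ?_⟩
    have h2 : (η * (N : ℝ) ^ m) ^ ((M + 2) ^ m) ≤ (S.card : ℝ) ^ ((M + 2) ^ m) :=
      pow_le_pow_left₀ (by positivity) hS _
    have h3 : (N : ℝ) ^ (m * (M + 2)) = K := by rw [hKdef, pow_mul]
    rw [h3] at h1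
    rw [mul_pow, ← hη'def] at h2
    have h4 : 0 < ((N : ℝ) ^ m) ^ ((M + 2) ^ m) := by positivity
    have h5 : η' * ((N : ℝ) ^ m) ^ ((M + 2) ^ m) * K ≤ (S.card : ℝ) ^ ((M + 2) ^ m) * K :=
      mul_le_mul_of_nonneg_right h2 hK.le
    have h6 := h5.trans h1
    refine le_of_mul_le_mul_right ?_ h4
    refine le_trans (le_of_eq ?_) h6
    ring
  -- the bad configurations
  have hbad : (((Finset.univ : Finset (Fin m → Fin (M + 2) → Fin N)).filter
      (fun c => ¬ ∀ (a : Fin m) (i j : Fin (M + 1)), i ≠ j →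
        (g : ℤ) < |((c a i.succ : ℕ) : ℤ) - ((c a j.succ : ℕ) : ℤ)|)).card : ℝ) ≤ η' / 2 * K := by
    rcases Nat.eq_zero_or_pos N with h0 | h0
    · have hm := hm0 h0
      subst hm
      have : (Finset.univ : Finset (Fin 0 → Fin (M + 2) → Fin N)).filter
        (fun c => ¬ ∀ (a : Fin 0) (i j : Fin (M + 1)), i ≠ j →
          (g : ℤ) < |((c a i.succ : ℕ) : ℤ) - ((c a j.succ : ℕ) : ℤ)|) = ∅ := by
        refine Finset.filter_eq_empty_iff.2 fun c _ h => h fun a => a.elim0
      rw [this, Finset.card_empty, Nat.cast_zero]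
      positivity
    · have hN0 : (0 : ℝ) < N := by exact_mod_cast h0
      have h1 := k6a_an_bad m M N g
      have h2 : (N : ℝ) * (((Finset.univ : Finset (Fin m → Fin (M + 2) → Fin N)).filter
          (fun c => ¬ ∀ (a : Fin m) (i j : Fin (M + 1)), i ≠ j →
            (g : ℤ) < |((c a i.succ : ℕ) : ℤ) - ((c a j.succ : ℕ) : ℤ)|)).card : ℝ)
          ≤ (m : ℝ) * ((M : ℝ) + 1) ^ 2 * (2 * g + 1) * K := by
        rw [← hcardC]
        exact_mod_cast h1
      have h3 : 2 * (m : ℝ) * ((M : ℝ) + 1) ^ 2 * (2 * g + 1) * K ≤ η' * N * K :=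
        mul_le_mul_of_nonneg_right hN hK.le
      refine le_of_mul_le_mul_left ?_ hN0
      calc _ ≤ (m : ℝ) * ((M : ℝ) + 1) ^ 2 * (2 * g + 1) * K := h2
        _ ≤ (N : ℝ) * (η' / 2 * K) := by linarith
  -- the separated good configurations
  obtain ⟨D, hDdef⟩ : ∃ D : Finset (Fin m → Fin (M + 2) → Fin N),
      D = G.filter (fun c => ∀ (a : Fin m) (i j : Fin (M + 1)), i ≠ j →
          (g : ℤ) < |((c a i.succ : ℕ) : ℤ) - ((c a j.succ : ℕ) : ℤ)|) := ⟨_, rfl⟩
  have hDcard : η' / 2 * K ≤ (D.card : ℝ) := by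
    have h1 := Finset.card_filter_add_card_filter_not (s := G)
      (fun c => ∀ (a : Fin m) (i j : Fin (M + 1)), i ≠ j →
          (g : ℤ) < |((c a i.succ : ℕ) : ℤ) - ((c a j.succ : ℕ) : ℤ)|)
    rw [← hDdef] at h1
    have h2 : (G.filter
        (fun c => ¬ ∀ (a : Fin m) (i j : Fin (M + 1)), i ≠ j →
          (g : ℤ) < |((c a i.succ : ℕ) : ℤ) - ((c a j.succ : ℕ) : ℤ)|)).card
        ≤ ((Finset.univ : Finset (Fin m → Fin (M + 2) → Fin N)).filter
        (fun c => ¬ ∀ (a : Fin m) (i j : Fin (M + 1)), i ≠ j →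
          (g : ℤ) < |((c a i.succ : ℕ) : ℤ) - ((c a j.succ : ℕ) : ℤ)|)).card :=
      Finset.card_le_card (Finset.filter_subset_filter _ (Finset.subset_univ _))
    have h3 : (G.card : ℝ)
        ≤ (D.card : ℝ) + (((Finset.univ : Finset (Fin m → Fin (M + 2) → Fin N)).filter
        (fun c => ¬ ∀ (a : Fin m) (i j : Fin (M + 1)), i ≠ j →
          (g : ℤ) < |((c a i.succ : ℕ) : ℤ) - ((c a j.succ : ℕ) : ℤ)|)).card : ℝ) := by
      rw [← h1]
      push_cast
      have : ((G.filter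
        (fun c => ¬ ∀ (a : Fin m) (i j : Fin (M + 1)), i ≠ j →
          (g : ℤ) < |((c a i.succ : ℕ) : ℤ) - ((c a j.succ : ℕ) : ℤ)|)).card : ℝ)
        ≤ _ := Nat.cast_le.2 h2
      linarith
    linarith
  have hDS : ∀ c ∈ D, ∀ f : Fin m → Fin (M + 2), (fun a => c a (f a)) ∈ S := by
    intro c hc
    rw [hDdef] at hc
    exact hGS c (Finset.mem_filter.1 hc).1
  have hDsep : ∀ c ∈ D, ∀ (a : Fin m) (i j : Fin (M + 1)), i ≠ j →
      (g : ℤ) < |((c a i.succ : ℕ) : ℤ) - ((c a j.succ : ℕ) : ℤ)| := by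
    intro c hc
    rw [hDdef] at hc
    exact (Finset.mem_filter.1 hc).2
  -- pigeonhole
  have hfib : (D.card : ℝ) = ∑ α : Fin m → Fin (M + 1) → Fin N,
      ((D.filter (fun c => (fun a i => c a (Fin.succ i)) = α)).card : ℝ) := by
    rw [Finset.card_eq_sum_card_fiberwise (f := fun c => (fun a i => c a (Fin.succ i)))
      (t := (Finset.univ : Finset (Fin m → Fin (M + 1) → Fin N))) (fun _ _ => Finset.mem_coe.2 (Finset.mem_univ _))]
    push_cast
    rfl
  have hDne : D.Nonempty := by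
    rw [← Finset.card_pos]
    have : (0 : ℝ) < D.card := lt_of_lt_of_le (by positivity) hDcard
    exact_mod_cast this
  have hne : (Finset.univ : Finset (Fin m → Fin (M + 1) → Fin N)).Nonempty := by
    obtain ⟨c, _⟩ := hDne
    exact ⟨fun a i => c a (Fin.succ i), Finset.mem_univ _⟩
  have hsum : ∑ _α : Fin m → Fin (M + 1) → Fin N, η' / 2 * (N : ℝ) ^ m
      ≤ ∑ α : Fin m → Fin (M + 1) → Fin N,
        ((D.filter (fun c => (fun a i => c a (Fin.succ i)) = α)).card : ℝ) := by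
    rw [← hfib, Finset.sum_const, Finset.card_univ, Fintype.card_fun, Fintype.card_fun, Fintype.card_fin,
      Fintype.card_fin, Fintype.card_fin, nsmul_eq_mul]
    refine le_trans (le_of_eq ?_) hDcard
    rw [hKdef]
    push_cast
    rw [← pow_mul, ← pow_mul, mul_comm (M + 1) m, pow_mul, pow_mul, pow_succ ((N : ℝ) ^ m) (M + 1)]
    ring
  obtain ⟨α, _, hα⟩ := Finset.exists_le_of_sum_le hne hsum
  have hpos : (0 : ℝ) < ((D.filter (fun c => (fun a i => c a (Fin.succ i)) = α)).card : ℝ) :=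
    lt_of_lt_of_le (by positivity) hα
  obtain ⟨c, hc⟩ := Finset.card_pos.1 (by exact_mod_cast hpos :
    0 < (D.filter (fun c => (fun a i => c a (Fin.succ i)) = α)).card)
  obtain ⟨hcD, hcα⟩ := Finset.mem_filter.1 hc
  refine ⟨α, fun a i j hij => ?_, hα.trans (Nat.cast_le.2 (k6a_an_fibre m M N S D hDS α))⟩
  rw [← hcα]
  exact hDsep c hcD a i j hij

theorem k6a_anchor_selection : k6a_anchor_selection_stmt := k6a_an_main k6a_box_sampling

end Claimed.Agent.R252
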