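/-
ROW 252, unit S6a (06-isotropic.tex l.296-1112), chief helper234.     THE EXIT STATEMENTS OF THE SUB-UNITS S6a2 .. S6a5.
Every statement is a `def ... : Prop` (no `sorry`); the sub-architect proves `theorem k6a_hub_xxx : k6a_hub_xxx_stmt`
in his own folder files (prefix k6a2_ .. k6a5_) from paper-free leaves.   Interfaces: `Layers.lean`.   Cores: `Contract.lean`.

CONVENTIONS.  `h = (1/2)^kh`; every level is `≤ Rm * kh` (all scales are bounded powers of `h`);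
`x ≪ y` of the paper is realised by a margin of `kh` LEVELS (a factor `h`); we are free to choose the levels so.
Slack: `K ≤ h^(-η)`.  Quantifiers `∀ ε ∃ η k0`.  `δ` = breadth error, `w` = breadth width (`1 ≤ K w`), `e` = mass of the
(substantial) residual, `100 δ ≤ e`.
A sub-architect may STRENGTHEN his conclusion or WEAKEN his hypotheses freely; any other change = one line to helper234.
-/
import Claimed.Agent.R252.S6a.Layers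
import Claimed.Agent.R252.S5.Defs

set_option autoImplicit false

namespace Claimed.Agent.R252

open MeasureTheory
open scoped ENNReal BigOperators

noncomputable section

/-- **H0 (leaf)**: breadth passes to coarser states.
PROOF.  `E' ⊆ E`.  If the coarse state `C` is `κ'`-narrow in `E'` with strip `T`: `κ' μ(C) ≤ μ(C ∩ T) = ∑_{fine f ⊆ C} μ(f ∩ T)
≤ κ μ(C) + μ(C ∩ narrow fine states)`; so `μ(C) ≤ μ(C ∩ narrow fine)/(κ' - κ)`; sum over the (countably many) narrow `C`. -/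
def k6a_brd_coarse_stmt : Prop :=
  ∀ (j : ℕ) (D : K6aDat j) (S S' : Type) [Countable S] (E : Set (D.L × ℝ)) (s : D.L × ℝ → S) (f : S → S')
    (K κ κ' w ε : ℝ), D.WF K → (∀ a, MeasurableSet (s ⁻¹' {a})) → 0 ≤ κ → κ < κ' → 0 ≤ ε →
    K6aBrd D E s κ w ε → K6aBrd D E (f ∘ s) κ' w (ε / (κ' - κ))

/-- **exit of S6a2 = Proposition 6.2** (physical velocity graph).
`κ` (exponent of the error `b^κ`) and `σ` (margin) depend only on `j, d`. -/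
def k6a_hub_graph_stmt : Prop :=
  ∀ (j : ℕ) (d : ℝ), (j = 1 ∨ j = 2) → 0 ≤ d → d < 1 →
  ∃ κ σ C : ℝ, 0 < κ ∧ κ ≤ 1 ∧ 0 < σ ∧ 1 ≤ C ∧
  ∀ (D : K6aDat j) (K δ w : ℝ) (n0 nb : ℕ) (E : Set (D.L × ℝ)) (Lc : Set D.L) (m0 : D.Lb × K6aWc j → ℝ≥0∞),
    1 ≤ K → 0 < δ → δ ≤ 1 → 0 < w → w ≤ 1 → nb ≤ n0 →
    D.WF K → K6aPhys D d K n0 E Lc m0 → K6aBrd D E (D.ms n0) (1 / 100) w δ →
    C * (K / (δ * w)) ^ C ≤ (2 : ℝ) ^ (σ * nb) →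
    ∃ (g : K6aWc j → K6aRow j) (E' : Set (D.L × ℝ)), E' ⊆ E ∧
      K6aGraph D (C * (K / (δ * w)) ^ C) (k6aW nb ^ κ) nb E' g ∧
      D.prior E ≤ 2 * D.prior E' + ENNReal.ofReal (C * δ)

/-- the levels of Proposition 6.3: `h, ζ, ρ, b`, finest level -/
structure K6aLv (M : ℕ) (Zx κ Rm : ℝ) (kh nz nr nb n0 : ℕ) : Prop where
  /-- `ζ ≤ h^Zx` (floor of `k5_higher_jets_inc`) -/
  z_fine : Zx * kh ≤ nz
  /-- `ρ ≪ ζ`, `ρ ≪ h^(M+1/4)` -/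
  r_z : nz + kh ≤ nr
  r_h : (M + 1) * kh ≤ nr
  /-- `b^κ ≪ ρ ζ` -/
  b_fine : ((nr + nz + kh : ℕ) : ℝ) ≤ κ * nb
  nb_le : nb ≤ n0
  rz_le : nr + nz ≤ n0
  bdd : (n0 : ℝ) ≤ Rm * kh

/-- **exit of S6a3 + S6a4, discovery form** (proof of Proposition 6.3, l.575-870): EVERY residual `U` of the reference family of
mass `≥ e` contains an incidence which is qualified INSIDE `U`. -/
def k6a_hub_disc_stmt : Prop :=
  ∀ (j M : ℕ) (d θ κ : ℝ), (j = 1 ∨ j = 2) → 2 ≤ M → 0 ≤ d → d < 1 → 0 < θ → θ ≤ 1 → k5_FJ d θ → 0 < κ → κ ≤ 1 →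
  ∃ Zx : ℝ, 0 < Zx ∧ ∀ Rm ε : ℝ, 0 < ε → ∃ (η : ℝ) (k0 : ℕ), 0 < η ∧
  ∀ (D : K6aDat j) (K δ w e : ℝ) (kh nz nr nb n0 : ℕ) (E U : Set (D.L × ℝ)) (Lc : Set D.L)
    (m0 : D.Lb × K6aWc j → ℝ≥0∞) (g : K6aWc j → K6aRow j),
    k0 ≤ kh → 1 ≤ K → K ≤ (2 : ℝ) ^ (η * kh) → K6aLv M Zx κ Rm kh nz nr nb n0 →
    D.WF K → K6aPhys D d K n0 E Lc m0 → K6aGraph D K (k6aW nb ^ κ) nb E g →
    0 < w → 1 ≤ K * w → K6aBrd D E (D.ms n0) (1 / 100) w δ → 0 ≤ δ → 100 * δ ≤ e → 1 ≤ K * e →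
    MeasurableSet U → U ⊆ E → ENNReal.ofReal e ≤ D.prior U →
    ∃ x ∈ U, K6aQualAt D kh M ((2 : ℝ) ^ (ε * kh)) (k6aW kh ^ M / 2) nb U g x

/-- **exit of S6a4 = Proposition 6.3**: from the discovery form.
PROOF.  `U` = the incidences of `E` which are not qualified by a polynomial with RATIONAL coefficients (countable union of
measurable sets: `{(l,t) ∈ E : ‖g - a(t)‖ ≤ η}` is measurable and `l ↦ vol (fibre ∩ block)` is measurable by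
`measurable_measure_prodMk_left`).  If `μ(U) > eN μ(E)` the discovery inside `U` gives a real polynomial with error `η/2`; round it. -/
def k6a_hub_qual_stmt : Prop :=
  k6a_hub_disc_stmt →
  ∀ (j M : ℕ) (d θ κ : ℝ), (j = 1 ∨ j = 2) → 2 ≤ M → 0 ≤ d → d < 1 → 0 < θ → θ ≤ 1 → k5_FJ d θ → 0 < κ → κ ≤ 1 →
  ∃ Zx : ℝ, 0 < Zx ∧ ∀ Rm ε : ℝ, 0 < ε → ∃ (η : ℝ) (k0 : ℕ), 0 < η ∧
  ∀ (D : K6aDat j) (K δ w e eN : ℝ) (kh nz nr nb n0 : ℕ) (E : Set (D.L × ℝ)) (Lc : Set D.L)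
    (m0 : D.Lb × K6aWc j → ℝ≥0∞) (g : K6aWc j → K6aRow j),
    k0 ≤ kh → 1 ≤ K → K ≤ (2 : ℝ) ^ (η * kh) → K6aLv M Zx κ Rm kh nz nr nb n0 →
    D.WF K → K6aPhys D d K n0 E Lc m0 → K6aGraph D K (k6aW nb ^ κ) nb E g →
    0 < w → 1 ≤ K * w → K6aBrd D E (D.ms n0) (1 / 100) w δ → 0 ≤ δ → 100 * δ ≤ e → 1 ≤ K * e →
    0 < eN → ENNReal.ofReal e ≤ ENNReal.ofReal eN * D.prior E →
    ∃ U : Set (D.L × ℝ), K6aQual D kh M ((2 : ℝ) ^ (ε * kh)) (k6aW kh ^ M) eN nb E U g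

/-- the scales of (6.24): `p_* = 1/k`, `ε_T = h^(p_*-1+α)`, `a_1 ≈ a h^(α/2)`, `a_2 ≈ a h^(e2)`, base mesh `ξ` (level `nx`, in `u`),
velocity bins (level `nv`) -/
structure K6aLvF (M : ℕ) (k α e2 κ Rm K : ℝ) (kh nb n0 nx nv : ℕ) (a a1 a2 : ℝ) : Prop where
  /-- `h^M ≪ a^2` -/
  M_big : 2 / k + 1 ≤ M
  a1_lo : a * k6aW kh ^ (α / 2) ≤ K * a1
  a1_hi : a1 ≤ K * (a * k6aW kh ^ (α / 2))
  a2_lo : a * k6aW kh ^ e2 ≤ K * a2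
  a2_hi : a2 ≤ K * (a * k6aW kh ^ e2)
  /-- `K h ξ ≪ a_1` (`a_1` is the FINER thickness: `e2 < α/2`), and the same for `a_2` -/
  x_fine : k6aW nx ≤ a1
  x_fine2 : k6aW nx ≤ a2
  /-- velocity bins finer than `ξ` -/
  v_fine : nx + kh ≤ nv
  /-- `b / h ≪ ξ`, `b^κ ≪ ε_T`, `b ≪ p_v` -/
  b_fine : ((nv + 2 * kh : ℕ) : ℝ) ≤ κ * nb
  b_eps : (1 / k + 1) * kh ≤ κ * nb
  nb_le : nb ≤ n0
  nv_le : nv ≤ n0
  bdd : (n0 : ℝ) ≤ Rm * kh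

/-- **exit of S6a5** (l.886-1112): the interpolated field on the restored good states of one packet.
`κb` = the breadth fraction of the input (any; `≤ 1/100`); the selected states are not `2 κb`-narrow (S6b wants `2 κb = 2^(-30)`). -/
def k6a_hub_field_stmt : Prop :=
  ∀ (j M : ℕ) (d k α e2 κ Rm κb : ℝ), (j = 1 ∨ j = 2) → 0 ≤ d → d < 1 → 0 < k → k ≤ 1 → 0 < α → α < 1 / 2 →
    0 < e2 → e2 < α / 2 → 0 < κ → κ ≤ 1 → 0 < κb → κb ≤ 1 / 100 →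
  ∃ cF : ℝ, 0 < cF ∧ ∀ ε : ℝ, 0 < ε → ∃ (η : ℝ) (k0 : ℕ), 0 < η ∧
  ∀ (D : K6aDat j) (Pk Pk1 Pk2 : K6aPk D) (K δ w e eN : ℝ) (nb n0 nx nv : ℕ) (E U : Set (D.L × ℝ)) (Lc : Set D.L)
    (m0 : D.Lb × K6aWc j → ℝ≥0∞) (g : K6aWc j → K6aRow j),
    k0 ≤ Pk.lev → 1 ≤ K → K ≤ (2 : ℝ) ^ (η * Pk.lev) →
    K6aLvF M k α e2 κ Rm K Pk.lev nb n0 nx nv Pk.a Pk1.a Pk2.a →
    D.WF K → K6aPhys D d K n0 E Lc m0 → K6aGraph D K (k6aW nb ^ κ) nb E g →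
    K6aQual D Pk.lev M K (k6aW Pk.lev ^ M) eN nb E U g →
    Pk.Ok d k K E → Pk1.Ok d k K E → Pk2.Ok d k K E → Pk.Below Pk1 → Pk.Below Pk2 →
    0 < w → w ≤ 1 → 1 ≤ K * w → K6aBrd D E (D.ms n0) κb w δ → 0 ≤ δ → 0 ≤ eN →
    ENNReal.ofReal e ≤ D.prior E → 0 < e → 1 ≤ K * e → δ ≤ cF * e → eN ≤ cF →
    ∃ (Ep Es : Set (D.L × ℝ)) (q : Pk.Q) (zc : ℝ × (Fin j → ℝ)) (T : Fin (j + 1) → MvPolynomial (Fin (j + 1)) ℝ),
      MeasurableSet Ep ∧ Ep ⊆ E ∧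
      K6aField D Pk d ((2 : ℝ) ^ (ε * Pk.lev)) (k6aW Pk.lev ^ (1 / k - 1 + α)) nb nx nv ((j + 1) * M) Pk1.a Pk2.a (2 * κb) w
        Ep Es g q zc T

end

end Claimed.Agent.R252
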