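/-
ROW 252, units S6a + S6b, chief helper234.     THE CHAIN  hubs ⟹ `KsLocalBr v p`  (= Theorem 6.1 at one scale):  CONSTANTS, NUMERIC LEAVES, API LEAVES.
Definitions and statements only (no `sorry`).   The chain itself: `S6a/Chain.lean`.

CHOICE OF THE SCALES (06 (6.24)).   depth `s = 1` (`a = N^(-1)`), `h = (1/2)^lv ≈ a^k` (time level of the labels of depth `1`), `α = 1/4`,
`e₂ = μ = (1 - d) / 24` (`k6cE d`), `a₁ = a^(1 + k/8) ≈ a h^(α/2)`, `a₂ = a^(1 + k e₂) ≈ a h^(e₂)`, gain `c = k e₂`.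
ALL LEVELS ARE INTEGER MULTIPLES OF `lv`:  `M = ⌈2/k⌉ + 1`,  `nz = Z lv` (`Z = ⌈Zx⌉`),  `nr = (Z + M + 1) lv`,  `nx = X lv` (`X = ⌈1/k⌉ + 2`),  `nv = (X + 3) lv`,
`nb = B lv` (`B = ⌈(2 Z + M + X + 8) / κg⌉`),  finest level `n0 ≥ Rr lv` (`Rr = B + 2 Z + M + X + 4`), `(1/2)^n0 ≈ N^(-U0)`, `U0 = Rr (k + 1)`, `n0 ≤ Rm lv`, `Rm = 2 U0 / k + 1`.
-/
import Claimed.Agent.R252.S6a.Hubs
import Claimed.Agent.R252.S6a.Adapt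
import Claimed.Agent.R252.S6b.ExitDefs

set_option autoImplicit false

namespace Claimed.Agent.R252

open MeasureTheory
open scoped ENNReal BigOperators

noncomputable section

/-! ## 1. constants -/

def k6cE (d : ℝ) : ℝ := (1 - d) / 24
def k6cM (k : ℝ) : ℕ := ⌈2 / k⌉₊ + 1
def k6cX (k : ℝ) : ℕ := ⌈1 / k⌉₊ + 2
def k6cZ (Zx : ℝ) : ℕ := ⌈Zx⌉₊
def k6cB (k κg Zx : ℝ) : ℕ := ⌈((2 * k6cZ Zx + k6cM k + k6cX k + 8 : ℕ) : ℝ) / κg⌉₊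
def k6cR (k κg Zx : ℝ) : ℕ := k6cB k κg Zx + 2 * k6cZ Zx + k6cM k + k6cX k + 4

theorem k6a_chaindefs_eqns_cite : True := by
  have := @k6cE.eq_1
  have := @k6cM.eq_1
  have := @k6cX.eq_1
  have := @k6cZ.eq_1
  have := @k6cB.eq_1
  have := @k6cR.eq_1
  trivial

/-! ## 2. numeric leaves -/

/-- **NUM-LV**: the three level records from `h ≈ a^k` (slack `K ≤ h^(-η0)`).
PLAN.  Write `h = (1/2)^lv`, `(h/K)^(1/k) ≤ a ≤ (K h)^(1/k)`, `K ≤ h^(-η0)`; `a₁ = a (a^k)^(1/8)`, `a₂ = a (a^k)^E`, `E = k6cE d ∈ (0, 1/24]`.  The integer clauses are `Nat.le_ceil` + `nlinarith`/`positivity`.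
Real clauses: every term of a left side is `≤ h^(margin) * right side` with a FIXED margin `> 0`, and `h^(margin/2) ≤ 1/5` for `lv ≥ k0`, `K^C ≤ h^(-margin/2)` for `η0` small:
`sim_x`: `ε_T / rhs ≤ h^(1/8 - E) K^(1/k + 1/8)`;   `main`: `ε_T / rhs ≤ h^(1/4 - 2E) K^(1/k + E)`, `(a/a₁)^d (a₁/h) / rhs = (a^k)^((1-d)/8 - E) h^(-E) ≤ K h^((1-d)/24)`, `ξ = h^X`, `X ≥ 1/k + 2`;
`a2_le_h`: `a₂ = (a^k)^(1/k + E) ≤ (K h)^(1 + E)`;   `curv`: `E (2 + η0) ≤ 1`;   `x_fine`: `h^X ≤ (h/K)^(1/k + 1/8)`.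
Recommended: take logarithms in base `2` (`Real.rpow_le_rpow_left_iff`, `Real.rpow_natCast`, `Real.rpow_mul`), every clause becomes linear in `lv`. -/
def k6a_num_lv_stmt : Prop :=
  ∀ (d k κg Zx : ℝ), 0 ≤ d → d < 1 → 0 < k → k ≤ 1 → 0 < κg → κg ≤ 1 → 0 < Zx →
  ∃ (η0 : ℝ) (k0 : ℕ), 0 < η0 ∧
  ∀ (lv n0 : ℕ) (K a a1 a2 Rm : ℝ), k0 ≤ lv → 1 ≤ K → K ≤ (2 : ℝ) ^ (η0 * lv) → 0 < a →
    a ^ k ≤ K * k6aW lv → k6aW lv ≤ K * a ^ k → a1 = a ^ (1 + k / 8) → a2 = a ^ (1 + k * k6cE d) →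
    k6cR k κg Zx * lv ≤ n0 → (n0 : ℝ) ≤ Rm * lv →
    K6aLv (k6cM k) Zx κg Rm lv (k6cZ Zx * lv) ((k6cZ Zx + k6cM k + 1) * lv) (k6cB k κg Zx * lv) n0 ∧
    K6aLvF (k6cM k) k (1 / 4) (k6cE d) κg Rm K lv (k6cB k κg Zx * lv) n0 (k6cX k * lv) ((k6cX k + 3) * lv) a a1 a2 ∧
    K6bLv d (k6cE d) Rm (kbQ lv) a a1 a2 (k6aW lv ^ (1 / k - 1 + 1 / 4)) lv (k6cB k κg Zx * lv) (k6cX k * lv) ((k6cX k + 3) * lv)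

/-- **NUM-N**: the tangent scale `N` against the time level `lv` and the finest level `n0`.
PLAN.  `(1/2)^lv ≤ N^(τp - k) ≤ N^(-k/2)` and `N^(-k) ≤ N^τp (1/2)^lv`, so `N^(k/2) ≤ 2^lv ≤ N^(k + τp) ≤ N^2`.   `k0 ≤ lv` as soon as `2^k0 ≤ N^(k/2)`.
`(1/2)^(Rr lv) ≥ N^(-Rr (k + τp)) ≥ 2 N^(-U0) ≥ (1/2)^n0` (`2 ≤ N^(Rr (1 - τp))` for `Rr ≥ 1`, `N ≥ 4`; `Rr = 0` is trivial);   `(1/2)^n0 ≥ N^(-U0) / 2 ≥ (1/2)^((2 U0 / k) lv + 1)`. -/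
def k6a_num_N_stmt : Prop :=
  ∀ (k : ℝ) (k0 Rr : ℕ), 0 < k → k ≤ 1 → ∃ N₂ : ℝ, 2 ≤ N₂ ∧
  ∀ (N τp : ℝ) (lv n0 : ℕ), N₂ ≤ N → 0 < τp → τp ≤ k / 2 →
    (N ^ (-1 : ℝ)) ^ k ≤ N ^ τp * k6aW lv → k6aW lv ≤ N ^ τp * (N ^ (-1 : ℝ)) ^ k →
    k6aW n0 ≤ 2 * N ^ (-((Rr : ℝ) * (k + 1))) → N ^ (-((Rr : ℝ) * (k + 1))) ≤ 2 * k6aW n0 →
    k0 ≤ lv ∧ N ^ (k / 2) ≤ (2 : ℝ) ^ lv ∧ (2 : ℝ) ^ lv ≤ N ^ (2 : ℝ) ∧ Rr * lv ≤ n0 ∧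
      (n0 : ℝ) ≤ (2 * ((Rr : ℝ) * (k + 1)) / k + 1) * lv

/-- **NUM-SLACK**: all subpower factors are below `h^(-η2)`.
PLAN.  `N^y ≤ 2^((2 y / k) lv)` for `y ≥ 0`.   `N^τp / (δr m N^(-u)) ≤ N^(3 τp) / δr`;  `Cg δr^(-Cg) N^(3 Cg τp) ≤ Cg δr^(-Cg) 2^((3/8) η2 lv)`;  constants are `≤ 2^((η2 / 2) k0)`. -/
def k6a_num_slack_stmt : Prop :=
  ∀ (k Cg δr η2 c' η6 : ℝ), 0 < k → k ≤ 1 → 1 ≤ Cg → 0 < δr → δr ≤ 1 → 0 < η2 → 0 < c' → 0 < η6 →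
  ∃ k0 : ℕ, ∀ (N τp τ u m : ℝ) (lv : ℕ), 2 ≤ N → k0 ≤ lv → N ^ (k / 2) ≤ (2 : ℝ) ^ lv →
    0 < τp → τp ≤ η2 * k / (16 * Cg) → 0 < τ → τ ≤ τp → 0 < u → u ≤ τp → N ^ (-τ) ≤ m → m ≤ 1 →
    N ^ τp ≤ (2 : ℝ) ^ (η2 * lv) ∧ Cg * (N ^ τp / (δr * m * N ^ (-u))) ^ Cg ≤ (2 : ℝ) ^ (η2 * lv) ∧
      1 ≤ (2 : ℝ) ^ (η2 * lv) * (c' * m) ∧ 64 * (2 : ℝ) ^ (η6 / 2 * lv) ≤ (2 : ℝ) ^ (η6 * lv)

/-! ## 3. API leaves: heredity and monotonicity in the slack -/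

/-- **API-PHYS**: `K6aPhys` passes to measurable sub-families and to larger slacks.   PLAN: clause by clause, `measure_mono`, `ENNReal.ofReal_le_ofReal`, `mul_le_mul'`; the finite lists are the same. -/
def k6a_api_phys_stmt : Prop :=
  ∀ (j : ℕ) (D : K6aDat j) (d K K' : ℝ) (n0 : ℕ) (E E' : Set (D.L × ℝ)) (Lc : Set D.L) (m0 : D.Lb × K6aWc j → ℝ≥0∞),
    0 ≤ K → K ≤ K' → MeasurableSet E' → E' ⊆ E → K6aPhys D d K n0 E Lc m0 → K6aPhys D d K' n0 E' Lc m0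

/-- **API-PK**: the same for `K6aPk.Ok`. -/
def k6a_api_pk_stmt : Prop :=
  ∀ (j : ℕ) (D : K6aDat j) (Pk : K6aPk D) (d k K K' : ℝ) (E E' : Set (D.L × ℝ)),
    0 ≤ K → K ≤ K' → E' ⊆ E → Pk.Ok d k K E → Pk.Ok d k K' E'

/-- **API-MISC**: slack monotonicity of `WF`, `K6aGraph`, `K6aQual`, `K6aField`. -/
def k6a_api_misc_stmt : Prop :=
  (∀ (j : ℕ) (D : K6aDat j) (K K' : ℝ), K ≤ K' → D.WF K → D.WF K') ∧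
  (∀ (j : ℕ) (D : K6aDat j) (K K' ε : ℝ) (nb : ℕ) (E : Set (D.L × ℝ)) (g : K6aWc j → K6aRow j),
    K ≤ K' → K6aGraph D K ε nb E g → K6aGraph D K' ε nb E g) ∧
  (∀ (j : ℕ) (D : K6aDat j) (kh M : ℕ) (Kq Kq' η eN : ℝ) (nb : ℕ) (E U : Set (D.L × ℝ)) (g : K6aWc j → K6aRow j),
    0 < Kq → Kq ≤ Kq' → K6aQual D kh M Kq η eN nb E U g → K6aQual D kh M Kq' η eN nb E U g) ∧
  (∀ (j : ℕ) (D : K6aDat j) (Pk : K6aPk D) (d K K' εT : ℝ) (nb nx nv Dg : ℕ) (a1 a2 κ w : ℝ) (Ep Es : Set (D.L × ℝ))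
    (g : K6aWc j → K6aRow j) (q : Pk.Q) (zc : ℝ × (Fin j → ℝ)) (T : Fin (j + 1) → MvPolynomial (Fin (j + 1)) ℝ),
    0 ≤ K → K ≤ K' → 0 ≤ εT → 0 < Pk.a → 0 < a1 → 0 < a2 →
    K6aField D Pk d K εT nb nx nv Dg a1 a2 κ w Ep Es g q zc T → K6aField D Pk d K' εT nb nx nv Dg a1 a2 κ w Ep Es g q zc T)

/-- **API-CAND**: time candidates are monotone in the residual and in the slack. -/
def k6a_api_cand_stmt : Prop :=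
  ∀ (v : KbVer) (R : KsRef v) (E E' : Set (R.L × ℝ)) (K K' c : ℝ) (Q : R.Lab) (P : KbTest v) (Cn : Set (R.L × ℝ)),
    2 ≤ R.N → 0 ≤ K → K ≤ K' → E ⊆ E' → KsTimeCand R E K c Q P Cn → KsTimeCand R E' K' c Q P Cn

end

end Claimed.Agent.R252
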