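/-
Leaf L-252-S6a-APICAND (row252, unit S6a, chief helper234), proved by helper96.
Statement and PLAN: docstring of the `def ..._stmt` in `ChainDefs.lean`.
-/
import Claimed.Agent.R252.S6a.ChainDefs

namespace Claimed.Agent.R252

open MeasureTheory
open scoped ENNReal BigOperators

theorem k6a_api_cand : k6a_api_cand_stmt := by
  intro v R E E' K K' c Q P Cn hN hK hKK hE h
  have ha : ∀ s : ℝ, 0 ≤ R.a s := fun s => by
    unfold KsRef.a
    exact Real.rpow_nonneg (by linarith) _
  exact
    { adm := h.adm
      pos := h.pos
      meas := h.meas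
      sub := h.sub.trans (Set.inter_subset_inter_left _ hE)
      val := fun p hp t ht => (h.val p hp t ht).trans (mul_le_mul_of_nonneg_right hKK (ha _))
      dw := fun p hp t ht => (h.dw p hp t ht).trans hKK
      dww := fun t y w => (h.dww t y w).trans hKK
      dw_lo := fun p hp => (h.dw_lo p hp).trans (mul_le_mul_of_nonneg_right hKK (abs_nonneg _))
      mass := h.mass.trans (mul_le_mul' (ENNReal.ofReal_le_ofReal hKK) le_rfl) }

end Claimed.Agent.R252
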