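/-
Leaf L-252-S6a-APIMISC (row252, unit S6a, chief helper234), proved by helper96.
Statement and PLAN: docstring of the `def ..._stmt` in `ChainDefs.lean`.
-/
import Claimed.Agent.R252.S6a.ChainDefs

namespace Claimed.Agent.R252

open MeasureTheory
open scoped ENNReal BigOperators

theorem k6a_api_misc : k6a_api_misc_stmt := by
  refine ⟨?_, ?_, ?_, ?_⟩
  · intro j D K K' hKK h
    exact
      { prob := h.prob
        m_y0 := h.m_y0
        m_V := h.m_V
        m_xc := h.m_xc
        m_lab := h.m_lab
        pal_le := h.pal_le
        bd := fun l => ⟨(h.bd l).1.trans hKK, (h.bd l).2.1.trans hKK, (h.bd l).2.2.trans hKK⟩ }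
  · intro j D K K' ε nb E g hKK h
    exact
      { E_meas := h.E_meas
        bound := fun c => (h.bound c).trans hKK
        est := h.est
        lists := fun i hi hε c => by
          obtain ⟨F, h1, h2⟩ := h.lists i hi hε c
          exact ⟨F, h1.trans hKK, h2⟩ }
  · intro j D kh M Kq Kq' η eN nb E U g hKq hKK h
    exact
      { U_meas := h.U_meas
        U_sub := h.U_sub
        U_small := h.U_small
        qual := fun e he hU => by
          obtain ⟨a, h1, h2, h3⟩ := h.qual e he hU
          refine ⟨a, fun i => (h1 i).trans hKK, h2, le_trans ?_ h3⟩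
          have hW : 0 ≤ k6aW kh := by
            unfold k6aW
            positivity
          exact div_le_div_of_nonneg_left hW hKq hKK }
  · intro j D Pk d K K' εT nb nx nv Dg a1 a2 κ w Ep Es g q zc T hK hKK hε ha ha1 ha2 h
    have hoK : ENNReal.ofReal K ≤ ENNReal.ofReal K' := ENNReal.ofReal_le_ofReal hKK
    exact
      { Es_meas := h.Es_meas
        Es_sub := h.Es_sub
        pos := h.pos
        whole := h.whole
        mass := h.mass.trans (mul_le_mul' hoK le_rfl)
        u_bd := fun l hl t ht => (h.u_bd l hl t ht).trans hKK
        deg := h.deg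
        coef := fun i m => (h.coef i m).trans hKK
        field := fun e he => (h.field e he).trans (mul_le_mul_of_nonneg_right hKK hε)
        line := fun K1 hK1 l hl t ht => (h.line K1 hK1 l hl t ht).trans (by
          have h1 : 0 ≤ K1 ^ (Dg + 1) := pow_nonneg (by linarith) _
          exact mul_le_mul_of_nonneg_right (mul_le_mul_of_nonneg_right hKK h1) hε)
        joint1 := by
          obtain ⟨F, h1, h2⟩ := h.joint1
          refine ⟨F, h1.trans ?_, h2⟩
          have h3 : 0 ≤ (Pk.a / a1) ^ d := Real.rpow_nonneg (div_nonneg ha.le ha1.le) _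
          exact mul_le_mul_of_nonneg_right (mul_le_mul_of_nonneg_right hKK (by positivity)) h3
        joint2 := by
          obtain ⟨F, h1, h2⟩ := h.joint2
          refine ⟨F, h1.trans ?_, h2⟩
          have h3 : 0 ≤ (Pk.a / a2) ^ d := Real.rpow_nonneg (div_nonneg ha.le ha2.le) _
          exact mul_le_mul_of_nonneg_right (mul_le_mul_of_nonneg_right hKK (by positivity)) h3
        broad := h.broad
        dom := fun c J => (h.dom c J).trans (mul_le_mul' (mul_le_mul' hoK le_rfl) le_rfl) }

end Claimed.Agent.R252
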