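/-
Leaf L-252-S6a-APIPHYS (row252, unit S6a, chief helper234), proved by helper96.
Statement and PLAN: docstring of the `def ..._stmt` in `ChainDefs.lean`.
-/
import Claimed.Agent.R252.S6a.ChainDefs

namespace Claimed.Agent.R252

open MeasureTheory
open scoped ENNReal BigOperators

theorem k6a_api_phys : k6a_api_phys_stmt := by
  intro j D d K K' n0 E E' Lc m0 hK hKK hE'm hE h
  have hW : ∀ i, 0 ≤ k6aW i := fun i => by
    unfold k6aW
    positivity
  have hoK : ENNReal.ofReal K ≤ ENNReal.ofReal K' := ENNReal.ofReal_le_ofReal hKK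
  have hoW : ∀ (i : ℕ) (x : ℝ), ENNReal.ofReal (K * k6aW i ^ x) ≤ ENNReal.ofReal (K' * k6aW i ^ x) := fun i x =>
    ENNReal.ofReal_le_ofReal (mul_le_mul_of_nonneg_right hKK (Real.rpow_nonneg (hW i) _))
  exact
    { E_meas := hE'm
      Lc_meas := h.Lc_meas
      E_sub := hE.trans h.E_sub
      m0_sum := fun F => (h.m0_sum F).trans hoK
      joint := fun i hi s J =>
        (measure_mono (Set.inter_subset_inter_left _ (Set.inter_subset_inter_left _ hE))).trans
          ((h.joint i hi s J).trans (mul_le_mul' (mul_le_mul' hoK le_rfl) le_rfl))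
      capW := fun i hi c => (measure_mono (Set.inter_subset_inter_left _ hE)).trans ((h.capW i hi c).trans (hoW i _))
      capX := fun i hi U f hU hf =>
        (measure_mono (Set.inter_subset_inter_left _ (Set.inter_subset_inter_left _ hE))).trans
          ((h.capX i hi U f hU hf).trans (mul_le_mul' (hoW i _) le_rfl))
      loc := fun i i' hii hi' c => by
        obtain ⟨F, h1, h2⟩ := h.loc i i' hii hi' c
        exact ⟨F, h1.trans (mul_le_mul_of_nonneg_right hKK (Real.rpow_nonneg (by positivity) _)), fun e he => h2 e (hE he)⟩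
      fibre := fun i hi c => by
        obtain ⟨F, h1, h2⟩ := h.fibre i hi c
        exact ⟨F, h1.trans (mul_le_mul_of_nonneg_right hKK (Real.rpow_nonneg (by positivity) _)), fun e he => h2 e (hE he)⟩
      slice := fun i hi i' hi' t c J =>
        (measure_mono (show {l | (l, t) ∈ E' ∧ D.sc i' l t = c ∧ D.vb i l = J} ⊆ {l | (l, t) ∈ E ∧ D.sc i' l t = c ∧ D.vb i l = J} from
          fun l hl => ⟨hE hl.1, hl.2⟩)).trans ((h.slice i hi i' hi' t c J).trans (mul_le_mul' (hoW i' _) le_rfl))
      blk_hi := fun i hi B => (h.blk_hi i hi B).trans (mul_le_mul' (hoW i _) le_rfl)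
      blk_lo := fun i hi e he => (h.blk_lo i hi e (hE he)).trans (mul_le_mul' hoK le_rfl)
      blk_list := fun i hi c J => by
        obtain ⟨F, h1, h2⟩ := h.blk_list i hi c J
        exact ⟨F, h1.trans hKK, fun e he => h2 e (hE he)⟩ }

end Claimed.Agent.R252
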