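/-
Leaf L-252-S6a-APIPK (row252, unit S6a, chief helper234), proved by helper96.
Statement and PLAN: docstring of the `def ..._stmt` in `ChainDefs.lean`.
-/
import Claimed.Agent.R252.S6a.ChainDefs

namespace Claimed.Agent.R252

open MeasureTheory
open scoped ENNReal BigOperators

theorem k6a_api_pk : k6a_api_pk_stmt := by
  intro j D Pk d k K K' E E' hK hKK hE h
  have hH : 0 ≤ Pk.H := by
    unfold K6aPk.H k6aW
    positivity
  have ha := h.a_pos
  have hoK : ENNReal.ofReal K ≤ ENNReal.ofReal K' := ENNReal.ofReal_le_ofReal hKK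
  exact
    { a_pos := ha
      H_lo := h.H_lo.trans (mul_le_mul_of_nonneg_right hKK hH)
      H_hi := h.H_hi.trans (mul_le_mul_of_nonneg_right hKK (Real.rpow_nonneg ha.le _))
      asg_meas := h.asg_meas
      disj := h.disj
      ν_lo := fun q hne => (h.ν_lo q (hne.mono (Set.inter_subset_inter_left _ hE))).trans (mul_le_mul' hoK le_rfl)
      ν_hi := fun q => (h.ν_hi q).trans (ENNReal.ofReal_le_ofReal (by
        have h1 : 0 ≤ Pk.a ^ d := Real.rpow_nonneg ha.le _
        have h2 : 0 ≤ Pk.H ^ j := pow_nonneg hH _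
        exact mul_le_mul_of_nonneg_right (mul_le_mul_of_nonneg_right hKK h1) h2))
      cov := fun e he => h.cov e (hE he)
      box := fun q l hl t ht => (h.box q l hl t ht).trans (mul_le_mul_of_nonneg_right hKK hH)
      cen := fun q hq => (h.cen q hq).trans hKK
      capQ := fun q U hU =>
        (mul_le_mul' le_rfl (measure_mono (Set.inter_subset_inter_left _ (Set.inter_subset_inter_left _ hE)))).trans
          ((h.capQ q U hU).trans (mul_le_mul' (mul_le_mul' hoK le_rfl) le_rfl))
      graphs := fun q => by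
        obtain ⟨n, f, Dm, hn, hl, hc⟩ := h.graphs q
        refine ⟨n, f, Dm, hn.trans hKK, fun i z hz z' hz' => (hl i z hz z' hz').trans (mul_le_mul_of_nonneg_right hKK (norm_nonneg _)), fun e he => ?_⟩
        obtain ⟨i, h1, h2⟩ := hc e ⟨hE he.1, he.2⟩
        exact ⟨i, h1, h2.trans (mul_le_mul_of_nonneg_right hKK ha.le)⟩ }

end Claimed.Agent.R252
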