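/-
PROVED: leaf L-252-S6a-BRDC (row252, unit S6a, chief helper234; prover helper166).
Helpers: prefix `k6a_bc_`.
Statement and PLAN: docstring of the `def ..._stmt` in `Hubs.lean` (never edit that file; false/awkward = one line to helper234).
Never unfold Mathlib definitions by name (`unfold`/`simp only [MeasurableEquiv.piFinSuccAbove]` creates `.eq_1` clashes): use API lemmas.
-/
import Claimed.Agent.R252.S6a.Hubs

namespace Claimed.Agent.R252

open MeasureTheory
open scoped ENNReal BigOperators

open Classical in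
/-- the mass of a union of states is the sum of the masses of the states -/
theorem k6a_bc_tsum {α : Type*} [MeasurableSpace α] (μ : Measure α) {S : Type} [Countable S] (s : α → S)
    (hs : ∀ a, MeasurableSet (s ⁻¹' {a})) (E' : Set α) (hE' : MeasurableSet E') (p : S → Prop) :
    μ (E' ∩ {x | p (s x)}) = ∑' a : S, if p a then μ (E' ∩ s ⁻¹' {a}) else 0 := by
  have e : E' ∩ {x | p (s x)} = ⋃ a : S, (if p a then E' ∩ s ⁻¹' {a} else ∅) := by
    ext x
    simp only [Set.mem_inter_iff, Set.mem_ofPred_eq, Set.mem_iUnion]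
    constructor
    · rintro ⟨h1, h2⟩
      exact ⟨s x, by rw [if_pos h2]; exact ⟨h1, rfl⟩⟩
    · rintro ⟨a, ha⟩
      by_cases hp : p a
      · rw [if_pos hp] at ha
        have : s x = a := ha.2
        exact ⟨ha.1, by rw [this]; exact hp⟩
      · rw [if_neg hp] at ha
        exact absurd ha (Set.notMem_empty x)
  rw [e, measure_iUnion]
  · refine tsum_congr fun a => ?_
    by_cases hp : p a
    · rw [if_pos hp, if_pos hp]
    · rw [if_neg hp, if_neg hp, measure_empty]
  · intro a b hab
    rw [Function.onFun, Set.disjoint_left]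
    intro x hxa hxb
    by_cases hpa : p a
    · by_cases hpb : p b
      · rw [if_pos hpa] at hxa
        rw [if_pos hpb] at hxb
        have h1 : s x = a := hxa.2
        have h2 : s x = b := hxb.2
        exact hab (h1.symm.trans h2)
      · rw [if_neg hpb] at hxb
        exact Set.notMem_empty x hxb
    · rw [if_neg hpa] at hxa
      exact Set.notMem_empty x hxa
  · intro a
    by_cases hp : p a
    · rw [if_pos hp]
      exact hE'.inter (hs a)
    · rw [if_neg hp]
      exact MeasurableSet.empty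

open Classical in
/-- regrouping a sum along the fibres of a map -/
theorem k6a_bc_regroup {S S' : Type} (f : S → S') (g : S → ℝ≥0∞) :
    ∑' C : S', ∑' a : S, (if f a = C then g a else 0) = ∑' a : S, g a := by
  rw [ENNReal.tsum_comm]
  refine tsum_congr fun a => ?_
  have : ∀ C : S', (if f a = C then g a else 0) = if C = f a then g a else 0 := fun C => if_congr eq_comm rfl rfl
  simp only [this]
  exact tsum_ite_eq (f a) (fun _ => g a)

theorem k6a_bc_strip_meas {j : ℕ} (D : K6aDat j) (K : ℝ) (h : D.WF K) (n : Fin j → ℝ) (c w : ℝ) :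
    MeasurableSet {e : D.L × ℝ | |n ⬝ᵥ D.V e.1 - c| ≤ w} := by
  have h1 : Measurable fun e : D.L × ℝ => n ⬝ᵥ D.V e.1 := by
    unfold dotProduct
    refine Finset.measurable_sum _ fun i _ => ?_
    exact ((measurable_pi_apply i).comp (h.m_V.comp measurable_fst)).const_mul _
  exact measurableSet_le ((h1.sub measurable_const).abs) measurable_const

theorem k6a_brd_coarse : k6a_brd_coarse_stmt := by
  classical
  intro j D S S' _ E s f K κ κ' w ε hWF hs hκ hκκ hε hB E' hE' hEE
  have := hWF.prob
  have : IsFiniteMeasure D.prior := by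
    unfold K6aDat.prior
    infer_instance
  have hfine := hB E' hE' hEE
  obtain ⟨m, hm⟩ : ∃ m : S → ℝ≥0∞, m = fun a => D.prior (E' ∩ s ⁻¹' {a}) := ⟨_, rfl⟩
  obtain ⟨M, hM⟩ : ∃ M : S' → ℝ≥0∞, M = fun C => ∑' a : S, if f a = C then m a else 0 := ⟨_, rfl⟩
  obtain ⟨P, hP⟩ : ∃ P : S' → ℝ≥0∞, P = fun C => ∑' a : S, if f a = C then (if K6aNarrow D E' s κ w a then m a else 0) else 0 := ⟨_, rfl⟩
  have hMC : ∀ C, M C = D.prior (E' ∩ (f ∘ s) ⁻¹' {C}) := by
    intro C
    have := k6a_bc_tsum D.prior s hs E' hE' (fun a => f a = C)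
    rw [hM, hm]
    exact this.symm
  have hMfin : ∀ C, M C ≠ ⊤ := fun C => by
    rw [hMC]
    exact measure_ne_top _ _
  -- one narrow coarse state
  have key : ∀ C, K6aNarrow D E' (f ∘ s) κ' w C → ENNReal.ofReal κ' * M C ≤ ENNReal.ofReal κ * M C + P C := by
    rintro C ⟨n, c, hn, hle⟩
    rw [← hMC] at hle
    refine hle.trans ?_
    have hT := k6a_bc_strip_meas D K hWF n c w
    have e1 : E' ∩ (f ∘ s) ⁻¹' {C} ∩ {e | |n ⬝ᵥ D.V e.1 - c| ≤ w} = (E' ∩ {e | |n ⬝ᵥ D.V e.1 - c| ≤ w}) ∩ {x | f (s x) = C} := by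
      ext x
      simp only [Set.mem_inter_iff, Set.mem_preimage, Set.mem_singleton_iff, Set.mem_ofPred_eq, Function.comp_apply]
      tauto
    rw [e1, k6a_bc_tsum D.prior s hs _ (hE'.inter hT) (fun a => f a = C)]
    have e2 : ENNReal.ofReal κ * M C + P C
        = ∑' a : S, if f a = C then (ENNReal.ofReal κ * m a + if K6aNarrow D E' s κ w a then m a else 0) else 0 := by
      rw [hM, hP]
      simp only
      rw [← ENNReal.tsum_mul_left, ← ENNReal.tsum_add]
      refine tsum_congr fun a => ?_
      by_cases h : f a = C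
      · simp only [if_pos h]
      · simp only [if_neg h, mul_zero, add_zero]
    rw [e2]
    refine ENNReal.tsum_le_tsum fun a => ?_
    by_cases h : f a = C
    · rw [if_pos h, if_pos h]
      by_cases hN : K6aNarrow D E' s κ w a
      · rw [if_pos hN, hm]
        refine le_trans (measure_mono ?_) le_add_self
        exact fun x hx => ⟨hx.1.1, hx.2⟩
      · rw [if_neg hN, add_zero]
        have : ¬ (ENNReal.ofReal κ * D.prior (E' ∩ s ⁻¹' {a}) ≤ D.prior (E' ∩ s ⁻¹' {a} ∩ {e | |n ⬝ᵥ D.V e.1 - c| ≤ w})) :=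
          fun hc => hN ⟨n, c, hn, hc⟩
        rw [not_le] at this
        rw [hm]
        refine le_trans (measure_mono ?_) this.le
        exact fun x hx => ⟨⟨hx.1.1, hx.2⟩, hx.1.2⟩
    · rw [if_neg h, if_neg h]
  have key2 : ∀ C, ENNReal.ofReal (κ' - κ) * (if K6aNarrow D E' (f ∘ s) κ' w C then M C else 0) ≤ P C := by
    intro C
    by_cases hN : K6aNarrow D E' (f ∘ s) κ' w C
    · rw [if_pos hN]
      have h1 := key C hN
      have h2 : ENNReal.ofReal κ' = ENNReal.ofReal κ + ENNReal.ofReal (κ' - κ) := by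
        rw [← ENNReal.ofReal_add hκ (by linarith)]
        congr 1
        ring
      rw [h2, add_mul] at h1
      exact (ENNReal.add_le_add_iff_left (ENNReal.mul_ne_top ENNReal.ofReal_ne_top (hMfin C))).1 h1
    · rw [if_neg hN, mul_zero]
      exact zero_le
  -- the sums
  have hN' : D.prior (E' ∩ {e | K6aNarrow D E' (f ∘ s) κ' w ((f ∘ s) e)})
      = ∑' C : S', if K6aNarrow D E' (f ∘ s) κ' w C then M C else 0 := by
    have h1 := k6a_bc_tsum D.prior s hs E' hE' (fun a => K6aNarrow D E' (f ∘ s) κ' w (f a))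
    have h2 := k6a_bc_regroup f (fun a => if K6aNarrow D E' (f ∘ s) κ' w (f a) then m a else 0)
    rw [hm] at h2
    refine h1.trans (h2.symm.trans ?_)
    refine tsum_congr fun C => ?_
    by_cases hN : K6aNarrow D E' (f ∘ s) κ' w C
    · rw [if_pos hN, hM, hm]
      refine tsum_congr fun a => ?_
      by_cases h : f a = C
      · rw [if_pos h, if_pos h, if_pos (by rw [h]; exact hN)]
      · rw [if_neg h, if_neg h]
    · rw [if_neg hN]
      refine ENNReal.tsum_eq_zero.2 fun a => ?_
      by_cases h : f a = C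
      · rw [if_pos h, if_neg (by rw [h]; exact hN)]
      · rw [if_neg h]
  have hNf : ∑' C : S', P C = D.prior (E' ∩ {e | K6aNarrow D E' s κ w (s e)}) := by
    have h1 := k6a_bc_tsum D.prior s hs E' hE' (fun a => K6aNarrow D E' s κ w a)
    have h2 := k6a_bc_regroup f (fun a => if K6aNarrow D E' s κ w a then m a else 0)
    rw [hP]
    rw [h2, h1, hm]
  have hfin : ENNReal.ofReal (κ' - κ) * D.prior (E' ∩ {e | K6aNarrow D E' (f ∘ s) κ' w ((f ∘ s) e)}) ≤ ENNReal.ofReal ε := by
    rw [hN', ← ENNReal.tsum_mul_left]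
    exact (ENNReal.tsum_le_tsum key2).trans (hNf.le.trans hfine)
  have hpos : 0 < κ' - κ := by linarith
  rw [ENNReal.ofReal_div_of_pos hpos, ENNReal.le_div_iff_mul_le (Or.inl (by simpa using hpos)) (Or.inl ENNReal.ofReal_ne_top), mul_comm]
  exact hfin

end Claimed.Agent.R252
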