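/-
ROW 252, units S6a + S6b, chief helper234.     THE CHAIN:  the hubs of S6a1 .. S6a5, the hub of S6b  ⟹  `KsLocalBr v p`  (Theorem 6.1 at one scale, target of Section 6).
No `sorry` here: every input is a hypothesis `(h : xxx_stmt)`.   Constants: `S6a/ChainDefs.lean`.
-/
import Claimed.Agent.R252.S6a.ChainDefs

set_option autoImplicit false

namespace Claimed.Agent.R252

open MeasureTheory
open scoped ENNReal BigOperators

noncomputable section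

variable {j : ℕ}

theorem k6c_brd_sub {D : K6aDat j} {S : Type} {E E₁ : Set (D.L × ℝ)} {s : D.L × ℝ → S} {κ w ε : ℝ}
    (h : K6aBrd D E s κ w ε) (hs : E₁ ⊆ E) : K6aBrd D E₁ s κ w ε :=
  fun E' hm hE' => h E' hm (hE'.trans hs)

theorem k6c_narrow_frac {D : K6aDat j} {S : Type} {E : Set (D.L × ℝ)} {s : D.L × ℝ → S} {κ κ' w : ℝ} {s0 : S}
    (h : K6aNarrow D E s κ' w s0) (hκ : κ ≤ κ') : K6aNarrow D E s κ w s0 := by
  obtain ⟨n, c, hn, hle⟩ := h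
  exact ⟨n, c, hn, (mul_le_mul' (ENNReal.ofReal_le_ofReal hκ) le_rfl).trans hle⟩

theorem k6c_brd_frac {D : K6aDat j} {S : Type} {E : Set (D.L × ℝ)} {s : D.L × ℝ → S} {κ κ' w ε : ℝ}
    (h : K6aBrd D E s κ w ε) (hκ : κ ≤ κ') : K6aBrd D E s κ' w ε :=
  fun E' hm hs => by
    refine (measure_mono ?_).trans (h E' hm hs)
    rintro e ⟨he1, he2⟩
    exact ⟨he1, k6c_narrow_frac he2 hκ⟩

/-- mass bookkeeping: `x ≤ A`, `A ≤ B + y`, `B ≤ 2 C + z` give `(x - y - z) / 2 ≤ C` -/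
theorem k6c_mass {A B C : ℝ≥0∞} {x y z : ℝ} (h1 : ENNReal.ofReal x ≤ A) (h2 : A ≤ B + ENNReal.ofReal y)
    (h3 : B ≤ 2 * C + ENNReal.ofReal z) (hy : 0 ≤ y) (hz : 0 ≤ z) : ENNReal.ofReal ((x - y - z) / 2) ≤ C := by
  have h4 : ENNReal.ofReal x ≤ 2 * C + ENNReal.ofReal (z + y) := by
    rw [ENNReal.ofReal_add hz hy, ← add_assoc]
    exact h1.trans (h2.trans (add_le_add h3 le_rfl))
  have h5 : ENNReal.ofReal (x - (z + y)) ≤ 2 * C := by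
    rw [ENNReal.ofReal_sub _ (add_nonneg hz hy)]
    exact tsub_le_iff_right.2 h4
  have h6 : ENNReal.ofReal ((x - y - z) / 2) = ENNReal.ofReal (x - (z + y)) / 2 := by
    rw [ENNReal.ofReal_div_of_pos (by norm_num : (0 : ℝ) < 2)]
    congr 1
    · congr 1; ring
    · simp
  rw [h6]
  refine ENNReal.div_le_of_le_mul ?_
  rwa [mul_comm]

variable {v : KbVer}

theorem k6c_m0_le (R : KsRef v) {K : ℝ} (hR : R.Ok K) (A : R.Par) : R.m0 A ≤ 1 := by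
  have := hR.prob
  calc R.m0 A ≤ R.prior Set.univ := measure_mono (Set.subset_univ _)
    _ = 1 := by
      unfold KsRef.prior KbPb.tm
      rw [← Set.univ_prod_univ, Measure.prod_prod]
      simp

theorem k6c_lab (R : KsRef v) (A : R.Par) (s s1 s2 : ℝ) (lv : ℕ) (q : R.Lab)
    (h : (k6b_pk R A s s1 s2 lv).νQ q ≠ 0) :
    R.dep q = s ∧ R.lev q = lv ∧ (k6b_pk R A s s1 s2 lv).νQ q = R.νQ q := by
  by_cases hc : R.dep q = s ∧ R.lev q = lv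
  · refine ⟨hc.1, hc.2, ?_⟩
    unfold K6aPk.νQ KsRef.νQ
    show R.ν (if R.dep q = s ∧ R.lev q = lv then R.asg q else ∅) = _
    rw [if_pos hc]
  · exfalso
    apply h
    unfold K6aPk.νQ
    show R.ν (if R.dep q = s ∧ R.lev q = lv then R.asg q else ∅) = _
    rw [if_neg hc]
    simp

theorem k6c_a_pow (R : KsRef v) (hN : 0 < R.N) (x : ℝ) : R.a x = R.a 1 ^ x := by
  unfold KsRef.a
  rw [← Real.rpow_mul hN.le]
  congr 1
  ring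

/-- **THE CHAIN OF SECTION 6** -/
theorem k6_chain
    (hP : k6a_hub_phys_stmt) (hG : k6a_hub_graph_stmt) (hD : k6a_hub_disc_stmt) (hQ : k6a_hub_qual_stmt)
    (hF : k6a_hub_field_stmt) (hB : k6b_hub_stmt) (hBr : k6b_bridge_stmt)
    (hFJ : ∀ d : ℝ, 0 ≤ d → d < 1 → ∃ θ : ℝ, 0 < θ ∧ θ ≤ 1 ∧ k5_FJ d θ)
    (hN1 : k6a_num_lv_stmt) (hN2 : k6a_num_N_stmt) (hN3 : k6a_num_slack_stmt)
    (hA1 : k6a_api_phys_stmt) (hA2 : k6a_api_pk_stmt) (hA3 : k6a_api_misc_stmt) (hA4 : k6a_api_cand_stmt)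
    (v : KbVer) (p : KpPrm) (hp : p.Ok) (hell : p.ell = 0) : KsLocalBr v p := by
  have hj : v.j = 1 ∨ v.j = 2 := by cases v <;> simp [KbVer.j]
  have hd0 := hp.d_nonneg
  have hd1 := hp.d_lt
  have hk0 := hp.k_pos
  have hk1 := hp.k_le
  have hE0 : 0 < k6cE p.d := by unfold k6cE; linarith
  have hE1 : k6cE p.d < 1 / 4 / 2 := by unfold k6cE; linarith
  have hM2 : 2 ≤ k6cM p.k := by
    unfold k6cM
    have : 0 < ⌈2 / p.k⌉₊ := Nat.ceil_pos.2 (by positivity)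
    omega
  obtain ⟨κg, σg, Cg, hκg, hκg1, hσg, hCg, HG⟩ := hG v.j p.d hj hd0 hd1
  obtain ⟨θ, hθ, hθ1, hFJd⟩ := hFJ p.d hd0 hd1
  obtain ⟨Zx, hZx, HQ⟩ := hQ hD v.j (k6cM p.k) p.d θ κg hj hM2 hd0 hd1 hθ hθ1 hFJd hκg hκg1
  obtain ⟨Rr, hRr⟩ : ∃ Rr : ℕ, Rr = k6cR p.k κg Zx := ⟨_, rfl⟩
  have hRr4 : 4 ≤ Rr := by rw [hRr]; unfold k6cR; omega
  obtain ⟨U0, hU0⟩ : ∃ U0 : ℝ, U0 = (Rr : ℝ) * (p.k + 1) := ⟨_, rfl⟩
  have hU0pos : 0 < U0 := by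
    rw [hU0]
    have : (0 : ℝ) < Rr := by exact_mod_cast (by omega : 0 < Rr)
    positivity
  obtain ⟨Rm, hRm⟩ : ∃ Rm : ℝ, Rm = 2 * U0 / p.k + 1 := ⟨_, rfl⟩
  have hRm0 : 0 < Rm := by rw [hRm]; positivity
  obtain ⟨cF, hcF, HF⟩ := hF v.j (k6cM p.k) p.d p.k (1 / 4) (k6cE p.d) κg Rm (1 / 2 ^ 31) hj hd0 hd1 hk0 hk1
    (by norm_num) (by norm_num) hE0 hE1 hκg hκg1 (by positivity) (by norm_num)
  obtain ⟨η0, k00, hη0, HN1⟩ := hN1 p.d p.k κg Zx hd0 hd1 hk0 hk1 hκg hκg1 hZx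
  refine ⟨p.k * k6cE p.d, p.k * k6cE p.d, 1, by positivity, ?_⟩
  intro η τ₁ hη hτ₁
  obtain ⟨η6, k6, hη6, HB⟩ := hB v ((v.j + 1) * k6cM p.k) (k6cE p.d) Rm (τ₁ / 2) hE0 hRm0 (by positivity)
  obtain ⟨ηF, kF, hηF, HF'⟩ := HF (η6 / 2) (by positivity)
  obtain ⟨ηF', hηF'⟩ : ∃ x : ℝ, x = min ηF η0 := ⟨_, rfl⟩
  have hηF'0 : 0 < ηF' := by rw [hηF']; exact lt_min hηF hη0
  obtain ⟨ηQ, kQ, hηQ, HQ'⟩ := HQ Rm ηF' hηF'0
  obtain ⟨η2, hη2⟩ : ∃ x : ℝ, x = min (min ηQ ηF') (min σg (η6 / 2)) := ⟨_, rfl⟩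
  have hη20 : 0 < η2 := by rw [hη2]; exact lt_min (lt_min hηQ hηF'0) (lt_min hσg (by positivity))
  have hη2Q : η2 ≤ ηQ := by rw [hη2]; exact (min_le_left _ _).trans (min_le_left _ _)
  have hη2F : η2 ≤ ηF' := by rw [hη2]; exact (min_le_left _ _).trans (min_le_right _ _)
  have hη2σ : η2 ≤ σg := by rw [hη2]; exact (min_le_right _ _).trans (min_le_left _ _)
  have hη26 : η2 ≤ η6 / 2 := by rw [hη2]; exact (min_le_right _ _).trans (min_le_right _ _)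
  obtain ⟨δr, hδr⟩ : ∃ x : ℝ, x = min (min (η / (2 * (1 + Cg))) (cF * η / 400)) 1 := ⟨_, rfl⟩
  have hδr0 : 0 < δr := by
    rw [hδr]; exact lt_min (lt_min (by positivity) (by positivity)) one_pos
  have hδr1 : δr ≤ 1 := by rw [hδr]; exact min_le_right _ _
  have hδra : δr ≤ η / (2 * (1 + Cg)) := by rw [hδr]; exact (min_le_left _ _).trans (min_le_left _ _)
  have hδrb : δr ≤ cF * η / 400 := by rw [hδr]; exact (min_le_left _ _).trans (min_le_right _ _)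
  obtain ⟨c', hc'⟩ : ∃ x : ℝ, x = min cF 1 * η / 4 := ⟨_, rfl⟩
  have hc'0 : 0 < c' := by
    rw [hc']
    have : 0 < min cF 1 := lt_min hcF one_pos
    positivity
  obtain ⟨kS, HN3⟩ := hN3 p.k Cg δr η2 c' η6 hk0 hk1 hCg hδr0 hδr1 hη20 hc'0 hη6
  obtain ⟨τp, hτp⟩ : ∃ x : ℝ, x = min (η2 * p.k / (16 * Cg)) (p.k / 2) := ⟨_, rfl⟩
  have hτp0 : 0 < τp := by rw [hτp]; exact lt_min (by positivity) (by positivity)
  have hτpa : τp ≤ η2 * p.k / (16 * Cg) := by rw [hτp]; exact min_le_left _ _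
  have hτpb : τp ≤ p.k / 2 := by rw [hτp]; exact min_le_right _ _
  obtain ⟨G, hGok, -, -, -, hw2, κ, u, ε, τ, hκ, hu, huτ, hε, hτ, hττ, N₁, HP⟩ :=
    hP v p hp hell 1 (1 + p.k / 8) (1 + p.k * k6cE p.d) U0 one_pos (by linarith)
      (by nlinarith [mul_pos hk0 hE0]) hU0pos η δr τp (1 / 2 ^ 31) hη hδr0 hτp0 (by positivity)
  obtain ⟨N₂, hN₂, HN2⟩ := hN2 p.k (max (max k00 kQ) (max (max kF k6) kS)) Rr hk0 hk1
  refine ⟨G, hGok, κ, u, ε, τ, hκ, hu, hε, hτ, max N₁ N₂, ?_⟩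
  intro R A E hN hRich hOk hOne hBrd hSub
  obtain ⟨n0, lv, lv1, lv2, E', Lc, m0, hn0a, hn0b, hEnt⟩ :=
    HP R A E ((le_max_left _ _).trans hN) hRich hOk hOne hBrd hSub
  have hprm := hRich.prm
  subst hprm
  have hNN : N₂ ≤ R.N := (le_max_right _ _).trans hN
  have hN2' : (2 : ℝ) ≤ R.N := hN₂.trans hNN
  have hN0 : 0 < R.N := by linarith
  have hN1' : 1 ≤ R.N := by linarith
  -- the time level against `N`
  rw [hU0] at hn0a hn0b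
  obtain ⟨hlv, hNlo, hNhi, hn0lo, hn0hi⟩ := HN2 R.N τp lv n0 hNN hτp0 hτpb hEnt.pk.H_lo hEnt.pk.H_hi hn0a hn0b
  have hlv00 : k00 ≤ lv := ((le_max_left _ _).trans (le_max_left _ _)).trans hlv
  have hlvQ : kQ ≤ lv := ((le_max_right _ _).trans (le_max_left _ _)).trans hlv
  have hlvF : kF ≤ lv := (((le_max_left _ _).trans (le_max_left _ _)).trans (le_max_right _ _)).trans hlv
  have hlv6 : k6 ≤ lv := (((le_max_right _ _).trans (le_max_left _ _)).trans (le_max_right _ _)).trans hlv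
  have hlvS : kS ≤ lv := ((le_max_right _ _).trans (le_max_right _ _)).trans hlv
  -- the prepared mass of the parent
  have hm1 : R.m0 A ≤ 1 := k6c_m0_le R hOk A
  have hmtop : R.m0 A ≠ ⊤ := ne_top_of_le_ne_top ENNReal.one_ne_top hm1
  obtain ⟨m, hm⟩ : ∃ m : ℝ, m = (R.m0 A).toReal := ⟨_, rfl⟩
  have hm0A : R.m0 A = ENNReal.ofReal m := by rw [hm, ENNReal.ofReal_toReal hmtop]
  have hm_nn : 0 ≤ m := by rw [hm]; exact ENNReal.toReal_nonneg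
  have hmle : m ≤ 1 := by
    rw [hm]
    exact ENNReal.toReal_le_of_le_ofReal zero_le_one (by simpa using hm1)
  have hmlo : R.N ^ (-τ) ≤ m := by
    have h1 := hSub.floor
    rw [hm0A, ← ENNReal.ofReal_mul (by positivity)] at h1
    have h2 : 1 ≤ R.N ^ τ * m := by
      have := ENNReal.one_le_ofReal.1 h1
      exact this
    rw [Real.rpow_neg hN0.le]
    rw [inv_le_iff_one_le_mul₀ (by positivity)]
    linarith
  have hm0 : 0 < m := lt_of_lt_of_le (by positivity) hmlo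
  obtain ⟨hs1, hs2, hs3, hs4⟩ := HN3 R.N τp τ u m lv hN2' hlvS hNlo hτp0 hτpa hτ hττ hu huτ hmlo hmle
  -- the slacks
  have hlvnn : (0 : ℝ) ≤ lv := Nat.cast_nonneg lv
  have hmono : ∀ x y : ℝ, x ≤ y → (2 : ℝ) ^ (x * lv) ≤ (2 : ℝ) ^ (y * lv) := fun x y hxy =>
    Real.rpow_le_rpow_of_exponent_le (by norm_num) (mul_le_mul_of_nonneg_right hxy hlvnn)
  obtain ⟨K0, hK0⟩ : ∃ x : ℝ, x = R.N ^ τp := ⟨_, rfl⟩
  obtain ⟨K2, hK2⟩ : ∃ x : ℝ, x = (2 : ℝ) ^ (η2 * lv) := ⟨_, rfl⟩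
  obtain ⟨KF, hKF⟩ : ∃ x : ℝ, x = (2 : ℝ) ^ (ηF' * lv) := ⟨_, rfl⟩
  obtain ⟨K6, hK6⟩ : ∃ x : ℝ, x = 64 * (2 : ℝ) ^ (η6 / 2 * lv) := ⟨_, rfl⟩
  obtain ⟨w, hw⟩ : ∃ x : ℝ, x = R.N ^ (-u) := ⟨_, rfl⟩
  obtain ⟨δ, hδ⟩ : ∃ x : ℝ, x = δr * m := ⟨_, rfl⟩
  rw [← hm, ← hK0, ← hw, ← hδ] at hEnt
  rw [← hK0, ← hK2] at hs1
  rw [← hK0, ← hK2, ← hw, ← hδ] at hs2
  rw [← hK2] at hs3
  rw [← hK6] at hs4
  have h1K0 : 1 ≤ K0 := by rw [hK0]; exact Real.one_le_rpow hN1' hτp0.le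
  have h0K0 : 0 ≤ K0 := by linarith
  have h1K2 : 1 ≤ K2 := h1K0.trans hs1
  have hK2F : K2 ≤ KF := by rw [hK2, hKF]; exact hmono _ _ hη2F
  have hK0F : K0 ≤ KF := hs1.trans hK2F
  have h1KF : 1 ≤ KF := h1K2.trans hK2F
  have hK26 : K2 ≤ K6 := by
    rw [hK2, hK6]
    have h1 := hmono _ _ hη26
    have h2 : (0 : ℝ) < (2 : ℝ) ^ (η6 / 2 * lv) := by positivity
    linarith
  have hK06 : K0 ≤ K6 := hs1.trans hK26
  have h1K6 : 1 ≤ K6 := h1K2.trans hK26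
  have hw0 : 0 < w := by rw [hw]; positivity
  have hw1 : w ≤ 1 := by rw [hw]; exact Real.rpow_le_one_of_one_le_of_nonpos hN1' (by linarith)
  have hK0w : 1 ≤ K0 * w := by
    rw [hK0, hw, ← Real.rpow_add hN0]
    exact Real.one_le_rpow hN1' (by linarith)
  have hKw : ∀ K' : ℝ, K0 ≤ K' → 1 ≤ K' * w := fun K' h => hK0w.trans (mul_le_mul_of_nonneg_right h hw0.le)
  have hδ0 : 0 < δ := by rw [hδ]; positivity
  have hδ1 : δ ≤ 1 := by rw [hδ]; exact mul_le_one₀ hδr1 hm_nn hmle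
  -- the levels
  have ha0 : 0 < R.a 1 := by unfold KsRef.a; positivity
  have hak : 0 ≤ R.a 1 ^ R.prm.k := by positivity
  have hW0 : 0 ≤ k6aW lv := by unfold k6aW; positivity
  rw [← hU0, ← hRm] at hn0hi
  rw [hRr] at hn0lo
  obtain ⟨hLv, hLvF, hLvB⟩ := HN1 lv n0 KF (R.a 1) (R.a (1 + R.prm.k / 8)) (R.a (1 + R.prm.k * k6cE R.prm.d)) Rm hlv00 h1KF
    (by rw [hKF]; exact hmono _ _ (by rw [hηF']; exact min_le_right _ _)) ha0
    (hEnt.pk.H_lo.trans (mul_le_mul_of_nonneg_right hK0F hW0))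
    (hEnt.pk.H_hi.trans (mul_le_mul_of_nonneg_right hK0F hak))
    (k6c_a_pow R hN0 _) (k6c_a_pow R hN0 _) hn0lo hn0hi
  -- Proposition 6.2
  have hB1 : 1 ≤ k6cB R.prm.k κg Zx := by
    unfold k6cB
    exact Nat.ceil_pos.2 (div_pos (by positivity) hκg)
  have hcond : Cg * (K0 / (δ * w)) ^ Cg ≤ (2 : ℝ) ^ (σg * ((k6cB R.prm.k κg Zx * lv : ℕ) : ℝ)) := by
    refine hs2.trans ?_
    rw [hK2]
    refine Real.rpow_le_rpow_of_exponent_le (by norm_num) ?_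
    push_cast
    have h1 : (1 : ℝ) ≤ (k6cB R.prm.k κg Zx : ℝ) := by exact_mod_cast hB1
    calc η2 * (lv : ℝ) ≤ σg * (lv : ℝ) := mul_le_mul_of_nonneg_right hη2σ hlvnn
      _ = σg * (1 * (lv : ℝ)) := by ring
      _ ≤ σg * ((k6cB R.prm.k κg Zx : ℝ) * (lv : ℝ)) :=
          mul_le_mul_of_nonneg_left (mul_le_mul_of_nonneg_right h1 hlvnn) hσg.le
  obtain ⟨g, E2, hE2sub, hGr, hmassG⟩ := HG _ K0 δ w n0 (k6cB R.prm.k κg Zx * lv) E' Lc m0 h1K0 hδ0 hδ1 hw0 hw1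
    hLv.nb_le hEnt.wf hEnt.phys (k6c_brd_frac hEnt.brd (by norm_num)) hcond
  have hE2m : MeasurableSet E2 := hGr.E_meas
  have hpr := (hBr v R A 1 (1 + R.prm.k / 8) (1 + R.prm.k * k6cE R.prm.d) _ hOk).1
  -- the mass of the family
  have hmassE : ENNReal.ofReal (η * m / 4) ≤ R.prior E2 := by
    have h1 : ENNReal.ofReal (η * m) ≤ R.prior E := by
      rw [ENNReal.ofReal_mul hη.le, ← hm0A]; exact hSub.mass
    rw [hpr] at hmassG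
    have h2 := k6c_mass h1 hEnt.loss hmassG hδ0.le (mul_nonneg (by linarith) hδ0.le)
    refine (ENNReal.ofReal_le_ofReal ?_).trans h2
    have h3 : δr * (2 * (1 + Cg)) ≤ η := by
      rwa [le_div_iff₀ (by positivity)] at hδra
    have h4 : δ * (2 * (1 + Cg)) ≤ η * m := by
      rw [hδ]
      calc δr * m * (2 * (1 + Cg)) = δr * (2 * (1 + Cg)) * m := by ring
        _ ≤ η * m := mul_le_mul_of_nonneg_right h3 hm_nn
    linarith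
  obtain ⟨e, he⟩ : ∃ x : ℝ, x = η * m / 4 := ⟨_, rfl⟩
  rw [← he] at hmassE
  have he0 : 0 < e := by rw [he]; positivity
  have hδe : 100 * δ ≤ cF * e := by
    rw [hδ, he]
    have h1 : δr * m ≤ cF * η / 400 * m := mul_le_mul_of_nonneg_right hδrb hm_nn
    linarith
  have hc'e : c' * m ≤ e ∧ c' * m ≤ cF * e := by
    rw [hc', he]
    have h0 : 0 ≤ η * m / 4 := by positivity
    constructor
    · calc min cF 1 * η / 4 * m = min cF 1 * (η * m / 4) := by ring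
        _ ≤ 1 * (η * m / 4) := mul_le_mul_of_nonneg_right (min_le_right _ _) h0
        _ = η * m / 4 := one_mul _
    · calc min cF 1 * η / 4 * m = min cF 1 * (η * m / 4) := by ring
        _ ≤ cF * (η * m / 4) := mul_le_mul_of_nonneg_right (min_le_left _ _) h0
  have h0K2 : 0 ≤ K2 := by linarith
  -- heredity and slacks
  have hGr2 := hA3.2.1 _ _ _ K2 _ _ _ _ hs2 hGr
  have hPh2 := hA1 _ _ _ K0 K2 _ E' E2 _ _ h0K0 hs1 hE2m hE2sub hEnt.phys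
  have hWF2 := hA3.1 _ _ K0 K2 hs1 hEnt.wf
  have hBrd2 := k6c_brd_sub hEnt.brd hE2sub
  -- Proposition 6.3
  obtain ⟨U, hQual⟩ := HQ' _ K2 δ w (cF * e) cF lv _ _ _ n0 E2 Lc m0 g hlvQ h1K2
    (by rw [hK2]; exact hmono _ _ hη2Q) hLv hWF2 hPh2 hGr2 hw0 (hKw _ hs1) (k6c_brd_frac hBrd2 (by norm_num)) hδ0.le hδe
    (hs3.trans (mul_le_mul_of_nonneg_left hc'e.2 h0K2)) hcF
    (by rw [ENNReal.ofReal_mul hcF.le, hpr]; exact mul_le_mul' le_rfl hmassE)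
  -- the interpolated field
  have hKF0 : 0 < KF := by linarith
  have hQualF := hA3.2.2.1 _ _ _ _ _ KF _ _ _ _ _ _ (by positivity) (le_of_eq hKF.symm) hQual
  obtain ⟨Ep, Es, q, zc, T, -, hEpsub, hFld⟩ := HF' _ _ _ _ KF δ w e cF _ n0 _ _ E2 U Lc m0 g hlvF h1KF
    (by rw [hKF]; exact hmono _ _ (by rw [hηF']; exact min_le_left _ _)) hLvF
    (hA3.1 _ _ K0 KF hK0F hEnt.wf) (hA1 _ _ _ K0 KF _ E' E2 _ _ h0K0 hK0F hE2m hE2sub hEnt.phys)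
    (hA3.2.1 _ _ _ KF _ _ _ _ hK2F hGr2) hQualF
    (hA2 _ _ _ _ _ K0 KF E' E2 h0K0 hK0F hE2sub hEnt.pk) (hA2 _ _ _ _ _ K0 KF E' E2 h0K0 hK0F hE2sub hEnt.pk1)
    (hA2 _ _ _ _ _ K0 KF E' E2 h0K0 hK0F hE2sub hEnt.pk2) hEnt.below1 hEnt.below2 hw0 hw1 (hKw _ hK0F) hBrd2 hδ0.le hcF.le
    (by rw [hpr]; exact hmassE) he0
    ((hs3.trans (mul_le_mul_of_nonneg_left hc'e.1 h0K2)).trans (mul_le_mul_of_nonneg_right hK2F he0.le))
    (by linarith) le_rfl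
  -- Section 6b
  obtain ⟨hdep, hlev, hνQ⟩ := k6c_lab R A 1 (1 + R.prm.k / 8) (1 + R.prm.k * k6cE R.prm.d) lv q hFld.pos
  have h230 : (2 : ℝ) * (1 / 2 ^ 31) = 1 / 2 ^ 30 := by norm_num
  rw [h230] at hFld
  have hεT : 0 ≤ k6aW lv ^ (1 / R.prm.k - 1 + 1 / 4) := Real.rpow_nonneg hW0 _
  have hKK : (2 : ℝ) ^ (η6 / 2 * (lv : ℝ)) ≤ K6 := by
    rw [hK6]
    have h2 : (0 : ℝ) < (2 : ℝ) ^ (η6 / 2 * lv) := by positivity
    linarith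
  have hFld6 := hA3.2.2.2 _ _ _ _ _ K6 _ _ _ _ _ _ _ _ _ _ _ _ _ _ _ (by positivity) hKK hεT ha0
    hEnt.pk1.a_pos hEnt.pk2.a_pos hFld
  have hOk6 : R.Ok K6 := ks_ok_mono hOk
    ((Real.rpow_le_rpow_of_exponent_le hN1' hττ).trans ((le_of_eq hK0.symm).trans hK06))
  have hE2E : E2 ⊆ E := hE2sub.trans hEnt.sub
  obtain ⟨P, Cn, hCand⟩ := HB R A 1 (1 + R.prm.k / 8) (1 + R.prm.k * k6cE R.prm.d) K6 _ w lv _ _ _ E2 Ep Es g q zc T
    hlv6 h1K6 hs4 hOk6 hOne (hRich.widths hw2) hdep hlev (hE2E.trans (hSub.sub.trans Set.inter_subset_left)) hEpsub hεT hw0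
    (hKw _ hK06) (hA3.1 _ _ K0 K6 hK06 hEnt.wf) (hA2 _ _ _ _ _ K0 K6 E' E2 h0K0 hK06 hE2sub hEnt.pk) hFld6 hLvB
  refine ⟨q, 1 + R.prm.k * k6cE R.prm.d - 1, le_of_eq hdep, le_of_eq (by ring), le_of_eq (by ring), P, Cn, ?_⟩
  refine hA4 v R E2 E _ _ _ q P Cn hN2' (by positivity) ?_ hE2E hCand
  calc (2 : ℝ) ^ (τ₁ / 2 * (lv : ℝ)) = ((2 : ℝ) ^ lv) ^ (τ₁ / 2) := by
        rw [← Real.rpow_natCast, ← Real.rpow_mul (by norm_num)]
        congr 1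
        ring
    _ ≤ (R.N ^ (2 : ℝ)) ^ (τ₁ / 2) := Real.rpow_le_rpow (by positivity) hNhi (by positivity)
    _ = R.N ^ τ₁ := by
        rw [← Real.rpow_mul hN0.le]
        congr 1
        ring

end

end Claimed.Agent.R252
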