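/-
Leaf L-252-S6a-CHOICE (row252, unit S6a, architect helper234; proof helper282).
Helpers: prefix `k6a_cc_`.

Lemma 6.4. ONE-SCALE STEP `k6a_cc_step`: colour of a Z-cell = index mod 4 (`ZMod 4`), pick the colour of largest mass,
in every Z-cell pick the Y-cell of the list of largest mass.  `k6a_cc_iter`: iteration over the scales.
`k6a_cc_lip`: the Lipschitz bound from the one-scale separations.
-/
import Claimed.Agent.R252.S6a.Contract

namespace Claimed.Agent.R252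

open MeasureTheory
open scoped ENNReal Classical

/-- measurability of the cell map -/
theorem k6a_cc_cell_meas {Ω : Type} [MeasurableSpace Ω] {D : ℕ} (w : ℝ) {Z : Ω → Fin D → ℝ} (hZ : Measurable Z) :
    Measurable (fun e => k6a_cell w (Z e)) := by
  rw [measurable_pi_iff]
  intro j
  have h1 : Measurable (fun e => Z e j / w) := ((measurable_pi_apply j).comp hZ).div_const w
  exact Int.measurable_floor.comp h1

theorem k6a_cc_pre_meas {Ω : Type} [MeasurableSpace Ω] {D : ℕ} (w : ℝ) {Z : Ω → Fin D → ℝ} (hZ : Measurable Z)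
    (A : Set (Fin D → ℤ)) : MeasurableSet {e | k6a_cell w (Z e) ∈ A} :=
  (k6a_cc_cell_meas w hZ) A.to_countable.measurableSet

/-- same colour and close: same cell -/
theorem k6a_cc_cell_eq {D : ℕ} {w : ℝ} (hw : 0 < w) {x y : Fin D → ℝ} (hxy : ‖x - y‖ ≤ w)
    (hcol : ∀ j, ((k6a_cell w x j : ℤ) : ZMod 4) = ((k6a_cell w y j : ℤ) : ZMod 4)) :
    k6a_cell w x = k6a_cell w y := by
  funext j
  have hd : |x j - y j| ≤ w := by
    have := (norm_le_pi_norm (x - y) j).trans hxy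
    simpa [Real.norm_eq_abs] using this
  have h4 : ((4 : ℕ) : ℤ) ∣ k6a_cell w y j - k6a_cell w x j := (ZMod.intCast_eq_intCast_iff_dvd_sub _ _ 4).1 (hcol j)
  have h1 : |x j / w - y j / w| ≤ 1 := by
    rw [← sub_div, abs_div, abs_of_pos hw]
    exact (div_le_one hw).2 hd
  have e1 : k6a_cell w x j = ⌊x j / w⌋ := rfl
  have e2 : k6a_cell w y j = ⌊y j / w⌋ := rfl
  rw [e1, e2] at h4 ⊢
  have ha1 : ((⌊x j / w⌋ : ℤ) : ℝ) ≤ x j / w := Int.floor_le _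
  have ha2 : x j / w < (⌊x j / w⌋ : ℤ) + 1 := Int.lt_floor_add_one _
  have hb1 : ((⌊y j / w⌋ : ℤ) : ℝ) ≤ y j / w := Int.floor_le _
  have hb2 : y j / w < (⌊y j / w⌋ : ℤ) + 1 := Int.lt_floor_add_one _
  have h1' := abs_le.1 h1
  have c1 : ⌊y j / w⌋ - ⌊x j / w⌋ < 2 := by
    have : (((⌊y j / w⌋ - ⌊x j / w⌋ : ℤ)) : ℝ) < 2 := by push_cast; linarith [h1'.1]
    exact_mod_cast this
  have c2 : -2 < ⌊y j / w⌋ - ⌊x j / w⌋ := by
    have : (-2 : ℝ) < (((⌊y j / w⌋ - ⌊x j / w⌋ : ℤ)) : ℝ) := by push_cast; linarith [h1'.2]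
    exact_mod_cast this
  obtain ⟨c, hc⟩ := h4
  push_cast at hc
  omega

/-- same cell: close -/
theorem k6a_cc_close {q : ℕ} {w : ℝ} (hw : 0 < w) {x y : Fin q → ℝ} (h : k6a_cell w x = k6a_cell w y) : ‖x - y‖ ≤ w := by
  rw [pi_norm_le_iff_of_nonneg hw.le]
  intro j
  have hj : ⌊x j / w⌋ = ⌊y j / w⌋ := congrFun h j
  have h1 := Int.abs_sub_lt_one_of_floor_eq_floor hj
  rw [← sub_div, abs_div, abs_of_pos hw, div_lt_one hw] at h1
  simpa [Real.norm_eq_abs] using h1.le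

theorem k6a_cc_pigeon {β : Type} [Nonempty β] (T : Finset β) (f : β → ℝ≥0∞) (X : ℝ≥0∞) (k : ℕ) (hk : T.card ≤ k)
    (hX : X ≤ ∑ m ∈ T, f m) : ∃ m, X ≤ k * f m := by
  rcases T.eq_empty_or_nonempty with rfl | hne
  · refine ⟨Classical.arbitrary β, ?_⟩
    have : X ≤ 0 := by simpa using hX
    exact this.trans bot_le
  · obtain ⟨m, _, hmax⟩ := Finset.exists_max_image T f hne
    refine ⟨m, hX.trans ?_⟩
    calc ∑ m' ∈ T, f m' ≤ T.card • f m := Finset.sum_le_card_nsmul _ _ _ hmax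
      _ = (T.card : ℝ≥0∞) * f m := by rw [nsmul_eq_mul]
      _ ≤ k * f m := by gcongr

/-- the set selected by a colour `c` and a choice `m` of value cells -/
def k6a_cc_sel {Ω : Type} {D q : ℕ} (cur : Set Ω) (Z : Ω → Fin D → ℝ) (Y : Ω → Fin q → ℝ) (w : ℝ)
    (c : Fin D → ZMod 4) (m : (Fin D → ℤ) → (Fin q → ℤ)) : Set Ω :=
  {e | e ∈ cur ∧ (fun j => ((k6a_cell w (Z e) j : ℤ) : ZMod 4)) = c ∧ k6a_cell w (Y e) = m (k6a_cell w (Z e))}

/-- ONE-SCALE STEP -/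
theorem k6a_cc_step {Ω : Type} [MeasurableSpace Ω] (μ : Measure Ω) (cur : Set Ω) (hcur : MeasurableSet cur)
    (D q : ℕ) (Z : Ω → Fin D → ℝ) (Y : Ω → Fin q → ℝ) (hZ : Measurable Z) (hY : Measurable Y) (w : ℝ) (k : ℕ)
    (hT : ∀ n : Fin D → ℤ, ∃ T : Finset (Fin q → ℤ), T.card ≤ k ∧
      ∀ e ∈ cur, k6a_cell w (Z e) = n → k6a_cell w (Y e) ∈ T) :
    ∃ (c : Fin D → ZMod 4) (m : (Fin D → ℤ) → (Fin q → ℤ)),
      MeasurableSet (k6a_cc_sel cur Z Y w c m) ∧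
      μ cur ≤ (4 : ℝ≥0∞) ^ D * (k : ℝ≥0∞) * μ (k6a_cc_sel cur Z Y w c m) := by
  obtain ⟨Cc, hCc⟩ : ∃ Cc : (Fin D → ZMod 4) → Set Ω,
      ∀ c, Cc c = cur ∩ {e | k6a_cell w (Z e) ∈ {n : Fin D → ℤ | (fun j => ((n j : ℤ) : ZMod 4)) = c}} := ⟨_, fun _ => rfl⟩
  have hCm : ∀ c, MeasurableSet (Cc c) := fun c => by
    rw [hCc]
    exact hcur.inter (k6a_cc_pre_meas w hZ _)
  have hcover : cur ⊆ ⋃ c, Cc c := by
    intro e he
    refine Set.mem_iUnion.2 ⟨fun j => ((k6a_cell w (Z e) j : ℤ) : ZMod 4), ?_⟩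
    rw [hCc]
    exact ⟨he, rfl⟩
  have h1 : μ cur ≤ ∑ c, μ (Cc c) := (measure_mono hcover).trans (measure_iUnion_fintype_le μ _)
  obtain ⟨c, _, hcmax⟩ := Finset.exists_max_image (Finset.univ : Finset (Fin D → ZMod 4)) (fun c => μ (Cc c))
    ⟨fun _ => 0, Finset.mem_univ _⟩
  have hcard : Fintype.card (Fin D → ZMod 4) = 4 ^ D := by
    simp [ZMod.card]
  have h2 : μ cur ≤ (4 : ℝ≥0∞) ^ D * μ (Cc c) := by
    refine h1.trans ?_
    calc ∑ c', μ (Cc c') ≤ (Finset.univ : Finset (Fin D → ZMod 4)).card • μ (Cc c) :=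
          Finset.sum_le_card_nsmul _ _ _ hcmax
      _ = (4 : ℝ≥0∞) ^ D * μ (Cc c) := by
          rw [nsmul_eq_mul, Finset.card_univ, hcard]
          push_cast
          rfl
  have hZc : ∀ n : Fin D → ℤ, MeasurableSet {e | k6a_cell w (Z e) = n} := fun n => k6a_cc_pre_meas w hZ {n}
  have hYc : ∀ n : Fin q → ℤ, MeasurableSet {e | k6a_cell w (Y e) = n} := fun n => k6a_cc_pre_meas w hY {n}
  have hn : ∀ n : Fin D → ℤ, ∃ m : Fin q → ℤ, μ (Cc c ∩ {e | k6a_cell w (Z e) = n})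
      ≤ k * μ (Cc c ∩ {e | k6a_cell w (Z e) = n} ∩ {e | k6a_cell w (Y e) = m}) := by
    intro n
    obtain ⟨T, hTk, hTm⟩ := hT n
    refine k6a_cc_pigeon T _ _ k hTk ?_
    refine le_trans (measure_mono ?_) (measure_biUnion_finset_le T _)
    intro e he
    have hecur : e ∈ cur := by
      have := he.1
      rw [hCc] at this
      exact this.1
    exact Set.mem_biUnion (hTm e hecur he.2) ⟨he, rfl⟩
  choose m hm using hn
  have hS : k6a_cc_sel cur Z Y w c m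
      = ⋃ n : Fin D → ℤ, Cc c ∩ {e | k6a_cell w (Z e) = n} ∩ {e | k6a_cell w (Y e) = m n} := by
    ext e
    simp only [k6a_cc_sel, Set.mem_iUnion, hCc]
    constructor
    · rintro ⟨h1, h2, h3⟩
      exact ⟨k6a_cell w (Z e), ⟨⟨h1, h2⟩, rfl⟩, h3⟩
    · rintro ⟨n, ⟨⟨h1, h2⟩, h3⟩, h4⟩
      have h3' : k6a_cell w (Z e) = n := h3
      refine ⟨h1, h2, ?_⟩
      rw [h3']
      exact h4
  have hmeas : ∀ n : Fin D → ℤ, MeasurableSet (Cc c ∩ {e | k6a_cell w (Z e) = n} ∩ {e | k6a_cell w (Y e) = m n}) :=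
    fun n => ((hCm c).inter (hZc n)).inter (hYc _)
  refine ⟨c, m, ?_, ?_⟩
  · rw [hS]
    exact MeasurableSet.iUnion hmeas
  · have hdisj : Pairwise (Function.onFun Disjoint
        (fun n : Fin D → ℤ => Cc c ∩ {e | k6a_cell w (Z e) = n} ∩ {e | k6a_cell w (Y e) = m n})) := by
      intro n n' hnn
      refine Set.disjoint_left.2 ?_
      intro e he he'
      have a1 : k6a_cell w (Z e) = n := he.1.2
      have a2 : k6a_cell w (Z e) = n' := he'.1.2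
      exact hnn (a1.symm.trans a2)
    have h3 : μ (Cc c) ≤ k * μ (k6a_cc_sel cur Z Y w c m) := by
      rw [hS, measure_iUnion hdisj hmeas, ← ENNReal.tsum_mul_left]
      have hcov2 : Cc c ⊆ ⋃ n : Fin D → ℤ, Cc c ∩ {e | k6a_cell w (Z e) = n} := by
        intro e he
        exact Set.mem_iUnion.2 ⟨k6a_cell w (Z e), he, rfl⟩
      exact ((measure_mono hcov2).trans (measure_iUnion_le _)).trans (ENNReal.tsum_le_tsum hm)
    calc μ cur ≤ (4 : ℝ≥0∞) ^ D * μ (Cc c) := h2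
      _ ≤ (4 : ℝ≥0∞) ^ D * (k * μ (k6a_cc_sel cur Z Y w c m)) := by gcongr
      _ = (4 : ℝ≥0∞) ^ D * (k : ℝ≥0∞) * μ (k6a_cc_sel cur Z Y w c m) := by rw [mul_assoc]

/-- iteration over the scales -/
theorem k6a_cc_iter {Ω : Type} [MeasurableSpace Ω] (μ : Measure Ω) (Ω₀ : Set Ω) (hΩ₀ : MeasurableSet Ω₀)
    (D q L : ℕ) (Z : Ω → Fin D → ℝ) (Y : Ω → Fin q → ℝ) (hZ : Measurable Z) (hY : Measurable Y)
    (s : ℕ → ℝ) (hs : ∀ i ≤ L, 0 < s i) (K : ℕ → ℕ)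
    (hT : ∀ i ≤ L, ∀ n : Fin D → ℤ, ∃ T : Finset (Fin q → ℤ), T.card ≤ K i ∧
        ∀ e ∈ Ω₀, k6a_cell (s i) (Z e) = n → k6a_cell (s i) (Y e) ∈ T) :
    ∀ M ≤ L + 1, ∃ S : Set Ω, MeasurableSet S ∧ S ⊆ Ω₀ ∧
      μ Ω₀ ≤ (∏ i ∈ Finset.range M, ((4 : ℝ≥0∞) ^ D * (K i : ℝ≥0∞))) * μ S ∧
      (∀ i < M, ∀ e ∈ S, ∀ e' ∈ S, ‖Z e - Z e'‖ ≤ s i → ‖Y e - Y e'‖ ≤ s i) ∧
      (∀ e ∈ Ω₀, ∀ e' ∈ Ω₀, Z e = Z e' → Y e = Y e' → (e ∈ S ↔ e' ∈ S)) := by
  intro M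
  induction M with
  | zero =>
    intro _
    refine ⟨Ω₀, hΩ₀, subset_rfl, by simp, fun i hi => absurd hi (Nat.not_lt_zero i), ?_⟩
    intro e he e' he' _ _
    exact ⟨fun _ => he', fun _ => he⟩
  | succ M ih =>
    intro hM
    have hML : M ≤ L := by omega
    obtain ⟨S, hSm, hSsub, hSmass, hSsep, hSdet⟩ := ih (by omega)
    obtain ⟨c, m, hm1, hm2⟩ := k6a_cc_step μ S hSm D q Z Y hZ hY (s M) (K M) (fun n => by
      obtain ⟨T, h1, h2⟩ := hT M hML n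
      exact ⟨T, h1, fun e he => h2 e (hSsub he)⟩)
    refine ⟨k6a_cc_sel S Z Y (s M) c m, hm1, fun e he => hSsub he.1, ?_, ?_, ?_⟩
    · rw [Finset.prod_range_succ, mul_assoc]
      exact hSmass.trans (by gcongr)
    · intro i hi e he e' he' hd
      rcases Nat.lt_succ_iff_lt_or_eq.1 hi with hlt | rfl
      · exact hSsep i hlt e he.1 e' he'.1 hd
      · have hw := hs i hML
        have hcell : k6a_cell (s i) (Z e) = k6a_cell (s i) (Z e') :=
          k6a_cc_cell_eq hw hd (fun j => (congrFun he.2.1 j).trans (congrFun he'.2.1 j).symm)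
        refine k6a_cc_close hw ?_
        rw [he.2.2, he'.2.2, hcell]
    · intro e he e' he' hZe hYe
      have := hSdet e he e' he' hZe hYe
      simp only [k6a_cc_sel, Set.mem_ofPred_eq, hZe, hYe, this]

/-- the Lipschitz bound from the separations -/
theorem k6a_cc_lip (L : ℕ) (A B r d y : ℝ) (hA : 1 ≤ A) (hB : 0 ≤ B) (hd : 0 ≤ d) (hy : y ≤ 2 * B)
    (s : ℕ → ℝ) (h0 : s 0 = 1) (hL : s L = r) (hpos : ∀ i ≤ L, 0 < s i) (hA' : ∀ i < L, s i ≤ A * s (i + 1))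
    (hsep : ∀ i ≤ L, d ≤ s i → y ≤ s i) : y ≤ (A + 2 * B) * (d + r) := by
  have hr : 0 < r := hL ▸ hpos L le_rfl
  have key : ∀ k i, i + k = L → d ≤ s i → y ≤ (A + 2 * B) * (d + r) := by
    intro k
    induction k with
    | zero =>
      intro i hi hdi
      have hiL : i = L := by omega
      subst hiL
      have := hsep i le_rfl hdi
      rw [hL] at this
      nlinarith
    | succ k ih =>
      intro i hi hdi
      by_cases h : d ≤ s (i + 1)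
      · exact ih (i + 1) (by omega) h
      · have h' : s (i + 1) < d := not_le.1 h
        have h1 := hsep i (by omega) hdi
        have h2 := hA' i (by omega)
        nlinarith
  by_cases h1 : d ≤ 1
  · exact key L 0 (by omega) (h0 ▸ h1)
  · have h1' : 1 < d := not_le.1 h1
    nlinarith

theorem k6a_common_choice : k6a_common_choice_stmt := by
  intro Ω _ μ Ω₀ hΩ₀ D q L Z Y hZ hY B A r hB hA s h0 hL hpos _hmono hA' K hT
  obtain ⟨S, hSm, hSsub, hSmass, hSsep, hSdet⟩ := k6a_cc_iter μ Ω₀ hΩ₀ D q L Z Y hZ hY s hpos K hT (L + 1) le_rfl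
  refine ⟨S, hSm, hSsub, hSmass, ?_, hSdet⟩
  intro e he e' he'
  have hBe := hB e (hSsub he)
  have hBe' := hB e' (hSsub he')
  have hB0 : 0 ≤ B := (norm_nonneg _).trans hBe
  refine k6a_cc_lip L A B r _ _ hA hB0 (norm_nonneg _) ?_ s h0 hL hpos hA'
    (fun i hi hd => hSsep i (by omega) e he e' he' hd)
  calc ‖Y e - Y e'‖ ≤ ‖Y e‖ + ‖Y e'‖ := norm_sub_le _ _
    _ ≤ 2 * B := by linarith

end Claimed.Agent.R252
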