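/-
Leaf L-252-S6a-CURVE (row252, unit S6a, architect helper234), PROVED (helper43), nothing open.
Helpers: prefix `k6a_cv_`.

PROOF.  N = floor(Kl*T/w)+1 time pieces S i = {t : i T <= t N <= (i+1) T}; on a piece any two points of the curve are
within w in the sup norm, so each coordinate of the cell index takes at most two consecutive values (`k6a_cv_two`),
hence <= 2^n cells per piece (`k6a_cv_piece`, Fintype.piFinset).  F = biUnion over the pieces.
-/
import Claimed.Agent.R252.S6a.Contract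

namespace Claimed.Agent.R252

open MeasureTheory
open scoped ENNReal Classical

theorem k6a_cv_floor {x y : ℝ} (h : |x - y| ≤ 1) : ⌊x⌋ ≤ ⌊y⌋ + 1 := by
  rw [← Int.floor_add_one]
  exact Int.floor_le_floor (by linarith [(abs_le.1 h).2])

/-- a set of reals of diameter `≤ 1` has at most two floors -/
theorem k6a_cv_two {α : Type} (S : Set α) (f : α → ℝ) (h : ∀ s ∈ S, ∀ t ∈ S, |f s - f t| ≤ 1) :
    ∃ c : ℤ, ∀ t ∈ S, ⌊f t⌋ = c ∨ ⌊f t⌋ = c + 1 := by
  rcases S.eq_empty_or_nonempty with rfl | ⟨t0, ht0⟩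
  · exact ⟨0, fun t ht => absurd ht (Set.notMem_empty t)⟩
  by_cases hx : ∃ t1 ∈ S, ⌊f t1⌋ = ⌊f t0⌋ - 1
  · obtain ⟨t1, ht1, e1⟩ := hx
    refine ⟨⌊f t0⌋ - 1, fun t ht => ?_⟩
    have a1 := k6a_cv_floor (h t ht t1 ht1)
    have a2 := k6a_cv_floor (h t0 ht0 t ht)
    omega
  · refine ⟨⌊f t0⌋, fun t ht => ?_⟩
    have a1 := k6a_cv_floor (h t ht t0 ht0)
    have a2 := k6a_cv_floor (h t0 ht0 t ht)
    have a3 : ⌊f t⌋ ≠ ⌊f t0⌋ - 1 := fun e => hx ⟨t, ht, e⟩
    omega

/-- a piece of diameter `≤ w` meets at most `2 ^ n` cells -/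
theorem k6a_cv_piece {α : Type} (n : ℕ) (γ : α → Fin n → ℝ) (w : ℝ) (hw : 0 < w) (S : Set α)
    (h : ∀ s ∈ S, ∀ t ∈ S, ‖γ s - γ t‖ ≤ w) :
    ∃ F : Finset (Fin n → ℤ), F.card ≤ 2 ^ n ∧ ∀ t ∈ S, k6a_cell w (γ t) ∈ F := by
  have h1 : ∀ j : Fin n, ∃ c : ℤ, ∀ t ∈ S, ⌊γ t j / w⌋ = c ∨ ⌊γ t j / w⌋ = c + 1 := by
    intro j
    refine k6a_cv_two S (fun t => γ t j / w) fun s hs t ht => ?_
    have h2 : |γ s j - γ t j| ≤ w := le_trans (norm_le_pi_norm (γ s - γ t) j) (h s hs t ht)
    rw [← sub_div, abs_div, abs_of_pos hw, div_le_one hw]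
    exact h2
  choose c hc using h1
  refine ⟨Fintype.piFinset fun j => {c j, c j + 1}, ?_, fun t ht => ?_⟩
  · rw [Fintype.card_piFinset]
    calc ∏ j : Fin n, ({c j, c j + 1} : Finset ℤ).card ≤ ∏ _j : Fin n, 2 :=
          Finset.prod_le_prod' fun j _ => Finset.card_le_two
      _ = 2 ^ n := by simp
  · rw [Fintype.mem_piFinset]
    intro j
    rw [Finset.mem_insert, Finset.mem_singleton]
    exact hc j t ht

theorem k6a_curve_cells : k6a_curve_cells_stmt := by
  intro n γ Kl T w hK hT hw hL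
  set x : ℝ := Kl * T / w with hx
  have hx0 : 0 ≤ x := by positivity
  set N : ℕ := ⌊x⌋₊ + 1 with hN
  have hN1 : (N : ℝ) ≤ x + 1 := by
    rw [hN]; push_cast
    linarith [Nat.floor_le hx0]
  have hN2 : x ≤ N := by
    rw [hN]; push_cast
    exact (Nat.lt_floor_add_one x).le
  have hN0 : (0 : ℝ) < N := by rw [hN]; positivity
  have hKT : Kl * T ≤ N * w := by
    rw [hx, div_le_iff₀ hw] at hN2
    exact hN2
  -- the pieces
  let S : ℕ → Set ℝ := fun i => {t | t ∈ Set.Icc 0 T ∧ (i : ℝ) * T ≤ t * N ∧ t * N ≤ ((i : ℝ) + 1) * T}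
  have hS : ∀ i, ∀ s ∈ S i, ∀ t ∈ S i, ‖γ s - γ t‖ ≤ w := by
    intro i s hs t ht
    refine (hL s hs.1 t ht.1).trans ?_
    have h1 : |s - t| * N ≤ T := by
      have : |s - t| * N = |s * N - t * N| := by
        rw [← sub_mul, abs_mul, abs_of_pos hN0]
      rw [this, abs_le]
      constructor <;> nlinarith [hs.2.1, hs.2.2, ht.2.1, ht.2.2]
    have h2 : Kl * |s - t| * N ≤ w * N := by
      calc Kl * |s - t| * N = Kl * (|s - t| * N) := by ring
        _ ≤ Kl * T := mul_le_mul_of_nonneg_left h1 hK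
        _ ≤ w * N := by linarith
    exact le_of_mul_le_mul_right h2 hN0
  have hF := fun i => k6a_cv_piece n γ w hw (S i) (hS i)
  choose F hF1 hF2 using hF
  refine ⟨(Finset.range N).biUnion F, ?_, fun t ht => ?_⟩
  · have h1 : ((Finset.range N).biUnion F).card ≤ N * 2 ^ n := by
      refine Finset.card_biUnion_le.trans ?_
      refine (Finset.sum_le_sum fun i _ => hF1 i).trans ?_
      rw [Finset.sum_const, Finset.card_range, smul_eq_mul]
    have h2 : (((Finset.range N).biUnion F).card : ℝ) ≤ (N : ℝ) * 2 ^ n := by exact_mod_cast h1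
    refine h2.trans ?_
    rw [mul_comm]
    exact mul_le_mul_of_nonneg_left hN1 (by positivity)
  · rw [Finset.mem_biUnion]
    -- the index of the piece
    have hex : ∃ i < N, (i : ℝ) * T ≤ t * N ∧ t * N ≤ ((i : ℝ) + 1) * T := by
      rcases hT.eq_or_lt with h0 | h0
      · have ht0 : t = 0 := le_antisymm (h0 ▸ ht.2) ht.1
        refine ⟨0, by rw [hN]; omega, ?_, ?_⟩ <;> rw [ht0, ← h0] <;> simp
      · set u : ℝ := t * N / T with hu
        have hu0 : 0 ≤ u := div_nonneg (mul_nonneg ht.1 hN0.le) h0.le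
        have huT : u * T = t * N := by rw [hu]; field_simp
        have huN : u ≤ N := by
          rw [hu, div_le_iff₀ h0, mul_comm]
          exact mul_le_mul_of_nonneg_left ht.2 hN0.le
        by_cases hk : ⌊u⌋₊ < N
        · refine ⟨⌊u⌋₊, hk, ?_, ?_⟩
          · rw [← huT]
            exact mul_le_mul_of_nonneg_right (Nat.floor_le hu0) h0.le
          · rw [← huT]
            exact mul_le_mul_of_nonneg_right (Nat.lt_floor_add_one u).le h0.le
        · have hk' : (N : ℝ) ≤ u := by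
            have : N ≤ ⌊u⌋₊ := not_lt.1 hk
            exact le_trans (by exact_mod_cast this) (Nat.floor_le hu0)
          have huN' : u = N := le_antisymm huN hk'
          refine ⟨⌊x⌋₊, by rw [hN]; omega, ?_, ?_⟩
          · rw [← huT, huN', hN]
            push_cast
            nlinarith
          · rw [← huT, huN', hN]
            push_cast
            exact le_rfl
    obtain ⟨i, hi, h1, h2⟩ := hex
    exact ⟨i, Finset.mem_range.2 hi, hF2 i t ⟨ht, h1, h2⟩⟩

end Claimed.Agent.R252
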