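/-
Leaf L-252-S6a-DET (row252, unit S6a, architect helper234).
ALL FIVE PROVED (helper139).
Helpers: prefix `k6a_det_`.  Never edit Contract.lean; a false or awkward statement = one line to
helper234.  Statements of other leaves may be used as hypotheses `(h : k6a_xxx_stmt)` in helper
lemmas until their files are on main; the final theorem must have exactly the type given here.

PLAN.
(same file: `k6a_inv_entry_bound`, `k6a_det_perturb`, `k6a_plane_graph`, `k6a_graph_row`, each `:
<name>_stmt`.) (1) M = of u * (of e)^T has M i j = u i dot e j, upper triangular => det M = prod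
diag (Matrix.det_of_upperTriangular, BlockTriangular), det M = det U * det E, |det U| <= n! by
Matrix.det_le with abv = abs, x = 1. (2) A^-1 = det^-1 * adjugate (Matrix.inv_def), adjugate_apply
= det of updateRow with Pi.single, entries <= K, Matrix.det_le. (3) det_apply, |prod a - prod b|
<= sum |a_i - b_i| for factors in [-1,1] (Finset induction), card perms = n!. (4) nu_b = V^-1 (eps
- nu_l x), |nu_b j| <= m*Lam*(eta + K|nu_l|) with Lam from (2), 1 <= sum|nu_b j| + |nu_l| from the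
unit condition. (5) division by nu_l. ~250 lines.
-/
import Claimed.Agent.R252.S6a.Contract

namespace Claimed.Agent.R252

open MeasureTheory
open scoped ENNReal Classical

theorem k6a_det_abs_le {n : ℕ} (A : Matrix (Fin n) (Fin n) ℝ) (K : ℝ) (h : ∀ i j, |A i j| ≤ K) :
    |A.det| ≤ (n.factorial : ℝ) * K ^ n := by
  have := Matrix.det_le (A := A) (abv := AbsoluteValue.abs) (x := K) h
  simpa [nsmul_eq_mul] using this

theorem k6a_det_ge_of_triangular : k6a_det_ge_of_triangular_stmt := by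
  intro n e u η hη hu htri hdiag
  have hM : ∀ i j, (Matrix.of u * (Matrix.of e).transpose) i j = u i ⬝ᵥ e j := fun i j => rfl
  have hdet : (Matrix.of u * (Matrix.of e).transpose).det = ∏ i, u i ⬝ᵥ e i := by
    rw [Matrix.det_of_isUpperTriangular]
    · rfl
    · intro i j hij
      exact htri i j hij
  rw [Matrix.det_mul, Matrix.det_transpose] at hdet
  have h1 : η ^ n ≤ |∏ i, u i ⬝ᵥ e i| := by
    rw [Finset.abs_prod]
    calc η ^ n = ∏ _i : Fin n, η := by simp
      _ ≤ ∏ i, |u i ⬝ᵥ e i| := Finset.prod_le_prod (fun _ _ => hη) fun i _ => hdiag i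
  rw [← hdet, abs_mul] at h1
  have h2 : |(Matrix.of u).det| ≤ (n.factorial : ℝ) * 1 ^ n := k6a_det_abs_le _ 1 hu
  rw [one_pow, mul_one] at h2
  exact h1.trans (mul_le_mul_of_nonneg_right h2 (abs_nonneg _))

theorem k6a_inv_entry_bound : k6a_inv_entry_bound_stmt := by
  intro m A K δ hK hδ hA hdet i j
  rw [Matrix.inv_def, Matrix.smul_apply, Ring.inverse_eq_inv', smul_eq_mul, abs_mul, abs_inv, Matrix.adjugate_apply]
  have h1 : |(A.updateRow j (Pi.single i 1)).det| ≤ (m.factorial : ℝ) * K ^ m := by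
    refine k6a_det_abs_le _ K fun a b => ?_
    rw [Matrix.updateRow_apply]
    split_ifs with h
    · by_cases hb : b = i
      · subst hb
        simpa using hK
      · rw [Pi.single_eq_of_ne hb]
        simpa using le_trans zero_le_one hK
    · exact hA a b
  have h0 : 0 < |A.det| := lt_of_lt_of_le hδ hdet
  rw [inv_mul_eq_div]
  exact div_le_div₀ (by positivity) h1 hδ hdet

theorem k6a_det_prod_sub {ι : Type} (s : Finset ι) (a b : ι → ℝ) (ha : ∀ i ∈ s, |a i| ≤ 1) (hb : ∀ i ∈ s, |b i| ≤ 1) :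
    |∏ i ∈ s, a i - ∏ i ∈ s, b i| ≤ ∑ i ∈ s, |a i - b i| := by
  induction s using Finset.induction_on with
  | empty => simp
  | insert x s hx ih =>
    rw [Finset.prod_insert hx, Finset.prod_insert hx, Finset.sum_insert hx]
    have ih' := ih (fun i hi => ha i (Finset.mem_insert_of_mem hi)) (fun i hi => hb i (Finset.mem_insert_of_mem hi))
    have e : a x * ∏ i ∈ s, a i - b x * ∏ i ∈ s, b i = (a x - b x) * ∏ i ∈ s, a i + b x * (∏ i ∈ s, a i - ∏ i ∈ s, b i) := by ring
    have hp : |∏ i ∈ s, a i| ≤ 1 := by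
      rw [Finset.abs_prod]
      exact Finset.prod_le_one (fun _ _ => abs_nonneg _) fun i hi => ha i (Finset.mem_insert_of_mem hi)
    rw [e]
    refine (abs_add_le _ _).trans (add_le_add ?_ ?_)
    · rw [abs_mul]
      exact mul_le_of_le_one_right (abs_nonneg _) hp
    · rw [abs_mul]
      exact (mul_le_of_le_one_left (abs_nonneg _) (hb x (Finset.mem_insert_self _ _))).trans ih'

theorem k6a_det_perturb : k6a_det_perturb_stmt := by
  intro n A B δ hA hB hAB
  rw [Matrix.det_apply, Matrix.det_apply, ← Finset.sum_sub_distrib]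
  refine (Finset.abs_sum_le_sum_abs _ _).trans ?_
  have h : ∀ σ : Equiv.Perm (Fin n), |Equiv.Perm.sign σ • ∏ i, A (σ i) i - Equiv.Perm.sign σ • ∏ i, B (σ i) i| ≤ n * δ := by
    intro σ
    rw [← smul_sub]
    have e : |Equiv.Perm.sign σ • (∏ i, A (σ i) i - ∏ i, B (σ i) i)| = |∏ i, A (σ i) i - ∏ i, B (σ i) i| := by
      rcases Int.units_eq_one_or (Equiv.Perm.sign σ) with h | h <;> rw [h] <;> simp [abs_sub_comm]
    rw [e]
    refine (k6a_det_prod_sub _ _ _ (fun i _ => hA _ _) fun i _ => hB _ _).trans ?_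
    calc ∑ i, |A (σ i) i - B (σ i) i| ≤ ∑ _i : Fin n, δ := Finset.sum_le_sum fun i _ => hAB _ _
      _ = n * δ := by simp
  calc ∑ σ : Equiv.Perm (Fin n), |Equiv.Perm.sign σ • ∏ i, A (σ i) i - Equiv.Perm.sign σ • ∏ i, B (σ i) i|
      ≤ ∑ _σ : Equiv.Perm (Fin n), (n * δ) := Finset.sum_le_sum fun σ _ => h σ
    _ = n * n.factorial * δ := by
      simp [Fintype.card_perm]
      ring

theorem k6a_det_unit_le {m : ℕ} (νb : Fin m → ℝ) (νl : ℝ) (h : νb ⬝ᵥ νb + νl ^ 2 = 1) : (∀ j, |νb j| ≤ 1) ∧ |νl| ≤ 1 := by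
  have h0 : ∀ j, 0 ≤ νb j * νb j := fun j => mul_self_nonneg _
  have hs : 0 ≤ νb ⬝ᵥ νb := Finset.sum_nonneg fun j _ => h0 j
  constructor
  · intro j
    have h1 : νb j * νb j ≤ νb ⬝ᵥ νb := Finset.single_le_sum (f := fun j => νb j * νb j) (fun j _ => h0 j) (Finset.mem_univ j)
    have h2 : νb j ^ 2 ≤ 1 := by nlinarith [sq_nonneg νl]
    exact abs_le_one_iff_mul_self_le_one.2 (by nlinarith)
  · exact abs_le_one_iff_mul_self_le_one.2 (by nlinarith)

theorem k6a_plane_graph : k6a_plane_graph_stmt := by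
  intro m V x νb νl K δ η hK hδ hη hV hdet hx hunit hpl hsmall
  obtain ⟨hb1, hl1⟩ := k6a_det_unit_le νb νl hunit
  set Lam : ℝ := (m.factorial : ℝ) * K ^ m / δ with hLam
  have hLam0 : 0 ≤ Lam := by rw [hLam]; positivity
  have hinv : ∀ i j, |V⁻¹ i j| ≤ Lam := k6a_inv_entry_bound m V K δ hK hδ hV hdet
  have hunitV : IsUnit V.det := by
    refine isUnit_iff_ne_zero.2 fun h0 => ?_
    rw [h0, abs_zero] at hdet
    linarith
  -- `νb = V⁻¹ (V νb)`
  have hrep : ∀ j, νb j = ∑ i, V⁻¹ j i * (V i ⬝ᵥ νb) := by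
    intro j
    have : V⁻¹.mulVec (V.mulVec νb) = νb := by
      rw [Matrix.mulVec_mulVec, Matrix.nonsing_inv_mul _ hunitV, Matrix.one_mulVec]
    exact (congrFun this j).symm
  have hVb : ∀ i, |V i ⬝ᵥ νb| ≤ η + K * |νl| := by
    intro i
    have e : V i ⬝ᵥ νb = (V i ⬝ᵥ νb + x i * νl) - x i * νl := by ring
    rw [e]
    refine (abs_sub _ _).trans (add_le_add (hpl i) ?_)
    rw [abs_mul]
    exact mul_le_mul_of_nonneg_right (hx i) (abs_nonneg _)
  have hq0 : 0 ≤ η + K * |νl| := by positivity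
  have hbj : ∀ j, |νb j| ≤ m * (Lam * (η + K * |νl|)) := by
    intro j
    rw [hrep j]
    refine (Finset.abs_sum_le_sum_abs _ _).trans ?_
    calc ∑ i, |V⁻¹ j i * (V i ⬝ᵥ νb)| ≤ ∑ _i : Fin m, Lam * (η + K * |νl|) :=
          Finset.sum_le_sum fun i _ => by
            rw [abs_mul]
            exact mul_le_mul (hinv j i) (hVb i) (abs_nonneg _) hLam0
      _ = m * (Lam * (η + K * |νl|)) := by simp
  have h1 : (1 : ℝ) ≤ ∑ j, |νb j| + |νl| := by
    rw [← hunit]
    refine add_le_add (Finset.sum_le_sum fun j _ => ?_) ?_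
    · rw [← abs_mul_abs_self]
      exact mul_le_of_le_one_left (abs_nonneg _) (hb1 j)
    · rw [← sq_abs, sq]
      exact mul_le_of_le_one_left (abs_nonneg _) hl1
  have h2 : ∑ j, |νb j| ≤ m * (m * (Lam * (η + K * |νl|))) := by
    calc ∑ j, |νb j| ≤ ∑ _j : Fin m, (m * (Lam * (η + K * |νl|)) : ℝ) := Finset.sum_le_sum fun j _ => hbj j
      _ = m * (m * (Lam * (η + K * |νl|))) := by simp
  nlinarith

theorem k6a_graph_row : k6a_graph_row_stmt := by
  intro m νb νl K' hunit hK hK0
  obtain ⟨hb1, -⟩ := k6a_det_unit_le νb νl hunit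
  have hl0 : 0 < |νl| := by
    rcases (abs_nonneg νl).eq_or_lt with h | h
    · rw [← h] at hK
      linarith
    · exact h
  have hne : νl ≠ 0 := abs_pos.1 hl0
  have hinv : 1 / |νl| ≤ K' := by
    rw [div_le_iff₀ hl0]
    exact hK
  constructor
  · intro j
    rw [abs_div, abs_neg]
    exact (div_le_div_of_nonneg_right (hb1 j) hl0.le).trans hinv
  · intro v x' η' h
    have e : x' - (fun j => -νb j / νl) ⬝ᵥ v = (v ⬝ᵥ νb + x' * νl) / νl := by
      have e1 : (fun j => -νb j / νl) ⬝ᵥ v = -(v ⬝ᵥ νb) / νl := by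
        simp only [dotProduct]
        rw [← Finset.sum_neg_distrib, Finset.sum_div]
        refine Finset.sum_congr rfl fun j _ => ?_
        ring
      rw [e1]
      field_simp
      ring
    rw [e, abs_div]
    have hη0 : 0 ≤ η' := (abs_nonneg _).trans h
    calc |v ⬝ᵥ νb + x' * νl| / |νl| ≤ η' / |νl| := div_le_div_of_nonneg_right h hl0.le
      _ = (1 / |νl|) * η' := by ring
      _ ≤ K' * η' := mul_le_mul_of_nonneg_right hinv hη0

end Claimed.Agent.R252
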