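/-
Leaf L-252-S6a-LAGC (row252, unit S6a, architect helper234), PROVED (helper43), nothing open.
Helpers: prefix `k6a_lc_`.

PROOF.  p = sum_i C(p(t_i)) * Lagrange.basis univ t i (Lagrange.eq_interpolate).  `k6a_lc_P q c`: all partial
l1 sums of the coefficients of q are <= c; it is stable under multiplication by C b * (X - C a) with the factor
|b| (1 + |a|) (`k6a_lc_mul`), so basis i = prod_{j != i} basisDivisor has the bound (2/g)^M (`k6a_lc_prod`).
-/
import Claimed.Agent.R252.S6a.Contract

namespace Claimed.Agent.R252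

open MeasureTheory
open scoped ENNReal Classical

/-- partial `l1` norms bounded by `c` -/
def k6a_lc_P (q : Polynomial ℝ) (c : ℝ) : Prop := ∀ d : ℕ, ∑ k ∈ Finset.range d, |q.coeff k| ≤ c

theorem k6a_lc_P_eqns_cite : True := by
  have := @k6a_lc_P.eq_1
  trivial

theorem k6a_lc_one : k6a_lc_P 1 1 := by
  intro d
  cases d with
  | zero => simp
  | succ d =>
    rw [Finset.sum_range_succ']
    have : ∑ k ∈ Finset.range d, |(1 : Polynomial ℝ).coeff (k + 1)| = 0 := by
      refine Finset.sum_eq_zero fun k _ => ?_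
      rw [Polynomial.coeff_one]
      simp
    rw [this]
    simp

theorem k6a_lc_coeff {q : Polynomial ℝ} {c : ℝ} (h : k6a_lc_P q c) (k : ℕ) : |q.coeff k| ≤ c :=
  le_trans (Finset.single_le_sum (f := fun k => |q.coeff k|) (fun _ _ => abs_nonneg _)
    (Finset.mem_range.2 (Nat.lt_succ_self k))) (h (k + 1))

theorem k6a_lc_mul {q : Polynomial ℝ} {c : ℝ} (h : k6a_lc_P q c) (b a : ℝ) :
    k6a_lc_P (q * (Polynomial.C b * (Polynomial.X - Polynomial.C a))) (c * (|b| * (1 + |a|))) := by
  intro d
  have hc : 0 ≤ c := le_trans (by simp) (h 0)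
  have e : q * (Polynomial.C b * (Polynomial.X - Polynomial.C a))
      = Polynomial.C b * (q * Polynomial.X) - Polynomial.C (b * a) * q := by
    rw [Polynomial.C_mul]; ring
  cases d with
  | zero =>
    simp only [Finset.range_zero, Finset.sum_empty]
    positivity
  | succ d =>
    rw [Finset.sum_range_succ', e]
    have h0 : |(Polynomial.C b * (q * Polynomial.X) - Polynomial.C (b * a) * q).coeff 0| = |b| * |a| * |q.coeff 0| := by
      rw [Polynomial.coeff_sub, Polynomial.coeff_C_mul, Polynomial.coeff_C_mul, Polynomial.coeff_mul_X_zero]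
      rw [mul_zero, zero_sub, abs_neg, abs_mul, abs_mul]
    have h1 : ∀ k, |(Polynomial.C b * (q * Polynomial.X) - Polynomial.C (b * a) * q).coeff (k + 1)|
        ≤ |b| * |q.coeff k| + |b| * |a| * |q.coeff (k + 1)| := by
      intro k
      rw [Polynomial.coeff_sub, Polynomial.coeff_C_mul, Polynomial.coeff_C_mul, Polynomial.coeff_mul_X]
      refine (abs_sub _ _).trans ?_
      rw [abs_mul, abs_mul, abs_mul]
    have h2 : ∑ k ∈ Finset.range d, |(Polynomial.C b * (q * Polynomial.X) - Polynomial.C (b * a) * q).coeff (k + 1)|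
        ≤ |b| * ∑ k ∈ Finset.range d, |q.coeff k| + |b| * |a| * ∑ k ∈ Finset.range d, |q.coeff (k + 1)| := by
      rw [Finset.mul_sum, Finset.mul_sum, ← Finset.sum_add_distrib]
      exact Finset.sum_le_sum fun k _ => h1 k
    have h3 := h (d + 1)
    rw [Finset.sum_range_succ'] at h3
    have h4 := h d
    rw [h0]
    have hb : 0 ≤ |b| := abs_nonneg b
    have hba : 0 ≤ |b| * |a| := by positivity
    nlinarith [mul_le_mul_of_nonneg_left h4 hb, mul_le_mul_of_nonneg_left h3 hba]

theorem k6a_lc_mono {q : Polynomial ℝ} {c c' : ℝ} (h : k6a_lc_P q c) (hc : c ≤ c') : k6a_lc_P q c' :=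
  fun d => (h d).trans hc

theorem k6a_lc_prod {M : ℕ} (t : Fin (M + 1) → ℝ) (g : ℝ) (hg : 0 < g) (ht : ∀ i, |t i| ≤ 1)
    (hgap : ∀ i j, i ≠ j → g ≤ |t i - t j|) (i : Fin (M + 1)) (s : Finset (Fin (M + 1))) (hs : i ∉ s) :
    k6a_lc_P (∏ j ∈ s, Lagrange.basisDivisor (t i) (t j)) ((2 / g) ^ s.card) := by
  induction s using Finset.induction_on with
  | empty => simpa using k6a_lc_one
  | insert j s hj ih =>
    rw [Finset.prod_insert hj, Finset.card_insert_of_notMem hj, mul_comm]
    have hij : i ≠ j := fun h => hs (h ▸ Finset.mem_insert_self _ _)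
    have his : i ∉ s := fun h => hs (Finset.mem_insert_of_mem h)
    have h1 := k6a_lc_mul (ih his) (t i - t j)⁻¹ (t j)
    unfold Lagrange.basisDivisor
    refine k6a_lc_mono h1 ?_
    rw [pow_succ]
    have h2 : 0 ≤ (2 / g) ^ s.card := by positivity
    refine mul_le_mul_of_nonneg_left ?_ h2
    rw [abs_inv]
    have h3 := hgap i j hij
    have h4 : |t i - t j|⁻¹ ≤ g⁻¹ := inv_anti₀ hg h3
    have h5 : 1 + |t j| ≤ 2 := by linarith [ht j]
    calc |t i - t j|⁻¹ * (1 + |t j|) ≤ g⁻¹ * 2 :=
          mul_le_mul h4 h5 (by positivity) (by positivity)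
      _ = 2 / g := by rw [div_eq_mul_inv, mul_comm]

theorem k6a_lagrange_coeff : k6a_lagrange_coeff_stmt := by
  intro M p hp t g ε hg ht hgap hε k
  have hinj : Set.InjOn t (Finset.univ : Finset (Fin (M + 1))) := by
    intro i _ j _ hij
    by_contra hne
    have := hgap i j hne
    rw [hij, sub_self, abs_zero] at this
    linarith
  have hdeg : p.degree < (Finset.univ : Finset (Fin (M + 1))).card := by
    rw [Finset.card_univ, Fintype.card_fin]
    refine lt_of_le_of_lt Polynomial.degree_le_natDegree ?_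
    exact_mod_cast Nat.lt_succ_of_le hp
  have hp' := Lagrange.eq_interpolate hinj hdeg
  rw [Lagrange.interpolate_apply] at hp'
  rw [hp', Polynomial.finsetSum_coeff]
  have hb : ∀ i : Fin (M + 1), |(Polynomial.C (p.eval (t i)) * Lagrange.basis Finset.univ t i).coeff k| ≤ (2 / g) ^ M * ε := by
    intro i
    rw [Polynomial.coeff_C_mul, abs_mul]
    have h1 := k6a_lc_coeff (k6a_lc_prod t g hg ht hgap i (Finset.univ.erase i) (Finset.notMem_erase _ _)) k
    rw [Finset.card_erase_of_mem (Finset.mem_univ _), Finset.card_univ, Fintype.card_fin, Nat.add_sub_cancel] at h1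
    rw [mul_comm]
    exact mul_le_mul h1 (hε i) (abs_nonneg _) (by positivity)
  refine (Finset.abs_sum_le_sum_abs _ _).trans ?_
  refine (Finset.sum_le_sum fun i _ => hb i).trans ?_
  rw [Finset.sum_const, Finset.card_univ, Fintype.card_fin, nsmul_eq_mul]
  push_cast
  rw [mul_assoc]

end Claimed.Agent.R252
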