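/-
Leaf L-252-S6a-PAY (proved, helper138) (row252, unit S6a, architect helper234).
Helpers: prefix `k6a_pay_`.  Never edit Contract.lean; a false or awkward statement = one line to
helper234.  Statements of other leaves may be used as hypotheses `(h : k6a_xxx_stmt)` in helper
lemmas until their files are on main; the final theorem must have exactly the type given here.

PLAN.
(also prove `theorem k6a_pay_count_fin : k6a_pay_count_fin_stmt` in the same file.) Measure form:
sum_b mu(A b) = lintegral of sum_b indicator(A b) 1 (lintegral_finset_sum +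
lintegral_indicator_one), the integrand is <= k pointwise (sum of indicators = card of the
filter), so card*c <= sum <= k*mu univ. Finite form: Finset.sum_comm on sum_b sum_{a, r b a} w a =
sum_a w a * card{b | r b a}. ~60 lines.
-/
import Claimed.Agent.R252.S6a.Contract

namespace Claimed.Agent.R252

open MeasureTheory
open scoped ENNReal Classical

theorem k6a_pay_count : k6a_pay_count_stmt := by
  intro Ω β _ μ s A hA k hk c hc
  have h1 : (s.card : ℝ≥0∞) * c ≤ ∑ b ∈ s, μ (A b) := by
    rw [← nsmul_eq_mul, ← Finset.sum_const]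
    exact Finset.sum_le_sum hc
  have h2 : ∑ b ∈ s, μ (A b) = ∫⁻ ω, ∑ b ∈ s, (A b).indicator 1 ω ∂μ := by
    rw [lintegral_finsetSum s fun b hb => measurable_one.indicator (hA b hb)]
    exact Finset.sum_congr rfl fun b hb => (lintegral_indicator_one (hA b hb)).symm
  have h3 : ∀ ω, ∑ b ∈ s, (A b).indicator (1 : Ω → ℝ≥0∞) ω ≤ k := by
    intro ω
    have e : ∑ b ∈ s, (A b).indicator (1 : Ω → ℝ≥0∞) ω = ((s.filter (fun b => ω ∈ A b)).card : ℝ≥0∞) := by
      rw [Finset.card_filter]
      push_cast
      refine Finset.sum_congr rfl fun b _ => ?_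
      by_cases h : ω ∈ A b <;> simp [h]
    rw [e]
    exact_mod_cast hk ω
  calc (s.card : ℝ≥0∞) * c ≤ ∑ b ∈ s, μ (A b) := h1
    _ = ∫⁻ ω, ∑ b ∈ s, (A b).indicator 1 ω ∂μ := h2
    _ ≤ ∫⁻ _, (k : ℝ≥0∞) ∂μ := lintegral_mono h3
    _ = k * μ Set.univ := by rw [lintegral_const]

theorem k6a_pay_count_fin : k6a_pay_count_fin_stmt := by
  intro α β s t w hw r k hk c hc
  have h1 : (s.card : ℝ) * c ≤ ∑ b ∈ s, ∑ a ∈ t.filter (fun a => r b a), w a := by
    rw [← nsmul_eq_mul, ← Finset.sum_const]
    exact Finset.sum_le_sum hc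
  have h2 : ∑ b ∈ s, ∑ a ∈ t.filter (fun a => r b a), w a = ∑ a ∈ t, ((s.filter (fun b => r b a)).card : ℝ) * w a := by
    simp only [Finset.sum_filter]
    rw [Finset.sum_comm]
    refine Finset.sum_congr rfl fun a _ => ?_
    rw [← Finset.sum_filter, Finset.sum_const, nsmul_eq_mul]
  rw [Finset.mul_sum]
  refine h1.trans (h2.le.trans (Finset.sum_le_sum fun a ha => ?_))
  exact mul_le_mul_of_nonneg_right (by exact_mod_cast hk a ha) (hw a ha)

end Claimed.Agent.R252
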