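/-
Leaf L-252-S6a-RTIMES (row252, unit S6a, architect helper234), PROVED (helper219).  Helpers: prefix `k6a_rt_`.
vol(A^(M+1)) = (vol A)^(M+1); the bad set is the union over the pairs i < j of {t in [0,1]^(M+1) | |t i - t j| < g},
each of volume <= 2g (piFinSuccAbove + Fubini); at most (M+1)^2/2 pairs.
-/
import Claimed.Agent.R252.S6a.Contract

namespace Claimed.Agent.R252

open MeasureTheory
open scoped ENNReal Classical

/-- two coordinates of a point of the unit cube are `g`-close: volume `≤ 2 g` -/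
theorem k6a_rt_pair (M : ℕ) (i j : Fin (M + 1)) (hij : i ≠ j) (g : ℝ) :
    (volume : Measure (Fin (M + 1) → ℝ)) {t | (∀ k, t k ∈ Set.Icc (0 : ℝ) 1) ∧ |t i - t j| < g}
      ≤ ENNReal.ofReal (2 * g) := by
  obtain ⟨j', hj'⟩ := Fin.exists_succAbove_eq (Ne.symm hij)
  obtain ⟨e, he⟩ : ∃ e, e = MeasurableEquiv.piFinSuccAbove (fun _ : Fin (M + 1) => ℝ) i := ⟨_, rfl⟩
  have hmp : MeasurePreserving e volume volume := by
    rw [he]
    exact volume_preserving_piFinSuccAbove (fun _ : Fin (M + 1) => ℝ) i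
  obtain ⟨Q, hQ⟩ : ∃ Q : Set (Fin M → ℝ), Q = Set.pi Set.univ fun _ => Set.Icc (0 : ℝ) 1 := ⟨_, rfl⟩
  have hQm : MeasurableSet Q := by
    rw [hQ]
    exact MeasurableSet.univ_pi fun _ => measurableSet_Icc
  have hQ1 : volume Q = 1 := by
    rw [hQ, volume_pi_pi]
    simp
  obtain ⟨S', hS'⟩ : ∃ S' : Set (ℝ × (Fin M → ℝ)), S' = {p | p.2 ∈ Q ∧ |p.1 - p.2 j'| < g} := ⟨_, rfl⟩
  have hsub : {t : Fin (M + 1) → ℝ | (∀ k, t k ∈ Set.Icc (0 : ℝ) 1) ∧ |t i - t j| < g} ⊆ e ⁻¹' S' := by
    intro t ht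
    rw [hS', he]
    refine ⟨?_, ?_⟩
    · rw [hQ]
      intro k _
      exact ht.1 _
    · show |t i - t (i.succAbove j')| < g
      rw [hj']
      exact ht.2
  have hS'm : MeasurableSet S' := by
    have h1 : MeasurableSet (Prod.snd ⁻¹' Q : Set (ℝ × (Fin M → ℝ))) := measurable_snd hQm
    have h2 : IsOpen {p : ℝ × (Fin M → ℝ) | |p.1 - p.2 j'| < g} := isOpen_lt (by fun_prop) continuous_const
    rw [hS']
    exact h1.inter h2.measurableSet
  calc (volume : Measure (Fin (M + 1) → ℝ)) {t | (∀ k, t k ∈ Set.Icc (0 : ℝ) 1) ∧ |t i - t j| < g}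
      ≤ volume (e ⁻¹' S') := measure_mono hsub
    _ = volume S' := hmp.measure_preimage_equiv S'
    _ = ∫⁻ y, volume ((fun x => (x, y)) ⁻¹' S') := by
        rw [Measure.volume_eq_prod, Measure.prod_apply_symm hS'm]
    _ ≤ ∫⁻ y, Q.indicator (fun _ => ENNReal.ofReal (2 * g)) y := by
        refine lintegral_mono fun y => ?_
        by_cases hy : y ∈ Q
        · rw [Set.indicator_of_mem hy]
          have h3 : (fun x => (x, y)) ⁻¹' S' ⊆ Set.Ioo (y j' - g) (y j' + g) := by
            intro x hx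
            rw [hS'] at hx
            have h4 := abs_lt.1 hx.2
            exact ⟨by linarith [h4.1], by linarith [h4.2]⟩
          refine (measure_mono h3).trans (le_of_eq ?_)
          rw [Real.volume_Ioo]
          congr 1
          ring
        · rw [Set.indicator_of_notMem hy]
          have h3 : (fun x => (x, y)) ⁻¹' S' = ∅ := by
            ext x
            rw [hS']
            constructor
            · intro hx
              exact absurd hx.1 hy
            · intro hx
              exact absurd hx (Set.notMem_empty x)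
          rw [h3, measure_empty]
    _ = ENNReal.ofReal (2 * g) * volume Q := lintegral_indicator_const hQm _
    _ = ENNReal.ofReal (2 * g) := by rw [hQ1, mul_one]

theorem k6a_random_times : k6a_random_times_stmt := by
  intro M A hA hA1 g hg
  obtain ⟨P, hP⟩ : ∃ P : Finset (Fin (M + 1) × Fin (M + 1)), P = Finset.univ.filter fun p => p.1 < p.2 := ⟨_, rfl⟩
  obtain ⟨S, hS⟩ : ∃ S : Fin (M + 1) × Fin (M + 1) → Set (Fin (M + 1) → ℝ),
      S = fun p => {t | (∀ k, t k ∈ Set.Icc (0 : ℝ) 1) ∧ |t p.1 - t p.2| < g} := ⟨_, rfl⟩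
  have hsub : (Set.pi Set.univ fun _ : Fin (M + 1) => A) \ ⋃ p ∈ P, S p
      ⊆ {t | (∀ i, t i ∈ A) ∧ ∀ i j, i ≠ j → g ≤ |t i - t j|} := by
    intro t ht
    have h1 : ∀ i, t i ∈ A := fun i => ht.1 i (Set.mem_univ i)
    refine ⟨h1, fun i j hij => ?_⟩
    by_contra hc
    have hc' : |t i - t j| < g := not_le.1 hc
    apply ht.2
    rcases lt_or_gt_of_ne hij with h | h
    · refine Set.mem_biUnion (x := (i, j)) ?_ ?_
      · rw [hP]
        exact Finset.mem_coe.2 (Finset.mem_filter.2 ⟨Finset.mem_univ _, h⟩)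
      · rw [hS]
        exact ⟨fun k => hA1 (h1 k), hc'⟩
    · refine Set.mem_biUnion (x := (j, i)) ?_ ?_
      · rw [hP]
        exact Finset.mem_coe.2 (Finset.mem_filter.2 ⟨Finset.mem_univ _, h⟩)
      · rw [hS]
        exact ⟨fun k => hA1 (h1 k), by rw [abs_sub_comm]; exact hc'⟩
  have hcard : 2 * P.card ≤ (M + 1) ^ 2 := by
    have h1 : (P.image Prod.swap).card = P.card := Finset.card_image_of_injective _ Prod.swap_injective
    have h2 : Disjoint P (P.image Prod.swap) := by
      rw [Finset.disjoint_left]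
      intro p hp hp'
      obtain ⟨q, hq, rfl⟩ := Finset.mem_image.1 hp'
      rw [hP] at hp hq
      have a1 : q.2 < q.1 := (Finset.mem_filter.1 hp).2
      have a2 : q.1 < q.2 := (Finset.mem_filter.1 hq).2
      exact absurd a1 (not_lt.2 a2.le)
    have h3 : (P ∪ P.image Prod.swap).card ≤ (M + 1) ^ 2 := by
      refine (Finset.card_le_univ _).trans (le_of_eq ?_)
      rw [Fintype.card_prod, Fintype.card_fin, sq]
    rw [Finset.card_union_of_disjoint h2, h1] at h3
    omega
  have hAfin : volume A ≠ ⊤ :=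
    ((measure_mono hA1).trans_lt (by rw [Real.volume_Icc]; exact ENNReal.ofReal_lt_top)).ne
  have hpi : (volume : Measure (Fin (M + 1) → ℝ)) (Set.pi Set.univ fun _ => A) = volume A ^ (M + 1) := by
    rw [volume_pi_pi, Finset.prod_const, Finset.card_univ, Fintype.card_fin]
  have hbad : (volume : Measure (Fin (M + 1) → ℝ)) (⋃ p ∈ P, S p) ≤ ENNReal.ofReal (((M : ℝ) + 1) ^ 2 * g) := by
    calc (volume : Measure (Fin (M + 1) → ℝ)) (⋃ p ∈ P, S p) ≤ ∑ p ∈ P, volume (S p) := measure_biUnion_finset_le _ _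
      _ ≤ ∑ _p ∈ P, ENNReal.ofReal (2 * g) := Finset.sum_le_sum fun p hp => by
          rw [hP] at hp
          rw [hS]
          exact k6a_rt_pair M p.1 p.2 (ne_of_lt (Finset.mem_filter.1 hp).2) g
      _ = P.card * ENNReal.ofReal (2 * g) := by rw [Finset.sum_const, nsmul_eq_mul]
      _ = ENNReal.ofReal (P.card * (2 * g)) := by
          rw [ENNReal.ofReal_mul (p := (P.card : ℝ)) (by positivity), ENNReal.ofReal_natCast]
      _ ≤ ENNReal.ofReal (((M : ℝ) + 1) ^ 2 * g) := ENNReal.ofReal_le_ofReal (by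
          have h5 : (2 * P.card : ℝ) ≤ ((M : ℝ) + 1) ^ 2 := by exact_mod_cast hcard
          nlinarith)
  calc ENNReal.ofReal ((volume A).toReal ^ (M + 1) - ((M : ℝ) + 1) ^ 2 * g)
      = volume A ^ (M + 1) - ENNReal.ofReal (((M : ℝ) + 1) ^ 2 * g) := by
        rw [ENNReal.ofReal_sub _ (by positivity), ENNReal.ofReal_pow ENNReal.toReal_nonneg, ENNReal.ofReal_toReal hAfin]
    _ ≤ (volume : Measure (Fin (M + 1) → ℝ)) (Set.pi Set.univ fun _ => A) - volume (⋃ p ∈ P, S p) := by
        rw [hpi]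
        exact tsub_le_tsub_left hbad _
    _ ≤ volume ((Set.pi Set.univ fun _ : Fin (M + 1) => A) \ ⋃ p ∈ P, S p) := le_measure_sdiff
    _ ≤ _ := measure_mono hsub

end Claimed.Agent.R252
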