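/-
Leaf L-252-S6a-FIBRE (row252, unit S6a, architect helper234; proved by helper5).
Helpers: prefix `k6a_fl_`.

PROOF.
From k6a_pay_count, k6a_lagrange_coeff, k6a_random_times. Omega = Fin (M+1) -> R, mu = volume.restrict (pi univ (Icc 0 1)) (mass 1),
A p = {t | all t i in Wt p, gaps >= g}: mu(A p) >= kappa^(M+1) - (M+1)^2 g >= kappa^(M+1)/2. For fixed t the map p
|-> (chosen phi_i in Phi (t i)) is injective on {p | t in A p}: same choice => |(p-q)(t i)| <= 2
eps => all coefficients of p-q <= (M+1)(2/g)^M 2 eps, contradiction with separation; target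
Fintype.piFinset (Phi o t) has card <= K0^(M+1).
-/
import Claimed.Agent.R252.S6a.Contract
import Claimed.Agent.R252.S6a.Pay
import Claimed.Agent.R252.S6a.LagC
import Claimed.Agent.R252.S6a.RTimes

namespace Claimed.Agent.R252

open MeasureTheory
open scoped ENNReal Classical

theorem k6a_fl_main (h1 : k6a_pay_count_stmt) (h2 : k6a_lagrange_coeff_stmt) (h3 : k6a_random_times_stmt) :
    k6a_fibre_list_stmt := by
  intro M polys hdeg Wt hWm hW01 κ hκ hWκ Φ K0 hΦ ε hfol g hg hgκ hsep
  set box : Set (Fin (M + 1) → ℝ) := Set.pi Set.univ (fun _ => Set.Icc (0 : ℝ) 1) with hbox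
  set μ : Measure (Fin (M + 1) → ℝ) := volume.restrict box with hμ
  set A : Polynomial ℝ → Set (Fin (M + 1) → ℝ) :=
    fun p => {t | (∀ i, t i ∈ Wt p) ∧ ∀ i j, i ≠ j → g ≤ |t i - t j|} with hA
  have hμ1 : μ Set.univ = 1 := by
    rw [hμ, Measure.restrict_apply_univ, hbox, MeasureTheory.volume_pi_pi]
    simp
  have hAm : ∀ p ∈ polys, MeasurableSet (A p) := by
    intro p hp
    have e : A p = (⋂ i, (fun t : Fin (M + 1) → ℝ => t i) ⁻¹' Wt p)
        ∩ ⋂ i, ⋂ j, {t : Fin (M + 1) → ℝ | i ≠ j → g ≤ |t i - t j|} := by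
      ext t
      simp only [hA, Set.mem_ofPred_eq, Set.mem_inter_iff, Set.mem_iInter, Set.mem_preimage]
    rw [e]
    refine MeasurableSet.inter (MeasurableSet.iInter fun i => (measurable_pi_apply i) (hWm p hp))
      (MeasurableSet.iInter fun i => MeasurableSet.iInter fun j => ?_)
    by_cases hij : i = j
    · simp [hij]
    · have e2 : {t : Fin (M + 1) → ℝ | i ≠ j → g ≤ |t i - t j|} = {t : Fin (M + 1) → ℝ | g ≤ |t i - t j|} := by
        ext t
        simp [hij]
      rw [e2]
      exact measurableSet_le measurable_const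
        (continuous_abs.measurable.comp ((measurable_pi_apply i).sub (measurable_pi_apply j)))
  have hAc : ∀ p ∈ polys, ENNReal.ofReal (κ ^ (M + 1) / 2) ≤ μ (A p) := by
    intro p hp
    have hsub : A p ⊆ box := fun t ht i _ => hW01 p hp (ht.1 i)
    rw [hμ, Measure.restrict_apply (hAm p hp), Set.inter_eq_self_of_subset_left hsub]
    refine le_trans (ENNReal.ofReal_le_ofReal ?_) (h3 M (Wt p) (hWm p hp) (hW01 p hp) g hg.le)
    have : κ ^ (M + 1) ≤ (volume (Wt p)).toReal ^ (M + 1) := pow_le_pow_left₀ hκ.le (hWκ p hp) _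
    linarith
  have hcount : ∀ t, (polys.filter (fun p => t ∈ A p)).card ≤ K0 ^ (M + 1) := by
    intro t
    have hch : ∀ p ∈ polys.filter (fun p => t ∈ A p), ∀ i, ∃ φ ∈ Φ (t i), |p.eval (t i) - φ| ≤ ε := by
      intro p hp i
      rw [Finset.mem_filter] at hp
      exact hfol p hp.1 (t i) (hp.2.1 i)
    let f : Polynomial ℝ → Fin (M + 1) → ℝ :=
      fun p i => if h : p ∈ polys.filter (fun p => t ∈ A p) then (hch p h i).choose else 0
    have hf : ∀ p (_ : p ∈ polys.filter (fun p => t ∈ A p)) i, f p i ∈ Φ (t i) ∧ |p.eval (t i) - f p i| ≤ ε := by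
      intro p h i
      simp only [f, dif_pos h]
      exact (hch p h i).choose_spec
    calc (polys.filter (fun p => t ∈ A p)).card ≤ (Fintype.piFinset (fun i => Φ (t i))).card := by
          refine Finset.card_le_card_of_injOn f ?_ ?_
          · intro p hp
            exact Finset.mem_coe.2 (Fintype.mem_piFinset.2 (fun i => (hf p hp i).1))
          · intro p hp q hq hpq
            by_contra hne
            have hp' := Finset.mem_filter.1 (Finset.mem_coe.1 hp)
            have hq' := Finset.mem_filter.1 (Finset.mem_coe.1 hq)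
            obtain ⟨k, hk⟩ := hsep p hp'.1 q hq'.1 hne
            have hb := h2 M (p - q) ((Polynomial.natDegree_sub_le_of_le (hdeg p hp'.1) (hdeg q hq'.1)).trans (le_of_eq (max_self M))) t g (2 * ε) hg
              (fun i => by
                have := hW01 p hp'.1 (hp'.2.1 i)
                rw [abs_le]
                exact ⟨by linarith [this.1], this.2⟩)
              hp'.2.2
              (fun i => by
                have a1 := (hf p hp i).2
                have a2 := (hf q hq i).2
                rw [hpq] at a1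
                rw [Polynomial.eval_sub]
                have e3 : p.eval (t i) - q.eval (t i) = (p.eval (t i) - f q i) - (q.eval (t i) - f q i) := by ring
                rw [e3]
                have := abs_sub (p.eval (t i) - f q i) (q.eval (t i) - f q i)
                linarith) k
            rw [Polynomial.coeff_sub] at hb
            linarith
      _ = ∏ i, (Φ (t i)).card := Fintype.card_piFinset _
      _ ≤ ∏ _i : Fin (M + 1), K0 := Finset.prod_le_prod' (fun i _ => hΦ _)
      _ = K0 ^ (M + 1) := by simp
  have key := h1 μ polys A hAm (K0 ^ (M + 1)) (fun t => by convert hcount t) (ENNReal.ofReal (κ ^ (M + 1) / 2)) hAc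
  rw [hμ1, mul_one] at key
  have hpos : 0 ≤ κ ^ (M + 1) / 2 := by positivity
  have h4 := ENNReal.toReal_mono (ENNReal.natCast_ne_top _) key
  rw [ENNReal.toReal_mul, ENNReal.toReal_natCast, ENNReal.toReal_ofReal hpos, ENNReal.toReal_natCast] at h4
  push_cast at h4
  exact h4

theorem k6a_fibre_list : k6a_fibre_list_stmt := k6a_fl_main k6a_pay_count k6a_lagrange_coeff k6a_random_times

end Claimed.Agent.R252
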