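import Claimed.Agent.R252.S5.Defs
import Claimed.Agent.R252.S6a.Contract

/-!
# ROW 252, unit S6a, post BP-252-S6a4 (06-isotropic.tex l.700-885; sub-architect helper198; prefix `k6a4_`), file 1: DEFINITIONS.   No `sorry`.

THE MODEL.   ONE parent (a parent is chosen FIRST: all inputs are upper bounds or summed budgets, see `k6a4_parent` in `Q4Top`), the language of Sec. 5 (`S5/Defs.lean`):
trajectories `l : Λ`, coefficients `c l : k5_Co j` IN PARENT COORDINATES (`X = k5_x`, `y = k5_y`, `V = k5_yd`, `X' = k5_xD 1`), prior `ν = ν°` (finite, mass `≤ 1`, never renormalised),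
incidence measure `λ(S) = k5_mass ν (S ∩ E)`, `E` = the labels retained at l.700 (inside the failure set), palette `π`.
* coefficient block `B_p` of `l`  = `k5_cbin p (c l)`;   velocity bin `[V]_p` = `k5_vbin p (k5_yd (c l))`.
* THE ZOOM of the block `B` of side `ρ`: `k6a4_zm ρ B c = c / ρ - B` (we subtract the LOWER CORNER of the block, not its centre: zoomed coefficients lie in `[0,1)`,
  and the aligned `r`-bins of the zoom, `r = 2^{-i}`, are exactly the blocks `B_{ρ r}`).   `x = k5_x (zm)`, `ỹ = k5_y (zm)` are `(X - X_c)/ρ`, `(y - y_c)/ρ` by linearity.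
* fine state `W_b` = an ABSTRACT label `w : Λ × ℝ → ι` (values in the finite set `Ws`, diameter `≤ b` in `(t, y, X)`), `G = (G0, Gy)` a function of the state.
* `F B` = the time-only row of the world `B`.
* residual velocity `R = k5_R (F B t) (zm) t`.
`k6a4_In` = everything that l.700-885 uses from l.50-700.   `k6a4_Sc` = the relations between the scales.
-/

set_option autoImplicit false

namespace Claimed.Agent.R252

open MeasureTheory Set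
open scoped BigOperators

variable {j : ℕ}

/-- index of a coefficient block -/
abbrev k6a4_Ix (j : ℕ) : Type := (Fin 3 → ℤ) × (Fin 2 → Fin j → ℤ)

/-- the zoom of the block `B` of side `ρ` -/
noncomputable def k6a4_zm (ρ : ℝ) (B : k6a4_Ix j) (c : k5_Co j) : k5_Co j :=
  (fun i => c.1 i / ρ - B.1 i, fun i a => c.2 i a / ρ - B.2 i a)

/-- the zoom of the own block -/
noncomputable def k6a4_own (ρ : ℝ) (c : k5_Co j) : k5_Co j := k6a4_zm ρ (k5_cbin ρ c) c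

open Classical in
/-- the zoom, put to `0` outside of the block (bounded coefficients on all of `Λ`) -/
noncomputable def k6a4_zc (ρ : ℝ) (B : k6a4_Ix j) (c : k5_Co j) : k5_Co j :=
  if k5_cbin ρ c = B then k6a4_zm ρ B c else 0

/-- the point `(t, y(t), x(t))` -/
def k6a4_Z (c : k5_Co j) (t : ℝ) : Fin (j + 2) → ℝ :=
  Fin.cons (α := fun _ => ℝ) t (Fin.snoc (α := fun _ => ℝ) (k5_y c t) (k5_x c t))

/-- the zoomed `s`-cell of an incidence, in the zoom of its own block -/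
noncomputable def k6a4_cl {Λ : Type} (ρ s : ℝ) (c : Λ → k5_Co j) (e : Λ × ℝ) : Fin (j + 2) → ℤ :=
  k6a_cell s (k6a4_Z (k6a4_own ρ (c e.1)) e.2)

/-- the block of side `p` of an incidence -/
noncomputable def k6a4_bk {Λ : Type} (p : ℝ) (c : Λ → k5_Co j) (e : Λ × ℝ) : k6a4_Ix j := k5_cbin p (c e.1)

/-- the velocity bin of side `p` of an incidence -/
noncomputable def k6a4_vb {Λ : Type} (p : ℝ) (c : Λ → k5_Co j) (e : Λ × ℝ) : Fin j → ℤ := k5_vbin p (k5_yd (c e.1))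

/-- the residual velocity of an incidence, in the zoom of its own block -/
noncomputable def k6a4_R {Λ : Type} (ρ : ℝ) (F : k6a4_Ix j → ℝ → Fin j → ℝ) (c : Λ → k5_Co j) (e : Λ × ℝ) : ℝ :=
  k5_R (F (k5_cbin ρ (c e.1)) e.2) (k6a4_own ρ (c e.1)) e.2

/-- palette mass of a velocity bin -/
noncomputable def k6a4_pm (π : Measure (Fin j → ℝ)) (p : ℝ) (J : Fin j → ℤ) : ℝ := π.real {u | k5_vbin p u = J}

/-- the prior conditioned on the block `B` of side `ρ` -/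
noncomputable def k6a4_nu {Λ : Type} [MeasurableSpace Λ] (ν : Measure Λ) (ρ : ℝ) (c : Λ → k5_Co j) (B : k6a4_Ix j) :
    Measure Λ := (ν {l | k5_cbin ρ (c l) = B})⁻¹ • ν.restrict {l | k5_cbin ρ (c l) = B}

/-- entries of mass at least the threshold (and positive) -/
def k6a4_keep {Ω κ : Type} [MeasurableSpace Ω] (μ : Measure Ω) (E : Set Ω) (key : Ω → κ) (thr : κ → ℝ) : Set Ω :=
  {x | x ∈ E ∧ thr (key x) ≤ μ.real (E ∩ key ⁻¹' {key x}) ∧ 0 < μ.real (E ∩ key ⁻¹' {key x})}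

/-- **the relations between the scales** `b ≪ ρ ≪ ζ`, `η = b^κ ≪ ρ ζ` -/
structure k6a4_Sc (j : ℕ) (K ζ ρ b η : ℝ) : Prop where
  K1 : 1 ≤ K
  ρ0 : 0 < ρ
  ρζ : ρ ≤ ζ
  ζ1 : ζ ≤ 1
  b0 : 0 ≤ b
  η0 : 0 ≤ η
  /-- a fine state meets `≤ 2^(j+2)` zoomed cells -/
  bρ : (4 + 3 * K) * b ≤ ρ * ζ
  /-- the residual velocity is constant up to `ζ` on a fine state inside a block -/
  rc : 2 * η + 2 * (K + 1) * b + 2 * j * K * ρ ^ 2 ≤ ρ * ζ

/-- **THE INPUT at l.700** (one parent, slack `K`).   Suppliers:  S6a1 = `joint`, `plist`, `floor`, `cap`;   S6a2 = `graph`;   S6a3 = `mF`, `Fb`, `FG`, `FF`, `supp`. -/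
structure k6a4_In {Λ ι : Type} [MeasurableSpace Λ] (j : ℕ) (d K ζ ρ b η : ℝ) (ν : Measure Λ) (c : Λ → k5_Co j)
    (E : Set (Λ × ℝ)) (π : Measure (Fin j → ℝ)) (w : Λ × ℝ → ι) (Ws : Finset ι) (m0 : ι → ℝ)
    (G0 : ι → ℝ) (Gy : ι → Fin j → ℝ) (F : k6a4_Ix j → ℝ → Fin j → ℝ) : Prop where
  fin : IsFiniteMeasure ν
  nu1 : ν.real univ ≤ 1
  pfin : IsFiniteMeasure π
  pi1 : π.real univ ≤ 1
  mc : Measurable c
  mE : MeasurableSet E
  tI : ∀ l t, (l, t) ∈ E → 0 ≤ t ∧ t < 1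
  cb : ∀ l, ‖c l‖ ≤ K
  -- the fine states `W_b`
  mw : ∀ i, MeasurableSet (w ⁻¹' {i})
  wS : ∀ e ∈ E, w e ∈ Ws
  wd : ∀ e ∈ E, ∀ e' ∈ E, w e = w e' → ‖k6a4_Z (c e.1) e.2 - k6a4_Z (c e'.1) e'.2‖ ≤ b
  m0n : ∀ i, 0 ≤ m0 i
  /-- `∑_W m_0(W) ≤ K_pre` -/
  m0s : ∑ i ∈ Ws, m0 i ≤ K
  /-- `λ(W, J) ≤ K_pre m_0(W) π(J)`, `J = [V]_{ρ r}` -/
  joint : ∀ r ∈ k5_Dy ζ, ∀ (i : ι) (J : Fin j → ℤ),
    k5_mass ν {e | e ∈ E ∧ w e = i ∧ k6a4_vb (ρ * r) c e = J} ≤ K * m0 i * k6a4_pm π (ρ * r) J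
  /-- the parameter list at the width `ρ` : `≤ K` blocks `B_ρ` given `(W, [V]_ρ)` -/
  plist : ∀ (i : ι) (I : Fin j → ℤ), ∃ T : Finset (k6a4_Ix j), (T.card : ℝ) ≤ K ∧
    ∀ e ∈ E, w e = i → k6a4_vb ρ c e = I → k6a4_bk ρ c e ∈ T
  /-- (6.12) the velocity graph -/
  graph : ∀ e ∈ E, |k5_xD 1 (c e.1) e.2 - G0 (w e) - Gy (w e) ⬝ᵥ k5_yd (c e.1)| ≤ η
  /-- (6.6), lower half: every block of a labelled line participates -/
  floor : ∀ r ∈ k5_Dy ζ, ∀ e ∈ E, (ρ * r) ^ ((j : ℝ) + d) * k6a4_pm π (ρ * r) (k6a4_vb (ρ * r) c e)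
    ≤ K * ν.real {l | k5_cbin (ρ * r) (c l) = k6a4_bk (ρ * r) c e}
  /-- (6.8) the fixed-time cap, spatial side `ρ q`, velocity bin of side `ρ r`, `q ≤ r` -/
  cap : ∀ r ∈ k5_Dy ζ, ∀ (q a : ℝ) (y₀ : Fin j → ℝ) (J : Fin j → ℤ) (t : ℝ), ζ ≤ q → q ≤ r →
    ν.real {l | (l, t) ∈ E ∧ k5_InQ (ρ * q) a y₀ (c l) t ∧ k5_vbin (ρ * r) (k5_yd (c l)) = J}
      ≤ K * (ρ * q) ^ ((j : ℝ) + d) * k6a4_pm π (ρ * r) J
  -- the time-only rows, (6.19)
  mF : ∀ B, Measurable (F B)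
  Fb : ∀ B t, ‖F B t‖ ≤ K
  FG : ∀ e ∈ E, ‖F (k6a4_bk ρ c e) e.2 - Gy (w e)‖ ≤ K * ρ
  FF : ∀ e ∈ E, ∀ e' ∈ E, k6a4_bk ρ c e = k6a4_bk ρ c e' →
    ‖F (k6a4_bk ρ c e) e.2 - F (k6a4_bk ρ c e) e'.2‖ ≤ K * (|e.2 - e'.2| + ρ)
  /-- the scalar-normal support bound in the zoom (from the strip count (6.17)) -/
  supp : ∀ (B : k6a4_Ix j) (t q r a : ℝ), ζ ≤ q → q ≤ r → r ≤ 1 → ∃ Z : Finset ℤ, (Z.card : ℝ) ≤ K * (r / q) ^ d ∧
    ∀ l, (l, t) ∈ E → k5_cbin ρ (c l) = B → a ≤ k5_S (F B t) (k6a4_zm ρ B (c l)) t →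
      k5_S (F B t) (k6a4_zm ρ B (c l)) t ≤ a + r → k5_bin q (k5_S (F B t) (k6a4_zm ρ B (c l)) t) ∈ Z

theorem k6a4_defs_eqns_cite : True := by
  have := @k6a4_zm.eq_1
  have := @k6a4_own.eq_1
  have := @k6a4_zc.eq_1
  have := @k6a4_Z.eq_1
  have := @k6a4_cl.eq_1
  have := @k6a4_bk.eq_1
  have := @k6a4_vb.eq_1
  have := @k6a4_R.eq_1
  have := @k6a4_pm.eq_1
  have := @k6a4_nu.eq_1
  have := @k6a4_keep.eq_1
  trivial

end Claimed.Agent.R252
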