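/-
CONTRACT  (row252, unit S6a3 = 06-isotropic.tex l.463-700, start of the proof of Prop 6.3; sub-architect helper117,
chief helper234; prefix `k6a3_`).      No `sorry`: every statement is a `def k6a3_*_stmt : Prop`.

A leaf `L-252-S6a3-<NAME>` is PROVED IN ITS OWN FILE `Claimed/Agent/R252/S6a/K3<Name>.lean`
(`theorem k6a3_<name> : k6a3_<name>_stmt`, import this file + what you cite; helper lemmas prefixed `k6a3_<name>_`).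
ASSEMBLY leaves (stage, stages, zoom_supp_grid, zoom_supp, main, field_lip, fill, fill_fin) do NOT wait: take the cited `k6a3_*_stmt` / `k6a_*_stmt` as HYPOTHESES
(`theorem k6a3_stage (h1 : k6a3_pairs_count_stmt) (h2 : k6a3_prune_stmt) … : k6a3_stage_stmt`); `S6a/K3All.lean` (helper117) discharges them at the end.

MODEL (ONE parent world, ONE scale, paper-free).  Trajectories `l : Λ` (abstract measurable space, FROZEN prior `ν`, never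
renormalised), coefficients `c l : k5_Co j` (`S5/Defs.lean`: `x` quadratic, `y` affine), incidences `Λ × ℝ` with `ν.prod volume`,
a family = a measurable set `R ⊆ Λ × [0,1)`.
  `k6a3_z c t = (t, y(t))`,  `k6a3_v c = (1, V)`,  `k6a3_W c t = (X, t, y)` (THE SIGNAL IS COORDINATE `0`),  `k6a3_nrm g P = P 0 - g · tail P`.
  Fine state `W_b` = an abstract countable label `st : Λ × ℝ → D₀` with a centre `Z : D₀ → ℝ^(j+2)`, `‖W e - Z (st e)‖ ≤ b`; the row is `G : D₀ → ℝ^(j+1)`.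
  Everything that the paper 'assigns by centres' (cube `C = W_ρ`, strip, base cell `z_p`) is a function of `Z (st e)`.
All losses are absolute, so the weighted sum over the parents is taken by the consumer (`∑ om = 1`).

PLAN OF THE UNIT (TeX lines):
  A  l.585-600  field Lipschitz (6.15)            list_shift, field_lip (from `k6a_common_choice`), cube_row
  B  l.602-613  strips, a line meets few          normal_range, pairs_count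
  C  l.615-628  three deletions                   prune
  D  l.630-640  strip filling                     narrow_lin, span_fin, fill_fin (from `mlk_cells`), fill
  E  l.641-655  strip count (6.17)                strip_count, stage, stages
  F  l.657-700  zoom: row (6.19), support, caps (6.20)     block_dist, zoom_row, zm_*, count_transfer, count_interp, zoom_supp, zoom_caps
  G  l.563-575  failure set                       good_meas, poly_round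
  H  exit                                         `k6a3_Pre` (= `k5_Snd` without `resc`), `k6a3_main_stmt`
-/
import Claimed.Agent.R252.S6a.Contract
import Claimed.Agent.R252.S5.Defs

set_option autoImplicit false

namespace Claimed.Agent.R252

open MeasureTheory
open scoped ENNReal

/-! ### 0. vocabulary -/

/-- base point `z = (t, y(t))` -/
def k6a3_z {j : ℕ} (c : k5_Co j) (t : ℝ) : Fin (j + 1) → ℝ := Fin.cons t (k5_y c t)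

/-- lifted velocity `(1, V)` -/
def k6a3_v {j : ℕ} (c : k5_Co j) : Fin (j + 1) → ℝ := Fin.cons 1 (k5_yd c)

/-- physical point `(X, t, y)`; the signal is the coordinate `0` -/
def k6a3_W {j : ℕ} (c : k5_Co j) (t : ℝ) : Fin (j + 2) → ℝ := Fin.cons (k5_x c t) (k6a3_z c t)

/-- physical point of an incidence -/
def k6a3_Wi {j : ℕ} {Λ : Type} (c : Λ → k5_Co j) (e : Λ × ℝ) : Fin (j + 2) → ℝ := k6a3_W (c e.1) e.2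

/-- normal coordinate `X - g · z` -/
def k6a3_nrm {m : ℕ} (g : Fin m → ℝ) (P : Fin (m + 1) → ℝ) : ℝ := P 0 - g ⬝ᵥ Fin.tail P

/-- the (cube, strip) label of a point (used at the centres of the fine states) -/
noncomputable def k6a3_lab {m : ℕ} (ρ p : ℝ) (GC : (Fin (m + 1) → ℤ) → Fin m → ℝ) (P : Fin (m + 1) → ℝ) :
    (Fin (m + 1) → ℤ) × ℤ :=
  (k6a_cell ρ P, ⌊k6a3_nrm (GC (k6a_cell ρ P)) P / p⌋)

/-- the spatial part `G_y` of a row `(G_0, G_y)` -/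
def k6a3_gy {j : ℕ} (g : Fin (j + 1) → ℝ) : Fin j → ℝ := Fin.tail g

/-- the trajectories of the coefficient block `B_ρ` with index `β` -/
def k6a3_blk {j : ℕ} {Λ : Type} (c : Λ → k5_Co j) (ρ : ℝ) (β : (Fin 3 → ℤ) × (Fin 2 → Fin j → ℤ)) : Set Λ :=
  {l | k5_cbin ρ (c l) = β}

/-- zoomed coefficients: subtract the CORNER `ρ β` of the block and divide by `ρ` -/
noncomputable def k6a3_zm {j : ℕ} (ρ : ℝ) (β : (Fin 3 → ℤ) × (Fin 2 → Fin j → ℤ)) (c : k5_Co j) : k5_Co j :=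
  (fun i => c.1 i / ρ - β.1 i, fun i a => c.2 i a / ρ - β.2 i a)

open Classical in
/-- zoomed coefficient map of the world `(γ, B_ρ)`; junk `0` outside the block (a null set of the conditioned prior) -/
noncomputable def k6a3_zc {j : ℕ} {Λ : Type} (c : Λ → k5_Co j) (ρ : ℝ) (β : (Fin 3 → ℤ) × (Fin 2 → Fin j → ℤ)) :
    Λ → k5_Co j :=
  fun l => if k5_cbin ρ (c l) = β then k6a3_zm ρ β (c l) else 0

/-- the labels of the world `(γ, B_ρ)` -/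
def k6a3_lb {j : ℕ} {Λ : Type} (c : Λ → k5_Co j) (ρ : ℝ) (β : (Fin 3 → ℤ) × (Fin 2 → Fin j → ℤ))
    (R : Set (Λ × ℝ)) : Set (Λ × ℝ) :=
  {e | e ∈ R ∧ k5_cbin ρ (c e.1) = β}

theorem k6a3_defs_eqns_cite : True := by
  have := @k6a3_z.eq_1
  have := @k6a3_v.eq_1
  have := @k6a3_W.eq_1
  have := @k6a3_Wi.eq_1
  have := @k6a3_nrm.eq_1
  have := @k6a3_lab.eq_1
  have := @k6a3_gy.eq_1
  have := @k6a3_blk.eq_1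
  have := @k6a3_zm.eq_1
  have := @k6a3_zc.eq_1
  have := @k6a3_lb.eq_1
  trivial

/-! ### A. field Lipschitz (6.15), l.585-600 -/

/-- A1. Lists indexed by the cell of `W` give lists indexed by the cell of a point `Z` within `b ≤ s` of `W` (3^D neighbours).
PROOF. `‖W e - Z e‖ ≤ s` gives `k6a_cell s (W e) i - k6a_cell s (Z e) i ∈ {-1,0,1}`; take the union of the lists of the cells `n + δ`,
`δ ∈ Fintype.piFinset fun _ => {-1,0,1}` (`Finset.card_biUnion_le`). -/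
def k6a3_list_shift_stmt : Prop :=
  ∀ {Ω : Type} (R : Set Ω) (D q : ℕ) (W Z : Ω → Fin D → ℝ) (Y : Ω → Fin q → ℝ) (s b : ℝ) (K : ℕ),
    0 < s → b ≤ s → (∀ e ∈ R, ‖W e - Z e‖ ≤ b) →
    (∀ n : Fin D → ℤ, ∃ T : Finset (Fin q → ℤ), T.card ≤ K ∧
      ∀ e ∈ R, k6a_cell s (W e) = n → k6a_cell s (Y e) ∈ T) →
    ∀ n : Fin D → ℤ, ∃ T : Finset (Fin q → ℤ), T.card ≤ 3 ^ D * K ∧
      ∀ e ∈ R, k6a_cell s (Z e) = n → k6a_cell s (Y e) ∈ T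

/-- A2 = (6.15).  `k6a_common_choice` (S6a/Choice.lean) with `Z := Z ∘ st`, `Y := G ∘ st`, lists from A1.  Whole fine states are kept.
`‖Z (st e) - Z (st e')‖ ≤ ‖W e - W e'‖ + 2 b`, `b ≤ ρ`. -/
def k6a3_field_lip_stmt : Prop :=
  ∀ {Ω D₀ : Type} [MeasurableSpace Ω] [Countable D₀] (μ : Measure Ω) (R : Set Ω), MeasurableSet R →
    ∀ (st : Ω → D₀), (∀ d, MeasurableSet (st ⁻¹' {d})) →
    ∀ (D q L : ℕ) (W : Ω → Fin D → ℝ) (Z : D₀ → Fin D → ℝ) (G : D₀ → Fin q → ℝ) (B A ρ b : ℝ),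
    (∀ d, ‖G d‖ ≤ B) → 1 ≤ A → b ≤ ρ → (∀ e ∈ R, ‖W e - Z (st e)‖ ≤ b) →
    ∀ (s : ℕ → ℝ), s 0 = 1 → s L = ρ → (∀ i ≤ L, 0 < s i) → (∀ i < L, s (i + 1) ≤ s i) →
      (∀ i < L, s i ≤ A * s (i + 1)) →
    ∀ (K : ℕ → ℕ),
      (∀ i ≤ L, ∀ n : Fin D → ℤ, ∃ T : Finset (Fin q → ℤ), T.card ≤ K i ∧
        ∀ e ∈ R, k6a_cell (s i) (W e) = n → k6a_cell (s i) (G (st e)) ∈ T) →
    ∃ S : Set Ω, MeasurableSet S ∧ S ⊆ R ∧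
      μ R ≤ (∏ i ∈ Finset.range (L + 1), ((4 : ℝ≥0∞) ^ D * ((3 ^ D * K i : ℕ) : ℝ≥0∞))) * μ S ∧
      (∀ e ∈ S, ∀ e' ∈ S, ‖G (st e) - G (st e')‖ ≤ (A + 2 * B) * (‖Z (st e) - Z (st e')‖ + ρ)) ∧
      (∀ e ∈ S, ∀ e' ∈ S, ‖G (st e) - G (st e')‖ ≤ (A + 2 * B) * (‖W e - W e'‖ + 3 * ρ)) ∧
      (∀ e ∈ R, ∀ e' ∈ R, st e = st e' → (e ∈ S ↔ e' ∈ S))

/-- A3. one row per cube `C = W_ρ` (cube of the centre).  Choose a member of each occupied cell; same cell => `‖Zc e - Zc e'‖ ≤ ρ`. -/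
def k6a3_cube_row_stmt : Prop :=
  ∀ {Ω : Type} (S : Set Ω) (D q : ℕ) (Zc : Ω → Fin D → ℝ) (Y : Ω → Fin q → ℝ) (ρ Lp B : ℝ), 0 < ρ → 0 ≤ Lp → 0 ≤ B →
    (∀ e ∈ S, ‖Y e‖ ≤ B) → (∀ e ∈ S, ∀ e' ∈ S, ‖Y e - Y e'‖ ≤ Lp * (‖Zc e - Zc e'‖ + ρ)) →
    ∃ GC : (Fin D → ℤ) → Fin q → ℝ, (∀ n, ‖GC n‖ ≤ B) ∧ ∀ e ∈ S, ‖Y e - GC (k6a_cell ρ (Zc e))‖ ≤ 2 * Lp * ρ

/-! ### B. a trajectory meets few strips, l.602-613 -/

/-- B1. the normal coordinate along a trajectory is a quadratic: `N t - N u = (t - u) (N' t + N' u) / 2`. -/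
def k6a3_normal_range_stmt : Prop :=
  ∀ (j : ℕ) (c : k5_Co j) (g : Fin (j + 1) → ℝ) (t u κ : ℝ),
    |k5_xD 1 c t - g ⬝ᵥ k6a3_v c| ≤ κ → |k5_xD 1 c u - g ⬝ᵥ k6a3_v c| ≤ κ →
    |k6a3_nrm g (k6a3_W c t) - k6a3_nrm g (k6a3_W c u)| ≤ κ * |t - u|

/-- B2. ONE trajectory `c`, active times `T`, centre `Pt t` and row `gt t` of its fine state at the time `t`: at most `K / ρ` (cube, strip) labels.
PROOF. `k6a_curve_cells` (S6a/Curve.lean; `W c ·` is `3K`-Lipschitz on `[0,1]`) and the `3^(j+2)` neighbours: `≤ 6^(j+2) (3K/ρ+1)` cubes.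
In one cube: `|t - u| ≤ ρ + 2b ≤ 3ρ` (coordinate `1` of `W` is the time), `|N'| ≤ eg + (j+1) K K₂ ρ` at both times, B1, and
`|nrm g (Pt t) - nrm g (W c t)| ≤ (1 + (j+1) K) b`: the normal coordinates differ by `≤ p`, the strip indices by `≤ 1` from a fixed one. -/
def k6a3_pairs_count_stmt : Prop :=
  ∀ (j : ℕ) (c : k5_Co j) (T : Set ℝ) (Pt : ℝ → Fin (j + 2) → ℝ) (gt : ℝ → Fin (j + 1) → ℝ)
    (GC : (Fin (j + 2) → ℤ) → Fin (j + 1) → ℝ) (K K₂ b eg ρ p : ℝ),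
    1 ≤ K → 0 ≤ K₂ → 0 ≤ b → b ≤ ρ → 0 < ρ → 0 < p → ‖c‖ ≤ K → T ⊆ Set.Icc 0 1 →
    (∀ t ∈ T, ‖k6a3_W c t - Pt t‖ ≤ b) → (∀ t ∈ T, |k5_xD 1 c t - gt t ⬝ᵥ k6a3_v c| ≤ eg) →
    (∀ t ∈ T, ‖gt t - GC (k6a_cell ρ (Pt t))‖ ≤ K₂ * ρ) → (∀ n, ‖GC n‖ ≤ K) →
    (eg + (j + 1) * K * K₂ * ρ) * (3 * ρ) + 2 * (1 + (j + 1) * K) * b ≤ p →
    ∃ F : Finset ((Fin (j + 2) → ℤ) × ℤ), (F.card : ℝ) ≤ 3 * 6 ^ (j + 2) * (3 * K / ρ + 1) ∧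
      ∀ t ∈ T, k6a3_lab ρ p GC (Pt t) ∈ F

/-! ### C. the three deletions, l.615-628 -/

/-- C1.  `st` fine state, `g (st e)` its strip.  Delete (1) line/strip portions of duration `< θ`, (2) whole states that lost more than the fraction `η`,
(3) whole strips that lost more than one half.
(You may take the chief's `k6a_portion_stmt`, `k6a_frac_loss_stmt` of `S6a/Tools.lean` as hypotheses: `R₁ = k6aLong R (g ∘ st) θ`.)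
PROOF. `dur l s = volume {t | (l,t) ∈ R ∧ g (st (l,t)) = s}` is measurable in `l` (`measurable_measure_prodMk_left`), `μ (R ∩ strip s) = ∫⁻ dur l s ∂ν`
(`Measure.prod_apply`).   `R₁ = {e ∈ R | θ ≤ dur e.1 (g (st e))}`, `μ (R \ R₁) = ∫⁻ ∑' s, dur l s 1[dur l s < θ] ≤ Nn θ ν univ =: λ₁` (at most `Nn` nonzero terms).
Bad states `η μ(R ∩ d) < μ((R \ R₁) ∩ d)`: total `R`-mass `≤ λ₁ / η`.  `R₂ = R₁ \ bad states`.   Bad strips `2 μ(R₂ ∩ s) < μ(R ∩ s)`: then `μ(R ∩ s) ≤ 2 μ((R \ R₂) ∩ s)`,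
total `≤ 2 λ₁ (1 + 1/η)`.   Strips with `μ(R ∩ s) = 0` are bad too (no loss).   `R' = R₂ \ bad strips`.   Last item: the set is contained in the measurable set `{l | θ ≤ dur l s}`; Markov (`mul_meas_ge_le_lintegral`). -/
def k6a3_prune_stmt : Prop :=
  ∀ {Λ D₀ D₁ : Type} [MeasurableSpace Λ] [Countable D₀] [Countable D₁] (ν : Measure Λ) [IsFiniteMeasure ν]
    (R : Set (Λ × ℝ)), MeasurableSet R → (∀ e ∈ R, 0 ≤ e.2 ∧ e.2 ≤ 1) →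
    ∀ (st : Λ × ℝ → D₀) (g : D₀ → D₁), (∀ d, MeasurableSet (st ⁻¹' {d})) →
    ∀ (Nn θ η : ℝ), 0 ≤ Nn → 0 < θ → 0 < η →
    (∀ l, ∃ F : Finset D₁, (F.card : ℝ) ≤ Nn ∧ ∀ t, (l, t) ∈ R → g (st (l, t)) ∈ F) →
    ∃ R' : Set (Λ × ℝ), MeasurableSet R' ∧ R' ⊆ R ∧
      (ν.prod volume) (R \ R') ≤ ENNReal.ofReal (3 * (1 + 1 / η) * Nn * θ) * ν Set.univ ∧
      (∀ d, (R' ∩ st ⁻¹' {d}).Nonempty →
        (ν.prod volume) ((R \ R') ∩ st ⁻¹' {d}) ≤ ENNReal.ofReal η * (ν.prod volume) (R ∩ st ⁻¹' {d})) ∧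
      (∀ s, (R' ∩ {e | g (st e) = s}).Nonempty → 0 < (ν.prod volume) (R' ∩ {e | g (st e) = s}) ∧
        (ν.prod volume) (R ∩ {e | g (st e) = s}) ≤ 2 * (ν.prod volume) (R' ∩ {e | g (st e) = s})) ∧
      (∀ s, ENNReal.ofReal θ * ν {l | ∃ t, (l, t) ∈ R' ∧ g (st (l, t)) = s} ≤ (ν.prod volume) (R ∩ {e | g (st e) = s}))

/-! ### D. strip filling, l.630-640 -/

/-- [WITHDRAWN 20:30Z, see StripExit.lean] D1. a thin LINEAR slab for `(1, V)` is a thin AFFINE slab for `V`.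
PROOF. `u = (u₀, u')`, `r² = u' ⬝ᵥ u'`.  If `1 ≤ 2 (1 + j K) r`: `n = u'/r`, `b₀ = -u₀/r`, `|n V - b₀| = |u (1,V)| / r ≤ w`.
Otherwise `|u₀| ≥ 1 - r`, `|u' V| ≤ j K r`, so `|u (1,V)| ≥ 1 - (1 + j K) r > 1/2`: the hypothesis is void (any unit `n`, here `1 ≤ j`). -/
def k6a3_narrow_lin_stmt : Prop :=
  ∀ (j : ℕ), 1 ≤ j → ∀ (K w : ℝ), 1 ≤ K → 0 < w → w ≤ 1 → ∀ u : Fin (j + 1) → ℝ, u ⬝ᵥ u = 1 →
    ∃ (n : Fin j → ℝ) (b₀ : ℝ), n ⬝ᵥ n = 1 ∧ ∀ V : Fin j → ℝ, ‖V‖ ≤ K →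
      |u ⬝ᵥ (Fin.cons 1 V : Fin (j + 1) → ℝ)| < w / (2 * (1 + j * K)) → |n ⬝ᵥ V - b₀| ≤ w

open Classical in
/-- [WITHDRAWN 20:30Z, see StripExit.lean] D2. `k6a_span_prob` (S6a/Span.lean) for a finite weighted family (not normalised).
PROOF. either from `k6a_span_prob` with `P = (∑ u)⁻¹ ∑ u a δ_a` on `α` with the σ-algebra `⊤` (`Measure.pi` of singletons), or directly: induction on the number of
draws with a unit vector orthogonal to the preceding ones + `k6a_det_ge_of_triangular` (S6a/Det.lean). -/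
def k6a3_span_fin_stmt : Prop :=
  ∀ (n : ℕ) {α : Type} (A : Finset α) (u : α → ℝ) (e : α → Fin n → ℝ) (η c : ℝ), 0 ≤ η → 0 ≤ c →
    (∀ a ∈ A, 0 ≤ u a) →
    (∀ x : Fin n → ℝ, x ⬝ᵥ x = 1 → c * ∑ a ∈ A, u a ≤ ∑ a ∈ A.filter (fun a => η ≤ |x ⬝ᵥ e a|), u a) →
    c ^ n * (∑ a ∈ A, u a) ^ n ≤
      ∑ τ ∈ (Fintype.piFinset fun _ : Fin n => A).filter
          (fun τ => η ^ n ≤ (n.factorial : ℝ) * |Matrix.det (Matrix.of fun i => e (τ i))|), ∏ i, u (τ i)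

open Classical in
/-- [WITHDRAWN 20:30Z, see StripExit.lean] D3. FINITE strip filling.  Lines `a x + ℝ e x`, prior weights `wt x`, `u E x` = incidence mass of the line `x` in the cell `E` (side `p`, centre `(E + 1/2) p`).
PROOF. D2 with `c = 1/2`: `(m_E / 2)^n ≤ ∑_{τ : θ ≤ |det|} ∏ u E (τ i)`, `θ = η^n / n!`, `m_E = ∑ x, u E x`;  `∏ u E (τ i) ≤ (K p)^n ∏ wt (τ i)` and only tuples whose tubes of radius
`lam p` contain the centre contribute: `m_E^n ≤ (2 K p)^n mlkCount ..`.   `mlk_cells` (Mlk/Main.lean) with `r = p`, `ρ = lam`, `S = max lam (ρ/p)`, `ε' = ε/(n-1)`, `z E` = centres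
(distinct cells: `p`-separated).  `(M/K)^n ≤ (∑ m_E)^n ≤ #B (2Kp)^n (C (lam/θ)^(n²+n) S^ε')^(n-1) (K M/ρ)^n`; divide by `M^n`. -/
def k6a3_fill_fin_stmt : Prop :=
  ∀ (n : ℕ) (ε : ℝ), 2 ≤ n → 0 < ε → ∃ C : ℝ, 0 < C ∧
    ∀ {α : Type} (A : Finset α) (a e : α → Fin n → ℝ) (wt : α → ℝ) (B : Finset (Fin n → ℤ))
      (u : (Fin n → ℤ) → α → ℝ) (p ρ lam η K M : ℝ),
    0 < p → p ≤ ρ → 1 ≤ lam → 0 < η → η ≤ 1 → 1 ≤ K → 0 < M →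
    (∀ x ∈ A, ∀ k, |e x k| ≤ 1) → (∀ x ∈ A, 0 ≤ wt x) → (∀ E ∈ B, ∀ x ∈ A, 0 ≤ u E x) →
    (∀ E ∈ B, ∀ E' ∈ B, ∀ k, |(E k : ℝ) - E' k| * p ≤ ρ) →
    (∀ E ∈ B, ∀ x ∈ A, u E x ≤ K * p * wt x) →
    (∀ E ∈ B, ∀ x ∈ A, 0 < u E x →
      ∃ t : ℝ, ∀ k, |((E k : ℝ) + 1 / 2) * p - (a x k + t * e x k)| ≤ lam * p) →
    (∀ E ∈ B, ∀ y : Fin n → ℝ, y ⬝ᵥ y = 1 →
      1 / 2 * ∑ x ∈ A, u E x ≤ ∑ x ∈ A.filter (fun x => η ≤ |y ⬝ᵥ e x|), u E x) →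
    M ≤ K * ∑ E ∈ B, ∑ x ∈ A, u E x → ∑ x ∈ A, wt x ≤ K * M / ρ →
    (ρ / p) ^ n ≤ C * (lam * K / η) ^ C * (ρ / p) ^ ε * B.card

/-- D4. strip filling for a prior MEASURE.  `Q` = the retained incidences of ONE strip, `cl` = base cell (a function of the fine state), `B ⊇` the occupied cells.
Breadth is assumed in every cell (it is inherited by mixtures of fine states).
PROOF (20:30Z: use the chief's tools as HYPOTHESES: `k6a_lift_strip_stmt`, `k6a_tuple_stmt`, `k6a_mlk_meas_stmt` of `S6a/Tools.lean`, `k6a_span_prob_stmt` of `S6a/Contract.lean`; import `S6a.Tools`).   `n = j + 1`, `μ = ν.prod volume`.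
`Λ' = {l | 0 < volume {t | (l,t) ∈ Q}} ∩ {l | ‖c l‖ ≤ K}` (measurable), `ν' = ν.restrict Λ'`; `ν'.prod volume` and `μ` agree on measurable subsets of `Q`; `ν' univ ≤ ν {l | ∃ t, (l,t) ∈ Q} ≤ K M / ρ`.
Lines: `p l = (0, y₀ l)`, `e l = (1, V l) / (K + 1)`, both put to `0` where `‖c l‖ > K`.   Cell `E`, `Q_E = Q ∩ cl⁻¹ E`, `m_E = μ Q_E > 0`: `k6a_span_prob` for `P = m_E⁻¹ • μ.restrict Q_E`, `c = 1/2`,
`η = w / (2 (j+1) K (K+1))` (`k6a_lift_strip` + breadth): `2^(-n) m_E^n ≤ (μ.restrict Q_E)^n {θ ≤ |det|}`, `θ = η^n / n!`.   `k6a_tuple` (`β = 2 lam p`: the times of a cell lie in an interval of length `2 lam p`; `A'` = `toMeasurable` of the set of `k6a_mlk_meas`;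
the point `(t, y_l(t))` of the line is within `lam p` of the centre).   `k6a_mlk_meas` with `r = p`, `ρ = lam`, `S = max lam (ρ/p)`, `ε' = ε/j`, `m b = m_E`, `Kc = (4 lam p)^n`:
`(M/K)^n ≤ (∑ m_E)^n ≤ #B (4 lam p)^n (C (lam/θ)^(n²+n) S^ε')^j (K M/ρ)^n`; divide by `M^n`. -/
def k6a3_fill_stmt : Prop :=
  ∀ (j : ℕ) (ε : ℝ), 1 ≤ j → 0 < ε → ∃ C : ℝ, 0 < C ∧
    ∀ {Λ : Type} [MeasurableSpace Λ] (ν : Measure Λ) [IsFiniteMeasure ν] (c : Λ → k5_Co j) (Q : Set (Λ × ℝ))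
      (cl : Λ × ℝ → Fin (j + 1) → ℤ) (B : Finset (Fin (j + 1) → ℤ)) (p ρ lam w K : ℝ) (M : ℝ≥0∞),
    Measurable c → MeasurableSet Q → (∀ E, MeasurableSet (cl ⁻¹' {E})) →
    0 < p → p ≤ ρ → 1 ≤ lam → 0 < w → w ≤ 1 → 1 ≤ K →
    (∀ e ∈ Q, ‖c e.1‖ ≤ K ∧ 0 ≤ e.2 ∧ e.2 ≤ 1) → (∀ e ∈ Q, cl e ∈ B) →
    (∀ E ∈ B, ∀ E' ∈ B, ∀ k, |(E k : ℝ) - E' k| * p ≤ ρ) →
    (∀ e ∈ Q, ∀ k, |((cl e k : ℝ) + 1 / 2) * p - k6a3_z (c e.1) e.2 k| ≤ lam * p) →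
    (∀ (E : Fin (j + 1) → ℤ) (n : Fin j → ℝ) (b₀ : ℝ), n ⬝ᵥ n = 1 →
      (ν.prod volume) (Q ∩ cl ⁻¹' {E} ∩ {e | |n ⬝ᵥ k5_yd (c e.1) - b₀| ≤ w}) ≤ 1 / 2 * (ν.prod volume) (Q ∩ cl ⁻¹' {E})) →
    0 < M → M ≠ ∞ → M ≤ ENNReal.ofReal K * (ν.prod volume) Q →
    ENNReal.ofReal ρ * ν {l | ∃ t, (l, t) ∈ Q} ≤ ENNReal.ofReal K * M →
    (ρ / p) ^ (j + 1) ≤ C * (lam * K / w) ^ C * (ρ / p) ^ ε * B.card

/-! ### E. the strip count (6.17), l.641-655 -/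

/-- E1. COMBINATORIAL CORE of (6.17) in one cube.  `S` = occupied fine states (or incidences), `Z` their centres, `W` true points; strips and base cells by `Z`, support lists by `W`.
`F` = number of base cells filled by every occupied strip, `Ks` = number of occupied `p`-cells in an `r`-cell.
PROOF. `T` = occupied strip indices in `[⌊x₀/p⌋, ⌊(x₀+r)/p⌋]`.  Pairs (strip `σ ∈ T`, filled base cell `E`) ↦ witness `i'` ↦ `k6a_cell p (W i')`.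
Multiplicity `≤ 3^m (3 (1 + m K) + 2)` (`b ≤ p`: `E` is a neighbour of the tail of the cell, the normal coordinate varies by `≤ 3 p (1 + m K)`).
Range: `W i'` lies in a cube of side `ρ + 2b ≤ 3ρ` and `nrm g (W i') ∈ [x₀ - p - (1+mK) b, x₀ + r + p + (1+mK) b]`: over each of the `≤ (3ρ/r + 2)^m` base `r`-cells at most `3 m K + 8` values of the cell of `X`. -/
def k6a3_strip_count_stmt : Prop :=
  ∀ (m : ℕ), ∃ C : ℝ, 0 < C ∧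
    ∀ {I : Type} (S : Set I) (W Z : I → Fin (m + 1) → ℝ) (g : Fin m → ℝ) (K Ks F b p r ρ : ℝ),
    1 ≤ K → 0 ≤ F → b ≤ p → 0 < p → p ≤ r → r ≤ ρ → ‖g‖ ≤ K → (∀ i ∈ S, ‖W i - Z i‖ ≤ b) →
    (∀ i ∈ S, ∀ i' ∈ S, ‖Z i - Z i'‖ ≤ ρ) →
    (∀ i ∈ S, ∃ T : Finset (Fin m → ℤ), F ≤ T.card ∧ ∀ E ∈ T, ∃ i' ∈ S,
      ⌊k6a3_nrm g (Z i') / p⌋ = ⌊k6a3_nrm g (Z i) / p⌋ ∧ k6a_cell p (Fin.tail (Z i')) = E) →
    (∀ n : Fin (m + 1) → ℤ, ∃ T : Finset (Fin (m + 1) → ℤ), (T.card : ℝ) ≤ Ks ∧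
      ∀ i ∈ S, k6a_cell r (W i) = n → k6a_cell p (W i) ∈ T) →
    ∀ x₀ : ℝ, ∃ T : Finset ℤ, (T.card : ℝ) * F ≤ C * K ^ 2 * Ks * (ρ / r) ^ m ∧
      ∀ i ∈ S, x₀ ≤ k6a3_nrm g (Z i) → k6a3_nrm g (Z i) ≤ x₀ + r → ⌊k6a3_nrm g (Z i) / p⌋ ∈ T

/-- a tested grid `1 = s 0 ≥ s 1 ≥ … ≥ s L = lo > 0` with ratios `≤ A` -/
def k6a3_Grid (L : ℕ) (s : ℕ → ℝ) (A lo : ℝ) : Prop :=
  s 0 = 1 ∧ s L = lo ∧ (∀ i ≤ L, 0 < s i) ∧ (∀ i < L, s (i + 1) ≤ s i) ∧ (∀ i < L, s i ≤ A * s (i + 1))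

/-- (6.17) for the family `R` : in every cube, at most `Kc` occupied `p`-strips meet a normal interval of length `r` -/
def k6a3_Strips {m : ℕ} {Ω D₀ : Type} (R : Set Ω) (st : Ω → D₀) (Z : D₀ → Fin (m + 1) → ℝ)
    (GC : (Fin (m + 1) → ℤ) → Fin m → ℝ) (ρ p r Kc : ℝ) : Prop :=
  ∀ (n : Fin (m + 1) → ℤ) (x₀ : ℝ), ∃ T : Finset ℤ, (T.card : ℝ) ≤ Kc ∧
    ∀ e ∈ R, k6a_cell ρ (Z (st e)) = n → x₀ ≤ k6a3_nrm (GC n) (Z (st e)) → k6a3_nrm (GC n) (Z (st e)) ≤ x₀ + r →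
      ⌊k6a3_nrm (GC n) (Z (st e)) / p⌋ ∈ T

/-- hereditary local support (6.5): an `r`-cell of `W` contains at most `Ks` occupied `p`-cells -/
def k6a3_Supp {j : ℕ} {Λ : Type} (c : Λ → k5_Co j) (R : Set (Λ × ℝ)) (r p Ks : ℝ) : Prop :=
  ∀ n : Fin (j + 2) → ℤ, ∃ T : Finset (Fin (j + 2) → ℤ), (T.card : ℝ) ≤ Ks ∧
    ∀ e ∈ R, k6a_cell r (k6a3_Wi c e) = n → k6a_cell p (k6a3_Wi c e) ∈ T

/-- every occupied fine state of `R` has lost at most the fraction `θ` of its `R₀`-mass -/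
def k6a3_Kept {Λ D₀ : Type} [MeasurableSpace Λ] (ν : Measure Λ) (R₀ R : Set (Λ × ℝ)) (st : Λ × ℝ → D₀) (θ : ℝ) : Prop :=
  ∀ d, (R ∩ st ⁻¹' {d}).Nonempty →
    (ν.prod volume) ((R₀ \ R) ∩ st ⁻¹' {d}) ≤ ENNReal.ofReal θ * (ν.prod volume) (R₀ ∩ st ⁻¹' {d})

/-- **the state after (6.15)**: family `R₀`, fine states, graph rows, one row per cube, breadth of every fine state (`w` = width, fraction `1/4`) -/
structure k6a3_Geo (j : ℕ) {Λ D₀ : Type} [MeasurableSpace Λ] (ν : Measure Λ) (c : Λ → k5_Co j) (R₀ : Set (Λ × ℝ))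
    (st : Λ × ℝ → D₀) (Z : D₀ → Fin (j + 2) → ℝ) (G : D₀ → Fin (j + 1) → ℝ)
    (GC : (Fin (j + 2) → ℤ) → Fin (j + 1) → ℝ) (K K₂ b eg ρ w : ℝ) : Prop where
  nu_le : ν Set.univ ≤ 1
  mc : Measurable c
  mR : MeasurableSet R₀
  mst : ∀ d, MeasurableSet (st ⁻¹' {d})
  tI : ∀ e ∈ R₀, 0 ≤ e.2 ∧ e.2 < 1
  cb : ∀ e ∈ R₀, ‖c e.1‖ ≤ K
  ctr : ∀ e ∈ R₀, ‖k6a3_Wi c e - Z (st e)‖ ≤ b
  graph : ∀ e ∈ R₀, |k5_xD 1 (c e.1) e.2 - G (st e) ⬝ᵥ k6a3_v (c e.1)| ≤ eg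
  row : ∀ e ∈ R₀, ‖G (st e) - GC (k6a_cell ρ (Z (st e)))‖ ≤ K₂ * ρ
  GCb : ∀ n, ‖GC n‖ ≤ K
  broad : ∀ (d : D₀) (n : Fin j → ℝ) (b₀ : ℝ), n ⬝ᵥ n = 1 →
    (ν.prod volume) (R₀ ∩ st ⁻¹' {d} ∩ {e | |n ⬝ᵥ k5_yd (c e.1) - b₀| ≤ w}) ≤ 1 / 4 * (ν.prod volume) (R₀ ∩ st ⁻¹' {d})

/-- E2. ONE STAGE (one strip width `p`), l.602-655.   ASSEMBLY of B2, C1, D4, E1.
PROOF. C1 for `R`, `g d = k6a3_lab ρ p GC (Z d)`, `θ = ρ / K₁`, `Nn = 3 · 6^(j+2) (3K/ρ + 1)` from B2 (line by line: `T = {t | (l,t) ∈ R}`, `Pt t = Z (st (l,t))`, `gt t = G (st (l,t))`);  `Nn θ ≤ 3 · 6^(j+2) · 4K / K₁`.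
`k6a3_Kept` adds up.   For an occupied label `(n, σ)` of `R'`: `Q = R' ∩ {label}`, `cl e = k6a_cell p (tail (Z (st e)))`, `B` = the occupied cells (finite: centres in one `ρ`-cell), D4 with `2ρ` for `ρ`, `lam = 2`, `M = μ(R ∩ label) > 0`, `K := max K (2 K₁)`.
Breadth in a cell: sum over the fine states `d` of the cell of `μ(R' ∩ d ∩ slab) ≤ μ(R₀ ∩ d ∩ slab) ≤ μ(R₀ ∩ d)/4 ≤ μ(R' ∩ d)/2` (`Kept` with `θ₀ + η ≤ 1/2`).   Then E1 in the cube `n` with `F = (2ρ/p)^(j+1) / (C (..)^C (2ρ/p)^ε)`. -/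
def k6a3_stage_stmt : Prop :=
  ∀ (j : ℕ) (ε : ℝ), 1 ≤ j → 0 < ε → ∃ C : ℝ, 0 < C ∧
    ∀ {Λ D₀ : Type} [MeasurableSpace Λ] [Countable D₀] (ν : Measure Λ) (c : Λ → k5_Co j) (R₀ R : Set (Λ × ℝ))
      (st : Λ × ℝ → D₀) (Z : D₀ → Fin (j + 2) → ℝ) (G : D₀ → Fin (j + 1) → ℝ)
      (GC : (Fin (j + 2) → ℤ) → Fin (j + 1) → ℝ) (K K₂ b eg ρ w p K₁ η θ₀ : ℝ),
    k6a3_Geo j ν c R₀ st Z G GC K K₂ b eg ρ w → MeasurableSet R → R ⊆ R₀ →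
    1 ≤ K → 0 ≤ K₂ → 0 ≤ b → b ≤ p → 0 < p → p ≤ ρ → ρ ≤ 1 → 0 < w → w ≤ 1 → 1 ≤ K₁ → 0 < η → 0 ≤ θ₀ → θ₀ + η ≤ 1 / 2 →
    (eg + (j + 1) * K * K₂ * ρ) * (3 * ρ) + 2 * (1 + (j + 1) * K) * b ≤ p →
    k6a3_Kept ν R₀ R st θ₀ →
    ∃ R' : Set (Λ × ℝ), MeasurableSet R' ∧ R' ⊆ R ∧
      (ν.prod volume) (R \ R') ≤ ENNReal.ofReal (C * K / (η * K₁)) ∧ k6a3_Kept ν R₀ R' st (θ₀ + η) ∧
      ∀ r Ks : ℝ, p ≤ r → r ≤ ρ → k6a3_Supp c R₀ r p Ks →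
        k6a3_Strips R' st Z GC ρ p r (C * (K * K₁ / w) ^ C * (ρ / p) ^ ε * Ks * (p / r) ^ (j + 1))

/-- E3. ALL STAGES: induction on `n` with E2, `η = 1 / (2 n)`, `θ₀ = i / (2 n)`; lists persist on restrictions. -/
def k6a3_stages_stmt : Prop :=
  ∀ (j : ℕ) (ε : ℝ), 1 ≤ j → 0 < ε → ∃ C : ℝ, 0 < C ∧
    ∀ {Λ D₀ : Type} [MeasurableSpace Λ] [Countable D₀] (ν : Measure Λ) (c : Λ → k5_Co j) (R₀ : Set (Λ × ℝ))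
      (st : Λ × ℝ → D₀) (Z : D₀ → Fin (j + 2) → ℝ) (G : D₀ → Fin (j + 1) → ℝ)
      (GC : (Fin (j + 2) → ℤ) → Fin (j + 1) → ℝ) (K K₂ b eg ρ w K₁ : ℝ) (n : ℕ) (ps : ℕ → ℝ),
    k6a3_Geo j ν c R₀ st Z G GC K K₂ b eg ρ w →
    1 ≤ K → 0 ≤ K₂ → 0 ≤ b → ρ ≤ 1 → 0 < w → w ≤ 1 → 1 ≤ K₁ →
    (∀ i < n, b ≤ ps i ∧ 0 < ps i ∧ ps i ≤ ρ ∧
      (eg + (j + 1) * K * K₂ * ρ) * (3 * ρ) + 2 * (1 + (j + 1) * K) * b ≤ ps i) →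
    ∃ R' : Set (Λ × ℝ), MeasurableSet R' ∧ R' ⊆ R₀ ∧
      (ν.prod volume) (R₀ \ R') ≤ ENNReal.ofReal (C * K * (n : ℝ) ^ 2 / K₁) ∧
      ∀ i < n, ∀ r Ks : ℝ, ps i ≤ r → r ≤ ρ → k6a3_Supp c R₀ r (ps i) Ks →
        k6a3_Strips R' st Z GC ρ (ps i) r (C * (K * K₁ / w) ^ C * (ρ / ps i) ^ ε * Ks * (ps i / r) ^ (j + 1))

/-! ### F. the parameter zoom, l.657-700 -/

/-- the corner of a block, as real coefficients -/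
def k6a3_cr {j : ℕ} (β : (Fin 3 → ℤ) × (Fin 2 → Fin j → ℤ)) : k5_Co j :=
  (fun i => (β.1 i : ℝ), fun i a => (β.2 i a : ℝ))

/-- F1. algebra of the zoom (all by `unfold` + `field_simp`/`ring`, `Int.floor_sub_intCast`-type lemmas; `(1/2)^i`: `c/(ρ r) - 2^i β`). -/
def k6a3_zm_alg_stmt : Prop :=
  ∀ (j : ℕ) (ρ : ℝ) (β : (Fin 3 → ℤ) × (Fin 2 → Fin j → ℤ)) (c : k5_Co j), 0 < ρ →
    (∀ t, ρ * k5_x (k6a3_zm ρ β c) t = k5_x c t - ρ * k5_x (k6a3_cr β) t) ∧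
    (∀ t a, ρ * k5_y (k6a3_zm ρ β c) t a = k5_y c t a - ρ * k5_y (k6a3_cr β) t a) ∧
    (∀ t, ρ * k5_xD 1 (k6a3_zm ρ β c) t = k5_xD 1 c t - ρ * k5_xD 1 (k6a3_cr β) t) ∧
    (∀ a, ρ * k5_yd (k6a3_zm ρ β c) a = k5_yd c a - ρ * k5_yd (k6a3_cr β) a) ∧
    (k5_cbin ρ c = β → ‖k6a3_zm ρ β c‖ ≤ 1) ∧
    (∀ i : ℕ, k5_cbin ((1 / 2 : ℝ) ^ i) (k6a3_zm ρ β c) =
      ((fun k => (k5_cbin (ρ * (1 / 2 : ℝ) ^ i) c).1 k - 2 ^ i * β.1 k),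
       (fun k a => (k5_cbin (ρ * (1 / 2 : ℝ) ^ i) c).2 k a - 2 ^ i * β.2 k a))) ∧
    (∀ (q a t : ℝ) (e : Fin j → ℝ), k5_InQ q a e (k6a3_zm ρ β c) t ↔
      k5_InQ (ρ * q) (ρ * (a + k5_x (k6a3_cr β) t)) (fun i => ρ * (e i + k5_y (k6a3_cr β) t i)) c t)

/-- F2. two trajectories of one block stay `3ρ`-close; speed `≤ 3K`. -/
def k6a3_block_dist_stmt : Prop :=
  ∀ (j : ℕ) (c c' : k5_Co j) (K ρ t u : ℝ), 0 < ρ → 1 ≤ K → ‖c‖ ≤ K → k5_cbin ρ c = k5_cbin ρ c' →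
    0 ≤ t → t ≤ 1 → 0 ≤ u → u ≤ 1 → ‖k6a3_W c t - k6a3_W c' u‖ ≤ 3 * K * |t - u| + 3 * ρ

/-- F3 = (6.19). a time-only row.  `F t = Y (e_k)` for a chosen `e_k ∈ S` with `⌊tm e_k / ρ⌋ = k = ⌊t / ρ⌋`, `0` if there is none; measurable: a function of `⌊t / ρ⌋`. -/
def k6a3_zoom_row_stmt : Prop :=
  ∀ {Ω : Type} (S : Set Ω) (q : ℕ) (tm : Ω → ℝ) (Y : Ω → Fin q → ℝ) (Kr B ρ : ℝ), 0 < ρ → 0 ≤ Kr → 0 ≤ B →
    (∀ e ∈ S, ‖Y e‖ ≤ B) → (∀ e ∈ S, ∀ e' ∈ S, ‖Y e - Y e'‖ ≤ Kr * (|tm e - tm e'| + ρ)) →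
    ∃ F : ℝ → Fin q → ℝ, Measurable F ∧ (∀ t, ‖F t‖ ≤ B) ∧ (∀ e ∈ S, ‖F (tm e) - Y e‖ ≤ 2 * Kr * ρ) ∧
      ∀ e ∈ S, ∀ e' ∈ S, ‖F (tm e) - F (tm e')‖ ≤ Kr * (|tm e - tm e'| + 3 * ρ)

/-- F4. a local count passes to a function that differs by a constant up to `err ≤ p`.
PROOF. `f i ∈ [x₀, x₀ + r]` puts `g i` in 3 intervals of length `r`; `⌊g i / p⌋ = σ` puts `f i / p` in an interval of length `≤ 3`: 4 cells. -/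
def k6a3_count_transfer_stmt : Prop :=
  ∀ {I : Type} (S : Set I) (f g : I → ℝ) (κ err p r Kc : ℝ), 0 < p → p ≤ r → err ≤ p →
    (∀ i ∈ S, |f i - g i - κ| ≤ err) →
    (∀ x₀ : ℝ, ∃ T : Finset ℤ, (T.card : ℝ) ≤ Kc ∧ ∀ i ∈ S, x₀ ≤ g i → g i ≤ x₀ + r → ⌊g i / p⌋ ∈ T) →
    ∀ x₀ : ℝ, ∃ T : Finset ℤ, (T.card : ℝ) ≤ 12 * Kc ∧ ∀ i ∈ S, x₀ ≤ f i → f i ≤ x₀ + r → ⌊f i / p⌋ ∈ T

/-- F5. from the tested widths to all real widths ('subdivision and enlargement').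
PROOF. `i` = last index with `r ≤ s i` (`s i ≤ A r` or `i = L`), `i'` = first index with `s i' ≤ q` (`q ≤ A s i'` or `i' = 0`); if `i' < i` all four numbers agree, use `(i', i')`.
An `s i'`-cell meets at most two `q`-cells.   `(s i / s i')^d ≤ (A² r / q)^d ≤ A² (r/q)^d`. -/
def k6a3_count_interp_stmt : Prop :=
  ∀ (𝒜 : Set ℝ) (L : ℕ) (s : ℕ → ℝ) (A Kc d ζ : ℝ), 1 ≤ A → 0 ≤ d → d ≤ 1 → 0 ≤ Kc → k6a3_Grid L s A ζ →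
    (∀ i i', i ≤ i' → i' ≤ L → ∀ x₀ : ℝ, ∃ T : Finset ℤ, (T.card : ℝ) ≤ Kc * (s i / s i') ^ d ∧
      ∀ x ∈ 𝒜, x₀ ≤ x → x ≤ x₀ + s i → ⌊x / s i'⌋ ∈ T) →
    ∀ q r x₀ : ℝ, ζ ≤ q → q ≤ r → r ≤ 1 → ∃ T : Finset ℤ, (T.card : ℝ) ≤ 2 * A ^ 2 * Kc * (r / q) ^ d ∧
      ∀ x ∈ 𝒜, x₀ ≤ x → x ≤ x₀ + r → ⌊x / q⌋ ∈ T

/-- F6. the scalar `ρ (x - f ỹ)` of the zoom at ONE time against the strip coordinates of the `≤ 11^(j+2)` nearby cubes (l.681-690).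
PROOF. F2 + `b ≤ ρ`: the centres of the labelled points at the time `t` are pairwise `≤ 5ρ` apart: cube indices in `n₀ + {-5..5}^(j+2)`.   In the cube `n` (F1):
`ρ S̃ - nrm (GC n) (W e) = κ(n,t) + (gy (GC n) - f) ⬝ᵥ (y - ρ y_cr(t))`, `κ = - ρ x_cr(t) + GC n 0 * t + gy (GC n) ⬝ᵥ ρ y_cr(t)`, `|y - ρ y_cr| ≤ 2ρ`, `‖gy (GC n) - f‖ ≤ 2 K₂ ρ`, `|nrm g (Z ..) - nrm g (W e)| ≤ (1 + (j+1) K) b`.
F4 in each cube, union over the cubes: `C = 12 · 11^(j+2)`. -/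
def k6a3_zoom_supp_grid_stmt : Prop :=
  ∀ (j : ℕ), ∃ C : ℝ, 0 < C ∧
    ∀ {Λ D₀ : Type} (c : Λ → k5_Co j) (R : Set (Λ × ℝ)) (st : Λ × ℝ → D₀) (Z : D₀ → Fin (j + 2) → ℝ)
      (G : D₀ → Fin (j + 1) → ℝ) (GC : (Fin (j + 2) → ℤ) → Fin (j + 1) → ℝ)
      (β : (Fin 3 → ℤ) × (Fin 2 → Fin j → ℤ)) (t : ℝ) (f : Fin j → ℝ) (K K₂ b ρ p r Kc : ℝ),
    1 ≤ K → 0 ≤ K₂ → 0 ≤ b → b ≤ ρ → 0 < ρ → 0 < p → p ≤ r → 0 ≤ t → t ≤ 1 → 0 ≤ Kc →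
    (∀ e ∈ R, ‖c e.1‖ ≤ K) → (∀ e ∈ R, ‖k6a3_Wi c e - Z (st e)‖ ≤ b) →
    (∀ e ∈ R, ‖G (st e) - GC (k6a_cell ρ (Z (st e)))‖ ≤ K₂ * ρ) → (∀ n, ‖GC n‖ ≤ K) →
    (∀ l, (l, t) ∈ R → k5_cbin ρ (c l) = β → ‖f - k6a3_gy (G (st (l, t)))‖ ≤ K₂ * ρ) →
    4 * j * K₂ * ρ ^ 2 + (1 + (j + 1) * K) * b ≤ p →
    k6a3_Strips R st Z GC ρ p r Kc →
    ∀ x₀ : ℝ, ∃ T : Finset ℤ, (T.card : ℝ) ≤ C * Kc ∧
      ∀ l, (l, t) ∈ R → k5_cbin ρ (c l) = β → x₀ ≤ ρ * k5_S f (k6a3_zm ρ β (c l)) t →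
        ρ * k5_S f (k6a3_zm ρ β (c l)) t ≤ x₀ + r → ⌊ρ * k5_S f (k6a3_zm ρ β (c l)) t / p⌋ ∈ T

/-- F7. the scalar-normal support bound (5.2)(1) of the zoom, all real widths in `[ζ, 1]`.   F6 at `p = ρ s i'`, `r = ρ s i` (divide by `ρ`), then F5 for `𝒜` = the values of the scalar. -/
def k6a3_zoom_supp_stmt : Prop :=
  ∀ (j : ℕ), ∃ C : ℝ, 0 < C ∧
    ∀ {Λ D₀ : Type} (c : Λ → k5_Co j) (R : Set (Λ × ℝ)) (st : Λ × ℝ → D₀) (Z : D₀ → Fin (j + 2) → ℝ)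
      (G : D₀ → Fin (j + 1) → ℝ) (GC : (Fin (j + 2) → ℤ) → Fin (j + 1) → ℝ)
      (β : (Fin 3 → ℤ) × (Fin 2 → Fin j → ℤ)) (t : ℝ) (f : Fin j → ℝ) (K K₂ b ρ ζ A d Kc : ℝ) (L : ℕ) (s : ℕ → ℝ),
    1 ≤ K → 0 ≤ K₂ → 0 ≤ b → b ≤ ρ → 0 < ρ → 0 ≤ t → t ≤ 1 → 0 ≤ Kc → 1 ≤ A → 0 ≤ d → d ≤ 1 → k6a3_Grid L s A ζ →
    (∀ e ∈ R, ‖c e.1‖ ≤ K) → (∀ e ∈ R, ‖k6a3_Wi c e - Z (st e)‖ ≤ b) →
    (∀ e ∈ R, ‖G (st e) - GC (k6a_cell ρ (Z (st e)))‖ ≤ K₂ * ρ) → (∀ n, ‖GC n‖ ≤ K) →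
    (∀ l, (l, t) ∈ R → k5_cbin ρ (c l) = β → ‖f - k6a3_gy (G (st (l, t)))‖ ≤ K₂ * ρ) →
    4 * j * K₂ * ρ ^ 2 + (1 + (j + 1) * K) * b ≤ ρ * ζ →
    (∀ i i', i ≤ i' → i' ≤ L → k6a3_Strips R st Z GC ρ (ρ * s i') (ρ * s i) (Kc * (s i / s i') ^ d)) →
    ∀ q r a : ℝ, ζ ≤ q → q ≤ r → r ≤ 1 → ∃ T : Finset ℤ, (T.card : ℝ) ≤ C * A ^ 2 * Kc * (r / q) ^ d ∧
      ∀ l ∈ k5_sec (k6a3_lb c ρ β R) t, a ≤ k5_S f (k6a3_zc c ρ β l) t → k5_S f (k6a3_zc c ρ β l) t ≤ a + r →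
        k5_bin q (k5_S f (k6a3_zc c ρ β l) t) ∈ T

/-- the fixed-time cap (6.8) at the widths of the zoom: spatial cube of side `ρ q`, velocity bin of width `ρ r` -/
def k6a3_Ftc {j : ℕ} {Λ : Type} [MeasurableSpace Λ] (ν : Measure Λ) (c : Λ → k5_Co j) (R : Set (Λ × ℝ))
    (pal : ℝ → (Fin j → ℤ) → ℝ) (d K ρ ζ : ℝ) : Prop :=
  ∀ r ∈ k5_Dy ζ, ∀ q : ℝ, ζ ≤ q → q ≤ r → ∀ (t a : ℝ) (e : Fin j → ℝ) (J : Fin j → ℤ),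
    ν {l | (l, t) ∈ R ∧ k5_InQ (ρ * q) a e (c l) t ∧ k5_vbin (ρ * r) (k5_yd (c l)) = J}
      ≤ ENNReal.ofReal (K * (ρ * q) ^ ((j : ℝ) + d) * pal (ρ * r) J)

/-- the parameter floor (6.6): every block `B_{ρ r}` of a labelled trajectory participates -/
def k6a3_Flo {j : ℕ} {Λ : Type} [MeasurableSpace Λ] (ν : Measure Λ) (c : Λ → k5_Co j) (R : Set (Λ × ℝ))
    (pal : ℝ → (Fin j → ℤ) → ℝ) (d K ρ ζ : ℝ) : Prop :=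
  ∀ r ∈ k5_Dy ζ, ∀ e ∈ R,
    ENNReal.ofReal ((ρ * r) ^ ((j : ℝ) + d) * pal (ρ * r) (k5_vbin (ρ * r) (k5_yd (c e.1))))
      ≤ ENNReal.ofReal K * ν {l | k5_cbin (ρ * r) (c l) = k5_cbin (ρ * r) (c e.1)}

/-- [WITHDRAWN 20:30Z, see StripExit.lean] F8 = (6.20). both spatial caps of Definition 5.2 for the conditioned prior `ν(· | B_ρ)`.
PROOF. if the set on the left is empty: trivial.  Otherwise pick `l₀` in it: by F1 the set lies in ONE physical block `B' = B_{ρ r}` (index `B + 2^i β`), inside `B_ρ`, with ONE velocity bin `J`;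
`ν(set) ≤ K (ρ q)^(j+d) pal J` (Ftc, cube translated by F1) and `(ρ r)^(j+d) pal J ≤ K ν(B')` (Flo at `(l₀, t)`);  `B' ⊆ {l | k5_cbin r (zc l) = B}`;  divide by `ν(B_ρ)` (`ProbabilityTheory.cond_apply`).   First cap: `r = 1`. -/
def k6a3_zoom_caps_stmt : Prop :=
  ∀ (j : ℕ) {Λ : Type} [MeasurableSpace Λ] (ν : Measure Λ) [IsFiniteMeasure ν] (c : Λ → k5_Co j) (R : Set (Λ × ℝ))
    (pal : ℝ → (Fin j → ℤ) → ℝ) (d K ρ ζ : ℝ) (β : (Fin 3 → ℤ) × (Fin 2 → Fin j → ℤ)),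
    Measurable c → MeasurableSet R → 0 < ρ → 0 < ζ → ζ ≤ 1 → 1 ≤ K → 0 ≤ d → (∀ x J, 0 ≤ pal x J) →
    k6a3_Ftc ν c R pal d K ρ ζ → k6a3_Flo ν c R pal d K ρ ζ → ν (k6a3_blk c ρ β) ≠ 0 → ∀ t : ℝ,
    (∀ (q a : ℝ) (e : Fin j → ℝ), ζ ≤ q → q ≤ 1 →
      (ProbabilityTheory.cond ν (k6a3_blk c ρ β)).real
        {l | l ∈ k5_sec (k6a3_lb c ρ β R) t ∧ k5_InQ q a e (k6a3_zc c ρ β l) t} ≤ K ^ 2 * q ^ ((j : ℝ) + d)) ∧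
    (∀ r ∈ k5_Dy ζ, ∀ (q a : ℝ) (e : Fin j → ℝ) (B : (Fin 3 → ℤ) × (Fin 2 → Fin j → ℤ)), ζ ≤ q → q ≤ r →
      (ProbabilityTheory.cond ν (k6a3_blk c ρ β)).real
        {l | l ∈ k5_sec (k6a3_lb c ρ β R) t ∧ k5_cbin r (k6a3_zc c ρ β l) = B ∧ k5_InQ q a e (k6a3_zc c ρ β l) t}
      ≤ K ^ 2 * (q / r) ^ ((j : ℝ) + d) *
        (ProbabilityTheory.cond ν (k6a3_blk c ρ β)).real {l | k5_cbin r (k6a3_zc c ρ β l) = B})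

/-! ### G. the failure set, l.563-575 (finite coefficient grids make it measurable) -/

/-- value at `t` of the row-valued polynomial with coefficients `a k` -/
def k6a3_pv {q M : ℕ} (a : Fin (M + 1) → Fin q → ℝ) (t : ℝ) : Fin q → ℝ := ∑ k : Fin (M + 1), t ^ (k : ℕ) • a k

/-- witness times of the fit `a` on the line `l` in the time block `⌊u / H⌋ = i` -/
def k6a3_wit {Λ : Type} {q M : ℕ} (Ref : Set (Λ × ℝ)) (Y : Λ × ℝ → Fin q → ℝ) (a : Fin (M + 1) → Fin q → ℝ)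
    (err H : ℝ) (l : Λ) (i : ℤ) : Set ℝ :=
  {u | (l, u) ∈ Ref ∧ ⌊u / H⌋ = i ∧ ‖Y (l, u) - k6a3_pv a u‖ ≤ err}

/-- the incidences qualified by the fit `a` : a witness time of a witness set of duration `≥ dur` in its own block -/
def k6a3_good {Λ : Type} {q M : ℕ} (Ref : Set (Λ × ℝ)) (Y : Λ × ℝ → Fin q → ℝ) (a : Fin (M + 1) → Fin q → ℝ)
    (err H dur : ℝ) : Set (Λ × ℝ) :=
  {e | e.2 ∈ k6a3_wit Ref Y a err H e.1 ⌊e.2 / H⌋ ∧ ENNReal.ofReal dur ≤ volume (k6a3_wit Ref Y a err H e.1 ⌊e.2 / H⌋)}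

/-- **the failure set** `U_{N,ε}` : no fit with coefficients in `δ ℤ ∩ [-Kq, Kq]` qualifies the incidence -/
def k6a3_fail {Λ : Type} {q : ℕ} (M : ℕ) (Ref : Set (Λ × ℝ)) (Y : Λ × ℝ → Fin q → ℝ) (err H dur δ Kq : ℝ) : Set (Λ × ℝ) :=
  {e | e ∈ Ref ∧ ∀ n : Fin (M + 1) → Fin q → ℤ, (∀ k i, |δ * (n k i : ℝ)| ≤ Kq) →
    e ∉ k6a3_good Ref Y (fun k i => δ * (n k i : ℝ)) err H dur}

/-- [WITHDRAWN 20:30Z, see StripExit.lean] G1. measurability.  `A = {e ∈ Ref | ‖Y e - pv a e.2‖ ≤ err}` is measurable; `good = ⋃ i, {e ∈ A | ⌊e.2/H⌋ = i} ∩ {e | dur ≤ volume (section at e.1 of A ∩ block i)}`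
(`measurable_measure_prodMk_left`, composed with `measurable_fst`);  `fail` = `Ref` minus a countable union. -/
def k6a3_fail_meas_stmt : Prop :=
  ∀ {Λ : Type} [MeasurableSpace Λ] (q M : ℕ) (Ref : Set (Λ × ℝ)) (Y : Λ × ℝ → Fin q → ℝ) (err H dur δ Kq : ℝ),
    MeasurableSet Ref → Measurable Y →
    (∀ a : Fin (M + 1) → Fin q → ℝ, MeasurableSet (k6a3_good Ref Y a err H dur)) ∧
      MeasurableSet (k6a3_fail M Ref Y err H dur δ Kq)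

/-- [WITHDRAWN 20:30Z, see StripExit.lean] G2. rounding of the coefficients towards zero. -/
def k6a3_poly_round_stmt : Prop :=
  ∀ (q M : ℕ) (a : Fin (M + 1) → Fin q → ℝ) (δ Kq : ℝ), 0 < δ → (∀ k i, |a k i| ≤ Kq) →
    ∃ n : Fin (M + 1) → Fin q → ℤ, (∀ k i, |δ * (n k i : ℝ)| ≤ Kq) ∧
      ∀ t : ℝ, 0 ≤ t → t ≤ 1 → ‖k6a3_pv a t - k6a3_pv (fun k i => δ * (n k i : ℝ)) t‖ ≤ (M + 1) * δ

/-- [WITHDRAWN 20:30Z, see StripExit.lean] G3. EXIT of the failure set: a real fit found INSIDE a residual `Rs ⊆ Ref` qualifies its incidences, so they are not in the failure set.  (G2 + monotonicity of `wit` in `Ref`, `err`.) -/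
def k6a3_fail_no_fit_stmt : Prop :=
  ∀ {Λ : Type} (q M : ℕ) (Ref Rs : Set (Λ × ℝ)) (Y : Λ × ℝ → Fin q → ℝ) (err err' H dur δ Kq : ℝ)
    (a : Fin (M + 1) → Fin q → ℝ), Rs ⊆ Ref → (∀ e ∈ Ref, 0 ≤ e.2 ∧ e.2 ≤ 1) → 0 < δ → (∀ k i, |a k i| ≤ Kq) →
    err' + (M + 1) * δ ≤ err → ∀ e ∈ k6a3_good Rs Y a err' H dur, e ∉ k6a3_fail M Ref Y err H dur δ Kq

/-! ### H. exit of the unit -/

/-- **Definition 5.2 without the residual comparison** (`k5_Snd` minus `resc`; S6a4 adds `resc` after a further restriction of the labels) -/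
structure k6a3_Pre {Λ : Type} [MeasurableSpace Λ] (j : ℕ) (d K ζ : ℝ) (ν : Measure Λ) (c : Λ → k5_Co j)
    (E : Set (Λ × ℝ)) (F : ℝ → Fin j → ℝ) : Prop where
  prob : IsProbabilityMeasure ν
  mc : Measurable c
  mE : MeasurableSet E
  mF : Measurable F
  tI : ∀ l t, (l, t) ∈ E → 0 ≤ t ∧ t < 1
  cb : ∀ l, ‖c l‖ ≤ K
  tm : ∀ t, 0 ≤ t → t < 1 → k5_Tm j d K ζ (k5_Dy ζ) (fun A => ν.real A) c t (F t) (k5_sec E t)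
  rowc : ∀ l t l' u, (l, t) ∈ E → (l', u) ∈ E → ‖F t - F u‖ ≤ K * (|t - u| + ζ)

/-- [WITHDRAWN 20:30Z, see StripExit.lean] H1. restriction of the labels, enlargement of the slack (`measureReal_mono`; `0 ≤` of the right sides). -/
def k6a3_pre_mono_stmt : Prop :=
  ∀ {Λ : Type} [MeasurableSpace Λ] (j : ℕ) (d K K' ζ : ℝ) (ν : Measure Λ) (c : Λ → k5_Co j) (E E' : Set (Λ × ℝ))
    (F : ℝ → Fin j → ℝ), k6a3_Pre j d K ζ ν c E F → MeasurableSet E' → E' ⊆ E → K ≤ K' → k6a3_Pre j d K' ζ ν c E' F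

/-- `k5_Snd` = `k6a3_Pre` + residual comparison -/
theorem k6a3_pre_snd {Λ : Type} [MeasurableSpace Λ] {j : ℕ} {d K ζ : ℝ} {ν : Measure Λ} {c : Λ → k5_Co j}
    {E : Set (Λ × ℝ)} {F : ℝ → Fin j → ℝ} (h : k6a3_Pre j d K ζ ν c E F)
    (resc : ∀ l t l' u, (l, t) ∈ E → (l', u) ∈ E →
      |k5_R (F t) (c l) t - k5_R (F u) (c l') u|
        ≤ K * (|t - u| + |k5_x (c l) t - k5_x (c l') u| + ‖k5_y (c l) t - k5_y (c l') u‖ + ζ)) :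
    k5_Snd j d K ζ ν c E F :=
  ⟨h.prob, h.mc, h.mE, h.mF, h.tI, h.cb, h.tm, h.rowc, resc⟩

/-- **INPUT of the unit** in one parent world (what S6a1 = `K6aPhys`, S6a2 = `K6aGraph` and breadth must supply on the residual `R`, AFTER the narrow fine states have been deleted):
slack `K`, fine mesh `b`, graph error `eg = b^κ`, zoom scale `ρ`, floor `ζ`, breadth width `w`; grid `s` between `1` and `ρ` (row lists), grid `s'` between `1` and `ζ` (strip widths `ρ s' i`). -/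
structure k6a3_In (j : ℕ) (d : ℝ) {Λ D₀ : Type} [MeasurableSpace Λ] (ν : Measure Λ) (c : Λ → k5_Co j) (R : Set (Λ × ℝ))
    (st : Λ × ℝ → D₀) (Z : D₀ → Fin (j + 2) → ℝ) (G : D₀ → Fin (j + 1) → ℝ) (pal : ℝ → (Fin j → ℤ) → ℝ)
    (K A b eg ρ ζ w : ℝ) (L : ℕ) (s : ℕ → ℝ) (L' : ℕ) (s' : ℕ → ℝ) : Prop where
  nu_le : ν Set.univ ≤ 1
  mc : Measurable c
  mR : MeasurableSet R
  mst : ∀ d, MeasurableSet (st ⁻¹' {d})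
  tI : ∀ e ∈ R, 0 ≤ e.2 ∧ e.2 < 1
  cb : ∀ e ∈ R, ‖c e.1‖ ≤ K
  ctr : ∀ e ∈ R, ‖k6a3_Wi c e - Z (st e)‖ ≤ b
  /-- Prop 6.2 -/
  Gb : ∀ d, ‖G d‖ ≤ K
  graph : ∀ e ∈ R, |k5_xD 1 (c e.1) e.2 - G (st e) ⬝ᵥ k6a3_v (c e.1)| ≤ eg
  grid : k6a3_Grid L s A ρ
  lists : ∀ i ≤ L, ∀ n : Fin (j + 2) → ℤ, ∃ T : Finset (Fin (j + 1) → ℤ), (T.card : ℝ) ≤ K ∧
    ∀ e ∈ R, k6a_cell (s i) (k6a3_Wi c e) = n → k6a_cell (s i) (G (st e)) ∈ T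
  /-- breadth of every fine state -/
  broad : ∀ (d : D₀) (n : Fin j → ℝ) (b₀ : ℝ), n ⬝ᵥ n = 1 →
    (ν.prod volume) (R ∩ st ⁻¹' {d} ∩ {e | |n ⬝ᵥ k5_yd (c e.1) - b₀| ≤ w}) ≤ 1 / 4 * (ν.prod volume) (R ∩ st ⁻¹' {d})
  /-- (6.5) -/
  grid' : k6a3_Grid L' s' A ζ
  supp : ∀ i i', i ≤ i' → i' ≤ L' → k6a3_Supp c R (ρ * s' i) (ρ * s' i') (K * (s' i / s' i') ^ ((j : ℝ) + 1 + d))
  /-- (6.8), (6.6) -/
  pal0 : ∀ x J, 0 ≤ pal x J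
  ftc : k6a3_Ftc ν c R pal d K ρ ζ
  flo : k6a3_Flo ν c R pal d K ρ ζ

/-- [WITHDRAWN 20:30Z, see StripExit.lean] H2. **EXIT OF S6a3** (one parent world).   ASSEMBLY: A2 (`K i = ⌈K⌉₊`) → `S`;  A3 (`Zc = Z ∘ st`, `Y = G ∘ st`, `Lp = A + 2K`, `K₂ = 2 Lp`) → `GC`, `k6a3_Geo` for `R₀ = S` (whole states: `broad` survives);
E3 with `ps i = ρ s' i`, `n = L' + 1` → `R'`;   for every block `β`: F2 + (6.15) give the hypothesis of F3 on `S_β = k6a3_lb c ρ β R'` with `tm = Prod.snd`, `Y = gy ∘ G ∘ st`, `Kr = 6 K (A + 2K)` → `F β`;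
F7 (`Kc = C (K K₁/w)^C ζ^(-ε) K`: `Ks (p/r)^(j+1) = K (r/p)^d`), F8 → `k5_Tm`;   `rowc` from F3 and `3ρ ≤ ζ`. -/
def k6a3_main_stmt : Prop :=
  ∀ (j : ℕ) (ε : ℝ), 1 ≤ j → 0 < ε → ∃ C : ℝ, 1 ≤ C ∧
    ∀ {Λ D₀ : Type} [MeasurableSpace Λ] [Countable D₀] (ν : Measure Λ) (c : Λ → k5_Co j) (R : Set (Λ × ℝ))
      (st : Λ × ℝ → D₀) (Z : D₀ → Fin (j + 2) → ℝ) (G : D₀ → Fin (j + 1) → ℝ) (pal : ℝ → (Fin j → ℤ) → ℝ)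
      (d K A b eg ρ ζ w K₁ : ℝ) (L : ℕ) (s : ℕ → ℝ) (L' : ℕ) (s' : ℕ → ℝ),
    k6a3_In j d ν c R st Z G pal K A b eg ρ ζ w L s L' s' →
    0 ≤ d → d ≤ 1 → 1 ≤ K → 1 ≤ A → 0 ≤ b → 0 ≤ eg → ζ ≤ 1 → 0 < w → w ≤ 1 → 1 ≤ K₁ →
    C * (K * A) ^ C * (eg + ρ + b / ρ) ≤ ζ →
    ∃ (R' : Set (Λ × ℝ)) (F : (Fin 3 → ℤ) × (Fin 2 → Fin j → ℤ) → ℝ → Fin j → ℝ), MeasurableSet R' ∧ R' ⊆ R ∧
      (ν.prod volume) R ≤ ENNReal.ofReal ((C * K) ^ (L + 1)) *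
        ((ν.prod volume) R' + ENNReal.ofReal (C * K * ((L' : ℝ) + 1) ^ 2 / K₁)) ∧
      (∀ e ∈ R', ∀ e' ∈ R', ‖G (st e) - G (st e')‖ ≤ C * K * A * (‖k6a3_Wi c e - k6a3_Wi c e'‖ + ρ)) ∧
      (∀ e ∈ R', ‖F (k5_cbin ρ (c e.1)) e.2 - k6a3_gy (G (st e))‖ ≤ C * (K * A) ^ C * ρ) ∧
      ∀ β, ν (k6a3_blk c ρ β) ≠ 0 →
        k6a3_Pre j d (C * (K * A * K₁ / w) ^ C * ζ ^ (-ε)) ζ (ProbabilityTheory.cond ν (k6a3_blk c ρ β))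
          (k6a3_zc c ρ β) (k6a3_lb c ρ β R') (F β)

theorem k6a3_defs2_eqns_cite : True := by
  have := @k6a3_Grid.eq_1
  have := @k6a3_Strips.eq_1
  have := @k6a3_Supp.eq_1
  have := @k6a3_Kept.eq_1
  have := @k6a3_cr.eq_1
  have := @k6a3_Ftc.eq_1
  have := @k6a3_Flo.eq_1
  have := @k6a3_pv.eq_1
  have := @k6a3_wit.eq_1
  have := @k6a3_good.eq_1
  have := @k6a3_fail.eq_1
  trivial

end Claimed.Agent.R252
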