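/-
CONTRACT  (row252, unit S6a3, sub-architect helper117, chief helper234; prefix `k6a3_`), file 2: THE EXIT IN ONE WORLD.   No `sorry` (statements are `def … : Prop`).

CHANGE 20:30Z (agreement with helper198 = S6a4 and with the chief's `S6a/Tools.lean`):
* S6a4 takes over (6.20) and the failure set: `k6a3_zoom_caps_stmt`, `k6a3_Pre`, `k6a3_pre_mono_stmt`, `k6a3_main_stmt`, section G of `StripContract.lean` are NOT needed (leaves withdrawn).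
* THE EXIT of the one-world part is `k6a3_exit_stmt` below: exactly the fields `mF, Fb, FG, FF, supp` of `k6a4_In` (`S6a/Q4Defs.lean`) + (6.15) + the mass.   Leaf L-252-S6a3-MAIN proves `k6a3_exit_stmt`.
* `k6a3_narrow_lin`, `k6a3_span_fin`, `k6a3_fill_fin` are withdrawn: `k6a3_fill_stmt` is proved from the chief's tools (see `k6a3_fill` PLAN below).
-/
import Claimed.Agent.R252.S6a.StripContract

set_option autoImplicit false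

namespace Claimed.Agent.R252

open MeasureTheory
open scoped ENNReal

/-- **INPUT of the one-world part** (= `k6a3_In` without the palette clauses).   `R` = the residual AFTER deletion of the narrow fine states. -/
structure k6a3_In0 (j : ℕ) (d : ℝ) {Λ D₀ : Type} [MeasurableSpace Λ] (ν : Measure Λ) (c : Λ → k5_Co j) (R : Set (Λ × ℝ))
    (st : Λ × ℝ → D₀) (Z : D₀ → Fin (j + 2) → ℝ) (G : D₀ → Fin (j + 1) → ℝ)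
    (K A b eg ρ ζ w : ℝ) (L : ℕ) (s : ℕ → ℝ) (L' : ℕ) (s' : ℕ → ℝ) : Prop where
  nu_le : ν Set.univ ≤ 1
  mc : Measurable c
  mR : MeasurableSet R
  mst : ∀ d, MeasurableSet (st ⁻¹' {d})
  tI : ∀ e ∈ R, 0 ≤ e.2 ∧ e.2 < 1
  cb : ∀ e ∈ R, ‖c e.1‖ ≤ K
  ctr : ∀ e ∈ R, ‖k6a3_Wi c e - Z (st e)‖ ≤ b
  /-- Prop 6.2 -/
  Gb : ∀ d, ‖G d‖ ≤ K
  graph : ∀ e ∈ R, |k5_xD 1 (c e.1) e.2 - G (st e) ⬝ᵥ k6a3_v (c e.1)| ≤ eg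
  grid : k6a3_Grid L s A ρ
  lists : ∀ i ≤ L, ∀ n : Fin (j + 2) → ℤ, ∃ T : Finset (Fin (j + 1) → ℤ), (T.card : ℝ) ≤ K ∧
    ∀ e ∈ R, k6a_cell (s i) (k6a3_Wi c e) = n → k6a_cell (s i) (G (st e)) ∈ T
  /-- breadth of every fine state -/
  broad : ∀ (d : D₀) (n : Fin j → ℝ) (b₀ : ℝ), n ⬝ᵥ n = 1 →
    (ν.prod volume) (R ∩ st ⁻¹' {d} ∩ {e | |n ⬝ᵥ k5_yd (c e.1) - b₀| ≤ w}) ≤ 1 / 4 * (ν.prod volume) (R ∩ st ⁻¹' {d})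
  /-- (6.5) -/
  grid' : k6a3_Grid L' s' A ζ
  supp : ∀ i i', i ≤ i' → i' ≤ L' → k6a3_Supp c R (ρ * s' i) (ρ * s' i') (K * (s' i / s' i') ^ ((j : ℝ) + 1 + d))

/-- **EXIT OF THE ONE-WORLD PART** (leaf L-252-S6a3-MAIN; take the cited statements as hypotheses).
ASSEMBLY: A2 `k6a3_field_lip_stmt` (`K i = ⌈K⌉₊`, `μ = ν.prod volume`, `W = k6a3_Wi c`) → `S`;   A3 `k6a3_cube_row_stmt` (`Zc = Z ∘ st`, `Y = G ∘ st`, `Lp = A + 2K`) → `GC`, so `k6a3_Geo` holds for `R₀ = S` with `K₂ = 2 (A + 2K)`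
(whole states are kept: `broad` survives);   E3 `k6a3_stages_stmt` with `ps i = ρ * s' i`, `n = L' + 1` → `R'`;
for every block `β`: F2 `k6a3_block_dist_stmt` + (6.15) give the hypothesis of F3 `k6a3_zoom_row_stmt` on `k6a3_lb c ρ β R'` with `tm = Prod.snd`, `Y = k6a3_gy ∘ G ∘ st`, `B = K`, `Kr = 6 K (A + 2K)` → `F β`;
F7 `k6a3_zoom_supp_stmt` with `K₂ := 12 K (A + 2K)`, `Kc = C (K K₁/w)^C ζ^(-ε) K` (`Ks (p/r)^(j+1) = K (r/p)^d`, `(ρ/p)^ε ≤ ζ^(-ε)`); for `t ∉ [0,1)` there is no label: `T = ∅`. -/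
def k6a3_exit_stmt : Prop :=
  ∀ (j : ℕ) (ε : ℝ), 1 ≤ j → 0 < ε → ∃ C : ℝ, 1 ≤ C ∧
    ∀ {Λ D₀ : Type} [MeasurableSpace Λ] [Countable D₀] (ν : Measure Λ) (c : Λ → k5_Co j) (R : Set (Λ × ℝ))
      (st : Λ × ℝ → D₀) (Z : D₀ → Fin (j + 2) → ℝ) (G : D₀ → Fin (j + 1) → ℝ)
      (d K A b eg ρ ζ w K₁ : ℝ) (L : ℕ) (s : ℕ → ℝ) (L' : ℕ) (s' : ℕ → ℝ),
    k6a3_In0 j d ν c R st Z G K A b eg ρ ζ w L s L' s' →
    0 ≤ d → d ≤ 1 → 1 ≤ K → 1 ≤ A → 0 ≤ b → 0 ≤ eg → ζ ≤ 1 → 0 < w → w ≤ 1 → 1 ≤ K₁ →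
    C * (K * A) ^ C * (eg + ρ + b / ρ) ≤ ζ →
    ∃ (R' : Set (Λ × ℝ)) (F : (Fin 3 → ℤ) × (Fin 2 → Fin j → ℤ) → ℝ → Fin j → ℝ), MeasurableSet R' ∧ R' ⊆ R ∧
      (ν.prod volume) R ≤ ENNReal.ofReal ((C * K) ^ (L + 1)) *
        ((ν.prod volume) R' + ENNReal.ofReal (C * K * ((L' : ℝ) + 1) ^ 2 / K₁)) ∧
      (∀ e ∈ R', ∀ e' ∈ R', ‖G (st e) - G (st e')‖ ≤ C * K * A * (‖k6a3_Wi c e - k6a3_Wi c e'‖ + ρ)) ∧
      (∀ β, Measurable (F β)) ∧ (∀ β t, ‖F β t‖ ≤ K) ∧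
      (∀ e ∈ R', ‖F (k5_cbin ρ (c e.1)) e.2 - k6a3_gy (G (st e))‖ ≤ C * (K * A) ^ C * ρ) ∧
      (∀ e ∈ R', ∀ e' ∈ R', k5_cbin ρ (c e.1) = k5_cbin ρ (c e'.1) →
        ‖F (k5_cbin ρ (c e.1)) e.2 - F (k5_cbin ρ (c e.1)) e'.2‖ ≤ C * (K * A) ^ C * (|e.2 - e'.2| + ρ)) ∧
      ∀ (β : (Fin 3 → ℤ) × (Fin 2 → Fin j → ℤ)) (t q r a : ℝ), ζ ≤ q → q ≤ r → r ≤ 1 →
        ∃ T : Finset ℤ, (T.card : ℝ) ≤ C * (K * A * K₁ / w) ^ C * ζ ^ (-ε) * (r / q) ^ d ∧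
          ∀ l, (l, t) ∈ R' → k5_cbin ρ (c l) = β → a ≤ k5_S (F β t) (k6a3_zm ρ β (c l)) t →
            k5_S (F β t) (k6a3_zm ρ β (c l)) t ≤ a + r → k5_bin q (k5_S (F β t) (k6a3_zm ρ β (c l)) t) ∈ T

end Claimed.Agent.R252
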