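/-
CONTRACT  (row252, unit S6a3, sub-architect helper117, chief helper234; prefix `k6a3_`), file 3: THE BRIDGE  `K6aDat` (S6a/Layers) ⟶ one-world model (StripExit) ⟶ `k6a4_In` (S6a/Q4Defs, helper198).
No `sorry`: statements are `def … : Prop`; a leaf `L-252-S6a3-BR*` proves `theorem k6a3_<name> : k6a3_<name>_stmt` in its own file `S6a/K3<Name>.lean`; cited statements may be taken as hypotheses.

THE INTERMEDIATE STRUCTURE BETWEEN S6a3 AND S6a4 IS `k6a4_In` (+ `k6a4_Sc`).    EXIT OF S6a3 = `k6a3_hub_stmt`: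
   every residual `U` of mass `≥ e` of the reference family contains labels `E'` of mass `≥ 2^(-ε kh)` with `k6a4_In` at slack `2^(ε kh)`.
`k6a_hub_disc_stmt` (S6a/Hubs) = `k6a3_hub_stmt` + `k6a4_fit` (S6a/Q4Top).

INSTANCE.  `Λ = D.L`, `ν = D.ν.restrict Lc` (= ν°), `c = k6a3_co D`, fine state = MASTER state `D.ms n0` (it carries breadth and `m0`), centre `k6a3_ctr n0`, fine mesh `b = k6aW n0`,
row `g` at the level `nb ≤ n0` through the coarsening `k6a3_crs (n0 - nb)`, `ρ = k6aW nr`, `ζ = k6aW nz`, graph error `k6aW nb ^ κ`, grids `k6a3_gs n sp i = k6aW (min (i sp) n)` (ratio `2^sp`).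
-/
import Claimed.Agent.R252.S6a.StripExit
import Claimed.Agent.R252.S6a.Hubs
import Claimed.Agent.R252.S6a.Q4Defs

set_option autoImplicit false

namespace Claimed.Agent.R252

open MeasureTheory
open scoped ENNReal

variable {j : ℕ}

/-! ### 0. dictionary -/

/-- coefficients of a line of the record, in the language of Sec. 5 -/
def k6a3_co (D : K6aDat j) (l : D.L) : k5_Co j := (D.xc l, ![D.y0 l, D.V l])

/-- index of a physical cell as a vector (signal, time, y) -/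
def k6a3_enc (c : K6aWc j) : Fin (j + 2) → ℤ := Fin.cons c.2 (Fin.cons c.1.1 c.1.2)

/-- index of a row bin as a vector -/
def k6a3_encR (c : K6aZc j) : Fin (j + 1) → ℤ := Fin.cons c.1 c.2

/-- index of a coefficient block -/
def k6a3_encB (B : K6aBc j) : k6a4_Ix j := (B.2.2, ![B.1, B.2.1])

/-- a row as a vector -/
def k6a3_rowv (g : K6aRow j) : Fin (j + 1) → ℝ := Fin.cons g.1 g.2

/-- coarsening of a cell by `k` levels (floor division) -/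
def k6a3_crs (k : ℕ) (c : K6aWc j) : K6aWc j := ((c.1.1 / 2 ^ k, fun a => c.1.2 a / 2 ^ k), c.2 / 2 ^ k)

/-- centre of the cell `c` of the level `i` -/
noncomputable def k6a3_ctr (i : ℕ) (c : K6aWc j) : Fin (j + 2) → ℝ := fun a => ((k6a3_enc c a : ℝ) + 1 / 2) * k6aW i

/-- tested widths: levels `0, sp, 2 sp, …` cut at `n` -/
noncomputable def k6a3_gs (n sp : ℕ) (i : ℕ) : ℝ := k6aW (min (i * sp) n)

/-- number of steps of the grid -/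
def k6a3_gl (n sp : ℕ) : ℕ := (n + sp - 1) / sp

/-- the row of a master state -/
noncomputable def k6a3_G (D : K6aDat j) (g : K6aWc j → K6aRow j) (k : ℕ) (s : D.Lb × K6aWc j) : Fin (j + 1) → ℝ :=
  k6a3_rowv (g (k6a3_crs k s.2))

theorem k6a3_hub_eqns_cite : True := by
  have := @k6a3_co.eq_1
  have := @k6a3_enc.eq_1
  have := @k6a3_encR.eq_1
  have := @k6a3_encB.eq_1
  have := @k6a3_rowv.eq_1
  have := @k6a3_crs.eq_1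
  have := @k6a3_ctr.eq_1
  have := @k6a3_gs.eq_1
  have := @k6a3_gl.eq_1
  have := @k6a3_G.eq_1
  trivial

/-- BR1. the dictionary for trajectories (unfold, `Matrix.cons_val_zero/one`, `ring`; norms: `Prod.norm_def`, `pi_norm_le_iff_of_nonneg`, `Fin.forall_fin_two`; `Fin.cons` by `Fin.cases`). -/
def k6a3_br_alg_stmt : Prop :=
  ∀ (j : ℕ) (D : K6aDat j),
    (∀ l t, k5_x (k6a3_co D l) t = D.X l t) ∧ (∀ l t, k5_y (k6a3_co D l) t = D.y l t) ∧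
    (∀ l, k5_yd (k6a3_co D l) = D.V l) ∧ (∀ l t, k5_xD 1 (k6a3_co D l) t = D.Xd l t) ∧
    (∀ (g : K6aRow j) l, k6a3_rowv g ⬝ᵥ k6a3_v (k6a3_co D l) = k6aAt g (D.V l)) ∧
    (∀ g : K6aRow j, ‖k6a3_rowv g‖ = ‖g‖) ∧ (∀ g : K6aRow j, k6a3_gy (k6a3_rowv g) = g.2) ∧
    (∀ K, D.WF K → Measurable (k6a3_co D) ∧ ∀ l, ‖k6a3_co D l‖ ≤ K)

/-- BR2. the dictionary for bins (`x / (1/2)^i = x * 2^i`; nested floors: `Int.floor_div_natCast`-type lemma `⌊x * 2^i⌋ = ⌊x * 2^n⌋ / 2^(n-i)`). -/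
def k6a3_br_bin_stmt : Prop :=
  ∀ (j : ℕ) (D : K6aDat j),
    (∀ a b, k6aW a * k6aW b = k6aW (a + b)) ∧
    (∀ i e, k6a_cell (k6aW i) (k6a3_Wi (k6a3_co D) e) = k6a3_enc (D.wc i e)) ∧
    (∀ i (g : K6aRow j), k6a_cell (k6aW i) (k6a3_rowv g) = k6a3_encR (k6aRowBin i g)) ∧
    Function.Injective (k6a3_enc (j := j)) ∧ Function.Injective (k6a3_encR (j := j)) ∧
    Function.Injective (k6a3_encB (j := j)) ∧
    (∀ i n e, i ≤ n → D.wc i e = k6a3_crs (n - i) (D.wc n e)) ∧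
    (∀ i l, k5_cbin (k6aW i) (k6a3_co D l) = k6a3_encB (D.bc i l)) ∧
    (∀ i l, k5_vbin (k6aW i) (k5_yd (k6a3_co D l)) = D.vb i l) ∧
    (∀ i (J : Fin j → ℤ), {u : Fin j → ℝ | k5_vbin (k6aW i) u = J} = k6aCube i J) ∧
    (∀ i e, ‖k6a3_Wi (k6a3_co D) e - k6a3_ctr i (D.wc i e)‖ ≤ k6aW i) ∧
    (∀ (nz : ℕ) (r : ℝ), r ∈ k5_Dy (k6aW nz) ↔ ∃ i ≤ nz, r = k6aW i)

/-- BR3. the prior: on families inside `Lc × [0,1]` the law of the record is `ν° × dt`  (`Measure.prod_restrict`, `Measure.restrict_apply`, `Measure.restrict_univ`). -/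
def k6a3_br_prior_stmt : Prop :=
  ∀ (j : ℕ) (D : K6aDat j) (K : ℝ) (Lc : Set D.L) (S : Set (D.L × ℝ)), D.WF K → MeasurableSet Lc → MeasurableSet S →
    S ⊆ Lc ×ˢ Set.Icc (0 : ℝ) 1 →
    D.prior S = ((D.ν.restrict Lc).prod volume) S ∧ D.prior S ≤ 1 ∧ k5_mass (D.ν.restrict Lc) S = (D.prior S).toReal

/-- BR4. grids. -/
def k6a3_br_grid_stmt : Prop :=
  ∀ n sp : ℕ, 1 ≤ sp → k6a3_Grid (k6a3_gl n sp) (k6a3_gs n sp) ((2 : ℝ) ^ sp) (k6aW n) ∧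
    ((k6a3_gl n sp : ℝ) ≤ (n : ℝ) / sp + 1) ∧ ∀ i, ∃ m ≤ n, k6a3_gs n sp i = k6aW m

/-- BR5. **entry**: the record gives `k6a3_In0` on `R` = `U` minus its narrow master states minus the time `1`.
PROOF. `R = U ∩ {e | ¬ K6aNarrow D U (D.ms n0) (1/100) w (D.ms n0 e)} ∩ {e | e.2 < 1}` (a countable union of states: measurable);  loss: `K6aBrd` with `E' = U`, `{e.2 = 1}` is null.
`broad`: `R ∩ state = U ∩ state` up to a null set or `∅`; not narrow: `< 1/100`.   `lists` = `K6aGraph.lists` at the level `m` of `k6a3_gs nr sp i` (`m ≤ nr ≤ nb`, `k6aW nb ^ κ ≤ k6aW nr ≤ k6aW m`), image of the list under `k6a3_encR`,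
`D.wc nb e = k6a3_crs (n0 - nb) (D.wc n0 e)`.   `supp` = `K6aPhys.loc` at the levels `nr + m ≤ nr + m'`, image under `k6a3_enc`, `2^(m'-m) = s' i / s' i'`.   BR1-BR4 as hypotheses. -/
def k6a3_br_in0_stmt : Prop :=
  ∀ (j : ℕ) (D : K6aDat j) (d K δ w κ : ℝ) (nz nr nb n0 sp : ℕ) (E U : Set (D.L × ℝ)) (Lc : Set D.L)
    (m0 : D.Lb × K6aWc j → ℝ≥0∞) (g : K6aWc j → K6aRow j),
    1 ≤ K → 1 ≤ sp → nr ≤ nb → nb ≤ n0 → nr + nz ≤ n0 → k6aW nb ^ κ ≤ k6aW nr → 0 ≤ δ →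
    D.WF K → K6aPhys D d K n0 E Lc m0 → K6aGraph D K (k6aW nb ^ κ) nb E g → K6aBrd D E (D.ms n0) (1 / 100) w δ →
    MeasurableSet U → U ⊆ E →
    ∃ R : Set (D.L × ℝ), R ⊆ U ∧ D.prior U ≤ D.prior R + ENNReal.ofReal δ ∧
      k6a3_In0 j d (D.ν.restrict Lc) (k6a3_co D) R (D.ms n0) (fun s => k6a3_ctr n0 s.2) (k6a3_G D g (n0 - nb))
        K ((2 : ℝ) ^ sp) (k6aW n0) (k6aW nb ^ κ) (k6aW nr) (k6aW nz) w
        (k6a3_gl nr sp) (k6a3_gs nr sp) (k6a3_gl nz sp) (k6a3_gs nz sp)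

/-- BR6. (6.8) for arbitrary cubes of real side `ρ q` from the dyadic `K6aPhys.slice`.
PROOF. level `i'` with `k6aW i' ≤ ρ q < 2 k6aW i'` (`i' ≤ nr + nz ≤ n0` as `ρ q ≥ k6aW (nr + nz)`); a closed interval of length `< 2 w` meets `≤ 3` cells: `3^(j+1)` spatial cells; `k6aW i' ^ (j+d) ≤ (ρ q)^(j+d)`; `ν° ≤ ν`. -/
def k6a3_br_cap_stmt : Prop :=
  ∀ (j : ℕ) (D : K6aDat j) (d K : ℝ) (nz nr n0 : ℕ) (E : Set (D.L × ℝ)) (Lc : Set D.L) (m0 : D.Lb × K6aWc j → ℝ≥0∞),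
    1 ≤ K → 0 ≤ d → nr + nz ≤ n0 → D.WF K → K6aPhys D d K n0 E Lc m0 →
    ∀ r ∈ k5_Dy (k6aW nz), ∀ (q a : ℝ) (y₀ : Fin j → ℝ) (J : Fin j → ℤ) (t : ℝ), k6aW nz ≤ q → q ≤ r →
      (D.ν.restrict Lc).real {l | (l, t) ∈ E ∧ k5_InQ (k6aW nr * q) a y₀ (k6a3_co D l) t ∧
          k5_vbin (k6aW nr * r) (k5_yd (k6a3_co D l)) = J}
        ≤ 3 ^ (j + 1) * K * (k6aW nr * q) ^ ((j : ℝ) + d) * k6a4_pm D.pal (k6aW nr * r) J

/-- BR7. **exit**: the clauses of `k6a4_In` that come from S6a1, S6a2 (`joint, plist, graph, floor, cap`, states) + the five clauses of `k6a3_exit_stmt`.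
PROOF. field by field.  `Ws` = image of a finite box (`|t| ≤ 1`, `|y| ≤ 2K`, `|X| ≤ 3K`, `D.Lb` finite).  `wd`: same cell of the level `n0`.  `m0s` = `m0_sum` (`ENNReal.toReal_sum`).  `joint` = `K6aPhys.joint` at the level `nr + i`;
`plist` = `blk_list` at the level `nr` (`D.wc nr e = k6a3_crs (n0 - nr) (D.wc n0 e)`), image under `k6a3_encB`;  `floor` = `blk_lo`;  `cap` = BR6;  `graph` = `K6aGraph.est`.  All clauses are hereditary (`E' ⊆ E`).  BR1-BR3, BR6 as hypotheses.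
`k6a4_zm` and `k6a3_zm` are the same function (`rfl`). -/
def k6a3_br_in4_stmt : Prop :=
  ∀ (j : ℕ) (D : K6aDat j) (d K K' κ : ℝ) (nz nr nb n0 : ℕ) (E E' : Set (D.L × ℝ)) (Lc : Set D.L)
    (m0 : D.Lb × K6aWc j → ℝ≥0∞) (g : K6aWc j → K6aRow j) (F : k6a4_Ix j → ℝ → Fin j → ℝ),
    1 ≤ K → 3 ^ (j + 1) * K ≤ K' → 0 ≤ d → nr ≤ nb → nb ≤ n0 → nr + nz ≤ n0 →
    D.WF K → K6aPhys D d K n0 E Lc m0 → K6aGraph D K (k6aW nb ^ κ) nb E g →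
    MeasurableSet E' → E' ⊆ E → (∀ e ∈ E', e.2 < 1) →
    (∀ β, Measurable (F β)) → (∀ β t, ‖F β t‖ ≤ K') →
    (∀ e ∈ E', ‖F (k5_cbin (k6aW nr) (k6a3_co D e.1)) e.2 - k6a3_gy (k6a3_G D g (n0 - nb) (D.ms n0 e))‖ ≤ K' * k6aW nr) →
    (∀ e ∈ E', ∀ e' ∈ E', k5_cbin (k6aW nr) (k6a3_co D e.1) = k5_cbin (k6aW nr) (k6a3_co D e'.1) →
      ‖F (k5_cbin (k6aW nr) (k6a3_co D e.1)) e.2 - F (k5_cbin (k6aW nr) (k6a3_co D e.1)) e'.2‖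
        ≤ K' * (|e.2 - e'.2| + k6aW nr)) →
    (∀ (β : k6a4_Ix j) (t q r a : ℝ), k6aW nz ≤ q → q ≤ r → r ≤ 1 →
      ∃ T : Finset ℤ, (T.card : ℝ) ≤ K' * (r / q) ^ d ∧
        ∀ l, (l, t) ∈ E' → k5_cbin (k6aW nr) (k6a3_co D l) = β → a ≤ k5_S (F β t) (k6a3_zm (k6aW nr) β (k6a3_co D l)) t →
          k5_S (F β t) (k6a3_zm (k6aW nr) β (k6a3_co D l)) t ≤ a + r →
          k5_bin q (k5_S (F β t) (k6a3_zm (k6aW nr) β (k6a3_co D l)) t) ∈ T) →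
    ∃ Ws : Finset (D.Lb × K6aWc j),
      k6a4_In j d K' (k6aW nz) (k6aW nr) (k6aW n0) (k6aW nb ^ κ) (D.ν.restrict Lc) (k6a3_co D) E' D.pal (D.ms n0) Ws
        (fun s => (m0 s).toReal) (fun s => (g (k6a3_crs (n0 - nb) s.2)).1) (fun s => (g (k6a3_crs (n0 - nb) s.2)).2) F

/-- BR8. **the hub with explicit constants** (one scale).   ASSEMBLY of BR5, `k6a3_exit_stmt`, BR7 (+ BR3 for the masses).
`C` = the constant of `k6a3_exit_stmt` for `(j, ε₁)`;  `A = 2^sp`, `L = k6a3_gl nr sp`, `L' = k6a3_gl nz sp`;  entering mass `e - δ ≥ e/2`. -/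
def k6a3_hub1_stmt : Prop :=
  ∀ (j : ℕ) (ε₁ : ℝ), 1 ≤ j → 0 < ε₁ → ∃ C : ℝ, 1 ≤ C ∧
  ∀ (D : K6aDat j) (d K K' K₁ δ w e κ : ℝ) (nz nr nb n0 sp : ℕ) (E U : Set (D.L × ℝ)) (Lc : Set D.L)
    (m0 : D.Lb × K6aWc j → ℝ≥0∞) (g : K6aWc j → K6aRow j),
    0 ≤ d → d ≤ 1 → 1 ≤ K → 1 ≤ K₁ → 1 ≤ sp → nr ≤ nb → nb ≤ n0 → nr + nz ≤ n0 → k6aW nb ^ κ ≤ k6aW nr →
    D.WF K → K6aPhys D d K n0 E Lc m0 → K6aGraph D K (k6aW nb ^ κ) nb E g →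
    0 < w → w ≤ 1 → K6aBrd D E (D.ms n0) (1 / 100) w δ → 0 ≤ δ → 2 * δ ≤ e →
    MeasurableSet U → U ⊆ E → ENNReal.ofReal e ≤ D.prior U →
    C * (K * 2 ^ sp) ^ C * (k6aW nb ^ κ + k6aW nr + k6aW n0 / k6aW nr) ≤ k6aW nz →
    4 * (C * K) ^ (k6a3_gl nr sp + 1) * (C * K * ((k6a3_gl nz sp : ℝ) + 1) ^ 2) ≤ e * K₁ →
    C * (K * 2 ^ sp * K₁ / w) ^ C * k6aW nz ^ (-ε₁) ≤ K' → 4 * (C * K) ^ (k6a3_gl nr sp + 1) ≤ e * K' →
    ∃ (E' : Set (D.L × ℝ)) (Ws : Finset (D.Lb × K6aWc j)) (F : k6a4_Ix j → ℝ → Fin j → ℝ), E' ⊆ U ∧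
      k6a4_In j d K' (k6aW nz) (k6aW nr) (k6aW n0) (k6aW nb ^ κ) (D.ν.restrict Lc) (k6a3_co D) E' D.pal (D.ms n0) Ws
        (fun s => (m0 s).toReal) (fun s => (g (k6a3_crs (n0 - nb) s.2)).1) (fun s => (g (k6a3_crs (n0 - nb) s.2)).2) F ∧
      1 / K' ≤ k5_mass (D.ν.restrict Lc) E'

/-- BR9 = **EXIT OF S6a3** (`∀ ε ∃ η k0`).   ARITHMETIC on top of BR8.
`ε₁ = ε / (8 Rm)`, `C` from BR8, `σ = ε / (32 C)`, `sp = ⌈σ kh⌉₊` (`1 ≤ sp ≤ σ kh + 1`), so `L + 1, L' + 1 ≤ Rm / σ + 2 =: Lm`;   `K₁ = 4 (C K)^(L+1) C K (L'+1)^2 / e`, `1/e ≤ K`, `1/w ≤ K`;  `K' = 2^(ε kh)`;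
`η = ε / (64 C (Lm + 6))`, `k0` so large that all the constants (`C^(C (Lm + 6))`, `Lm^(2C)`, …) are `≤ 2^(ε k0 / 8)` and `2^(-k0 / 2)` beats them in the smallness conditions
(margins: `k6aW nb ^ κ ≤ k6aW (nr + nz + kh)`, `k6aW nr ≤ k6aW (nz + kh)`, `k6aW n0 ≤ k6aW nb ≤ k6aW nb ^ κ`).   `k6a4_Sc` needs `ε ≤ 1/4`.
If `1 < w` use BR8 with `w := 1` (`K6aNarrow`, hence `K6aBrd`, is monotone in the width: a state narrow at the width `1` is narrow at the width `w`). -/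
def k6a3_hub_stmt : Prop :=
  ∀ (j : ℕ) (d κ Rm : ℝ), (j = 1 ∨ j = 2) → 0 ≤ d → d < 1 → 0 < κ → κ ≤ 1 → 0 < Rm →
  ∀ ε : ℝ, 0 < ε → ε ≤ 1 / 4 → ∃ (η : ℝ) (k0 : ℕ), 0 < η ∧
  ∀ (D : K6aDat j) (K δ w e : ℝ) (kh nz nr nb n0 : ℕ) (E U : Set (D.L × ℝ)) (Lc : Set D.L)
    (m0 : D.Lb × K6aWc j → ℝ≥0∞) (g : K6aWc j → K6aRow j),
    k0 ≤ kh → 1 ≤ K → K ≤ (2 : ℝ) ^ (η * kh) →
    nz + kh ≤ nr → ((nr + nz + kh : ℕ) : ℝ) ≤ κ * nb → nb ≤ n0 → nr + nz ≤ n0 → (n0 : ℝ) ≤ Rm * kh →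
    D.WF K → K6aPhys D d K n0 E Lc m0 → K6aGraph D K (k6aW nb ^ κ) nb E g →
    0 < w → 1 ≤ K * w → K6aBrd D E (D.ms n0) (1 / 100) w δ → 0 ≤ δ → 100 * δ ≤ e → 1 ≤ K * e →
    MeasurableSet U → U ⊆ E → ENNReal.ofReal e ≤ D.prior U →
    ∃ (E' : Set (D.L × ℝ)) (Ws : Finset (D.Lb × K6aWc j)) (F : k6a4_Ix j → ℝ → Fin j → ℝ), E' ⊆ U ∧
      k6a4_In j d ((2 : ℝ) ^ (ε * kh)) (k6aW nz) (k6aW nr) (k6aW n0) (k6aW nb ^ κ) (D.ν.restrict Lc) (k6a3_co D) E' D.pal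
        (D.ms n0) Ws (fun s => (m0 s).toReal) (fun s => (g (k6a3_crs (n0 - nb) s.2)).1)
        (fun s => (g (k6a3_crs (n0 - nb) s.2)).2) F ∧
      k6a4_Sc j ((2 : ℝ) ^ (ε * kh)) (k6aW nz) (k6aW nr) (k6aW n0) (k6aW nb ^ κ) ∧
      1 / (2 : ℝ) ^ (ε * kh) ≤ k5_mass (D.ν.restrict Lc) E'

end Claimed.Agent.R252
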