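/-
ROW 252, unit S6a3, leaf L-252-S6a3-BR1 (helper116): the dictionary `K6aDat` <-> `k5_Co` for trajectories.
`theorem k6a3_br_alg : k6a3_br_alg_stmt` (statement in S6a/StripHub.lean).
-/
import Claimed.Agent.R252.S6a.StripHub

set_option autoImplicit false

namespace Claimed.Agent.R252

open MeasureTheory
open scoped ENNReal

theorem k6a3_br_alg_norm {j : ℕ} (g : K6aRow j) : ‖k6a3_rowv g‖ = ‖g‖ := by
  refine le_antisymm ?_ ?_
  · refine (pi_norm_le_iff_of_nonneg (norm_nonneg g)).2 fun i => ?_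
    refine Fin.cases ?_ (fun a => ?_) i
    · exact norm_fst_le g
    · exact (norm_le_pi_norm g.2 a).trans (norm_snd_le g)
  · rw [Prod.norm_def]
    refine max_le ?_ ?_
    · exact norm_le_pi_norm (k6a3_rowv g) 0
    · refine (pi_norm_le_iff_of_nonneg (norm_nonneg _)).2 fun a => ?_
      exact norm_le_pi_norm (k6a3_rowv g) a.succ

theorem k6a3_br_alg : k6a3_br_alg_stmt := by
  intro j D
  refine ⟨fun l t => ?_, fun l t => ?_, fun l => rfl, fun l t => ?_, fun g l => ?_,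
    k6a3_br_alg_norm, fun g => ?_, fun K hK => ⟨?_, fun l => ?_⟩⟩
  · simp only [k5_x, k6a3_co, K6aDat.X]
    ring
  · funext a
    simp [k5_y, k6a3_co, K6aDat.y]
  · simp only [k5_xD, k6a3_co, K6aDat.Xd]
    ring
  · simp [k6a3_rowv, k6a3_v, k6aAt, k5_yd, k6a3_co, dotProduct, Fin.sum_univ_succ]
  · simp [k6a3_gy, k6a3_rowv]
  · refine hK.m_xc.prodMk (measurable_pi_iff.2 fun i => ?_)
    fin_cases i
    · exact hK.m_y0
    · exact hK.m_V
  · obtain ⟨h1, h2, h3⟩ := hK.bd l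
    have hK0 : 0 ≤ K := (norm_nonneg _).trans h1
    rw [Prod.norm_def]
    refine max_le h3 ((pi_norm_le_iff_of_nonneg hK0).2 ?_)
    rw [Fin.forall_fin_two]
    exact ⟨h1, h2⟩

end Claimed.Agent.R252
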