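/-
ROW 252, unit S6a3, leaf L-252-S6a3-BR2 (helper116): the dictionary of dyadic bins and cells.
`theorem k6a3_br_bin : k6a3_br_bin_stmt` (statement in S6a/StripHub.lean).
-/
import Claimed.Agent.R252.S6a.K3BrAlg

set_option autoImplicit false

namespace Claimed.Agent.R252

open MeasureTheory
open scoped ENNReal

theorem k6a3_bb_W_pos (i : ℕ) : 0 < k6aW i := by
  unfold k6aW
  positivity

theorem k6a3_bb_div (x : ℝ) (i : ℕ) : x / k6aW i = x * 2 ^ i := by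
  unfold k6aW
  rw [one_div, inv_pow, div_inv_eq_mul]

theorem k6a3_bb_floor (x : ℝ) (i : ℕ) : ⌊x / k6aW i⌋ = k6aBin i x := by
  rw [k6a3_bb_div]
  rfl

/-- nested floors -/
theorem k6a3_bb_nest (x : ℝ) {i n : ℕ} (h : i ≤ n) : k6aBin i x = k6aBin n x / 2 ^ (n - i) := by
  unfold k6aBin
  have h1 := Int.floor_div_natCast (x * 2 ^ n) (2 ^ (n - i))
  have h2 : x * 2 ^ n / ((2 ^ (n - i) : ℕ) : ℝ) = x * 2 ^ i := by
    push_cast
    have : (2 : ℝ) ^ n = 2 ^ i * 2 ^ (n - i) := by rw [← pow_add, Nat.add_sub_cancel' h]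
    rw [this]
    field_simp
  rw [h2] at h1
  rw [h1]
  push_cast
  rfl

theorem k6a3_bb_vnest {m : ℕ} (x : Fin m → ℝ) {i n : ℕ} (h : i ≤ n) :
    k6aVBin i x = fun a => k6aVBin n x a / 2 ^ (n - i) :=
  funext fun a => k6a3_bb_nest (x a) h

theorem k6a3_bb_vbin {m : ℕ} (i : ℕ) (u : Fin m → ℝ) : k5_vbin (k6aW i) u = k6aVBin i u :=
  funext fun a => k6a3_bb_floor (u a) i

theorem k6a3_bb_cell_W {j : ℕ} (D : K6aDat j) (i : ℕ) (e : D.L × ℝ) :
    k6a_cell (k6aW i) (k6a3_Wi (k6a3_co D) e) = k6a3_enc (D.wc i e) := by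
  obtain ⟨h1, h2, -⟩ := k6a3_br_alg j D
  funext a
  refine Fin.cases ?_ (fun b => ?_) a
  · show ⌊k5_x (k6a3_co D e.1) e.2 / k6aW i⌋ = k6aBin i (D.X e.1 e.2)
    rw [h1, k6a3_bb_floor]
  · refine Fin.cases ?_ (fun c => ?_) b
    · show ⌊e.2 / k6aW i⌋ = k6aBin i e.2
      rw [k6a3_bb_floor]
    · show ⌊k5_y (k6a3_co D e.1) e.2 c / k6aW i⌋ = k6aBin i (D.y e.1 e.2 c)
      rw [h2, k6a3_bb_floor]

theorem k6a3_bb_enc_inj {j : ℕ} : Function.Injective (k6a3_enc (j := j)) := by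
  rintro ⟨⟨a, b⟩, c⟩ ⟨⟨a', b'⟩, c'⟩ h
  simp only [k6a3_enc, Fin.cons_inj] at h
  obtain ⟨h1, h2, h3⟩ := h
  rw [h1, h2, h3]

theorem k6a3_bb_encR_inj {j : ℕ} : Function.Injective (k6a3_encR (j := j)) := by
  rintro ⟨a, b⟩ ⟨a', b'⟩ h
  simp only [k6a3_encR, Fin.cons_inj] at h
  obtain ⟨h1, h2⟩ := h
  rw [h1, h2]

theorem k6a3_bb_encB_inj {j : ℕ} : Function.Injective (k6a3_encB (j := j)) := by
  rintro ⟨a, b, c⟩ ⟨a', b', c'⟩ h
  simp only [k6a3_encB, Prod.mk.injEq] at h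
  obtain ⟨h1, h2⟩ := h
  have h3 := congrFun h2 0
  have h4 := congrFun h2 1
  simp only [Matrix.cons_val_zero, Matrix.cons_val_one] at h3 h4
  rw [h1, h3, h4]

theorem k6a3_bb_ctr (x : ℝ) (i : ℕ) : |x - ((k6aBin i x : ℝ) + 1 / 2) * k6aW i| ≤ k6aW i := by
  have hw := k6a3_bb_W_pos i
  have h0 : x = x / k6aW i * k6aW i := by field_simp
  have h1 : ((k6aBin i x : ℤ) : ℝ) ≤ x / k6aW i := by
    rw [← k6a3_bb_floor]
    exact Int.floor_le _
  have h2 : x / k6aW i < (k6aBin i x : ℝ) + 1 := by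
    rw [← k6a3_bb_floor]
    exact Int.lt_floor_add_one _
  rw [abs_le]
  constructor
  · have : ((k6aBin i x : ℝ)) * k6aW i ≤ x := by
      calc ((k6aBin i x : ℝ)) * k6aW i ≤ x / k6aW i * k6aW i := by gcongr
        _ = x := h0.symm
    nlinarith
  · have : x ≤ ((k6aBin i x : ℝ) + 1) * k6aW i := by
      calc x = x / k6aW i * k6aW i := h0
        _ ≤ ((k6aBin i x : ℝ) + 1) * k6aW i := by gcongr
    nlinarith

theorem k6a3_br_bin : k6a3_br_bin_stmt := by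
  intro j D
  obtain ⟨h1, h2, h3, -⟩ := k6a3_br_alg j D
  refine ⟨fun a b => ?_, k6a3_bb_cell_W D, fun i g => ?_, k6a3_bb_enc_inj, k6a3_bb_encR_inj,
    k6a3_bb_encB_inj, fun i n e h => ?_, fun i l => ?_, fun i l => ?_, fun i J => ?_, fun i e => ?_,
    fun nz r => ?_⟩
  · unfold k6aW
    rw [pow_add]
  · funext a
    refine Fin.cases ?_ (fun b => ?_) a
    · exact k6a3_bb_floor g.1 i
    · exact k6a3_bb_floor (g.2 b) i
  · simp only [K6aDat.wc, K6aDat.zc, k6a3_crs]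
    rw [k6a3_bb_nest e.2 h, k6a3_bb_nest (D.X e.1 e.2) h, k6a3_bb_vnest (D.y e.1 e.2) h]
  · refine Prod.ext ?_ ?_
    · exact funext fun a => k6a3_bb_floor (D.xc l a) i
    · funext a b
      fin_cases a
      · exact k6a3_bb_floor (D.y0 l b) i
      · exact k6a3_bb_floor (D.V l b) i
  · rw [h3, k6a3_bb_vbin]
    rfl
  · ext u
    simp only [Set.mem_ofPred_eq, k6aCube, k6a3_bb_vbin]
  · refine (pi_norm_le_iff_of_nonneg (k6a3_bb_W_pos i).le).2 fun a => ?_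
    have h := congrFun (k6a3_bb_cell_W D i e) a
    have h' : k6a3_enc (D.wc i e) a = k6aBin i (k6a3_Wi (k6a3_co D) e a) := by
      rw [← h]
      exact k6a3_bb_floor _ i
    rw [Real.norm_eq_abs, Pi.sub_apply]
    unfold k6a3_ctr
    rw [h']
    exact k6a3_bb_ctr _ i
  · constructor
    · rintro ⟨hr, i, rfl⟩
      refine ⟨i, ?_, rfl⟩
      exact (pow_le_pow_iff_right_of_lt_one₀ (by norm_num) (by norm_num)).1 hr
    · rintro ⟨i, hi, rfl⟩
      exact ⟨(pow_le_pow_iff_right_of_lt_one₀ (by norm_num) (by norm_num)).2 hi, i, rfl⟩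

end Claimed.Agent.R252
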