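/-
row252, unit S6a3, leaf L-252-S6a3-CUBEROW (helper134): A3, one row per cube.
-/
import Claimed.Agent.R252.S6a.StripContract

set_option autoImplicit false

namespace Claimed.Agent.R252

/-- two points of one cell of side `ρ` are `ρ`-close -/
theorem k6a3_cube_row_close {D : ℕ} (ρ : ℝ) (hρ : 0 < ρ) (x y : Fin D → ℝ) (h : k6a_cell ρ x = k6a_cell ρ y) : ‖x - y‖ ≤ ρ := by
  rw [pi_norm_le_iff_of_nonneg hρ.le]
  intro i
  have hi : ⌊x i / ρ⌋ = ⌊y i / ρ⌋ := congrFun h i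
  have h1 := Int.abs_sub_lt_one_of_floor_eq_floor hi
  rw [← sub_div, abs_div, abs_of_pos hρ, div_lt_one hρ] at h1
  exact h1.le

theorem k6a3_cube_row : k6a3_cube_row_stmt := by
  intro Ω S D q Zc Y ρ Lp B hρ hLp hB hY hlip
  classical
  refine ⟨fun n => if h : ∃ e, e ∈ S ∧ k6a_cell ρ (Zc e) = n then Y h.choose else 0, ?_, ?_⟩
  · intro n
    by_cases h : ∃ e, e ∈ S ∧ k6a_cell ρ (Zc e) = n
    · simp only [dif_pos h]
      exact hY _ h.choose_spec.1
    · simp only [dif_neg h, norm_zero]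
      exact hB
  · intro e he
    have h : ∃ e', e' ∈ S ∧ k6a_cell ρ (Zc e') = k6a_cell ρ (Zc e) := ⟨e, he, rfl⟩
    simp only [dif_pos h]
    have h1 := hlip e he _ h.choose_spec.1
    have h2 := k6a3_cube_row_close ρ hρ _ _ h.choose_spec.2.symm
    calc ‖Y e - Y h.choose‖ ≤ Lp * (‖Zc e - Zc h.choose‖ + ρ) := h1
      _ ≤ Lp * (ρ + ρ) := mul_le_mul_of_nonneg_left (by linarith) hLp
      _ = 2 * Lp * ρ := by ring

end Claimed.Agent.R252
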