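/-
row252, unit S6a3, leaf L-252-S6a3-FIELDLIP (helper134): A2 = (6.15), from `k6a_common_choice` and A1.
-/
import Claimed.Agent.R252.S6a.StripContract
import Claimed.Agent.R252.S6a.Choice

set_option autoImplicit false

namespace Claimed.Agent.R252

open MeasureTheory
open scoped ENNReal

/-- a decreasing finite sequence stays above its last value -/
theorem k6a3_field_lip_mono (L : ℕ) (s : ℕ → ℝ) (h : ∀ i < L, s (i + 1) ≤ s i) : ∀ k, ∀ i, i + k = L → s L ≤ s i := by
  intro k
  induction k with
  | zero =>
    intro i hi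
    have : i = L := by omega
    rw [this]
  | succ k ih =>
    intro i hi
    exact (ih (i + 1) (by omega)).trans (h i (by omega))

theorem k6a3_field_lip (h1 : k6a3_list_shift_stmt) : k6a3_field_lip_stmt := by
  intro Ω D₀ _ _ μ R hR st hst D q L W Z G B A ρ b hG hA hb hWZ s h0 hL hpos hmono hA' K hT
  let _ : MeasurableSpace D₀ := ⊤
  have hstm : Measurable st := measurable_to_countable' hst
  have hZm : Measurable fun e => Z (st e) := (measurable_from_top (f := Z)).comp hstm
  have hGm : Measurable fun e => G (st e) := (measurable_from_top (f := G)).comp hstm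
  have hlist : ∀ i ≤ L, ∀ n : Fin D → ℤ, ∃ T : Finset (Fin q → ℤ), T.card ≤ 3 ^ D * K i ∧
      ∀ e ∈ R, k6a_cell (s i) (Z (st e)) = n → k6a_cell (s i) (G (st e)) ∈ T := by
    intro i hi
    have hbs : b ≤ s i := by
      have := k6a3_field_lip_mono L s hmono (L - i) i (by omega)
      rw [hL] at this
      exact hb.trans this
    exact h1 R D q W (fun e => Z (st e)) (fun e => G (st e)) (s i) b (K i) (hpos i hi) hbs hWZ (hT i hi)
  obtain ⟨S, hSm, hSR, hmass, hlip, hdet⟩ := k6a_common_choice μ R hR D q L (fun e => Z (st e)) (fun e => G (st e)) hZm hGm B A ρ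
    (fun e _ => hG (st e)) hA s h0 hL hpos hmono hA' (fun i => 3 ^ D * K i) hlist
  refine ⟨S, hSm, hSR, hmass, hlip, ?_, ?_⟩
  · intro e he e' he'
    have hB0 : 0 ≤ B := (norm_nonneg _).trans (hG (st e))
    refine (hlip e he e' he').trans (mul_le_mul_of_nonneg_left ?_ (by linarith))
    have a1 := hWZ e (hSR he)
    have a2 := hWZ e' (hSR he')
    have a3 : ‖Z (st e) - Z (st e')‖ ≤ ‖W e - Z (st e)‖ + ‖W e - W e'‖ + ‖W e' - Z (st e')‖ := by
      have e1 : Z (st e) - Z (st e') = -(W e - Z (st e)) + (W e - W e') + (W e' - Z (st e')) := by abel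
      rw [e1]
      refine (norm_add_le _ _).trans (add_le_add_left ((norm_add_le _ _).trans ?_) _)
      rw [norm_neg]
    linarith
  · intro e he e' he' hee
    exact hdet e he e' he' (by simp only [hee]) (by simp only [hee])

end Claimed.Agent.R252
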