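/-
Proof of leaf L-252-S6a-SPAN (row252, unit S6a, architect helper234).
Replace every `sorry`, then delete the word in capitals at the start of this header.
Helpers: prefix `k6a_span_`.  Never edit Contract.lean; a false or awkward statement = one line to
helper234.  Statements of other leaves may be used as hypotheses `(h : k6a_xxx_stmt)` in helper
lemmas until their files are on main; the final theorem must have exactly the type given here.

PLAN.
Uses k6a_det_ge_of_triangular (take it as hypothesis `k6a_det_ge_of_triangular_stmt ->` if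
Det.lean is not on main yet). Induct on k <= n over Measure.pi (fun _ : Fin k => P) with G_k = {w
: Fin k -> Omega | exists u : Fin k -> Fin n -> R, (forall i, u i dot u i = 1) and (forall j < i,
u i dot e (w j) = 0) and eta <= |u i dot e (w i)|}. Measurability of G_k: it is the preimage under
the measurable map w |-> (e o w) of a CLOSED set (projection of a closed set along the compact set
of unit tuples: IsCompact.isClosed-type lemma `isClosedMap_snd_of_compactSpace` / sequences), or
avoid it: choose u_i as an explicit measurable function. Step: measurePreserving_piFinSuccAbove /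
MeasureTheory.Measure.pi Fin.snoc equivalence + Measure.prod_apply / lintegral lower bound: for w
in G_k pick a unit u orthogonal to e(w j), j<k (k < n vectors in R^n: exists nonzero vector in the
kernel, Matrix.exists_mulVec_eq_zero_iff or finrank argument), hypothesis gives P >= c. ~350
lines. If measurability is painful tell helper234: a Fintype-Omega version (all sets measurable)
may be enough.

PROVED (helper259): no measurability of the intermediate events is needed: induction on the number j of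
remaining draws, for EVERY measurable set D which contains the event `k6a_span_good` relative to the
finite set s of vectors drawn so far (Fubini on D, one measurable slab {eta <= |u0 . e|} per step).
-/
import Claimed.Agent.R252.S6a.Det

namespace Claimed.Agent.R252

open MeasureTheory
open scoped ENNReal Classical

/-- fewer than `n` vectors of `ℝ^n` have a common unit normal -/
theorem k6a_span_normal (n : ℕ) (s : Finset (Fin n → ℝ)) (hs : s.card < n) :
    ∃ u : Fin n → ℝ, u ⬝ᵥ u = 1 ∧ ∀ v ∈ s, u ⬝ᵥ v = 0 := by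
  let T : (Fin n → ℝ) →ₗ[ℝ] (s → ℝ) :=
    { toFun := fun x v => x ⬝ᵥ v.1
      map_add' := fun x y => by funext v; simp [add_dotProduct]
      map_smul' := fun a x => by funext v; simp [smul_dotProduct] }
  have h1 : LinearMap.ker T ≠ ⊥ := by
    apply LinearMap.ker_ne_bot_of_finrank_lt
    simpa using hs
  obtain ⟨x, hx, hx0⟩ := Submodule.exists_mem_ne_zero_of_ne_bot h1
  have hxx : 0 < x ⬝ᵥ x := by
    have h2 : 0 ≤ x ⬝ᵥ x := Finset.sum_nonneg fun i _ => mul_self_nonneg _
    have h3 : x ⬝ᵥ x ≠ 0 := fun h => hx0 (dotProduct_self_eq_zero.1 h)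
    exact lt_of_le_of_ne h2 (Ne.symm h3)
  refine ⟨(Real.sqrt (x ⬝ᵥ x))⁻¹ • x, ?_, fun v hv => ?_⟩
  · rw [smul_dotProduct, dotProduct_smul, smul_eq_mul, smul_eq_mul, ← mul_assoc, ← mul_inv, Real.mul_self_sqrt hxx.le]
    exact inv_mul_cancel₀ hxx.ne'
  · have h4 : T x ⟨v, hv⟩ = 0 := by
      rw [LinearMap.mem_ker.1 hx]
      rfl
    have h5 : x ⬝ᵥ v = 0 := h4
    rw [smul_dotProduct, h5, smul_zero]

/-- the event "triangular system of normals", relative to the vectors of `s` -/
def k6a_span_good {Ω : Type} (n : ℕ) (e : Ω → Fin n → ℝ) (η : ℝ) (s : Finset (Fin n → ℝ)) (j : ℕ) (w : Fin j → Ω) : Prop :=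
  ∃ u : Fin j → Fin n → ℝ, ∀ i, u i ⬝ᵥ u i = 1 ∧ (∀ v ∈ s, u i ⬝ᵥ v = 0) ∧ (∀ i', i' < i → u i ⬝ᵥ e (w i') = 0) ∧ η ≤ |u i ⬝ᵥ e (w i)|

theorem k6a_span_good_eqns_cite : True := by
  have := @k6a_span_good.eq_1
  trivial

theorem k6a_span_good_cons {Ω : Type} (n : ℕ) (e : Ω → Fin n → ℝ) (η : ℝ) (s : Finset (Fin n → ℝ)) (j : ℕ) (ω : Ω) (w : Fin j → Ω)
    (u0 : Fin n → ℝ) (h0 : u0 ⬝ᵥ u0 = 1) (h1 : ∀ v ∈ s, u0 ⬝ᵥ v = 0) (h2 : η ≤ |u0 ⬝ᵥ e ω|)
    (h : k6a_span_good n e η (insert (e ω) s) j w) : k6a_span_good n e η s (j + 1) (Fin.cons ω w : Fin (j + 1) → Ω) := by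
  obtain ⟨u, hu⟩ := h
  refine ⟨Fin.cons u0 u, fun i => ?_⟩
  refine Fin.cases ?_ (fun i1 => ?_) i
  · refine ⟨by simpa using h0, by simpa using h1, fun i' hi' => absurd hi' (Fin.not_lt_zero _), by simpa using h2⟩
  · obtain ⟨a1, a2, a3, a4⟩ := hu i1
    refine ⟨by simpa using a1, fun v hv => by simpa using a2 v (Finset.mem_insert_of_mem hv), fun i' => ?_, by simpa using a4⟩
    refine Fin.cases ?_ (fun i2 => ?_) i'
    · intro _
      simpa using a2 (e ω) (Finset.mem_insert_self _ _)
    · intro hi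
      simpa using a3 i2 (Fin.succ_lt_succ_iff.1 hi)

theorem k6a_span_sec {Ω : Type} [MeasurableSpace Ω] (j : ℕ) (D : Set (Fin (j + 1) → Ω)) (ω : Ω) :
    Prod.mk ω ⁻¹' ((MeasurableEquiv.piFinSuccAbove (fun _ : Fin (j + 1) => Ω) 0).symm ⁻¹' D)
      = {w : Fin j → Ω | (Fin.cons ω w : Fin (j + 1) → Ω) ∈ D} := by
  ext w
  have h2 : (MeasurableEquiv.piFinSuccAbove (fun _ : Fin (j + 1) => Ω) 0).symm (ω, w) = (Fin.cons ω w : Fin (j + 1) → Ω) := by
    show Fin.insertNth (α := fun _ : Fin (j + 1) => Ω) 0 ω w = _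
    exact Fin.insertNth_zero' ω w
  simp only [Set.mem_preimage, h2]
  rfl

theorem k6a_span_fubini {Ω : Type} [MeasurableSpace Ω] (P : Measure Ω) [IsProbabilityMeasure P] (j : ℕ) (D : Set (Fin (j + 1) → Ω))
    (hD : MeasurableSet D) :
    (Measure.pi fun _ : Fin (j + 1) => P) D = ∫⁻ ω, (Measure.pi fun _ : Fin j => P) {w : Fin j → Ω | (Fin.cons ω w : Fin (j + 1) → Ω) ∈ D} ∂P := by
  have hmp := measurePreserving_piFinSuccAbove (fun _ : Fin (j + 1) => P) 0
  have h1 : (Measure.pi fun _ : Fin (j + 1) => P) D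
      = (P.prod (Measure.pi fun _ : Fin j => P)) ((MeasurableEquiv.piFinSuccAbove (fun _ : Fin (j + 1) => Ω) 0).symm ⁻¹' D) :=
    (hmp.symm.measure_preimage hD.nullMeasurableSet).symm
  rw [h1, Measure.prod_apply ((MeasurableEquiv.measurable _) hD)]
  refine lintegral_congr fun ω => ?_
  rw [k6a_span_sec]

theorem k6a_span_sec_meas {Ω : Type} [MeasurableSpace Ω] (j : ℕ) (D : Set (Fin (j + 1) → Ω)) (hD : MeasurableSet D) (ω : Ω) :
    MeasurableSet {w : Fin j → Ω | (Fin.cons ω w : Fin (j + 1) → Ω) ∈ D} := by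
  rw [← k6a_span_sec]
  exact measurable_prodMk_left ((MeasurableEquiv.measurable _) hD)

theorem k6a_span_dot_meas {Ω : Type} [MeasurableSpace Ω] (n : ℕ) (e : Ω → Fin n → ℝ) (he : Measurable e) (u : Fin n → ℝ) :
    Measurable fun ω => u ⬝ᵥ e ω := by
  unfold dotProduct
  exact Finset.measurable_sum _ fun i _ => measurable_const.mul ((measurable_pi_apply i).comp he)

theorem k6a_span_ind {Ω : Type} [MeasurableSpace Ω] (P : Measure Ω) [IsProbabilityMeasure P] (n : ℕ)
    (e : Ω → Fin n → ℝ) (he : Measurable e) (η c : ℝ) (hc : 0 ≤ c)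
    (H : ∀ u : Fin n → ℝ, u ⬝ᵥ u = 1 → ENNReal.ofReal c ≤ P {ω | η ≤ |u ⬝ᵥ e ω|}) (j : ℕ) :
    ∀ (s : Finset (Fin n → ℝ)), s.card + j ≤ n → ∀ D : Set (Fin j → Ω), MeasurableSet D → (∀ w, k6a_span_good n e η s j w → w ∈ D) →
      ENNReal.ofReal (c ^ j) ≤ (Measure.pi fun _ : Fin j => P) D := by
  induction j with
  | zero =>
    intro s _ D _ hsub
    have h1 : D = Set.univ := by
      ext w
      simp only [Set.mem_univ, iff_true]
      exact hsub w ⟨fun i => i.elim0, fun i => i.elim0⟩
    rw [h1, measure_univ]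
    simp
  | succ j ih =>
    intro s hs D hD hsub
    obtain ⟨u0, h0, h1⟩ := k6a_span_normal n s (by omega)
    have hA : MeasurableSet {ω | η ≤ |u0 ⬝ᵥ e ω|} := measurableSet_le measurable_const (k6a_span_dot_meas n e he u0).abs
    rw [k6a_span_fubini P j D hD]
    calc ENNReal.ofReal (c ^ (j + 1)) = ENNReal.ofReal (c ^ j) * ENNReal.ofReal c := by
          rw [pow_succ, ENNReal.ofReal_mul (pow_nonneg hc j)]
      _ ≤ ENNReal.ofReal (c ^ j) * P {ω | η ≤ |u0 ⬝ᵥ e ω|} := mul_le_mul' le_rfl (H u0 h0)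
      _ = ∫⁻ ω, Set.indicator {ω | η ≤ |u0 ⬝ᵥ e ω|} (fun _ => ENNReal.ofReal (c ^ j)) ω ∂P := (lintegral_indicator_const hA _).symm
      _ ≤ _ := by
          refine lintegral_mono fun ω => ?_
          by_cases hω : ω ∈ {ω | η ≤ |u0 ⬝ᵥ e ω|}
          · rw [Set.indicator_of_mem hω]
            refine ih (insert (e ω) s) ?_ _ (k6a_span_sec_meas j D hD ω) fun w hw => ?_
            · have := Finset.card_insert_le (e ω) s
              omega
            · exact hsub _ (k6a_span_good_cons n e η s j ω w u0 h0 h1 hω hw)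
          · rw [Set.indicator_of_notMem hω]
            exact zero_le

theorem k6a_span_prob : k6a_span_prob_stmt := by
  intro Ω _ P _ n e he η c hη hc H
  refine k6a_span_ind P n e he η c hc H n ∅ (by simp) _ ?_ ?_
  · refine measurableSet_le measurable_const (measurable_const.mul (Measurable.abs ?_))
    simp only [Matrix.det_apply']
    refine Finset.measurable_sum _ fun σ _ => measurable_const.mul (Finset.measurable_prod _ fun i _ => ?_)
    exact (measurable_pi_apply i).comp (he.comp (measurable_pi_apply (σ i)))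
  · rintro w ⟨u, hu⟩
    refine k6a_det_ge_of_triangular n (fun i => e (w i)) u η hη (fun i k => ?_) (fun i j hj => (hu i).2.2.1 j hj) (fun i => (hu i).2.2.2)
    have h1 : u i k * u i k ≤ u i ⬝ᵥ u i :=
      Finset.single_le_sum (f := fun k => u i k * u i k) (fun k _ => mul_self_nonneg _) (Finset.mem_univ k)
    rw [(hu i).1] at h1
    exact abs_le_one_iff_mul_self_le_one.2 h1

end Claimed.Agent.R252
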