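/-
ROW 252, unit S6a, chief helper234.     SHARED MEASURE-THEORETIC TOOLS of the sub-units S6a1 .. S6a5 (and S6b).
Statements only (`def ... : Prop`, no `sorry`); each is a paper-free leaf `L-252-S6a-T*`, proved in `S6a/T<Name>.lean`.
Model: lines `l : Λ` (any measurable space, finite measure `ν`), time = Lebesgue, family = measurable `E ⊆ Λ × ℝ`,
`μ = ν.prod volume`.
-/
import Claimed.Agent.R252.S6a.Contract
import Claimed.Agent.R252.Mlk.Main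

set_option autoImplicit false

namespace Claimed.Agent.R252

open MeasureTheory
open scoped ENNReal BigOperators

noncomputable section

/-- duration of the portion of the line `l` with label `s` -/
def k6aDur {Λ S : Type} (E : Set (Λ × ℝ)) (c : Λ × ℝ → S) (l : Λ) (s : S) : ℝ≥0∞ :=
  volume {t : ℝ | (l, t) ∈ E ∧ c (l, t) = s}

/-- the family after deletion of the line portions of duration `< τ` -/
def k6aLong {Λ S : Type} (E : Set (Λ × ℝ)) (c : Λ × ℝ → S) (τ : ℝ≥0∞) : Set (Λ × ℝ) :=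
  {x | x ∈ E ∧ τ ≤ k6aDur E c x.1 (c x)}

theorem k6a_tools_eqns_cite : True := by
  have := @k6aDur.eq_1
  have := @k6aLong.eq_1
  trivial

/-- **T1 deletion of short line portions** (06 l.395, 628, 159, 225, 728; 04 a03:time-slice).
(a) measurable; (b) if every line meets `≤ n` labels the loss is `≤ n τ ν(Λ)`; (c) the lines which still contribute to the label
`s` have prior weight `≤ μ(E ∩ {c = s}) / τ`.
PLAN. `l ↦ k6aDur E c l s` is measurable (`measurable_measure_prodMk_left` for the measurable set `E ∩ c⁻¹{s}`);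
`k6aLong = ⋃_s (E ∩ c⁻¹{s} ∩ {l | τ ≤ dur l s} × ℝ)`.  (b) `μ(E \ Long) = ∫ ∑_s [dur l s < τ] dur l s dν` (`Measure.prod_apply`, countable sum).
(c) Markov: `τ ν{τ ≤ dur · s} ≤ ∫ dur · s dν = μ(E ∩ c⁻¹{s})`. -/
def k6a_portion_stmt : Prop :=
  ∀ (Λ S : Type) [MeasurableSpace Λ] [Countable S] (ν : Measure Λ) [IsFiniteMeasure ν] (E : Set (Λ × ℝ)) (c : Λ × ℝ → S)
    (τ : ℝ≥0∞), MeasurableSet E → (∀ s, MeasurableSet (c ⁻¹' {s})) →
    MeasurableSet (k6aLong E c τ) ∧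
    (∀ n : ℕ, (∀ l, ∃ F : Finset S, F.card ≤ n ∧ ∀ t, (l, t) ∈ E → c (l, t) ∈ F) →
      (ν.prod volume) (E \ k6aLong E c τ) ≤ n * τ * ν Set.univ) ∧
    (∀ s, MeasurableSet {l | τ ≤ k6aDur E c l s} ∧ τ * ν {l | τ ≤ k6aDur E c l s} ≤ (ν.prod volume) (E ∩ c ⁻¹' {s}))

/-- **T2 states with excessive fractional loss** (06 l.397, 632): `E' ⊆ E`; the states which keep less than `(1 - φ)` of their mass
carry (in `E`) at most `μ(E \ E') / φ`. -/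
def k6a_frac_loss_stmt : Prop :=
  ∀ (Ω S : Type) [MeasurableSpace Ω] [Countable S] (μ : Measure Ω) [IsFiniteMeasure μ] (E E' : Set Ω) (s : Ω → S) (φ : ℝ≥0∞),
    MeasurableSet E → MeasurableSet E' → E' ⊆ E → (∀ a, MeasurableSet (s ⁻¹' {a})) →
    φ * μ (E ∩ {x | μ (E' ∩ s ⁻¹' {s x}) + φ * μ (E ∩ s ⁻¹' {s x}) < μ (E ∩ s ⁻¹' {s x})}) ≤ μ (E \ E')

/-- **T3 pigeonhole against a budget** (06 l.820, 937): `∑ bud ≤ 1` gives a label with `μ(q) ≥ μ(total) bud(q)`, `bud q ≠ 0` or total `0`. -/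
def k6a_budget_stmt : Prop :=
  ∀ (Q : Type) [Fintype Q] (mass bud : Q → ℝ≥0∞) (tot : ℝ≥0∞), ∑ q, bud q ≤ 1 → tot ≤ ∑ q, mass q → tot ≠ ⊤ → 0 < tot →
    ∃ q, tot * bud q ≤ mass q ∧ 0 < mass q

/-- **T4 tuples of incidences versus tuples of lines** (06 l.412-416, 648): if every line spends time `≤ β` in `Ec`, an event on
the lines has `μ_c^n`-mass `≤ β^n ν^n(event ∩ all lines meet Ec)`. -/
def k6a_tuple_stmt : Prop :=
  ∀ (Λ : Type) [MeasurableSpace Λ] (ν : Measure Λ) [IsFiniteMeasure ν] (n : ℕ) (Ec : Set (Λ × ℝ)) (β : ℝ≥0∞)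
    (A : Set (Fin n → Λ × ℝ)) (A' : Set (Fin n → Λ)), MeasurableSet Ec → MeasurableSet A' →
    (∀ l, volume {t : ℝ | (l, t) ∈ Ec} ≤ β) → (∀ x ∈ A, (∀ i, x i ∈ Ec) → (fun i => (x i).1) ∈ A') →
    (Measure.pi fun _ : Fin n => (ν.prod volume).restrict Ec) A ≤ β ^ n * (Measure.pi fun _ : Fin n => ν) A'

/-- **T5 from affine strips for `V` to hyperplanes for `(1, V)`** (06 l.316-324): `|V| ≤ K`; every unit `u ∈ ℝ^(j+1)` is either almost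
vertical or defines an affine strip.
PLAN. `u = (u0, uy)`, `s = |uy|_2`.  If `s ≥ 1/(2(j+1)K)`: `n = uy/s`, `c = -u0/s`, `|n·V - c| = |u·(1,V)|/s`.  Otherwise `|u0| ≥ 0.96`,
`|uy·V| ≤ K √j s < 1/4`, so `|u·(1,V)| > 1/4 ≥ w/(2(j+1)K)`: the premise never holds, take any unit `n`. -/
def k6a_lift_strip_stmt : Prop :=
  ∀ (j : ℕ) (K w : ℝ) (u : Fin (j + 1) → ℝ), 1 ≤ j → 1 ≤ K → 0 < w → w ≤ 1 → u ⬝ᵥ u = 1 →
    ∃ (n : Fin j → ℝ) (c : ℝ), n ⬝ᵥ n = 1 ∧ ∀ V : Fin j → ℝ, ‖V‖ ≤ K →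
      |u ⬝ᵥ (Fin.cons 1 V : Fin (j + 1) → ℝ)| < w / (2 * (j + 1) * K) → |n ⬝ᵥ V - c| ≤ w

/-- **T6 multilinear Kakeya for a MEASURE of lines** (06 l.358-362), from `mlk_cells`.
PLAN. classes = fibres of `l ↦ (⌊p l k / η⌋, ⌊e l k / η⌋)_k` (finitely many: `|p| ≤ Bd`, `|e| ≤ 1`), one representative line per nonempty
class, weight `ν(class)`.  If `θ ≤ |det e(τ)|` then `|e (τ i)|_∞ ≥ θ / n!` (`Matrix.det_le`-type bound), so the parameter `t` of the tube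
condition is `≤ Tmax = (Zmax + Bd + ρ r) n! / θ`; for `η (1 + Tmax) ≤ ρ r` and `n n! η ≤ θ / 2` (`k6a_det_perturb`) the representatives
satisfy the conditions with `(2ρ, θ/2)`.  Union bound + `Measure.pi_pi`: `ν^n(A_b) ≤ mlkCount (2 ρ r) (θ/2) (z b)`.  `mlk_cells` with
`(2ρ, 2S, θ/2)`; `∑ weights = ν(Λ)`. -/
def k6a_mlk_meas_stmt : Prop :=
  ∀ (n : ℕ) (ε : ℝ), 2 ≤ n → 0 < ε → ∃ C : ℝ, 0 < C ∧ ∀ (r ρ S θ Kc Bd : ℝ), 0 < r → 1 ≤ ρ → ρ ≤ S → 0 < θ → θ ≤ 1 → 0 ≤ Kc →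
    ∀ (Λ : Type) [MeasurableSpace Λ] (ν : Measure Λ) [IsFiniteMeasure ν] (p e : Λ → Fin n → ℝ), Measurable p → Measurable e →
    (∀ l k, |p l k| ≤ Bd) → (∀ l k, |e l k| ≤ 1) →
    ∀ (β : Type) (B : Finset β) (z : β → Fin n → ℝ),
    (∀ b ∈ B, ∀ b' ∈ B, b ≠ b' → ∃ i, r ≤ |z b i - z b' i|) → (∀ b ∈ B, ∀ b' ∈ B, ∀ i, |z b i - z b' i| ≤ S * r) →
    ∀ m : β → ℝ, (∀ b ∈ B, 0 ≤ m b) →
    (∀ b ∈ B, ENNReal.ofReal (m b ^ n) ≤ ENNReal.ofReal Kc * (Measure.pi fun _ : Fin n => ν)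
      {τ | θ ≤ |Matrix.det (Matrix.of fun i => e (τ i))| ∧ ∀ i, z b ∈ mlkTube (p (τ i)) (e (τ i)) (ρ * r)}) →
    (∑ b ∈ B, m b) ^ n ≤ B.card * Kc * (C * (ρ / θ) ^ (n ^ 2 + n) * S ^ ε) ^ (n - 1) * (ν Set.univ).toReal ^ n

end

end Claimed.Agent.R252
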