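/-
Leaf L-252-S6a-TLIFT (row252, unit S6a, chief helper234).  PROVED (helper5).  Helpers: prefix `k6a_tl_`.
Statement and PLAN: docstring of the `def ..._stmt` in `Tools.lean`.
-/
import Claimed.Agent.R252.S6a.Tools

namespace Claimed.Agent.R252

open MeasureTheory
open scoped ENNReal BigOperators

theorem k6a_tl_dot_cons {j : ℕ} (u : Fin (j + 1) → ℝ) (x : ℝ) (V : Fin j → ℝ) :
    u ⬝ᵥ (Fin.cons x V : Fin (j + 1) → ℝ) = u 0 * x + (fun i : Fin j => u i.succ) ⬝ᵥ V := by
  simp only [dotProduct, Fin.sum_univ_succ, Fin.cons_zero, Fin.cons_succ]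

theorem k6a_tl_dot_self {j : ℕ} (u : Fin (j + 1) → ℝ) :
    u ⬝ᵥ u = u 0 ^ 2 + (fun i : Fin j => u i.succ) ⬝ᵥ (fun i : Fin j => u i.succ) := by
  simp only [dotProduct, Fin.sum_univ_succ]
  ring

theorem k6a_lift_strip : k6a_lift_strip_stmt := by
  classical
  intro j K w u hj hK hw hw1 hu
  obtain ⟨uy, huy⟩ : ∃ uy : Fin j → ℝ, uy = fun i : Fin j => u i.succ := ⟨_, rfl⟩
  obtain ⟨s, hs⟩ : ∃ s : ℝ, s = Real.sqrt (uy ⬝ᵥ uy) := ⟨_, rfl⟩
  have hyy0 : 0 ≤ uy ⬝ᵥ uy := Finset.sum_nonneg fun i _ => mul_self_nonneg _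
  have hs0 : 0 ≤ s := hs ▸ Real.sqrt_nonneg _
  have hs2 : s ^ 2 = uy ⬝ᵥ uy := by rw [hs, Real.sq_sqrt hyy0]
  have hu2 : u 0 ^ 2 + s ^ 2 = 1 := by rw [hs2, huy, ← k6a_tl_dot_self, hu]
  have hjr : (1 : ℝ) ≤ j := by exact_mod_cast hj
  have hD : (4 : ℝ) ≤ 2 * (j + 1) * K := by nlinarith
  have hD0 : (0 : ℝ) < 2 * (j + 1) * K := by linarith
  by_cases hcase : 1 / (2 * (j + 1) * K) ≤ s
  · have hspos : 0 < s := lt_of_lt_of_le (by positivity) hcase
    refine ⟨fun i => uy i / s, -u 0 / s, ?_, ?_⟩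
    · have : (fun i => uy i / s) ⬝ᵥ (fun i => uy i / s) = (uy ⬝ᵥ uy) / s ^ 2 := by
        simp only [dotProduct, Finset.sum_div]
        refine Finset.sum_congr rfl fun i _ => ?_
        field_simp
      rw [this, ← hs2]
      field_simp
    · intro V _ hV
      rw [k6a_tl_dot_cons, ← huy, mul_one] at hV
      have e1 : (fun i => uy i / s) ⬝ᵥ V - -u 0 / s = (u 0 + uy ⬝ᵥ V) / s := by
        have : (fun i => uy i / s) ⬝ᵥ V = (uy ⬝ᵥ V) / s := by
          simp only [dotProduct, Finset.sum_div]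
          refine Finset.sum_congr rfl fun i _ => ?_
          ring
        rw [this]
        ring
      rw [e1, abs_div, abs_of_pos hspos, div_le_iff₀ hspos]
      have h1 : w / (2 * (j + 1) * K) ≤ w * s := by
        have := mul_le_mul_of_nonneg_left hcase hw.le
        rwa [mul_one_div] at this
      linarith
  · push Not at hcase
    have hs4 : s < 1 / 4 := lt_of_lt_of_le hcase (by
      rw [div_le_div_iff₀ hD0 (by norm_num)]
      linarith)
    refine ⟨Pi.single ⟨0, by omega⟩ 1, 0, by simp, ?_⟩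
    intro V hVK hV
    exfalso
    rw [k6a_tl_dot_cons, ← huy, mul_one] at hV
    have hcomp : ∀ i, |uy i| ≤ s := by
      intro i
      rw [hs]
      refine Real.abs_le_sqrt ?_
      rw [sq]
      exact Finset.single_le_sum (f := fun i => uy i * uy i) (fun i _ => mul_self_nonneg _) (Finset.mem_univ i)
    have hdot : |uy ⬝ᵥ V| ≤ j * (s * K) := by
      calc |uy ⬝ᵥ V| ≤ ∑ i, |uy i * V i| := Finset.abs_sum_le_sum_abs _ _
        _ ≤ ∑ _i : Fin j, s * K := by
            refine Finset.sum_le_sum fun i _ => ?_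
            rw [abs_mul]
            refine mul_le_mul (hcomp i) ?_ (abs_nonneg _) hs0
            exact (norm_le_pi_norm V i).trans hVK
        _ = j * (s * K) := by simp
    have hsK : j * (s * K) < 1 / 2 := by
      have h1 : s * (2 * (j + 1) * K) < 1 := by
        rwa [lt_div_iff₀ hD0] at hcase
      nlinarith
    have hu0 : (3 / 4 : ℝ) < |u 0| := by
      by_contra h
      push Not at h
      have h1 : u 0 ^ 2 ≤ (3 / 4) ^ 2 := by
        rw [← sq_abs]
        exact pow_le_pow_left₀ (abs_nonneg _) h 2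
      nlinarith
    have h3 : w / (2 * (j + 1) * K) ≤ 1 / 4 := by
      rw [div_le_div_iff₀ hD0 (by norm_num)]
      linarith
    have h4 : |u 0| ≤ |u 0 + uy ⬝ᵥ V| + |uy ⬝ᵥ V| := by
      have := abs_sub (u 0 + uy ⬝ᵥ V) (uy ⬝ᵥ V)
      simpa using this
    linarith

end Claimed.Agent.R252
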