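/-
Leaf L-252-S6a-TMLK (row252, unit S6a, chief helper234).  PROVED (helper5).  Helpers: prefix `k6a_tm_`.
Statement and PLAN: docstring of the `def ..._stmt` in `Tools.lean`.
Finite partition of the lines by the floors of `p / η`, `e / η`; one representative per class; union bound; `mlk_cells` with `(2ρ, 2S, θ/2)`.
-/
import Claimed.Agent.R252.S6a.Tools
import Claimed.Agent.R252.S6a.Det

namespace Claimed.Agent.R252

open MeasureTheory
open scoped ENNReal BigOperators

theorem k6a_tm_floor_close (η x y : ℝ) (hη : 0 < η) (h : ⌊x / η⌋ = ⌊y / η⌋) : |x - y| ≤ η := by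
  have h1 := Int.floor_le (x / η)
  have h2 := Int.lt_floor_add_one (x / η)
  have h3 := Int.floor_le (y / η)
  have h4 := Int.lt_floor_add_one (y / η)
  rw [h] at h1 h2
  have h5 : |x / η - y / η| ≤ 1 := by
    rw [abs_le]
    constructor <;> linarith
  rw [← sub_div, abs_div, abs_of_pos hη, div_le_one hη] at h5
  exact h5

theorem k6a_tm_floor_mem (x : ℝ) (N : ℕ) (h : |x| ≤ N) : ⌊x⌋ ∈ Finset.Icc (-(N : ℤ)) N := by
  obtain ⟨h1, h2⟩ := abs_le.1 h
  rw [Finset.mem_Icc]
  constructor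
  · rw [Int.le_floor]
    push_cast
    exact h1
  · have h3 : ((⌊x⌋ : ℤ) : ℝ) ≤ ((N : ℤ) : ℝ) := by
      push_cast
      exact (Int.floor_le x).trans h2
    exact_mod_cast h3

/-- a row of a matrix with entries in `[-1,1]` and determinant `≥ θ` has a large entry -/
theorem k6a_tm_row_big (n : ℕ) (hn : 1 ≤ n) (M : Matrix (Fin n) (Fin n) ℝ) (θ : ℝ) (hθ : 0 < θ)
    (hM : ∀ i j, |M i j| ≤ 1) (hdet : θ ≤ |M.det|) (i : Fin n) :
    ∃ k, θ / (2 * n * n.factorial) < |M i k| := by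
  classical
  by_contra hcon
  push Not at hcon
  have hn0 : (0 : ℝ) < n := by exact_mod_cast hn
  have hf0 : (0 : ℝ) < n.factorial := by exact_mod_cast n.factorial_pos
  have h0 : (M.updateRow i 0).det = 0 :=
    Matrix.det_eq_zero_of_row_eq_zero i fun j => by rw [Matrix.updateRow_self]; rfl
  have h1 := k6a_det_perturb n M (M.updateRow i 0) (θ / (2 * n * n.factorial)) hM ?_ ?_
  · rw [h0, sub_zero] at h1
    have h2 : (n : ℝ) * n.factorial * (θ / (2 * n * n.factorial)) = θ / 2 := by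
      field_simp
    rw [h2] at h1
    linarith
  · intro a j
    rw [Matrix.updateRow_apply]
    split_ifs
    · simp
    · exact hM a j
  · intro a j
    rw [Matrix.updateRow_apply]
    split_ifs with h
    · subst h
      simpa using hcon j
    · simp only [sub_self, abs_zero]
      positivity

/-- union bound over the boxes of classes -/
theorem k6a_tm_union {Λ α : Type} [MeasurableSpace Λ] (ν : Measure Λ) [IsFiniteMeasure ν] (n : ℕ)
    (A : Finset (Fin n → α)) (P : (Fin n → α) → Prop) [DecidablePred P] (W : α → Set Λ) (X : Set (Fin n → Λ))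
    (hX : ∀ τ ∈ X, ∃ a ∈ A, P a ∧ ∀ i, τ i ∈ W (a i)) :
    (Measure.pi fun _ : Fin n => ν) X
      ≤ ENNReal.ofReal (∑ a ∈ A, if P a then ∏ i, (ν (W (a i))).toReal else 0) := by
  have h1 : X ⊆ ⋃ a ∈ A.filter P, Set.pi Set.univ (fun i => W (a i)) := by
    intro τ hτ
    obtain ⟨a, ha, hP, hW⟩ := hX τ hτ
    simp only [Set.mem_iUnion]
    exact ⟨a, Finset.mem_filter.2 ⟨ha, hP⟩, fun i _ => hW i⟩
  refine (measure_mono h1).trans ((measure_biUnion_finset_le _ _).trans (le_of_eq ?_))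
  rw [← Finset.sum_filter,
    ENNReal.ofReal_sum_of_nonneg (fun a _ => Finset.prod_nonneg fun i _ => ENNReal.toReal_nonneg)]
  refine Finset.sum_congr rfl fun a _ => ?_
  rw [Measure.pi_pi, ENNReal.ofReal_prod_of_nonneg (fun i _ => ENNReal.toReal_nonneg)]
  refine Finset.prod_congr rfl fun i _ => ?_
  rw [ENNReal.ofReal_toReal (measure_ne_top _ _)]

/-- the tube condition passes to a nearby line -/
theorem k6a_tm_tube {n : ℕ} (z p e p' e' : Fin n → ℝ) (R η c0 Z Bd : ℝ) (hη : 0 < η) (hc0 : 0 < c0) (hR : 0 ≤ R)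
    (hz : ∀ k, |z k| ≤ Z) (hp : ∀ k, |p k| ≤ Bd) (hbig : ∃ k, c0 < |e k|)
    (hpp : ∀ k, |p k - p' k| ≤ η) (hee : ∀ k, |e k - e' k| ≤ η)
    (hsmall : η * (1 + (Z + Bd + R) / c0) ≤ R) (h : z ∈ mlkTube p e R) : z ∈ mlkTube p' e' (2 * R) := by
  obtain ⟨t, ht⟩ := h
  refine ⟨t, fun k => ?_⟩
  obtain ⟨k0, hk0⟩ := hbig
  have h1 : |t| * |e k0| ≤ Z + Bd + R := by
    rw [← abs_mul]
    have h2 := ht k0
    have h3 : t * e k0 = z k0 - p k0 - (z k0 - p k0 - t * e k0) := by ring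
    rw [h3]
    calc |z k0 - p k0 - (z k0 - p k0 - t * e k0)| ≤ |z k0 - p k0| + |z k0 - p k0 - t * e k0| := abs_sub _ _
      _ ≤ (|z k0| + |p k0|) + R := add_le_add (abs_sub _ _) h2
      _ ≤ _ := by linarith [hz k0, hp k0]
  have h2 : |t| ≤ (Z + Bd + R) / c0 := by
    rw [le_div_iff₀ hc0]
    exact (mul_le_mul_of_nonneg_left hk0.le (abs_nonneg t)).trans h1
  have h3 : z k - p' k - t * e' k = (z k - p k - t * e k) + (p k - p' k) + t * (e k - e' k) := by ring
  rw [h3]
  calc |(z k - p k - t * e k) + (p k - p' k) + t * (e k - e' k)|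
      ≤ |z k - p k - t * e k| + |p k - p' k| + |t * (e k - e' k)| := abs_add_three _ _ _
    _ ≤ R + η + (Z + Bd + R) / c0 * η := by
        rw [abs_mul]
        have h4 : |t| * |e k - e' k| ≤ (Z + Bd + R) / c0 * η :=
          mul_le_mul h2 (hee k) (abs_nonneg _) ((abs_nonneg t).trans h2)
        linarith [ht k, hpp k]
    _ ≤ 2 * R := by nlinarith

theorem k6a_mlk_meas : k6a_mlk_meas_stmt := by
  classical
  intro n ε hn hε
  obtain ⟨C0, hC0, hcells⟩ := mlk_cells.{0, 0} n hn ε hε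
  refine ⟨C0 * 4 ^ (n ^ 2 + n) * 2 ^ ε, by positivity, ?_⟩
  intro r ρ S θ Kc Bd hr hρ hρS hθ hθ1 hKc Λ _ ν _ p e hp he hpB heB β B z hsep hdiam m hm hmK
  have hn0 : (0 : ℝ) < n := by exact_mod_cast (by omega : 0 < n)
  have hf0 : (0 : ℝ) < n.factorial := by exact_mod_cast n.factorial_pos
  have hρ0 : 0 < ρ := by linarith
  have hR0 : 0 < ρ * r := by positivity
  obtain ⟨Z, hZ0, hZ⟩ : ∃ Z : ℝ, 0 ≤ Z ∧ ∀ b ∈ B, ∀ k, |z b k| ≤ Z := by
    refine ⟨∑ b ∈ B, ∑ k, |z b k|, by positivity, fun b hb k => ?_⟩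
    calc |z b k| ≤ ∑ k, |z b k| :=
          Finset.single_le_sum (f := fun k => |z b k|) (fun _ _ => abs_nonneg _) (Finset.mem_univ k)
      _ ≤ _ := Finset.single_le_sum (f := fun b => ∑ k, |z b k|) (fun _ _ => by positivity) hb
  obtain ⟨c0, hc0⟩ : ∃ c0 : ℝ, c0 = θ / (2 * n * n.factorial) := ⟨_, rfl⟩
  have hc0pos : 0 < c0 := by rw [hc0]; positivity
  obtain ⟨T, hT⟩ : ∃ T : ℝ, T = (Z + |Bd| + ρ * r) / c0 := ⟨_, rfl⟩
  have hT0 : 0 ≤ T := by rw [hT]; positivity
  obtain ⟨η, hη⟩ : ∃ η : ℝ, η = min (ρ * r / (1 + T)) c0 := ⟨_, rfl⟩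
  have hη0 : 0 < η := by rw [hη]; exact lt_min (by positivity) hc0pos
  have hη1 : η * (1 + T) ≤ ρ * r := by
    rw [← le_div_iff₀ (by positivity)]
    rw [hη]; exact min_le_left _ _
  have hη2 : (n : ℝ) * n.factorial * η ≤ θ / 2 := by
    have h1 : η ≤ c0 := by rw [hη]; exact min_le_right _ _
    have h2 : (n : ℝ) * n.factorial * c0 = θ / 2 := by
      rw [hc0]; field_simp
    rw [← h2]
    exact mul_le_mul_of_nonneg_left h1 (by positivity)
  -- the classes
  obtain ⟨cl, hcl⟩ : ∃ cl : Λ → (Fin n → ℤ) × (Fin n → ℤ),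
      cl = fun l => (fun k => ⌊p l k / η⌋, fun k => ⌊e l k / η⌋) := ⟨_, rfl⟩
  have hclm : Measurable cl := by
    rw [hcl]
    refine Measurable.prodMk ?_ ?_
    · refine measurable_pi_iff.2 fun k => ?_
      exact Int.measurable_floor.comp (((measurable_pi_apply k).comp hp).div_const η)
    · refine measurable_pi_iff.2 fun k => ?_
      exact Int.measurable_floor.comp (((measurable_pi_apply k).comp he).div_const η)
  obtain ⟨N, hN⟩ : ∃ N : ℕ, (|Bd| + 1) / η ≤ N := exists_nat_ge _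
  obtain ⟨A, hA⟩ : ∃ A : Finset ((Fin n → ℤ) × (Fin n → ℤ)),
      A = (Fintype.piFinset fun _ : Fin n => Finset.Icc (-(N : ℤ)) N) ×ˢ
        (Fintype.piFinset fun _ : Fin n => Finset.Icc (-(N : ℤ)) N) := ⟨_, rfl⟩
  have hclA : ∀ l, cl l ∈ A := by
    intro l
    rw [hA, hcl, Finset.mem_product]
    constructor
    · rw [Fintype.mem_piFinset]
      intro k
      refine k6a_tm_floor_mem _ _ (le_trans ?_ hN)
      rw [abs_div, abs_of_pos hη0]
      refine div_le_div_of_nonneg_right ?_ hη0.le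
      linarith [hpB l k, le_abs_self Bd]
    · rw [Fintype.mem_piFinset]
      intro k
      refine k6a_tm_floor_mem _ _ (le_trans ?_ hN)
      rw [abs_div, abs_of_pos hη0]
      refine div_le_div_of_nonneg_right ?_ hη0.le
      linarith [heB l k, abs_nonneg Bd]
  -- representatives
  obtain ⟨p', e', he'B, hrep⟩ : ∃ (p' e' : (Fin n → ℤ) × (Fin n → ℤ) → Fin n → ℝ), (∀ a k, |e' a k| ≤ 1) ∧
      ∀ l, ∃ l', cl l' = cl l ∧ p' (cl l) = p l' ∧ e' (cl l) = e l' := by
    refine ⟨fun a => if h : ∃ l, cl l = a then p h.choose else 0,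
      fun a => if h : ∃ l, cl l = a then e h.choose else 0, ?_, ?_⟩
    · intro a k
      by_cases h : ∃ l, cl l = a
      · simp only [dif_pos h]
        exact heB _ _
      · simp only [dif_neg h]
        simp
    · intro l
      have h : ∃ l', cl l' = cl l := ⟨l, rfl⟩
      exact ⟨h.choose, h.choose_spec, by simp only [dif_pos h], by simp only [dif_pos h]⟩
  obtain ⟨W, hW⟩ : ∃ W : (Fin n → ℤ) × (Fin n → ℤ) → Set Λ, W = fun a => cl ⁻¹' {a} := ⟨_, rfl⟩
  have hWm : ∀ a, MeasurableSet (W a) := fun a => by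
    rw [hW]; exact hclm (measurableSet_singleton a)
  obtain ⟨w, hw⟩ : ∃ w : (Fin n → ℤ) × (Fin n → ℤ) → ℝ, w = fun a => (ν (W a)).toReal := ⟨_, rfl⟩
  have hw0 : ∀ a, 0 ≤ w a := fun a => by rw [hw]; exact ENNReal.toReal_nonneg
  have hwsum : ∑ a ∈ A, w a ≤ (ν Set.univ).toReal := by
    rw [hw]
    rw [← ENNReal.toReal_sum (fun a _ => measure_ne_top _ _)]
    refine ENNReal.toReal_mono (measure_ne_top _ _) ?_
    rw [← measure_biUnion_finset ?_ (fun a _ => hWm a)]
    · exact measure_mono (Set.subset_univ _)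
    · intro a _ a' _ hne
      rw [hW]
      exact Disjoint.preimage _ (Set.disjoint_singleton.2 hne)
  -- the count dominates the measure
  have hcount : ∀ b ∈ B, (Measure.pi fun _ : Fin n => ν)
      {τ | θ ≤ |Matrix.det (Matrix.of fun i => e (τ i))| ∧ ∀ i, z b ∈ mlkTube (p (τ i)) (e (τ i)) (ρ * r)}
      ≤ ENNReal.ofReal (mlkCount (fun _ => A) p' e' w (2 * ρ * r) (θ / 2) (z b)) := by
    intro b hb
    unfold mlkCount
    rw [hw]
    refine k6a_tm_union ν n _ _ W _ ?_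
    rintro τ ⟨hdet, htube⟩
    refine ⟨fun i => cl (τ i), Fintype.mem_piFinset.2 fun i => hclA _, ⟨?_, ?_⟩, fun i => by rw [hW]; rfl⟩
    · -- determinant
      have h1 := k6a_det_perturb n (Matrix.of fun i => e (τ i)) (Matrix.of fun i => e' (cl (τ i))) η
        (fun i j => heB _ _) (fun i j => he'B _ _) ?_
      · have h2 := abs_sub_abs_le_abs_sub (Matrix.det (Matrix.of fun i => e (τ i)))
          (Matrix.det (Matrix.of fun i => e' (cl (τ i))))
        linarith
      · intro i j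
        obtain ⟨l', h1, _, h3⟩ := hrep (τ i)
        simp only [Matrix.of_apply]
        rw [h3]
        refine k6a_tm_floor_close η _ _ hη0 ?_
        rw [hcl] at h1
        exact (congrFun (congrArg Prod.snd h1) j).symm
    · intro i
      obtain ⟨l', h1, h2, h3⟩ := hrep (τ i)
      rw [h2, h3, mul_assoc]
      rw [hcl] at h1
      refine k6a_tm_tube (z b) (p (τ i)) (e (τ i)) (p l') (e l') (ρ * r) η c0 Z |Bd| hη0 hc0pos hR0.le (hZ b hb)
        (fun k => (hpB _ k).trans (le_abs_self _)) ?_ ?_ ?_ (by rw [← hT]; exact hη1) (htube i)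
      · have := k6a_tm_row_big n (by omega) (Matrix.of fun i => e (τ i)) θ hθ (fun i j => heB _ _) hdet i
        rw [hc0]
        exact this
      · intro k
        exact k6a_tm_floor_close η _ _ hη0 (congrFun (congrArg Prod.fst h1) k).symm
      · intro k
        exact k6a_tm_floor_close η _ _ hη0 (congrFun (congrArg Prod.snd h1) k).symm
  have hmK' : ∀ b ∈ B, m b ^ n ≤ Kc * mlkCount (fun _ => A) p' e' w (2 * ρ * r) (θ / 2) (z b) := by
    intro b hb
    have h0 : 0 ≤ mlkCount (fun _ => A) p' e' w (2 * ρ * r) (θ / 2) (z b) := mlkCount_nonneg _ _ _ _ hw0 _ _ _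
    have h1 := (hmK b hb).trans (mul_le_mul_right (hcount b hb) _)
    rw [← ENNReal.ofReal_mul hKc] at h1
    exact (ENNReal.ofReal_le_ofReal_iff (by positivity)).1 h1
  have hS0 : 0 < S := by linarith
  have hmain := hcells r (2 * ρ) (2 * S) (θ / 2) Kc hr (by linarith) (by linarith) (by positivity) (by linarith) hKc
    _ β A p' e' w hw0 (fun a _ k => he'B a k) B z hsep
    (fun b hb b' hb' i => (hdiam b hb b' hb' i).trans (by nlinarith)) m hm hmK'
  refine hmain.trans ?_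
  have e1 : C0 * (2 * ρ / (θ / 2)) ^ (n ^ 2 + n) * (2 * S) ^ ε
      = C0 * 4 ^ (n ^ 2 + n) * 2 ^ ε * (ρ / θ) ^ (n ^ 2 + n) * S ^ ε := by
    have h1 : 2 * ρ / (θ / 2) = 4 * (ρ / θ) := by field_simp; ring
    rw [h1, mul_pow, Real.mul_rpow (by norm_num) hS0.le]
    ring
  rw [e1]
  have hsum0 : 0 ≤ ∑ a ∈ A, w a := Finset.sum_nonneg fun a _ => hw0 a
  refine mul_le_mul_of_nonneg_left (pow_le_pow_left₀ hsum0 hwsum n) ?_
  positivity

end Claimed.Agent.R252
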