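/-
Leaf L-252-S6a-TTUPLE (row252, unit S6a, chief helper234).  PROVED (helper5).  Helpers: prefix `k6a_tt_`.
Statement and PLAN: docstring of the `def ..._stmt` in `Tools.lean`.
Route: `OuterMeasure.le_pi` (a bound on boxes is a bound everywhere) for the time slabs `|t| ≤ k`, then `k → ∞`.
-/
import Claimed.Agent.R252.S6a.Tools

namespace Claimed.Agent.R252

open MeasureTheory
open scoped ENNReal BigOperators

theorem k6a_tt_pi_smul {Y : Type} [MeasurableSpace Y] (n : ℕ) (ν : Measure Y) [IsFiniteMeasure ν] (c : ℝ≥0∞)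
    (hc : c ≠ ⊤) : Measure.pi (fun _ : Fin n => c • ν) = c ^ n • Measure.pi (fun _ : Fin n => ν) := by
  have : IsFiniteMeasure (c • ν) := Measure.smul_finite ν hc
  refine Measure.pi_eq fun s _ => ?_
  rw [Measure.smul_apply, Measure.pi_pi, smul_eq_mul]
  simp only [Measure.smul_apply, smul_eq_mul]
  rw [Finset.prod_mul_distrib, Finset.prod_const, Finset.card_univ, Fintype.card_fin]

/-- a bound for the push-forward on measurable sets gives the bound for the product measures -/
theorem k6a_tt_le_pi {X Y : Type} [MeasurableSpace X] [MeasurableSpace Y] (n : ℕ) (μ : Measure X) [SigmaFinite μ]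
    (ν : Measure Y) [IsFiniteMeasure ν] (f : X → Y) (G : Set X) (c : ℝ≥0∞) (hc : c ≠ ⊤)
    (h : ∀ D, MeasurableSet D → μ (f ⁻¹' D ∩ G) ≤ c * ν D) (A' : Set (Fin n → Y)) (hA' : MeasurableSet A') :
    (Measure.pi fun _ : Fin n => μ) ((fun x i => f (x i)) ⁻¹' A' ∩ Set.pi Set.univ fun _ => G)
      ≤ c ^ n * (Measure.pi fun _ : Fin n => ν) A' := by
  have h' : ∀ D : Set Y, μ (f ⁻¹' D ∩ G) ≤ (c • ν) D := by
    intro D
    calc μ (f ⁻¹' D ∩ G) ≤ μ (f ⁻¹' (toMeasurable ν D) ∩ G) :=
          measure_mono (Set.inter_subset_inter_left _ (Set.preimage_mono (subset_toMeasurable ν D)))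
      _ ≤ c * ν (toMeasurable ν D) := h _ (measurableSet_toMeasurable ν D)
      _ = (c • ν) D := by rw [measure_toMeasurable, Measure.smul_apply, smul_eq_mul]
  have key : OuterMeasure.map (fun (x : Fin n → X) i => f (x i))
      (OuterMeasure.restrict (Set.pi Set.univ fun _ => G) (Measure.pi fun _ : Fin n => μ).toOuterMeasure)
      ≤ OuterMeasure.pi fun _ : Fin n => (c • ν).toOuterMeasure := by
    rw [OuterMeasure.le_pi]
    intro s _
    rw [OuterMeasure.map_apply, OuterMeasure.restrict_apply]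
    have e1 : (fun (x : Fin n → X) i => f (x i)) ⁻¹' Set.pi Set.univ s ∩ Set.pi Set.univ (fun _ => G)
        = Set.pi Set.univ fun i => f ⁻¹' s i ∩ G := by
      ext x
      simp only [Set.mem_inter_iff, Set.mem_preimage, Set.mem_pi, Set.mem_univ, forall_true_left, forall_and]
    rw [e1]
    change (Measure.pi fun _ : Fin n => μ) (Set.pi Set.univ fun i => f ⁻¹' s i ∩ G) ≤ ∏ i, (c • ν) (s i)
    rw [Measure.pi_pi]
    exact Finset.prod_le_prod' fun i _ => h' (s i)
  have h2 := key A'
  rw [OuterMeasure.map_apply, OuterMeasure.restrict_apply] at h2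
  have h3 : (OuterMeasure.pi fun _ : Fin n => (c • ν).toOuterMeasure) A' = (Measure.pi fun _ : Fin n => c • ν) A' := by
    rw [Measure.pi_def, toMeasure_apply _ _ hA']
  rw [h3, k6a_tt_pi_smul n ν c hc, Measure.smul_apply, smul_eq_mul] at h2
  exact h2

theorem k6a_tuple : k6a_tuple_stmt := by
  classical
  intro Λ _ ν _ n Ec β A A' hEc hA' hβ hAA'
  obtain ⟨μ, hμ⟩ : ∃ μ : Measure (Λ × ℝ), μ = (ν.prod volume).restrict Ec := ⟨_, rfl⟩
  have : SigmaFinite μ := by rw [hμ]; infer_instance
  rw [← hμ]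
  obtain ⟨π, hπ⟩ : ∃ π : (Fin n → Λ × ℝ) → Fin n → Λ, π = fun x i => (x i).1 := ⟨_, rfl⟩
  obtain ⟨G, hG⟩ : ∃ G : ℕ → Set (Λ × ℝ), G = fun k : ℕ => (Set.univ : Set Λ) ×ˢ Set.Icc (-(k : ℝ)) (k : ℝ) := ⟨_, rfl⟩
  have hGm : ∀ k, MeasurableSet (G k) := fun k => by
    rw [hG]; exact MeasurableSet.univ.prod measurableSet_Icc
  -- one slab
  have hslab : ∀ k : ℕ, (Measure.pi fun _ : Fin n => μ) (π ⁻¹' A' ∩ Set.pi Set.univ fun _ => G k)
      ≤ β ^ n * (Measure.pi fun _ : Fin n => ν) A' := by
    intro k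
    have hc : min β (ENNReal.ofReal (2 * k)) ≠ ⊤ := ne_top_of_le_ne_top ENNReal.ofReal_ne_top (min_le_right _ _)
    have h1 := k6a_tt_le_pi n μ ν Prod.fst (G k) (min β (ENNReal.ofReal (2 * k))) hc ?_ A' hA'
    · rw [hπ]
      refine h1.trans (mul_le_mul_left ?_ _)
      exact pow_le_pow_left₀ zero_le (min_le_left _ _) n
    · intro D hD
      rw [hμ, Measure.restrict_apply ((measurable_fst hD).inter (hGm k)),
        Measure.prod_apply (((measurable_fst hD).inter (hGm k)).inter hEc)]
      calc ∫⁻ l, volume (Prod.mk l ⁻¹' (Prod.fst ⁻¹' D ∩ G k ∩ Ec)) ∂ν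
          ≤ ∫⁻ l, D.indicator (fun _ => min β (ENNReal.ofReal (2 * k))) l ∂ν := by
            refine lintegral_mono fun l => ?_
            by_cases hl : l ∈ D
            · rw [Set.indicator_of_mem hl]
              refine le_min ?_ ?_
              · refine (measure_mono ?_).trans (hβ l)
                rintro t ⟨_, ht⟩
                exact ht
              · have h2 : Prod.mk l ⁻¹' (Prod.fst ⁻¹' D ∩ G k ∩ Ec) ⊆ Set.Icc (-(k : ℝ)) k := by
                  rintro t ⟨⟨_, ht⟩, _⟩
                  rw [hG] at ht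
                  exact ht.2
                refine (measure_mono h2).trans (le_of_eq ?_)
                rw [Real.volume_Icc]
                congr 1
                ring
            · rw [Set.indicator_of_notMem hl]
              have h2 : Prod.mk l ⁻¹' (Prod.fst ⁻¹' D ∩ G k ∩ Ec) = ∅ := by
                rw [Set.eq_empty_iff_forall_notMem]
                rintro t ⟨⟨ht, _⟩, _⟩
                exact hl ht
              rw [h2, measure_empty]
        _ = min β (ENNReal.ofReal (2 * k)) * ν D := by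
            rw [lintegral_indicator hD, setLIntegral_const]
  -- all slabs
  have hall : (Measure.pi fun _ : Fin n => μ) (π ⁻¹' A') ≤ β ^ n * (Measure.pi fun _ : Fin n => ν) A' := by
    have e1 : π ⁻¹' A' = ⋃ k : ℕ, π ⁻¹' A' ∩ Set.pi Set.univ fun _ => G k := by
      ext x
      simp only [Set.mem_iUnion, Set.mem_inter_iff, exists_and_left, iff_self_and]
      intro _
      obtain ⟨k, hk⟩ := exists_nat_ge (∑ i, |(x i).2|)
      refine ⟨k, fun i _ => ?_⟩
      rw [hG]
      refine ⟨Set.mem_univ _, ?_⟩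
      rw [Set.mem_Icc, ← abs_le]
      exact (Finset.single_le_sum (f := fun i => |(x i).2|) (fun _ _ => abs_nonneg _) (Finset.mem_univ i)).trans hk
    have hmono : Monotone fun k : ℕ => π ⁻¹' A' ∩ Set.pi Set.univ fun _ => G k := by
      intro k k' hkk
      refine Set.inter_subset_inter_right _ (Set.pi_mono fun i _ => ?_)
      rw [hG]
      have : (k : ℝ) ≤ k' := by exact_mod_cast hkk
      exact Set.prod_mono le_rfl (Set.Icc_subset_Icc (by linarith) this)
    rw [e1, hmono.measure_iUnion]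
    exact iSup_le hslab
  -- the exceptional set
  have hnull : (Measure.pi fun _ : Fin n => μ) (⋃ i : Fin n, Function.eval i ⁻¹' Ecᶜ) = 0 := by
    rw [measure_iUnion_null_iff]
    intro i
    refine Measure.pi_eval_preimage_null (fun _ : Fin n => μ) ?_
    rw [hμ, Measure.restrict_apply hEc.compl]
    simp
  have hsub : A ⊆ π ⁻¹' A' ∪ ⋃ i : Fin n, Function.eval i ⁻¹' Ecᶜ := by
    intro x hx
    by_cases h : ∀ i, x i ∈ Ec
    · left
      rw [hπ]
      exact hAA' x hx h
    · right
      push Not at h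
      obtain ⟨i, hi⟩ := h
      exact Set.mem_iUnion.2 ⟨i, hi⟩
  calc (Measure.pi fun _ : Fin n => μ) A
      ≤ (Measure.pi fun _ : Fin n => μ) (π ⁻¹' A') + (Measure.pi fun _ : Fin n => μ) (⋃ i : Fin n, Function.eval i ⁻¹' Ecᶜ) :=
        (measure_mono hsub).trans (measure_union_le _ _)
    _ ≤ _ := by rw [hnull, add_zero]; exact hall

end Claimed.Agent.R252
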