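/-
Leaf L-252-S6a3-FILL (row252, unit S6a3, sub-architect helper117).  PROVED (helper5), WITHOUT hypotheses: the four tools
(`k6a_lift_strip`, `k6a_tuple`, `k6a_mlk_meas`, `k6a_span_prob`) are imported.  Helpers: prefix `k6a3_fill_`.
-/
import Claimed.Agent.R252.S6a.StripContract
import Claimed.Agent.R252.S6a.TLift
import Claimed.Agent.R252.S6a.TTuple
import Claimed.Agent.R252.S6a.TMlk
import Claimed.Agent.R252.S6a.Span

set_option autoImplicit false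

namespace Claimed.Agent.R252

open MeasureTheory
open scoped ENNReal

/-- the arithmetic at the end of the strip filling -/
theorem k6a3_fill_arith (j : ℕ) (hj : 1 ≤ j) (ε C₁ : ℝ) (hε : 0 < ε) (hC₁ : 0 < C₁) : ∃ C : ℝ, 0 < C ∧
    ∀ (p ρ lam w K Mr sm νr card : ℝ), 0 < p → p ≤ ρ → 1 ≤ lam → 0 < w → w ≤ 1 → 1 ≤ K → 0 < Mr →
    Mr ≤ K * sm → 0 ≤ νr → ρ * νr ≤ K * Mr → 0 ≤ card →
    sm ^ (j + 1) ≤ card * (4 * lam * p) ^ (j + 1) *
      (C₁ * (lam / ((w / (2 * ((j : ℝ) + 1) * K) / K) ^ (j + 1) / ((j + 1).factorial : ℝ))) ^ ((j + 1) ^ 2 + (j + 1))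
        * (max lam (ρ / p)) ^ (ε / j)) ^ (j + 1 - 1) * νr ^ (j + 1) →
    (ρ / p) ^ (j + 1) ≤ C * (lam * K / w) ^ C * (ρ / p) ^ ε * card := by
  obtain ⟨F, hF⟩ : ∃ F : ℝ, F = ((j + 1).factorial : ℝ) * (2 * ((j : ℝ) + 1)) ^ (j + 1) := ⟨_, rfl⟩
  have hfac : (0 : ℝ) < ((j + 1).factorial : ℝ) := by exact_mod_cast (j + 1).factorial_pos
  have hF0 : 0 < F := by rw [hF]; positivity
  obtain ⟨N₂, hN₂⟩ : ∃ N₂ : ℕ, N₂ = (j + 1) ^ 2 + (j + 1) := ⟨_, rfl⟩
  obtain ⟨a₁, ha₁⟩ : ∃ a₁ : ℝ, a₁ = 4 ^ (j + 1) * C₁ ^ j * F ^ (N₂ * j) := ⟨_, rfl⟩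
  obtain ⟨k₀, hk₀⟩ : ∃ k₀ : ℕ, k₀ = (2 * (j + 1) + 1) * N₂ * j + 3 * (j + 1) := ⟨_, rfl⟩
  have ha₁0 : 0 < a₁ := by rw [ha₁]; positivity
  refine ⟨a₁ + ((k₀ : ℝ) + ε), by positivity, ?_⟩
  intro p ρ lam w K Mr sm νr card hp hpρ hlam hw hw1 hK hMr hsm hνr0 hνr hcard H
  rw [Nat.add_sub_cancel, ← hN₂] at H
  have hρ : 0 < ρ := lt_of_lt_of_le hp hpρ
  have hK0 : 0 < K := by linarith
  have hlam0 : 0 < lam := by linarith
  have hjr : (1 : ℝ) ≤ j := by exact_mod_cast hj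
  have hj0 : (0 : ℝ) < j := by linarith
  obtain ⟨X, hX⟩ : ∃ X : ℝ, X = lam * K / w := ⟨_, rfl⟩
  obtain ⟨Rp, hRp⟩ : ∃ Rp : ℝ, Rp = ρ / p := ⟨_, rfl⟩
  rw [← hX, ← hRp]
  rw [← hRp] at H
  have hRp1 : 1 ≤ Rp := by rw [hRp, le_div_iff₀ hp]; linarith
  have hw_inv : 1 ≤ 1 / w := by rw [le_div_iff₀ hw]; linarith
  have hXlam : lam ≤ X := by
    rw [hX, le_div_iff₀ hw]
    nlinarith
  have hXK : K ≤ X := by
    rw [hX, le_div_iff₀ hw]
    nlinarith
  have hX1 : 1 ≤ X := hK.trans hXK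
  have hX0 : 0 < X := by linarith
  have hXKw : K / w ≤ X := by
    rw [hX]
    refine div_le_div_of_nonneg_right ?_ hw.le
    nlinarith
  -- the threshold
  have hθ : lam / ((w / (2 * ((j : ℝ) + 1) * K) / K) ^ (j + 1) / ((j + 1).factorial : ℝ)) ≤ F * X ^ (2 * (j + 1) + 1) := by
    have e1 : lam / ((w / (2 * ((j : ℝ) + 1) * K) / K) ^ (j + 1) / ((j + 1).factorial : ℝ))
        = F * (lam * (K * (K / w)) ^ (j + 1)) := by
      rw [hF]
      have : w / (2 * ((j : ℝ) + 1) * K) / K = (2 * ((j : ℝ) + 1) * (K * (K / w)))⁻¹ := by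
        field_simp
      rw [this, inv_pow, mul_pow]
      field_simp
    rw [e1]
    refine mul_le_mul_of_nonneg_left ?_ hF0.le
    have h2 : K * (K / w) ≤ X ^ 2 := by
      rw [sq]
      exact mul_le_mul hXK hXKw (by positivity) hX0.le
    calc lam * (K * (K / w)) ^ (j + 1) ≤ X * (X ^ 2) ^ (j + 1) :=
          mul_le_mul hXlam (pow_le_pow_left₀ (by positivity) h2 _) (by positivity) hX0.le
      _ = X ^ (2 * (j + 1) + 1) := by rw [← pow_mul]; ring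
  have hθ0 : 0 ≤ lam / ((w / (2 * ((j : ℝ) + 1) * K) / K) ^ (j + 1) / ((j + 1).factorial : ℝ)) := by positivity
  obtain ⟨q, hq⟩ : ∃ q : ℝ, q = lam / ((w / (2 * ((j : ℝ) + 1) * K) / K) ^ (j + 1) / ((j + 1).factorial : ℝ)) := ⟨_, rfl⟩
  rw [← hq] at H hθ hθ0
  -- the scale ratio
  have hS0 : 0 < max lam Rp := lt_of_lt_of_le hlam0 (le_max_left _ _)
  have hS : max lam Rp ≤ X * Rp := by
    refine max_le ?_ ?_
    · nlinarith
    · nlinarith
  have hSe : ((max lam Rp) ^ (ε / j)) ^ j ≤ X ^ ε * Rp ^ ε := by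
    rw [← Real.rpow_natCast, ← Real.rpow_mul hS0.le, div_mul_cancel₀ _ hj0.ne', ← Real.mul_rpow hX0.le (by linarith)]
    exact Real.rpow_le_rpow hS0.le hS hε.le
  have hG : (C₁ * q ^ N₂ * (max lam Rp) ^ (ε / j)) ^ j
      ≤ C₁ ^ j * (F ^ (N₂ * j) * X ^ ((2 * (j + 1) + 1) * N₂ * j)) * (X ^ ε * Rp ^ ε) := by
    rw [mul_pow, mul_pow]
    have h1 : (q ^ N₂) ^ j ≤ F ^ (N₂ * j) * X ^ ((2 * (j + 1) + 1) * N₂ * j) := by
      calc (q ^ N₂) ^ j ≤ ((F * X ^ (2 * (j + 1) + 1)) ^ N₂) ^ j :=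
            pow_le_pow_left₀ (by positivity) (pow_le_pow_left₀ hθ0 hθ _) _
        _ = _ := by
            rw [← pow_mul, mul_pow, ← pow_mul, mul_assoc]
    have h2 : 0 ≤ ((max lam Rp) ^ (ε / j)) ^ j := by positivity
    exact mul_le_mul (mul_le_mul_of_nonneg_left h1 (by positivity)) hSe h2 (by positivity)
  have hG0 : 0 ≤ (C₁ * q ^ N₂ * (max lam Rp) ^ (ε / j)) ^ j := by positivity
  obtain ⟨G, hGd⟩ : ∃ G : ℝ, G = (C₁ * q ^ N₂ * (max lam Rp) ^ (ε / j)) ^ j := ⟨_, rfl⟩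
  rw [← hGd] at H hG hG0
  -- cancel the mass
  have hsm0 : 0 ≤ sm := by
    by_contra h
    push Not at h
    have := mul_neg_of_pos_of_neg hK0 h
    linarith
  have h1 : (Mr / K) ^ (j + 1) ≤ sm ^ (j + 1) := by
    refine pow_le_pow_left₀ (by positivity) ?_ _
    rw [div_le_iff₀ hK0]
    linarith
  have h2 : νr ^ (j + 1) ≤ (K * Mr / ρ) ^ (j + 1) := by
    refine pow_le_pow_left₀ hνr0 ?_ _
    rw [le_div_iff₀ hρ]
    linarith
  have h3 : (Mr / K) ^ (j + 1) ≤ card * (4 * lam * p) ^ (j + 1) * G * (K * Mr / ρ) ^ (j + 1) :=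
    h1.trans (H.trans (mul_le_mul_of_nonneg_left h2 (by positivity)))
  have e1 : Rp ^ (j + 1) = (Mr / K) ^ (j + 1) * (K * ρ / (Mr * p)) ^ (j + 1) := by
    rw [← mul_pow, hRp]
    congr 1
    field_simp
  have e2 : card * (4 * lam * p) ^ (j + 1) * G * (K * Mr / ρ) ^ (j + 1) * (K * ρ / (Mr * p)) ^ (j + 1)
      = card * G * (4 * (lam * K * K)) ^ (j + 1) := by
    have : (4 * (lam * K * K)) = (4 * lam * p) * (K * Mr / ρ) * (K * ρ / (Mr * p)) := by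
      field_simp
    rw [this, mul_pow, mul_pow]
    ring
  have h4 : Rp ^ (j + 1) ≤ card * G * (4 * (lam * K * K)) ^ (j + 1) := by
    rw [e1, ← e2]
    exact mul_le_mul_of_nonneg_right h3 (by positivity)
  have h5 : (4 * (lam * K * K)) ^ (j + 1) ≤ 4 ^ (j + 1) * X ^ (3 * (j + 1)) := by
    rw [mul_pow, pow_mul]
    refine mul_le_mul_of_nonneg_left (pow_le_pow_left₀ (by positivity) ?_ _) (by positivity)
    calc lam * K * K ≤ X * X * X := mul_le_mul (mul_le_mul hXlam hXK hK0.le hX0.le) hXK hK0.le (by positivity)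
      _ = X ^ 3 := by ring
  have hRpe : 0 < Rp ^ ε := Real.rpow_pos_of_pos (by linarith) _
  have hXe : 0 < X ^ ε := Real.rpow_pos_of_pos hX0 _
  calc Rp ^ (j + 1) ≤ card * G * (4 * (lam * K * K)) ^ (j + 1) := h4
    _ ≤ card * (C₁ ^ j * (F ^ (N₂ * j) * X ^ ((2 * (j + 1) + 1) * N₂ * j)) * (X ^ ε * Rp ^ ε))
          * (4 ^ (j + 1) * X ^ (3 * (j + 1))) :=
        mul_le_mul (mul_le_mul_of_nonneg_left hG hcard) h5 (by positivity) (by positivity)
    _ = a₁ * X ^ ((k₀ : ℝ) + ε) * Rp ^ ε * card := by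
        rw [Real.rpow_add hX0, Real.rpow_natCast, hk₀, pow_add, ha₁]
        ring
    _ ≤ (a₁ + ((k₀ : ℝ) + ε)) * X ^ (a₁ + ((k₀ : ℝ) + ε)) * Rp ^ ε * card := by
        refine mul_le_mul_of_nonneg_right (mul_le_mul_of_nonneg_right ?_ hRpe.le) hcard
        refine mul_le_mul ?_ (Real.rpow_le_rpow_of_exponent_le hX1 (by linarith)) (Real.rpow_nonneg hX0.le _) (by positivity)
        have : (0 : ℝ) ≤ (k₀ : ℝ) + ε := by positivity
        linarith

/-- one cell: breadth + spanning + tuples of incidences versus tuples of lines -/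
theorem k6a3_fill_cell {Λ : Type} [MeasurableSpace Λ] (ν : Measure Λ) [IsFiniteMeasure ν] (n : ℕ) (hn : 1 ≤ n)
    (QE : Set (Λ × ℝ)) (hQE : MeasurableSet QE) (hfin : (ν.prod volume) QE ≠ ⊤)
    (eL : Λ → Fin n → ℝ) (heL : Measurable eL) (η₀ : ℝ) (hη₀ : 0 ≤ η₀)
    (hbroad : ∀ u : Fin n → ℝ, u ⬝ᵥ u = 1 →
      1 / 2 * (ν.prod volume) QE ≤ (ν.prod volume) ({x | η₀ ≤ |u ⬝ᵥ eL x.1|} ∩ QE))
    (β : ℝ≥0∞) (hβ : ∀ l, volume {t : ℝ | (l, t) ∈ QE} ≤ β)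
    (L2 : Set Λ) (hL2 : MeasurableSet L2) (hsub : ∀ x ∈ QE, x.1 ∈ L2)
    (T : Set (Fin n → Λ))
    (hT : ∀ x : Fin n → Λ × ℝ, (∀ i, x i ∈ QE) →
      η₀ ^ n ≤ (n.factorial : ℝ) * |Matrix.det (Matrix.of fun i => eL (x i).1)| → (fun i => (x i).1) ∈ T) :
    ((ν.prod volume) QE) ^ n ≤ 2 ^ n * (β ^ n * (Measure.pi fun _ : Fin n => ν.restrict L2) T) := by
  obtain ⟨μ, hμ⟩ : ∃ μ : Measure (Λ × ℝ), μ = ν.prod volume := ⟨_, rfl⟩
  rw [← hμ] at hfin hbroad ⊢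
  by_cases h0 : μ QE = 0
  · rw [h0, zero_pow (by omega)]
    exact zero_le
  have hfm : IsFiniteMeasure (μ.restrict QE) := ⟨by rw [Measure.restrict_apply_univ]; exact hfin.lt_top⟩
  have hinv : (μ QE)⁻¹ ≠ ⊤ := ENNReal.inv_ne_top.2 h0
  have hP : IsProbabilityMeasure ((μ QE)⁻¹ • μ.restrict QE) := ⟨by
    rw [Measure.smul_apply, Measure.restrict_apply_univ, smul_eq_mul, ENNReal.inv_mul_cancel h0 hfin]⟩
  have h1 := k6a_span_prob ((μ QE)⁻¹ • μ.restrict QE) n (fun x => eL x.1) (heL.comp measurable_fst) η₀ (1 / 2) hη₀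
    (by norm_num) ?_
  · rw [k6a_tt_pi_smul n _ _ hinv, Measure.smul_apply, smul_eq_mul] at h1
    have h2 := k6a_tuple Λ ν n QE β
      {ω | η₀ ^ n ≤ (n.factorial : ℝ) * |Matrix.det (Matrix.of fun i => eL (ω i).1)|}
      (toMeasurable (Measure.pi fun _ : Fin n => ν.restrict L2) T ∩ Set.pi Set.univ fun _ => L2) hQE
      ((measurableSet_toMeasurable _ _).inter (MeasurableSet.univ_pi fun _ => hL2)) hβ ?_
    · rw [← hμ, ← Measure.restrict_apply (measurableSet_toMeasurable _ _), Measure.restrict_pi_pi,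
        measure_toMeasurable] at h2
      have h3 := h1.trans (mul_le_mul_right h2 _)
      have e1 : (2 : ℝ≥0∞) ^ n * ENNReal.ofReal ((1 / 2) ^ n) = 1 := by
        rw [← ENNReal.ofReal_ofNat 2, ← ENNReal.ofReal_pow (by norm_num), ← ENNReal.ofReal_mul (by positivity),
          ← mul_pow]
        norm_num
      have e2 : (μ QE) ^ n * ((μ QE)⁻¹) ^ n = 1 := by
        rw [← mul_pow, ENNReal.mul_inv_cancel h0 hfin, one_pow]
      calc (μ QE) ^ n = (μ QE) ^ n * ((2 : ℝ≥0∞) ^ n * ENNReal.ofReal ((1 / 2) ^ n)) := by rw [e1, mul_one]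
        _ ≤ (μ QE) ^ n * ((2 : ℝ≥0∞) ^ n * (((μ QE)⁻¹) ^ n *
              (β ^ n * (Measure.pi fun _ : Fin n => ν.restrict L2) T))) :=
            mul_le_mul_right (mul_le_mul_right h3 _) _
        _ = ((μ QE) ^ n * ((μ QE)⁻¹) ^ n) * (2 ^ n * (β ^ n * (Measure.pi fun _ : Fin n => ν.restrict L2) T)) := by
            ring
        _ = _ := by rw [e2, one_mul]
    · intro x hx hxQ
      exact ⟨subset_toMeasurable _ _ (hT x hxQ hx), fun i _ => hsub _ (hxQ i)⟩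
  · intro u hu
    rw [Measure.smul_apply, smul_eq_mul, Measure.restrict_apply' hQE]
    have h2 := hbroad u hu
    calc ENNReal.ofReal (1 / 2) = (μ QE)⁻¹ * (1 / 2 * μ QE) := by
          rw [mul_comm (1 / 2 : ℝ≥0∞), ← mul_assoc, ENNReal.inv_mul_cancel h0 hfin, one_mul]
          rw [ENNReal.ofReal_div_of_pos (by norm_num)]
          simp
      _ ≤ _ := mul_le_mul_right h2 _

theorem k6a3_fill_co_le {j : ℕ} (c : k5_Co j) (i : Fin 2) (a : Fin j) : |c.2 i a| ≤ ‖c‖ := by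
  calc |c.2 i a| = ‖c.2 i a‖ := (Real.norm_eq_abs _).symm
    _ ≤ ‖c.2 i‖ := norm_le_pi_norm _ a
    _ ≤ ‖c.2‖ := norm_le_pi_norm _ i
    _ ≤ ‖c‖ := norm_snd_le c

theorem k6a3_fill : k6a3_fill_stmt := by
  classical
  intro j ε hj hε
  have hjr : (1 : ℝ) ≤ j := by exact_mod_cast hj
  obtain ⟨C₁, hC₁, hmlk⟩ := k6a_mlk_meas (j + 1) (ε / j) (by omega) (by positivity)
  obtain ⟨C, hC, harith⟩ := k6a3_fill_arith j hj ε C₁ hε hC₁
  refine ⟨C, hC, ?_⟩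
  intro Λ _ ν _ c Q cl B p ρ lam w K M hc hQ hcl hp hpρ hlam hw hw1 hK hQc hQB hBd hctr hbr hM0 hMtop hMQ hρν
  obtain ⟨μ, hμ⟩ : ∃ μ : Measure (Λ × ℝ), μ = ν.prod volume := ⟨_, rfl⟩
  rw [← hμ] at hbr hMQ
  have hK0 : 0 < K := by linarith
  have hlam0 : 0 < lam := by linarith
  have hρ0 : 0 < ρ := lt_of_lt_of_le hp hpρ
  -- finiteness
  have hQfin : μ Q ≠ ⊤ := by
    have h1 : Q ⊆ Set.univ ×ˢ Set.Icc (0 : ℝ) 1 := fun e he => ⟨Set.mem_univ _, (hQc e he).2⟩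
    refine ne_top_of_le_ne_top ?_ (measure_mono h1)
    rw [hμ, Measure.prod_prod, Real.volume_Icc]
    exact ENNReal.mul_ne_top (measure_ne_top _ _) ENNReal.ofReal_ne_top
  have hQEfin : ∀ E, μ (Q ∩ cl ⁻¹' {E}) ≠ ⊤ := fun E =>
    ne_top_of_le_ne_top hQfin (measure_mono Set.inter_subset_left)
  -- the lines
  obtain ⟨pL, hpL⟩ : ∃ pL : Λ → Fin (j + 1) → ℝ,
      pL = fun l => if ‖c l‖ ≤ K then (Fin.cons 0 ((c l).2 0) : Fin (j + 1) → ℝ) else 0 := ⟨_, rfl⟩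
  obtain ⟨eL, heL⟩ : ∃ eL : Λ → Fin (j + 1) → ℝ,
      eL = fun l => if ‖c l‖ ≤ K then (fun k => (Fin.cons 1 ((c l).2 1) : Fin (j + 1) → ℝ) k / K) else 0 := ⟨_, rfl⟩
  have hgood : MeasurableSet {l | ‖c l‖ ≤ K} := measurableSet_le hc.norm measurable_const
  have hpLm : Measurable pL := by
    rw [hpL]
    refine Measurable.ite hgood ?_ measurable_const
    refine measurable_pi_iff.2 fun k => ?_
    refine Fin.cases ?_ (fun a => ?_) k
    · simp only [Fin.cons_zero]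
      exact measurable_const
    · simp only [Fin.cons_succ]
      exact (measurable_pi_apply a).comp ((measurable_pi_apply 0).comp (measurable_snd.comp hc))
  have heLm : Measurable eL := by
    rw [heL]
    refine Measurable.ite hgood ?_ measurable_const
    refine measurable_pi_iff.2 fun k => ?_
    refine Fin.cases ?_ (fun a => ?_) k
    · simp only [Fin.cons_zero]
      exact measurable_const
    · simp only [Fin.cons_succ]
      exact ((measurable_pi_apply a).comp ((measurable_pi_apply 1).comp (measurable_snd.comp hc))).div_const K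
  have hpLB : ∀ l k, |pL l k| ≤ K := by
    intro l k
    rw [hpL]
    by_cases h : ‖c l‖ ≤ K
    · simp only [if_pos h]
      refine Fin.cases ?_ (fun a => ?_) k
      · simp only [Fin.cons_zero, abs_zero]
        exact hK0.le
      · simp only [Fin.cons_succ]
        exact (k6a3_fill_co_le _ _ _).trans h
    · simp only [if_neg h, Pi.zero_apply, abs_zero]
      exact hK0.le
  have heLB : ∀ l k, |eL l k| ≤ 1 := by
    intro l k
    rw [heL]
    by_cases h : ‖c l‖ ≤ K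
    · simp only [if_pos h]
      rw [abs_div, abs_of_pos hK0, div_le_one hK0]
      refine Fin.cases ?_ (fun a => ?_) k
      · simp only [Fin.cons_zero, abs_one]
        exact hK
      · simp only [Fin.cons_succ]
        exact (k6a3_fill_co_le _ _ _).trans h
    · simp only [if_neg h, Pi.zero_apply, abs_zero]
      exact zero_le_one
  have hline : ∀ l, ‖c l‖ ≤ K → ∀ (t : ℝ) k, pL l k + t * K * eL l k = k6a3_z (c l) t k := by
    intro l h t k
    rw [hpL, heL]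
    simp only [if_pos h, k6a3_z]
    refine Fin.cases ?_ (fun a => ?_) k
    · simp only [Fin.cons_zero]
      field_simp
      ring
    · simp only [Fin.cons_succ, k5_y]
      field_simp
  have hdot : ∀ l, ‖c l‖ ≤ K → ∀ u : Fin (j + 1) → ℝ,
      u ⬝ᵥ eL l = u ⬝ᵥ (Fin.cons 1 (k5_yd (c l)) : Fin (j + 1) → ℝ) / K := by
    intro l h u
    rw [heL]
    simp only [if_pos h, dotProduct, Finset.sum_div, k5_yd]
    refine Finset.sum_congr rfl fun k _ => ?_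
    ring
  -- constants
  obtain ⟨η₀, hη₀⟩ : ∃ η₀ : ℝ, η₀ = w / (2 * ((j : ℝ) + 1) * K) / K := ⟨_, rfl⟩
  have hη₀0 : 0 < η₀ := by rw [hη₀]; positivity
  have hη₀1 : η₀ ≤ 1 := by
    rw [hη₀, div_div, div_le_one (by positivity)]
    have : (1 : ℝ) ≤ 2 * ((j : ℝ) + 1) * K * K := by nlinarith [mul_le_mul hK hK zero_le_one hK0.le]
    linarith
  have hfac : (1 : ℝ) ≤ ((j + 1).factorial : ℝ) := by exact_mod_cast Nat.succ_le_of_lt (j + 1).factorial_pos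
  obtain ⟨θ, hθ⟩ : ∃ θ : ℝ, θ = η₀ ^ (j + 1) / ((j + 1).factorial : ℝ) := ⟨_, rfl⟩
  have hθ0 : 0 < θ := by rw [hθ]; positivity
  have hθ1 : θ ≤ 1 := by
    rw [hθ, div_le_one (by linarith)]
    exact (pow_le_one₀ hη₀0.le hη₀1).trans hfac
  obtain ⟨z, hz⟩ : ∃ z : (Fin (j + 1) → ℤ) → Fin (j + 1) → ℝ, z = fun E k => ((E k : ℝ) + 1 / 2) * p := ⟨_, rfl⟩
  obtain ⟨L2, hL2⟩ : ∃ L2 : Set Λ, L2 = toMeasurable ν {l | ∃ t, (l, t) ∈ Q} := ⟨_, rfl⟩
  have hL2m : MeasurableSet L2 := by rw [hL2]; exact measurableSet_toMeasurable _ _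
  have hL2ν : ν L2 = ν {l | ∃ t, (l, t) ∈ Q} := by rw [hL2, measure_toMeasurable]
  -- one cell
  have hcell : ∀ E ∈ B, ENNReal.ofReal ((μ (Q ∩ cl ⁻¹' {E})).toReal ^ (j + 1)) ≤
      ENNReal.ofReal ((4 * lam * p) ^ (j + 1)) * (Measure.pi fun _ : Fin (j + 1) => ν.restrict L2)
        {τ | θ ≤ |Matrix.det (Matrix.of fun i => eL (τ i))| ∧ ∀ i, z E ∈ mlkTube (pL (τ i)) (eL (τ i)) (lam * p)} := by
    intro E _
    have hQE : MeasurableSet (Q ∩ cl ⁻¹' {E}) := hQ.inter (hcl E)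
    have h1 := k6a3_fill_cell ν (j + 1) (by omega) (Q ∩ cl ⁻¹' {E}) hQE (by rw [← hμ]; exact hQEfin E) eL heLm η₀
      hη₀0.le ?_ (ENNReal.ofReal (2 * lam * p)) ?_ L2 hL2m ?_
      {τ | θ ≤ |Matrix.det (Matrix.of fun i => eL (τ i))| ∧ ∀ i, z E ∈ mlkTube (pL (τ i)) (eL (τ i)) (lam * p)} ?_
    · rw [← hμ] at h1
      rw [ENNReal.ofReal_pow ENNReal.toReal_nonneg, ENNReal.ofReal_toReal (hQEfin E)]
      refine h1.trans (le_of_eq ?_)
      rw [← mul_assoc]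
      congr 1
      rw [← mul_pow, ← ENNReal.ofReal_ofNat 2, ← ENNReal.ofReal_mul (by norm_num),
        ← ENNReal.ofReal_pow (by positivity)]
      congr 2
      ring
    · -- breadth
      intro u hu
      rw [← hμ]
      obtain ⟨n₀, c₀, hn₀, hstrip⟩ := k6a_lift_strip j K w u hj hK hw hw1 hu
      have hb := hbr E n₀ c₀ hn₀
      have hsub : Q ∩ cl ⁻¹' {E} ⊆ ({x | η₀ ≤ |u ⬝ᵥ eL x.1|} ∩ (Q ∩ cl ⁻¹' {E})) ∪
          (Q ∩ cl ⁻¹' {E} ∩ {e | |n₀ ⬝ᵥ k5_yd (c e.1) - c₀| ≤ w}) := by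
        intro x hx
        by_cases h : η₀ ≤ |u ⬝ᵥ eL x.1|
        · exact Or.inl ⟨h, hx⟩
        · right
          refine ⟨hx, ?_⟩
          push Not at h
          have hcx := (hQc x hx.1).1
          rw [hdot _ hcx, abs_div, abs_of_pos hK0, div_lt_iff₀ hK0, hη₀, div_mul_cancel₀ _ hK0.ne'] at h
          refine hstrip _ ?_ h
          rw [pi_norm_le_iff_of_nonneg hK0.le]
          intro a
          rw [Real.norm_eq_abs]
          exact (k6a3_fill_co_le _ _ _).trans hcx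
      have h2 : μ (Q ∩ cl ⁻¹' {E}) ≤ μ ({x | η₀ ≤ |u ⬝ᵥ eL x.1|} ∩ (Q ∩ cl ⁻¹' {E})) + 1 / 2 * μ (Q ∩ cl ⁻¹' {E}) :=
        (measure_mono hsub).trans ((measure_union_le _ _).trans (add_le_add_right hb _))
      have h3 : 1 / 2 * μ (Q ∩ cl ⁻¹' {E}) + 1 / 2 * μ (Q ∩ cl ⁻¹' {E}) = μ (Q ∩ cl ⁻¹' {E}) := by
        rw [← add_mul, ENNReal.add_halves, one_mul]
      have h4 : 1 / 2 * μ (Q ∩ cl ⁻¹' {E}) ≠ ⊤ := ENNReal.mul_ne_top (by simp) (hQEfin E)
      rw [← h3] at h2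
      conv at h2 => rhs; rw [h3]
      exact (ENNReal.add_le_add_iff_right h4).1 h2
    · -- duration
      intro l
      have hsub : {t : ℝ | (l, t) ∈ Q ∩ cl ⁻¹' {E}} ⊆
          Set.Icc (((E 0 : ℝ) + 1 / 2) * p - lam * p) (((E 0 : ℝ) + 1 / 2) * p + lam * p) := by
        rintro t ⟨ht, htE⟩
        have h1 := hctr _ ht 0
        have h2 : cl (l, t) = E := htE
        rw [h2] at h1
        simp only [k6a3_z, Fin.cons_zero] at h1
        obtain ⟨h3, h4⟩ := abs_le.1 h1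
        exact ⟨by linarith, by linarith⟩
      refine (measure_mono hsub).trans (le_of_eq ?_)
      rw [Real.volume_Icc]
      congr 1
      ring
    · intro x hx
      rw [hL2]
      exact subset_toMeasurable _ _ ⟨x.2, hx.1⟩
    · intro x hxQ hdet
      refine ⟨?_, fun i => ⟨(x i).2 * K, fun k => ?_⟩⟩
      · rw [hθ, div_le_iff₀ (by linarith), mul_comm]
        exact hdet
      · have hcx := (hQc _ (hxQ i).1).1
        have h1 := hctr _ (hxQ i).1 k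
        have h2 : cl (x i) = E := (hxQ i).2
        rw [h2, ← hline _ hcx] at h1
        rw [hz]
        simp only
        rw [sub_sub]
        exact h1
  -- multilinear Kakeya
  have hsep : ∀ b ∈ B, ∀ b' ∈ B, b ≠ b' → ∃ i, p ≤ |z b i - z b' i| := by
    intro b _ b' _ hne
    obtain ⟨i, hi⟩ := Function.ne_iff.1 hne
    refine ⟨i, ?_⟩
    rw [hz]
    have e1 : ((b i : ℝ) + 1 / 2) * p - ((b' i : ℝ) + 1 / 2) * p = ((b i - b' i : ℤ) : ℝ) * p := by
      push_cast; ring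
    simp only
    rw [e1, abs_mul, abs_of_pos hp]
    have h1 : (1 : ℝ) ≤ |((b i - b' i : ℤ) : ℝ)| := by
      rw [← Int.cast_abs]
      exact_mod_cast Int.one_le_abs (sub_ne_zero.2 hi)
    nlinarith
  have hdiam : ∀ b ∈ B, ∀ b' ∈ B, ∀ i, |z b i - z b' i| ≤ max lam (ρ / p) * p := by
    intro b hb b' hb' i
    rw [hz]
    have e1 : ((b i : ℝ) + 1 / 2) * p - ((b' i : ℝ) + 1 / 2) * p = ((b i : ℝ) - b' i) * p := by ring
    simp only
    rw [e1, abs_mul, abs_of_pos hp]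
    refine (hBd b hb b' hb' i).trans ?_
    calc ρ = ρ / p * p := by field_simp
      _ ≤ _ := mul_le_mul_of_nonneg_right (le_max_right _ _) hp.le
  have H := hmlk p lam (max lam (ρ / p)) θ ((4 * lam * p) ^ (j + 1)) K hp hlam (le_max_left _ _) hθ0 hθ1 (by positivity)
    Λ (ν.restrict L2) pL eL hpLm heLm hpLB heLB (Fin (j + 1) → ℤ) B z hsep hdiam
    (fun E => (μ (Q ∩ cl ⁻¹' {E})).toReal) (fun _ _ => ENNReal.toReal_nonneg) hcell
  rw [hθ, hη₀] at H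
  refine harith p ρ lam w K M.toReal _ _ _ hp hpρ hlam hw hw1 hK (ENNReal.toReal_pos hM0.ne' hMtop) ?_
    ENNReal.toReal_nonneg ?_ (Nat.cast_nonneg _) H
  · have h1 : μ Q ≤ ∑ E ∈ B, μ (Q ∩ cl ⁻¹' {E}) := by
      refine le_trans (measure_mono ?_) (measure_biUnion_finset_le B _)
      intro x hx
      simp only [Set.mem_iUnion]
      exact ⟨cl x, hQB x hx, hx, rfl⟩
    have h2 := hMQ.trans (mul_le_mul_right h1 _)
    have h3 : ∑ E ∈ B, μ (Q ∩ cl ⁻¹' {E}) ≠ ⊤ := ENNReal.sum_ne_top.2 fun E _ => hQEfin E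
    have h4 := ENNReal.toReal_mono (ENNReal.mul_ne_top ENNReal.ofReal_ne_top h3) h2
    rw [ENNReal.toReal_mul, ENNReal.toReal_ofReal hK0.le, ENNReal.toReal_sum fun E _ => hQEfin E] at h4
    exact h4
  · rw [Measure.restrict_apply_univ, hL2ν]
    have h4 := ENNReal.toReal_mono (ENNReal.mul_ne_top ENNReal.ofReal_ne_top hMtop) hρν
    rw [ENNReal.toReal_mul, ENNReal.toReal_mul, ENNReal.toReal_ofReal hK0.le, ENNReal.toReal_ofReal hρ0.le] at h4
    exact h4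

end Claimed.Agent.R252
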