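/-
row252, unit S6a3, leaf L-252-S6a3-LISTSHIFT (helper134): A1, lists at displaced cells.
-/
import Claimed.Agent.R252.S6a.StripContract

set_option autoImplicit false

namespace Claimed.Agent.R252

/-- floors of two reals within `s` of each other, at step `s`, differ by at most one -/
theorem k6a3_list_shift_floor (x y s : ℝ) (hs : 0 < s) (h : |x - y| ≤ s) : ⌊x / s⌋ - ⌊y / s⌋ ∈ ({-1, 0, 1} : Finset ℤ) := by
  have h1 : |x / s - y / s| ≤ 1 := by
    rw [← sub_div, abs_div, abs_of_pos hs, div_le_one hs]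
    exact h
  rw [abs_le] at h1
  have a1 := Int.floor_le (x / s)
  have a2 := Int.lt_floor_add_one (x / s)
  have b1 := Int.floor_le (y / s)
  have b2 := Int.lt_floor_add_one (y / s)
  have c1 : (⌊x / s⌋ : ℝ) < (⌊y / s⌋ : ℝ) + 2 := by linarith
  have c2 : (⌊y / s⌋ : ℝ) < (⌊x / s⌋ : ℝ) + 2 := by linarith
  have d1 : ⌊x / s⌋ < ⌊y / s⌋ + 2 := by exact_mod_cast c1
  have d2 : ⌊y / s⌋ < ⌊x / s⌋ + 2 := by exact_mod_cast c2
  simp only [Finset.mem_insert, Finset.mem_singleton]
  omega

theorem k6a3_list_shift : k6a3_list_shift_stmt := by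
  intro Ω R D q W Z Y s b K hs hb hWZ hT n
  classical
  choose T hTc hTm using hT
  refine ⟨(Fintype.piFinset fun _ : Fin D => ({-1, 0, 1} : Finset ℤ)).biUnion (fun δ => T (n + δ)), ?_, ?_⟩
  · calc ((Fintype.piFinset fun _ : Fin D => ({-1, 0, 1} : Finset ℤ)).biUnion (fun δ => T (n + δ))).card
        ≤ ∑ δ ∈ Fintype.piFinset fun _ : Fin D => ({-1, 0, 1} : Finset ℤ), (T (n + δ)).card := Finset.card_biUnion_le
      _ ≤ ∑ _δ ∈ Fintype.piFinset fun _ : Fin D => ({-1, 0, 1} : Finset ℤ), K := Finset.sum_le_sum fun δ _ => hTc _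
      _ = 3 ^ D * K := by
        rw [Finset.sum_const, Fintype.card_piFinset, smul_eq_mul]
        simp
  · intro e he hZ
    refine Finset.mem_biUnion.2 ⟨k6a_cell s (W e) - n, ?_, ?_⟩
    · rw [Fintype.mem_piFinset]
      intro i
      rw [← hZ]
      have h1 : |W e i - Z e i| ≤ s := ((norm_le_pi_norm (W e - Z e) i).trans (hWZ e he)).trans hb
      exact k6a3_list_shift_floor _ _ s hs h1
    · have : n + (k6a_cell s (W e) - n) = k6a_cell s (W e) := by abel
      rw [this]
      exact hTm _ e he rfl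

end Claimed.Agent.R252
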