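/-
LEAF L-252-S6a3-MAIN (row252, unit S6a3; architect helper117; prover helper190).   EXIT OF THE ONE-WORLD PART `k6a3_exit_stmt` (S6a/StripExit.lean):
ASSEMBLY of A2, A3, E3, F2, F3, F7 (taken as hypotheses).
-/
import Claimed.Agent.R252.S6a.StripExit

set_option autoImplicit false

namespace Claimed.Agent.R252

open MeasureTheory
open scoped ENNReal

/-! ### grids -/

theorem k6a3_main_grid {L : ℕ} {s : ℕ → ℝ} {A lo : ℝ} (h : k6a3_Grid L s A lo) :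
    (∀ i i', i ≤ i' → i' ≤ L → s i' ≤ s i) ∧ 0 < lo := by
  obtain ⟨-, hL, hpos, hmono, -⟩ := h
  refine ⟨?_, hL ▸ hpos L le_rfl⟩
  intro i i' hii'
  induction i', hii' using Nat.le_induction with
  | base => exact fun _ => le_rfl
  | succ k hk ih => exact fun hk' => (hmono k (by omega)).trans (ih (by omega))

/-! ### monotonicity of the hypotheses -/

theorem k6a3_main_strips_mono {m : ℕ} {Ω D₀ : Type} {R : Set Ω} {st : Ω → D₀} {Z : D₀ → Fin (m + 1) → ℝ}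
    {GC : (Fin (m + 1) → ℤ) → Fin m → ℝ} {ρ p r Kc Kc' : ℝ} (h : k6a3_Strips R st Z GC ρ p r Kc) (hle : Kc ≤ Kc') :
    k6a3_Strips R st Z GC ρ p r Kc' := fun n x₀ => by
  obtain ⟨T, hT, h'⟩ := h n x₀
  exact ⟨T, hT.trans hle, h'⟩

theorem k6a3_main_supp_mono {j : ℕ} {Λ : Type} {c : Λ → k5_Co j} {R S : Set (Λ × ℝ)} {r p Ks : ℝ} (h : k6a3_Supp c R r p Ks) (hS : S ⊆ R) :
    k6a3_Supp c S r p Ks := fun n => by
  obtain ⟨T, hT, h'⟩ := h n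
  exact ⟨T, hT, fun e he => h' e (hS he)⟩

theorem k6a3_main_gy_norm {j : ℕ} (g : Fin (j + 1) → ℝ) : ‖k6a3_gy g‖ ≤ ‖g‖ :=
  (pi_norm_le_iff_of_nonneg (norm_nonneg g)).2 fun i => norm_le_pi_norm g i.succ

theorem k6a3_main_gy_sub {j : ℕ} (g g' : Fin (j + 1) → ℝ) : k6a3_gy g - k6a3_gy g' = k6a3_gy (g - g') := rfl

/-! ### numerics -/

/-- consequences of the smallness hypothesis -/
theorem k6a3_main_small {j : ℕ} {C K A eg ρ b ζ : ℝ} (hC : 200 * ((j : ℝ) + 1) ≤ C) (hK : 1 ≤ K) (hA : 1 ≤ A) (heg : 0 ≤ eg) (hρ : 0 < ρ)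
    (hb : 0 ≤ b) (h : C * (K * A) ^ C * (eg + ρ + b / ρ) ≤ ζ) :
    200 * ((j : ℝ) + 1) * (K ^ 2 * A) ≤ C * (K * A) ^ C ∧
    ∀ α β γ : ℝ, α ≤ 200 * ((j : ℝ) + 1) * (K ^ 2 * A) → β ≤ 200 * ((j : ℝ) + 1) * (K ^ 2 * A) → γ ≤ 200 * ((j : ℝ) + 1) * (K ^ 2 * A) →
      α * eg + β * ρ + γ * (b / ρ) ≤ ζ := by
  have hj : (0 : ℝ) ≤ j := Nat.cast_nonneg j
  have hKA : 1 ≤ K * A := by nlinarith
  have h2 : (K * A) ^ (2 : ℝ) ≤ (K * A) ^ C := Real.rpow_le_rpow_of_exponent_le hKA (by linarith)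
  have h3 : K ^ 2 * A ≤ (K * A) ^ (2 : ℝ) := by
    rw [Real.rpow_two, mul_pow]
    have : 0 ≤ K ^ 2 := by positivity
    nlinarith
  have h4 : 200 * ((j : ℝ) + 1) * (K ^ 2 * A) ≤ C * (K * A) ^ C :=
    mul_le_mul hC (h3.trans h2) (by positivity) (by linarith)
  refine ⟨h4, fun α β γ hα hβ hγ => le_trans ?_ h⟩
  have hbρ : 0 ≤ b / ρ := by positivity
  have e1 := mul_le_mul_of_nonneg_right (hα.trans h4) heg
  have e2 := mul_le_mul_of_nonneg_right (hβ.trans h4) hρ.le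
  have e3 := mul_le_mul_of_nonneg_right (hγ.trans h4) hbρ
  linarith

theorem k6a3_main_fin {C CE C7 K A K₁ w ζ ε : ℝ} (hCE : 0 < CE) (h1 : 18 ≤ C) (h2 : CE + 3 ≤ C) (h3 : C7 * CE ≤ C)
    (hK : 1 ≤ K) (hA : 1 ≤ A) (hK₁ : 1 ≤ K₁) (hw0 : 0 < w) (hw1 : w ≤ 1) (hζ0 : 0 < ζ) (hζ1 : ζ ≤ 1) (hε : 0 < ε) :
    18 * (K ^ 2 * A) ≤ C * (K * A * K₁ / w) ^ C * ζ ^ (-ε) ∧
      C7 * A ^ 2 * (CE * (K * K₁ / w) ^ CE * ζ ^ (-ε) * K) ≤ C * (K * A * K₁ / w) ^ C * ζ ^ (-ε) := by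
  have hZ : 1 ≤ ζ ^ (-ε) := Real.one_le_rpow_of_pos_of_le_one_of_nonpos hζ0 hζ1 (by linarith)
  have hAK : 1 ≤ A * K₁ := by nlinarith
  have hKK : 1 ≤ K * K₁ := by nlinarith
  have hKx : K ≤ K * A * K₁ / w := by
    rw [le_div_iff₀ hw0]
    nlinarith
  have hAx : A ≤ K * A * K₁ / w := by
    rw [le_div_iff₀ hw0]
    nlinarith
  have hyx : K * K₁ / w ≤ K * A * K₁ / w := by
    apply div_le_div_of_nonneg_right _ hw0.le
    nlinarith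
  set x := K * A * K₁ / w with hx
  have hx1 : 1 ≤ x := hK.trans hKx
  have hx0 : 0 < x := by linarith
  have hp3 : x ^ 3 ≤ x ^ C := by
    rw [← Real.rpow_natCast x 3]
    exact Real.rpow_le_rpow_of_exponent_le hx1 (by push_cast; linarith)
  have hxC : 0 < x ^ C := Real.rpow_pos_of_pos hx0 C
  constructor
  · have e1 : K ^ 2 * A ≤ x ^ 3 := by
      calc K ^ 2 * A ≤ x ^ 2 * x := mul_le_mul (pow_le_pow_left₀ (by linarith) hKx 2) hAx (by linarith) (by positivity)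
        _ = x ^ 3 := by ring
    calc 18 * (K ^ 2 * A) ≤ C * x ^ C := mul_le_mul h1 (e1.trans hp3) (by positivity) (by linarith)
      _ ≤ C * x ^ C * ζ ^ (-ε) := le_mul_of_one_le_right (by positivity) hZ
  · have hy0 : 0 ≤ K * K₁ / w := by positivity
    have e1 : (K * K₁ / w) ^ CE ≤ x ^ CE := Real.rpow_le_rpow hy0 hyx hCE.le
    have e2 : x ^ 2 * x * x ^ CE = x ^ (CE + 3) := by
      rw [Real.rpow_add hx0, show (3 : ℝ) = ((3 : ℕ) : ℝ) by norm_num, Real.rpow_natCast]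
      ring
    have e3 : x ^ (CE + 3) ≤ x ^ C := Real.rpow_le_rpow_of_exponent_le hx1 h2
    have e4 : A ^ 2 * K * (K * K₁ / w) ^ CE ≤ x ^ C := by
      calc A ^ 2 * K * (K * K₁ / w) ^ CE ≤ x ^ 2 * x * x ^ CE :=
            mul_le_mul (mul_le_mul (pow_le_pow_left₀ (by linarith) hAx 2) hKx (by linarith) (by positivity)) e1
              (Real.rpow_nonneg hy0 CE) (by positivity)
        _ = x ^ (CE + 3) := e2
        _ ≤ x ^ C := e3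
    have e5 : 0 ≤ A ^ 2 * K * (K * K₁ / w) ^ CE := by
      have := Real.rpow_nonneg hy0 CE
      positivity
    calc C7 * A ^ 2 * (CE * (K * K₁ / w) ^ CE * ζ ^ (-ε) * K) = (C7 * CE) * (A ^ 2 * K * (K * K₁ / w) ^ CE) * ζ ^ (-ε) := by ring
      _ ≤ C * x ^ C * ζ ^ (-ε) := by
          apply mul_le_mul_of_nonneg_right _ (by linarith)
          exact mul_le_mul h3 e4 e5 (by linarith)

theorem k6a3_main_pow {j : ℕ} {u d : ℝ} (hu : 0 < u) : u ^ ((j : ℝ) + 1 + d) * (u⁻¹) ^ (j + 1) = u ^ d := by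
  rw [Real.rpow_add hu, show (j : ℝ) + 1 = ((j + 1 : ℕ) : ℝ) by push_cast; ring, Real.rpow_natCast, inv_pow]
  have : u ^ (j + 1) ≠ 0 := by positivity
  field_simp

theorem k6a3_main_kc {j : ℕ} {CE y ρ si si' K d ζ ε : ℝ} (hCE : 0 ≤ CE) (hy : 0 ≤ y) (hρ : 0 < ρ) (hsi : 0 < si) (hsi' : 0 < si')
    (hζ : 0 < ζ) (hζs : ζ ≤ si') (hK : 0 ≤ K) (hε : 0 < ε) :
    CE * y * (ρ / (ρ * si')) ^ ε * (K * (si / si') ^ ((j : ℝ) + 1 + d)) * (ρ * si' / (ρ * si)) ^ (j + 1)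
      ≤ CE * y * ζ ^ (-ε) * K * (si / si') ^ d := by
  have e1 : ρ / (ρ * si') = si'⁻¹ := by field_simp
  have e2 : ρ * si' / (ρ * si) = (si / si')⁻¹ := by field_simp
  have e3 : (si'⁻¹) ^ ε = si' ^ (-ε) := by rw [Real.inv_rpow hsi'.le, Real.rpow_neg hsi'.le]
  have e4 : si' ^ (-ε) ≤ ζ ^ (-ε) := Real.rpow_le_rpow_of_nonpos hζ hζs (by linarith)
  have hu : 0 < si / si' := by positivity
  rw [e1, e2, e3]
  calc CE * y * si' ^ (-ε) * (K * (si / si') ^ ((j : ℝ) + 1 + d)) * ((si / si')⁻¹) ^ (j + 1)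
      = CE * y * si' ^ (-ε) * K * ((si / si') ^ ((j : ℝ) + 1 + d) * ((si / si')⁻¹) ^ (j + 1)) := by ring
    _ = CE * y * si' ^ (-ε) * K * (si / si') ^ d := by rw [k6a3_main_pow hu]
    _ ≤ CE * y * ζ ^ (-ε) * K * (si / si') ^ d := by
        have := Real.rpow_nonneg hu.le d
        gcongr


theorem k6a3_main_prod {j L : ℕ} {C K : ℝ} (hK : 1 ≤ K) (hC : 2 * 12 ^ (j + 2) ≤ C) :
    (∏ _i ∈ Finset.range (L + 1), ((4 : ℝ≥0∞) ^ (j + 2) * ((3 ^ (j + 2) * ⌈K⌉₊ : ℕ) : ℝ≥0∞))) ≤ ENNReal.ofReal ((C * K) ^ (L + 1)) := by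
  have hK0 : 0 ≤ K := by linarith
  have hC0 : 0 ≤ C := le_trans (by positivity) hC
  rw [Finset.prod_const, Finset.card_range, ENNReal.ofReal_pow (by positivity)]
  refine pow_le_pow_left' ?_ _
  have e1 : ((4 : ℝ≥0∞) ^ (j + 2) * ((3 ^ (j + 2) * ⌈K⌉₊ : ℕ) : ℝ≥0∞)) = ENNReal.ofReal (4 ^ (j + 2) * ((3 ^ (j + 2) * ⌈K⌉₊ : ℕ) : ℝ)) := by
    rw [ENNReal.ofReal_mul (by positivity), ENNReal.ofReal_pow (by norm_num), ENNReal.ofReal_natCast]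
    norm_num
  rw [e1]
  apply ENNReal.ofReal_le_ofReal
  have h2 : (⌈K⌉₊ : ℝ) ≤ 2 * K := by
    have := Nat.ceil_lt_add_one hK0
    linarith
  push_cast
  calc (4 : ℝ) ^ (j + 2) * (3 ^ (j + 2) * (⌈K⌉₊ : ℝ)) = 12 ^ (j + 2) * (⌈K⌉₊ : ℝ) := by
        rw [← mul_assoc, ← mul_pow]; norm_num
    _ ≤ 12 ^ (j + 2) * (2 * K) := by gcongr
    _ = 2 * 12 ^ (j + 2) * K := by ring
    _ ≤ C * K := by gcongr

theorem k6a3_main_KA {K A : ℝ} (hK : 1 ≤ K) (hA : 1 ≤ A) : K * (A + 2 * K) ≤ 3 * (K ^ 2 * A) ∧ A + 2 * K ≤ 3 * (K * A) ∧ 1 ≤ K ^ 2 * A ∧ K ≤ K ^ 2 * A ∧ K ^ 2 ≤ K ^ 2 * A := by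
  have h1 : 0 ≤ (K - 1) * (A - 1) := mul_nonneg (by linarith) (by linarith)
  have h2 : K ≤ K ^ 2 := by nlinarith
  have h3 : K ^ 2 ≤ K ^ 2 * A := by nlinarith
  have h4 : K * A ≤ K ^ 2 * A := by nlinarith
  refine ⟨by nlinarith, by nlinarith, by nlinarith, by nlinarith, h3⟩

theorem k6a3_main_num {j : ℕ} {K A : ℝ} (hK : 1 ≤ K) (hA : 1 ≤ A) (h1 : K * (A + 2 * K) ≤ 3 * (K ^ 2 * A)) (h2 : K ≤ K ^ 2 * A) :
    6 * ((j : ℝ) + 1) * (K * (A + 2 * K)) ≤ 200 * ((j : ℝ) + 1) * (K ^ 2 * A) ∧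
    2 * (1 + ((j : ℝ) + 1) * K) ≤ 200 * ((j : ℝ) + 1) * (K ^ 2 * A) ∧
    4 * (j : ℝ) * (2 * (6 * K * (A + 2 * K))) ≤ 200 * ((j : ℝ) + 1) * (K ^ 2 * A) ∧
    1 + ((j : ℝ) + 1) * K ≤ 200 * ((j : ℝ) + 1) * (K ^ 2 * A) := by
  have hj : (0 : ℝ) ≤ j := Nat.cast_nonneg j
  set M := K ^ 2 * A with hM
  set N := K * (A + 2 * K) with hN
  have hM1 : 1 ≤ M := hK.trans h2
  have a1 : ((j : ℝ) + 1) * N ≤ ((j : ℝ) + 1) * (3 * M) := mul_le_mul_of_nonneg_left h1 (by linarith)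
  have a2 : ((j : ℝ) + 1) * K ≤ ((j : ℝ) + 1) * M := mul_le_mul_of_nonneg_left h2 (by linarith)
  have a3 : (j : ℝ) * N ≤ (j : ℝ) * (3 * M) := mul_le_mul_of_nonneg_left h1 hj
  have a4 : 1 ≤ ((j : ℝ) + 1) * M := by nlinarith
  have a5 : 0 ≤ (j : ℝ) * M := by positivity
  refine ⟨by nlinarith, by nlinarith, ?_, by nlinarith⟩
  have : 4 * (j : ℝ) * (2 * (6 * K * (A + 2 * K))) = 48 * ((j : ℝ) * N) := by rw [hN]; ring
  rw [this]
  nlinarith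

/-- `k6a3_Geo` of the family after (6.15) -/
theorem k6a3_main_geo {j : ℕ} {d : ℝ} {Λ D₀ : Type} [MeasurableSpace Λ] {ν : Measure Λ} {c : Λ → k5_Co j} {R S : Set (Λ × ℝ)}
    {st : Λ × ℝ → D₀} {Z : D₀ → Fin (j + 2) → ℝ} {G : D₀ → Fin (j + 1) → ℝ}
    {K A b eg ρ ζ w K₂ : ℝ} {L : ℕ} {s : ℕ → ℝ} {L' : ℕ} {s' : ℕ → ℝ} {GC : (Fin (j + 2) → ℤ) → Fin (j + 1) → ℝ}
    (hIn : k6a3_In0 j d ν c R st Z G K A b eg ρ ζ w L s L' s') (hSm : MeasurableSet S) (hSR : S ⊆ R)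
    (hWh : ∀ e ∈ R, ∀ e' ∈ R, st e = st e' → (e ∈ S ↔ e' ∈ S)) (hGCb : ∀ n, ‖GC n‖ ≤ K)
    (hrow : ∀ e ∈ S, ‖G (st e) - GC (k6a_cell ρ (Z (st e)))‖ ≤ K₂ * ρ) :
    k6a3_Geo j ν c S st Z G GC K K₂ b eg ρ w where
  nu_le := hIn.nu_le
  mc := hIn.mc
  mR := hSm
  mst := hIn.mst
  tI := fun e he => hIn.tI e (hSR he)
  cb := fun e he => hIn.cb e (hSR he)
  ctr := fun e he => hIn.ctr e (hSR he)
  graph := fun e he => hIn.graph e (hSR he)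
  row := hrow
  GCb := hGCb
  broad := fun d₀ n b₀ hn => by
    by_cases hne : (S ∩ st ⁻¹' {d₀}).Nonempty
    · obtain ⟨e₀, he₀S, he₀d⟩ := hne
      have heq : S ∩ st ⁻¹' {d₀} = R ∩ st ⁻¹' {d₀} := by
        ext e
        constructor
        · exact fun h => ⟨hSR h.1, h.2⟩
        · intro h
          refine ⟨(hWh e h.1 e₀ (hSR he₀S) ?_).2 he₀S, h.2⟩
          rw [show st e = d₀ from h.2, show st e₀ = d₀ from he₀d]
      rw [heq]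
      exact hIn.broad d₀ n b₀ hn
    · rw [Set.not_nonempty_iff_eq_empty.1 hne]
      simp


/-- **EXIT OF THE ONE-WORLD PART OF S6a3** (assembly) -/
theorem k6a3_exit (hA2 : k6a3_field_lip_stmt) (hA3 : k6a3_cube_row_stmt) (hE3 : k6a3_stages_stmt) (hF2 : k6a3_block_dist_stmt)
    (hF3 : k6a3_zoom_row_stmt) (hF7 : k6a3_zoom_supp_stmt) : k6a3_exit_stmt := by
  intro j ε hj hε
  obtain ⟨CE, hCE0, hE⟩ := hE3 j ε hj hε
  obtain ⟨C7, hC70, h7⟩ := hF7 j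
  have hj0 : (0 : ℝ) ≤ j := Nat.cast_nonneg j
  have h12 : (0 : ℝ) < 2 * 12 ^ (j + 2) := by positivity
  have hCC : 0 < C7 * CE := by positivity
  refine ⟨2 * 12 ^ (j + 2) + CE + C7 * CE + 200 * ((j : ℝ) + 1) + 3, by linarith, ?_⟩
  intro Λ D₀ _ _ ν c R st Z G d K A b eg ρ ζ w K₁ L s L' s' hIn hd0 hd1 hK hA hb heg hζ1 hw0 hw1 hK₁ hsm
  generalize hCdef : 2 * 12 ^ (j + 2) + CE + C7 * CE + 200 * ((j : ℝ) + 1) + 3 = C at hsm ⊢
  have hC1 : 2 * 12 ^ (j + 2) ≤ C := by rw [← hCdef]; linarith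
  have hC2 : 200 * ((j : ℝ) + 1) ≤ C := by rw [← hCdef]; linarith
  have hC3 : CE + 3 ≤ C := by rw [← hCdef]; linarith
  have hC4 : C7 * CE ≤ C := by rw [← hCdef]; linarith
  have hC5 : CE ≤ C := by linarith
  have hC200 : 200 ≤ C := by linarith
  clear hCdef
  -- grids
  obtain ⟨hsanti, hρ0⟩ := k6a3_main_grid hIn.grid
  obtain ⟨hs'anti, hζ0⟩ := k6a3_main_grid hIn.grid'
  have hρ1 : ρ ≤ 1 := by
    have := hsanti 0 L (Nat.zero_le _) le_rfl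
    rwa [hIn.grid.1, hIn.grid.2.1] at this
  have hs'1 : ∀ i ≤ L', s' i ≤ 1 := fun i hi => by
    have := hs'anti 0 i (Nat.zero_le _) hi
    rwa [hIn.grid'.1] at this
  have hs'ζ : ∀ i ≤ L', ζ ≤ s' i := fun i hi => by
    have := hs'anti i L' hi le_rfl
    rwa [hIn.grid'.2.1] at this
  have hs'0 : ∀ i ≤ L', 0 < s' i := hIn.grid'.2.2.1
  -- numerics
  obtain ⟨hKA1, hKA2, hKA3, hKA4, hKA5⟩ := k6a3_main_KA hK hA
  obtain ⟨hbig, hsmall⟩ := k6a3_main_small hC2 hK hA heg hρ0 hb hsm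
  obtain ⟨hn1, hn2, hn3, hn4⟩ := k6a3_main_num (j := j) hK hA hKA1 hKA4
  obtain ⟨hfin1, hfin2⟩ := k6a3_main_fin (C7 := C7) hCE0 (by linarith) hC3 hC4 hK hA hK₁ hw0 hw1 hζ0 hζ1 hε
  have hM : 200 ≤ 200 * ((j : ℝ) + 1) * (K ^ 2 * A) := by
    have : 1 * 1 ≤ ((j : ℝ) + 1) * (K ^ 2 * A) := mul_le_mul (by linarith) hKA3 zero_le_one (by linarith)
    linarith
  have hbρe : ρ * (b / ρ) = b := by field_simp
  have hbζ : b / ρ ≤ ζ := by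
    have := hsmall 0 0 1 (by linarith) (by linarith) (by linarith)
    linarith
  have h3ρ : 3 * ρ ≤ ζ := by
    have := hsmall 0 3 0 (by linarith) (by linarith) (by linarith)
    linarith
  have hbρζ : b ≤ ρ * ζ := by
    rw [← hbρe]
    exact mul_le_mul_of_nonneg_left hbζ hρ0.le
  have hbρ : b ≤ ρ := hbρζ.trans (mul_le_of_le_one_right hρ0.le hζ1)
  -- A2, A3
  obtain ⟨S, hSm, hSR, hSμ, hL1, hL2, hWh⟩ := hA2 (ν.prod volume) R hIn.mR st hIn.mst (j + 2) (j + 1) L (k6a3_Wi c) Z G K A ρ b hIn.Gb hA hbρ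
    hIn.ctr s hIn.grid.1 hIn.grid.2.1 hIn.grid.2.2.1 hIn.grid.2.2.2.1 hIn.grid.2.2.2.2 (fun _ => ⌈K⌉₊) (fun i hi n => by
      obtain ⟨T, hT, h⟩ := hIn.lists i hi n
      exact ⟨T, by exact_mod_cast hT.trans (Nat.le_ceil K), h⟩)
  obtain ⟨GC, hGCb, hrow⟩ := hA3 S (j + 2) (j + 1) (fun e => Z (st e)) (fun e => G (st e)) ρ (A + 2 * K) K hρ0 (by linarith) (by linarith)
    (fun e _ => hIn.Gb _) hL1
  have hGeo : k6a3_Geo j ν c S st Z G GC K (2 * (A + 2 * K)) b eg ρ w := k6a3_main_geo hIn hSm hSR hWh hGCb hrow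
  -- E3
  obtain ⟨R', hR'm, hR'S, hR'μ, hstr⟩ := hE ν c S st Z G GC K (2 * (A + 2 * K)) b eg ρ w K₁ (L' + 1) (fun i => ρ * s' i) hGeo hK (by linarith) hb
    hρ1 hw0 hw1 hK₁ (fun i hi => by
      have hi' : i ≤ L' := by omega
      have hle : ρ * ζ ≤ ρ * s' i := mul_le_mul_of_nonneg_left (hs'ζ i hi') hρ0.le
      refine ⟨hbρζ.trans hle, mul_pos hρ0 (hs'0 i hi'), ?_, le_trans ?_ hle⟩
      · exact mul_le_of_le_one_right hρ0.le (hs'1 i hi')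
      · have e1 : (eg + ((j : ℝ) + 1) * K * (2 * (A + 2 * K)) * ρ) * (3 * ρ) + 2 * (1 + ((j : ℝ) + 1) * K) * b
            = ρ * (3 * eg + (6 * ((j : ℝ) + 1) * (K * (A + 2 * K))) * ρ + (2 * (1 + ((j : ℝ) + 1) * K)) * (b / ρ)) := by
          calc (eg + ((j : ℝ) + 1) * K * (2 * (A + 2 * K)) * ρ) * (3 * ρ) + 2 * (1 + ((j : ℝ) + 1) * K) * b
              = (eg + ((j : ℝ) + 1) * K * (2 * (A + 2 * K)) * ρ) * (3 * ρ) + 2 * (1 + ((j : ℝ) + 1) * K) * (ρ * (b / ρ)) := by rw [hbρe]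
            _ = _ := by ring
        rw [e1]
        exact mul_le_mul_of_nonneg_left (hsmall _ _ _ (by linarith) hn1 hn2) hρ0.le)
  have hR'R : R' ⊆ R := hR'S.trans hSR
  have hAK0 : 0 ≤ A + 2 * K := by linarith
  -- F3 in every block
  have hF : ∀ β : (Fin 3 → ℤ) × (Fin 2 → Fin j → ℤ), ∃ F : ℝ → Fin j → ℝ, Measurable F ∧ (∀ t, ‖F t‖ ≤ K) ∧
      (∀ e ∈ k6a3_lb c ρ β R', ‖F e.2 - k6a3_gy (G (st e))‖ ≤ 2 * (6 * K * (A + 2 * K)) * ρ) ∧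
      ∀ e ∈ k6a3_lb c ρ β R', ∀ e' ∈ k6a3_lb c ρ β R', ‖F e.2 - F e'.2‖ ≤ 6 * K * (A + 2 * K) * (|e.2 - e'.2| + 3 * ρ) := fun β =>
    hF3 (k6a3_lb c ρ β R') j Prod.snd (fun e => k6a3_gy (G (st e))) (6 * K * (A + 2 * K)) K ρ hρ0 (by positivity) (by linarith)
      (fun e _ => (k6a3_main_gy_norm _).trans (hIn.Gb _)) (fun e he e' he' => by
        have h1 := hL2 e (hR'S he.1) e' (hR'S he'.1)
        have h2 : ‖k6a3_Wi c e - k6a3_Wi c e'‖ ≤ 3 * K * |e.2 - e'.2| + 3 * ρ :=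
          hF2 j (c e.1) (c e'.1) K ρ e.2 e'.2 hρ0 hK (hIn.cb e (hR'R he.1)) (he.2.trans he'.2.symm) (hIn.tI e (hR'R he.1)).1
            (hIn.tI e (hR'R he.1)).2.le (hIn.tI e' (hR'R he'.1)).1 (hIn.tI e' (hR'R he'.1)).2.le
        have h3 : ‖k6a3_gy (G (st e)) - k6a3_gy (G (st e'))‖ ≤ ‖G (st e) - G (st e')‖ := by
          rw [k6a3_main_gy_sub]
          exact k6a3_main_gy_norm _
        have h0 : 0 ≤ |e.2 - e'.2| := abs_nonneg _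
        have h4 : ‖k6a3_Wi c e - k6a3_Wi c e'‖ + 3 * ρ ≤ 6 * K * (|e.2 - e'.2| + ρ) := by
          have a1 : 0 ≤ K * |e.2 - e'.2| := by positivity
          have a2 : ρ ≤ K * ρ := le_mul_of_one_le_left hρ0.le hK
          linarith
        calc ‖k6a3_gy (G (st e)) - k6a3_gy (G (st e'))‖ ≤ (A + 2 * K) * (‖k6a3_Wi c e - k6a3_Wi c e'‖ + 3 * ρ) := h3.trans h1
          _ ≤ (A + 2 * K) * (6 * K * (|e.2 - e'.2| + ρ)) := mul_le_mul_of_nonneg_left h4 hAK0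
          _ = 6 * K * (A + 2 * K) * (|e.2 - e'.2| + ρ) := by ring)
  choose F hFm hFb hFrow hFlip using hF
  have hC0 : 0 ≤ C := by linarith
  have hK0 : 0 ≤ K := by linarith
  have hK₁0 : 0 < K₁ := by linarith
  refine ⟨R', F, hR'm, hR'R, ?_, ?_, hFm, hFb, ?_, ?_, ?_⟩
  · -- mass
    refine hSμ.trans (mul_le_mul' (k6a3_main_prod hK hC1) ?_)
    have h1 : (ν.prod volume) S ≤ (ν.prod volume) R' + (ν.prod volume) (S \ R') := by
      refine (measure_mono ?_).trans (measure_union_le _ _)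
      intro e he
      by_cases h : e ∈ R'
      · exact Or.inl h
      · exact Or.inr ⟨he, h⟩
    refine h1.trans (add_le_add le_rfl (hR'μ.trans (ENNReal.ofReal_le_ofReal ?_)))
    push_cast
    have : 0 ≤ K * ((L' : ℝ) + 1) ^ 2 / K₁ := by positivity
    calc CE * K * ((L' : ℝ) + 1) ^ 2 / K₁ = CE * (K * ((L' : ℝ) + 1) ^ 2 / K₁) := by ring
      _ ≤ C * (K * ((L' : ℝ) + 1) ^ 2 / K₁) := mul_le_mul_of_nonneg_right hC5 this
      _ = C * K * ((L' : ℝ) + 1) ^ 2 / K₁ := by ring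
  · -- (6.15)
    intro e he e' he'
    refine (hL2 e (hR'S he) e' (hR'S he')).trans ?_
    have h0 : 0 ≤ ‖k6a3_Wi c e - k6a3_Wi c e'‖ := norm_nonneg _
    have hKA0 : 0 ≤ K * A := by positivity
    have h1 : 3 * (A + 2 * K) ≤ C * K * A := by
      have : 9 * (K * A) ≤ C * (K * A) := mul_le_mul_of_nonneg_right (by linarith) hKA0
      linarith
    calc (A + 2 * K) * (‖k6a3_Wi c e - k6a3_Wi c e'‖ + 3 * ρ) ≤ (A + 2 * K) * (3 * (‖k6a3_Wi c e - k6a3_Wi c e'‖ + ρ)) :=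
          mul_le_mul_of_nonneg_left (by linarith) hAK0
      _ = 3 * (A + 2 * K) * (‖k6a3_Wi c e - k6a3_Wi c e'‖ + ρ) := by ring
      _ ≤ C * K * A * (‖k6a3_Wi c e - k6a3_Wi c e'‖ + ρ) := mul_le_mul_of_nonneg_right h1 (by linarith)
  · -- (6.19)
    intro e he
    refine (hFrow _ e ⟨he, rfl⟩).trans (mul_le_mul_of_nonneg_right ?_ hρ0.le)
    have : 2 * (6 * K * (A + 2 * K)) = 12 * (K * (A + 2 * K)) := by ring
    rw [this]
    have h1 : 36 * (K ^ 2 * A) ≤ 200 * ((j : ℝ) + 1) * (K ^ 2 * A) :=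
      mul_le_mul_of_nonneg_right (by linarith) (by linarith)
    linarith
  · -- the row is Lipschitz in the time
    intro e he e' he' hee'
    refine (hFlip _ e ⟨he, rfl⟩ e' ⟨he', hee'.symm⟩).trans ?_
    have h0 : 0 ≤ |e.2 - e'.2| := abs_nonneg _
    have h1 : 3 * (6 * K * (A + 2 * K)) ≤ C * (K * A) ^ C := by
      have e1 : 3 * (6 * K * (A + 2 * K)) = 18 * (K * (A + 2 * K)) := by ring
      have e2 : 54 * (K ^ 2 * A) ≤ 200 * ((j : ℝ) + 1) * (K ^ 2 * A) :=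
        mul_le_mul_of_nonneg_right (by linarith) (by linarith)
      linarith
    calc 6 * K * (A + 2 * K) * (|e.2 - e'.2| + 3 * ρ) ≤ 6 * K * (A + 2 * K) * (3 * (|e.2 - e'.2| + ρ)) :=
          mul_le_mul_of_nonneg_left (by linarith) (by positivity)
      _ = 3 * (6 * K * (A + 2 * K)) * (|e.2 - e'.2| + ρ) := by ring
      _ ≤ C * (K * A) ^ C * (|e.2 - e'.2| + ρ) := mul_le_mul_of_nonneg_right h1 (by linarith)
  · -- the support bound of the zoom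
    intro β t q r a hq hqr hr1
    have hy0 : 0 ≤ (K * K₁ / w) ^ CE := Real.rpow_nonneg (by positivity) _
    have hz0 : 0 ≤ ζ ^ (-ε) := Real.rpow_nonneg hζ0.le _
    have hrq : 0 ≤ (r / q) ^ d := Real.rpow_nonneg (div_nonneg (by linarith) (by linarith)) _
    by_cases ht : 0 ≤ t ∧ t < 1
    swap
    · refine ⟨∅, ?_, fun l hl => absurd (hIn.tI (l, t) (hR'R hl)) ht⟩
      rw [Finset.card_empty, Nat.cast_zero]
      have : 0 ≤ C * (K * A * K₁ / w) ^ C * ζ ^ (-ε) := by linarith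
      positivity
    obtain ⟨ht0, ht1'⟩ := ht
    have ht1 : t ≤ 1 := ht1'.le
    obtain ⟨T, hT, hT'⟩ := h7 c R' st Z G GC β t (F β t) K (2 * (6 * K * (A + 2 * K))) b ρ ζ A d (CE * (K * K₁ / w) ^ CE * ζ ^ (-ε) * K) L' s'
      hK (by positivity) hb hbρ hρ0 ht0 ht1 (by positivity) hA hd0 hd1 hIn.grid' (fun e he => hIn.cb e (hR'R he))
      (fun e he => hIn.ctr e (hR'R he))
      (fun e he => (hrow e (hR'S he)).trans (mul_le_mul_of_nonneg_right (by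
        have : A + 2 * K ≤ K * (A + 2 * K) := le_mul_of_one_le_left hAK0 hK
        linarith) hρ0.le))
      hGCb (fun l hl hlβ => hFrow β (l, t) ⟨hl, hlβ⟩)
      (by
        have e1 : 4 * (j : ℝ) * (2 * (6 * K * (A + 2 * K))) * ρ ^ 2 + (1 + ((j : ℝ) + 1) * K) * b
            = ρ * (0 * eg + (4 * (j : ℝ) * (2 * (6 * K * (A + 2 * K)))) * ρ + (1 + ((j : ℝ) + 1) * K) * (b / ρ)) := by
          calc 4 * (j : ℝ) * (2 * (6 * K * (A + 2 * K))) * ρ ^ 2 + (1 + ((j : ℝ) + 1) * K) * b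
              = 4 * (j : ℝ) * (2 * (6 * K * (A + 2 * K))) * ρ ^ 2 + (1 + ((j : ℝ) + 1) * K) * (ρ * (b / ρ)) := by rw [hbρe]
            _ = _ := by ring
        rw [e1]
        exact mul_le_mul_of_nonneg_left (hsmall _ _ _ (by linarith) hn3 hn4) hρ0.le)
      (fun i i' hii' hi' => by
        have hi : i ≤ L' := hii'.trans hi'
        have h1 := hstr i' (by omega) (ρ * s' i) (K * (s' i / s' i') ^ ((j : ℝ) + 1 + d))
          (mul_le_mul_of_nonneg_left (hs'anti i i' hii' hi') hρ0.le) (mul_le_of_le_one_right hρ0.le (hs'1 i hi))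
          (k6a3_main_supp_mono (hIn.supp i i' hii' hi') hSR)
        exact k6a3_main_strips_mono h1 (k6a3_main_kc hCE0.le hy0 hρ0 (hs'0 i hi) (hs'0 i' hi') hζ0 (hs'ζ i' hi') hK0 hε))
      q r a hq hqr hr1
    refine ⟨T, hT.trans (mul_le_mul_of_nonneg_right hfin2 hrq), fun l hl hlβ => ?_⟩
    have hzc : k6a3_zc c ρ β l = k6a3_zm ρ β (c l) := if_pos hlβ
    have := hT' l ⟨hl, hlβ⟩
    rwa [hzc] at this

end Claimed.Agent.R252
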