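/-
row252, unit S6a3, leaf L-252-S6a3-NORMAL (helper134): B1, the normal coordinate along a trajectory.
-/
import Claimed.Agent.R252.S6a.StripContract

set_option autoImplicit false

namespace Claimed.Agent.R252

theorem k6a3_normal_range_z {j : ℕ} (c : k5_Co j) (t u : ℝ) : k6a3_z c t = k6a3_z c u + (t - u) • k6a3_v c := by
  funext i
  refine Fin.cases ?_ (fun a => ?_) i
  · simp [k6a3_z, k6a3_v]
  · simp [k6a3_z, k6a3_v, k5_y, k5_yd]
    ring

theorem k6a3_normal_range_nrm {j : ℕ} (c : k5_Co j) (g : Fin (j + 1) → ℝ) (t : ℝ) :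
    k6a3_nrm g (k6a3_W c t) = k5_x c t - g ⬝ᵥ k6a3_z c t := by
  unfold k6a3_nrm k6a3_W
  simp

theorem k6a3_normal_range : k6a3_normal_range_stmt := by
  intro j c g t u κ h1 h2
  rw [k6a3_normal_range_nrm, k6a3_normal_range_nrm, k6a3_normal_range_z c t u, dotProduct_add, dotProduct_smul, smul_eq_mul]
  have e : k5_x c t - (g ⬝ᵥ k6a3_z c u + (t - u) * (g ⬝ᵥ k6a3_v c)) - (k5_x c u - g ⬝ᵥ k6a3_z c u) =
      (t - u) * (((k5_xD 1 c t - g ⬝ᵥ k6a3_v c) + (k5_xD 1 c u - g ⬝ᵥ k6a3_v c)) / 2) := by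
    simp only [k5_x, k5_xD]
    ring
  rw [e, abs_mul, mul_comm]
  refine mul_le_mul_of_nonneg_right ?_ (abs_nonneg _)
  rw [abs_le] at h1 h2 ⊢
  constructor <;> linarith [h1.1, h1.2, h2.1, h2.2]

end Claimed.Agent.R252
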