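/-
row252, unit S6a3, leaf L-252-S6a3-PAIRS (helper134): B2, one trajectory meets at most `K / ρ` (cube, strip) labels.
-/
import Claimed.Agent.R252.S6a.StripContract
import Claimed.Agent.R252.S6a.Curve
import Claimed.Agent.R252.S6a.K3ListShift
import Claimed.Agent.R252.S6a.K3CubeRow
import Claimed.Agent.R252.S6a.K3Normal

set_option autoImplicit false

namespace Claimed.Agent.R252

/-- coefficient bounds from the sup norm -/
theorem k6a3_pairs_count_co {j : ℕ} (c : k5_Co j) (K : ℝ) (h : ‖c‖ ≤ K) : (∀ i, |c.1 i| ≤ K) ∧ ∀ i a, |c.2 i a| ≤ K := by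
  have h1 : ‖c.1‖ ≤ K := (norm_fst_le c).trans h
  have h2 : ‖c.2‖ ≤ K := (norm_snd_le c).trans h
  refine ⟨fun i => (norm_le_pi_norm c.1 i).trans h1, fun i a => ?_⟩
  exact ((norm_le_pi_norm (c.2 i) a).trans (norm_le_pi_norm c.2 i)).trans h2

/-- the physical curve is `3K`-Lipschitz on `[0,1]` -/
theorem k6a3_pairs_count_lip {j : ℕ} (c : k5_Co j) (K : ℝ) (hK : 1 ≤ K) (h : ‖c‖ ≤ K) (s t : ℝ) (hs : s ∈ Set.Icc (0 : ℝ) 1) (ht : t ∈ Set.Icc (0 : ℝ) 1) :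
    ‖k6a3_W c s - k6a3_W c t‖ ≤ 3 * K * |s - t| := by
  obtain ⟨h1, h2⟩ := k6a3_pairs_count_co c K h
  have h0 := abs_nonneg (s - t)
  rw [pi_norm_le_iff_of_nonneg (by positivity)]
  intro i
  refine Fin.cases ?_ (fun i' => Fin.cases ?_ (fun a => ?_) i') i
  · have e : (k6a3_W c s - k6a3_W c t) 0 = (s - t) * (c.1 1 + (s + t) * c.1 2) := by
      simp [k6a3_W, k5_x]
      ring
    rw [e, Real.norm_eq_abs, abs_mul, mul_comm]
    refine mul_le_mul_of_nonneg_right ?_ h0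
    have a1 := h1 1
    have a2 := h1 2
    have a3 : |(s + t) * c.1 2| ≤ 2 * K := by
      rw [abs_mul]
      have : |s + t| ≤ 2 := by
        rw [abs_le]
        constructor <;> linarith [hs.1, hs.2, ht.1, ht.2]
      exact mul_le_mul this a2 (abs_nonneg _) (by norm_num)
    calc |c.1 1 + (s + t) * c.1 2| ≤ |c.1 1| + |(s + t) * c.1 2| := abs_add_le _ _
      _ ≤ 3 * K := by linarith
  · have e : (k6a3_W c s - k6a3_W c t) (Fin.succ 0) = s - t := by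
      simp [k6a3_W, k6a3_z]
    rw [e, Real.norm_eq_abs]
    nlinarith
  · have e : (k6a3_W c s - k6a3_W c t) (Fin.succ (Fin.succ a)) = (s - t) * c.2 1 a := by
      simp [k6a3_W, k6a3_z, k5_y]
      ring
    rw [e, Real.norm_eq_abs, abs_mul, mul_comm]
    refine mul_le_mul_of_nonneg_right ?_ h0
    have := h2 1 a
    linarith

/-- a dot product is bounded by `m` times the product of the sup bounds -/
theorem k6a3_pairs_count_dot {m : ℕ} (g x : Fin m → ℝ) (A B : ℝ) (hA : 0 ≤ A) (hg : ∀ i, |g i| ≤ A) (hx : ∀ i, |x i| ≤ B) :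
    |g ⬝ᵥ x| ≤ m * A * B := by
  unfold dotProduct
  calc |∑ i, g i * x i| ≤ ∑ i, |g i * x i| := Finset.abs_sum_le_sum_abs _ _
    _ ≤ ∑ _i : Fin m, A * B := Finset.sum_le_sum fun i _ => by
        rw [abs_mul]
        exact mul_le_mul (hg i) (hx i) (abs_nonneg _) hA
    _ = m * A * B := by
        rw [Finset.sum_const, Finset.card_univ, Fintype.card_fin, nsmul_eq_mul]
        ring

/-- the normal coordinate is Lipschitz in the point -/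
theorem k6a3_pairs_count_nrm {m : ℕ} (g : Fin m → ℝ) (P P' : Fin (m + 1) → ℝ) (K b : ℝ) (hK : 0 ≤ K) (hg : ‖g‖ ≤ K) (h : ‖P - P'‖ ≤ b) :
    |k6a3_nrm g P - k6a3_nrm g P'| ≤ (1 + m * K) * b := by
  unfold k6a3_nrm
  have e : P 0 - g ⬝ᵥ Fin.tail P - (P' 0 - g ⬝ᵥ Fin.tail P') = (P - P') 0 - g ⬝ᵥ (Fin.tail P - Fin.tail P') := by
    rw [dotProduct_sub]
    simp only [Pi.sub_apply]
    ring
  rw [e]
  have h1 : |(P - P') 0| ≤ b := (norm_le_pi_norm (P - P') 0).trans h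
  have h2 : |g ⬝ᵥ (Fin.tail P - Fin.tail P')| ≤ m * K * b :=
    k6a3_pairs_count_dot g _ K b hK (fun i => (norm_le_pi_norm g i).trans hg) (fun i => (norm_le_pi_norm (P - P') i.succ).trans h)
  calc |(P - P') 0 - g ⬝ᵥ (Fin.tail P - Fin.tail P')| ≤ |(P - P') 0| + |g ⬝ᵥ (Fin.tail P - Fin.tail P')| := abs_sub _ _
    _ ≤ (1 + m * K) * b := by linarith

/-- the lifted velocity is bounded -/
theorem k6a3_pairs_count_v {j : ℕ} (c : k5_Co j) (K : ℝ) (hK : 1 ≤ K) (h : ‖c‖ ≤ K) (i : Fin (j + 1)) : |k6a3_v c i| ≤ K := by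
  refine Fin.cases ?_ (fun a => ?_) i
  · simpa [k6a3_v] using hK
  · simpa [k6a3_v, k5_yd] using (k6a3_pairs_count_co c K h).2 1 a

/-- two active times with centres in the same cube: the normal coordinates of the centres differ by `≤ p` -/
theorem k6a3_pairs_count_one {j : ℕ} (c : k5_Co j) (P P' : Fin (j + 2) → ℝ) (g₁ g₂ g : Fin (j + 1) → ℝ) (K K₂ b eg ρ p t u : ℝ)
    (hK : 1 ≤ K) (hK₂ : 0 ≤ K₂) (hb0 : 0 ≤ b) (hb : b ≤ ρ) (hρ : 0 < ρ) (hc : ‖c‖ ≤ K)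
    (hP : ‖k6a3_W c t - P‖ ≤ b) (hP' : ‖k6a3_W c u - P'‖ ≤ b)
    (h1 : |k5_xD 1 c t - g₁ ⬝ᵥ k6a3_v c| ≤ eg) (h2 : |k5_xD 1 c u - g₂ ⬝ᵥ k6a3_v c| ≤ eg)
    (hg1 : ‖g₁ - g‖ ≤ K₂ * ρ) (hg2 : ‖g₂ - g‖ ≤ K₂ * ρ) (hg : ‖g‖ ≤ K) (hcell : k6a_cell ρ P = k6a_cell ρ P')
    (hp : (eg + (j + 1) * K * K₂ * ρ) * (3 * ρ) + 2 * (1 + (j + 1) * K) * b ≤ p) :
    |k6a3_nrm g P - k6a3_nrm g P'| ≤ p := by
  have hK0 : 0 ≤ K := by linarith
  have hslope : ∀ (g' : Fin (j + 1) → ℝ) (s : ℝ), |k5_xD 1 c s - g' ⬝ᵥ k6a3_v c| ≤ eg → ‖g' - g‖ ≤ K₂ * ρ →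
      |k5_xD 1 c s - g ⬝ᵥ k6a3_v c| ≤ eg + (j + 1) * K * K₂ * ρ := by
    intro g' s a1 a2
    have e : k5_xD 1 c s - g ⬝ᵥ k6a3_v c = (k5_xD 1 c s - g' ⬝ᵥ k6a3_v c) + (g' - g) ⬝ᵥ k6a3_v c := by
      rw [sub_dotProduct]
      ring
    have a3 : |(g' - g) ⬝ᵥ k6a3_v c| ≤ ((j + 1 : ℕ) : ℝ) * (K₂ * ρ) * K :=
      k6a3_pairs_count_dot _ _ _ _ (by positivity) (fun i => (norm_le_pi_norm (g' - g) i).trans a2) (k6a3_pairs_count_v c K hK hc)
    rw [e]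
    refine (abs_add_le _ _).trans ?_
    push_cast at a3
    nlinarith
  have hB1 := k6a3_normal_range j c g t u _ (hslope g₁ t h1 hg1) (hslope g₂ u h2 hg2)
  have hκ : 0 ≤ eg + (j + 1) * K * K₂ * ρ := (abs_nonneg _).trans (hslope g₁ t h1 hg1)
  have htu : |t - u| ≤ 3 * ρ := by
    have a1 : |(k6a3_W c t - P) (Fin.succ 0)| ≤ b := (norm_le_pi_norm (k6a3_W c t - P) _).trans hP
    have a2 : |(k6a3_W c u - P') (Fin.succ 0)| ≤ b := (norm_le_pi_norm (k6a3_W c u - P') _).trans hP'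
    have a3 : |(P - P') (Fin.succ 0)| ≤ ρ := (norm_le_pi_norm (P - P') _).trans (k6a3_cube_row_close ρ hρ P P' hcell)
    have e1 : (k6a3_W c t - P) (Fin.succ 0) = t - P (Fin.succ 0) := by simp [k6a3_W, k6a3_z]
    have e2 : (k6a3_W c u - P') (Fin.succ 0) = u - P' (Fin.succ 0) := by simp [k6a3_W, k6a3_z]
    rw [e1] at a1
    rw [e2] at a2
    rw [Pi.sub_apply] at a3
    rw [abs_le] at a1 a2 a3 ⊢
    constructor <;> linarith [a1.1, a1.2, a2.1, a2.2, a3.1, a3.2]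
  have n1 := k6a3_pairs_count_nrm g (k6a3_W c t) P K b hK0 hg hP
  have n2 := k6a3_pairs_count_nrm g (k6a3_W c u) P' K b hK0 hg hP'
  push_cast at n1 n2
  have h3 : (eg + (j + 1) * K * K₂ * ρ) * |t - u| ≤ (eg + (j + 1) * K * K₂ * ρ) * (3 * ρ) := mul_le_mul_of_nonneg_left htu hκ
  rw [abs_le] at n1 n2 hB1 ⊢
  constructor <;> linarith [n1.1, n1.2, n2.1, n2.2, hB1.1, hB1.2]

theorem k6a3_pairs_count : k6a3_pairs_count_stmt := by
  intro j c T Pt gt GC K K₂ b eg ρ p hK hK₂ hb0 hb hρ hp0 hc hT hP hsl hg hGC hp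
  classical
  obtain ⟨F₀, hF₀c, hF₀⟩ := k6a_curve_cells (j + 2) (k6a3_W c) (3 * K) 1 ρ (by linarith) zero_le_one hρ
    (fun s hs t ht => k6a3_pairs_count_lip c K hK hc s t hs ht)
  -- the cubes of the centres
  obtain ⟨F₁, hF₁⟩ : ∃ F₁ : Finset (Fin (j + 2) → ℤ), F₁ = F₀.biUnion fun n =>
      (Fintype.piFinset fun _ : Fin (j + 2) => ({-1, 0, 1} : Finset ℤ)).image fun δ => n + δ := ⟨_, rfl⟩
  have hF₁c : F₁.card ≤ F₀.card * 3 ^ (j + 2) := by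
    rw [hF₁]
    refine Finset.card_biUnion_le_card_mul _ _ _ fun n _ => ?_
    refine Finset.card_image_le.trans ?_
    rw [Fintype.card_piFinset]
    simp
  have hF₁m : ∀ t ∈ T, k6a_cell ρ (Pt t) ∈ F₁ := by
    intro t ht
    rw [hF₁]
    refine Finset.mem_biUnion.2 ⟨k6a_cell ρ (k6a3_W c t), hF₀ t (hT ht), Finset.mem_image.2 ⟨k6a_cell ρ (Pt t) - k6a_cell ρ (k6a3_W c t), ?_, by abel⟩⟩
    rw [Fintype.mem_piFinset]
    intro i
    have h1 : |Pt t i - k6a3_W c t i| ≤ ρ := by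
      rw [abs_sub_comm]
      exact ((norm_le_pi_norm (k6a3_W c t - Pt t) i).trans (hP t ht)).trans hb
    exact k6a3_list_shift_floor _ _ ρ hρ h1
  -- reference strip of a cube
  obtain ⟨s₀, hs₀⟩ : ∃ s₀ : (Fin (j + 2) → ℤ) → ℤ, ∀ t ∈ T, ⌊k6a3_nrm (GC (k6a_cell ρ (Pt t))) (Pt t) / p⌋ - s₀ (k6a_cell ρ (Pt t)) ∈ ({-1, 0, 1} : Finset ℤ) := by
    refine ⟨fun n => if h : ∃ u, u ∈ T ∧ k6a_cell ρ (Pt u) = n then ⌊k6a3_nrm (GC n) (Pt h.choose) / p⌋ else 0, ?_⟩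
    intro t ht
    have h : ∃ u, u ∈ T ∧ k6a_cell ρ (Pt u) = k6a_cell ρ (Pt t) := ⟨t, ht, rfl⟩
    simp only [dif_pos h]
    obtain ⟨hu, hcell⟩ := h.choose_spec
    refine k6a3_list_shift_floor _ _ p hp0 ?_
    have hg2 := hg _ hu
    rw [hcell] at hg2
    exact k6a3_pairs_count_one c (Pt t) (Pt h.choose) (gt t) (gt h.choose) _ K K₂ b eg ρ p t h.choose hK hK₂ hb0 hb hρ hc (hP t ht) (hP _ hu)
      (hsl t ht) (hsl _ hu) (hg t ht) hg2 (hGC _) hcell.symm hp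
  refine ⟨F₁.biUnion fun n => ({-1, 0, 1} : Finset ℤ).image fun δ => (n, s₀ n + δ), ?_, ?_⟩
  · have h1 : (F₁.biUnion fun n => ({-1, 0, 1} : Finset ℤ).image fun δ => (n, s₀ n + δ)).card ≤ F₁.card * 3 := by
      refine Finset.card_biUnion_le_card_mul _ _ _ fun n _ => ?_
      refine Finset.card_image_le.trans ?_
      simp
    have h2 : ((F₁.biUnion fun n => ({-1, 0, 1} : Finset ℤ).image fun δ => (n, s₀ n + δ)).card : ℝ) ≤ (F₀.card : ℝ) * 3 ^ (j + 2) * 3 := by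
      have := h1.trans (Nat.mul_le_mul_right 3 hF₁c)
      exact_mod_cast this
    refine h2.trans ?_
    have e : (6 : ℝ) ^ (j + 2) = 2 ^ (j + 2) * 3 ^ (j + 2) := by
      rw [← mul_pow]
      norm_num
    rw [mul_one] at hF₀c
    calc (F₀.card : ℝ) * 3 ^ (j + 2) * 3 ≤ (2 ^ (j + 2) * (3 * K / ρ + 1)) * 3 ^ (j + 2) * 3 := by
          refine mul_le_mul_of_nonneg_right (mul_le_mul_of_nonneg_right hF₀c (by positivity)) (by norm_num)
      _ = 3 * 6 ^ (j + 2) * (3 * K / ρ + 1) := by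
          rw [e]
          ring
  · intro t ht
    refine Finset.mem_biUnion.2 ⟨k6a_cell ρ (Pt t), hF₁m t ht, Finset.mem_image.2 ⟨_, hs₀ t ht, ?_⟩⟩
    unfold k6a3_lab
    refine Prod.ext rfl ?_
    simp

end Claimed.Agent.R252
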