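/-
Leaf L-252-S6a-TPORTION (row252, unit S6a, chief helper234).  PROVED (helper5).  Helpers: prefix `k6a_tp_`.
Statement and PLAN: docstring of the `def ..._stmt` in `Tools.lean`.
-/
import Claimed.Agent.R252.S6a.Tools

namespace Claimed.Agent.R252

open MeasureTheory
open scoped ENNReal BigOperators

theorem k6a_portion : k6a_portion_stmt := by
  classical
  intro Λ S _ _ ν _ E c τ hE hc
  have hEs : ∀ s, MeasurableSet (E ∩ c ⁻¹' {s}) := fun s => hE.inter (hc s)
  have hdur : ∀ l s, k6aDur E c l s = volume (Prod.mk l ⁻¹' (E ∩ c ⁻¹' {s})) := fun l s => rfl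
  have hdm : ∀ s, Measurable fun l => k6aDur E c l s := by
    intro s
    simp only [hdur]
    exact measurable_measure_prodMk_left (hEs s)
  have hL : ∀ s, MeasurableSet {l | τ ≤ k6aDur E c l s} := fun s => measurableSet_le measurable_const (hdm s)
  have hlong : k6aLong E c τ = ⋃ s, (E ∩ c ⁻¹' {s}) ∩ Prod.fst ⁻¹' {l | τ ≤ k6aDur E c l s} := by
    ext x
    simp only [k6aLong, Set.mem_iUnion, Set.mem_inter_iff, Set.mem_preimage, Set.mem_singleton_iff]
    constructor
    · rintro ⟨hx, hx2⟩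
      exact ⟨c x, ⟨hx, rfl⟩, hx2⟩
    · rintro ⟨s, ⟨hx, rfl⟩, hx2⟩
      exact ⟨hx, hx2⟩
  have hLm : MeasurableSet (k6aLong E c τ) := by
    rw [hlong]
    exact MeasurableSet.iUnion fun s => (hEs s).inter (measurable_fst (hL s))
  refine ⟨hLm, ?_, ?_⟩
  · intro n hn
    rw [Measure.prod_apply (hE.diff hLm)]
    calc ∫⁻ l, volume (Prod.mk l ⁻¹' (E \ k6aLong E c τ)) ∂ν ≤ ∫⁻ _ : Λ, (n : ℝ≥0∞) * τ ∂ν := by
          refine lintegral_mono fun l => ?_
          obtain ⟨F, hF, hFc⟩ := hn l
          have h1 : Prod.mk l ⁻¹' (E \ k6aLong E c τ)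
              ⊆ ⋃ s ∈ F.filter (fun s => k6aDur E c l s < τ), Prod.mk l ⁻¹' (E ∩ c ⁻¹' {s}) := by
            rintro t ⟨ht, ht2⟩
            simp only [Set.mem_iUnion]
            refine ⟨c (l, t), Finset.mem_filter.2 ⟨hFc t ht, ?_⟩, ht, rfl⟩
            by_contra h
            exact ht2 ⟨ht, not_lt.1 h⟩
          calc volume (Prod.mk l ⁻¹' (E \ k6aLong E c τ))
              ≤ ∑ s ∈ F.filter (fun s => k6aDur E c l s < τ), volume (Prod.mk l ⁻¹' (E ∩ c ⁻¹' {s})) :=
                (measure_mono h1).trans (measure_biUnion_finset_le _ _)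
            _ ≤ ∑ _s ∈ F.filter (fun s => k6aDur E c l s < τ), τ := by
                refine Finset.sum_le_sum fun s hs => ?_
                exact (Finset.mem_filter.1 hs).2.le
            _ = ((F.filter (fun s => k6aDur E c l s < τ)).card : ℝ≥0∞) * τ := by
                rw [Finset.sum_const, nsmul_eq_mul]
            _ ≤ (n : ℝ≥0∞) * τ := by
                refine mul_le_mul_left ?_ _
                exact_mod_cast (Finset.card_filter_le _ _).trans hF
      _ = n * τ * ν Set.univ := by rw [lintegral_const]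
  · intro s
    refine ⟨hL s, ?_⟩
    rw [Measure.prod_apply (hEs s)]
    exact mul_meas_ge_le_lintegral (hdm s) τ

end Claimed.Agent.R252
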