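/-
Leaf L-252-S6a3-PRUNE (row252, unit S6a3, sub-architect helper117).  PROVED (helper5).  Helpers: prefix `k6a3_prune_`.
Three deletions: short line/strip portions (`k6a_portion`), states with a large fractional loss, strips which lost more than one half.
-/
import Claimed.Agent.R252.S6a.StripContract
import Claimed.Agent.R252.S6a.TPortion

set_option autoImplicit false

namespace Claimed.Agent.R252

open MeasureTheory
open scoped ENNReal

/-- preimage of a set of labels -/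
theorem k6a3_prune_meas {Ω D : Type} [MeasurableSpace Ω] [Countable D] (lab : Ω → D)
    (hlab : ∀ d, MeasurableSet (lab ⁻¹' {d})) (Bad : Set D) : MeasurableSet (lab ⁻¹' Bad) := by
  have : lab ⁻¹' Bad = ⋃ d ∈ Bad, lab ⁻¹' {d} := by
    ext x
    simp
  rw [this]
  exact MeasurableSet.biUnion (Set.to_countable Bad) fun d _ => hlab d

/-- label by label comparison of two sets -/
theorem k6a3_prune_sum {Ω D : Type} [MeasurableSpace Ω] [Countable D] (μ : Measure Ω) (lab : Ω → D)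
    (hlab : ∀ d, MeasurableSet (lab ⁻¹' {d})) (Bad : Set D) (X Y : Set Ω) (hY : MeasurableSet Y) (φ : ℝ≥0∞)
    (h : ∀ d ∈ Bad, φ * μ (X ∩ lab ⁻¹' {d}) ≤ μ (Y ∩ lab ⁻¹' {d})) : φ * μ (X ∩ lab ⁻¹' Bad) ≤ μ Y := by
  classical
  have h1 : X ∩ lab ⁻¹' Bad ⊆ ⋃ d, (if d ∈ Bad then X ∩ lab ⁻¹' {d} else ∅) := by
    rintro x ⟨hx, hx2⟩
    rw [Set.mem_iUnion]
    refine ⟨lab x, ?_⟩
    have hx3 : lab x ∈ Bad := hx2
    rw [if_pos hx3]
    exact ⟨hx, rfl⟩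
  have h2 : ∀ d, φ * μ (if d ∈ Bad then X ∩ lab ⁻¹' {d} else ∅) ≤ μ (Y ∩ lab ⁻¹' {d}) := by
    intro d
    by_cases hd : d ∈ Bad
    · rw [if_pos hd]
      exact h d hd
    · rw [if_neg hd]
      simp
  calc φ * μ (X ∩ lab ⁻¹' Bad) ≤ φ * ∑' d, μ (if d ∈ Bad then X ∩ lab ⁻¹' {d} else ∅) :=
        mul_le_mul_right ((measure_mono h1).trans (measure_iUnion_le _)) _
    _ = ∑' d, φ * μ (if d ∈ Bad then X ∩ lab ⁻¹' {d} else ∅) := ENNReal.tsum_mul_left.symm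
    _ ≤ ∑' d, μ (Y ∩ lab ⁻¹' {d}) := ENNReal.tsum_le_tsum h2
    _ = μ (⋃ d, Y ∩ lab ⁻¹' {d}) := by
        rw [measure_iUnion ?_ (fun d => hY.inter (hlab d))]
        intro d d' hne
        rw [Function.onFun, Set.disjoint_left]
        rintro x ⟨_, hx⟩ ⟨_, hx'⟩
        exact hne (hx.symm.trans hx')
    _ ≤ μ Y := measure_mono (Set.iUnion_subset fun d => Set.inter_subset_left)

theorem k6a3_prune : k6a3_prune_stmt := by
  classical
  intro Λ D₀ D₁ _ _ _ ν _ R hR _ st g hst Nn θ η hNn hθ hη hfew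
  obtain ⟨μ, hμ⟩ : ∃ μ : Measure (Λ × ℝ), μ = ν.prod volume := ⟨_, rfl⟩
  rw [← hμ]
  obtain ⟨sp, hsp⟩ : ∃ sp : Λ × ℝ → D₁, sp = fun e => g (st e) := ⟨_, rfl⟩
  have hspm : ∀ s, MeasurableSet (sp ⁻¹' {s}) := by
    intro s
    have : sp ⁻¹' {s} = st ⁻¹' (g ⁻¹' {s}) := by rw [hsp]; rfl
    rw [this]
    exact k6a3_prune_meas st hst _
  have hstrip : ∀ s, {e | g (st e) = s} = sp ⁻¹' {s} := fun s => by rw [hsp]; rfl
  simp only [hstrip]
  obtain ⟨hR1m, hloss1, hmark⟩ := k6a_portion Λ D₁ ν R sp (ENNReal.ofReal θ) hR hspm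
  rw [← hμ] at hloss1 hmark
  obtain ⟨R₁, hR₁⟩ : ∃ R₁ : Set (Λ × ℝ), R₁ = k6aLong R sp (ENNReal.ofReal θ) := ⟨_, rfl⟩
  rw [← hR₁] at hR1m hloss1
  have hR1sub : R₁ ⊆ R := by
    rw [hR₁]; exact fun x hx => hx.1
  obtain ⟨lam, hlam⟩ : ∃ lam : ℝ≥0∞, lam = ENNReal.ofReal (Nn * θ) * ν Set.univ := ⟨_, rfl⟩
  have hl1 : μ (R \ R₁) ≤ lam := by
    refine (hloss1 ⌊Nn⌋₊ ?_).trans ?_
    · intro l
      obtain ⟨F, hF, hF2⟩ := hfew l
      exact ⟨F, Nat.le_floor hF, fun t ht => by rw [hsp]; exact hF2 t ht⟩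
    · rw [hlam, ENNReal.ofReal_mul hNn]
      refine mul_le_mul_left (mul_le_mul_left ?_ _) _
      rw [← ENNReal.ofReal_natCast]
      exact ENNReal.ofReal_le_ofReal (Nat.floor_le hNn)
  -- bad states
  obtain ⟨Bs, hBs⟩ : ∃ Bs : Set D₀, Bs = {d | ENNReal.ofReal η * μ (R ∩ st ⁻¹' {d}) < μ ((R \ R₁) ∩ st ⁻¹' {d})} :=
    ⟨_, rfl⟩
  have hBsm : MeasurableSet (st ⁻¹' Bs) := k6a3_prune_meas st hst _
  have hb1 : ENNReal.ofReal η * μ (R ∩ st ⁻¹' Bs) ≤ μ (R \ R₁) := by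
    refine k6a3_prune_sum μ st hst Bs R (R \ R₁) (hR.diff hR1m) _ fun d hd => ?_
    rw [hBs] at hd
    exact hd.le
  have hb2 : μ (R ∩ st ⁻¹' Bs) ≤ ENNReal.ofReal (1 / η) * lam := by
    have e1 : ENNReal.ofReal (1 / η) * ENNReal.ofReal η = 1 := by
      rw [← ENNReal.ofReal_mul (by positivity), one_div, inv_mul_cancel₀ hη.ne', ENNReal.ofReal_one]
    calc μ (R ∩ st ⁻¹' Bs) = ENNReal.ofReal (1 / η) * (ENNReal.ofReal η * μ (R ∩ st ⁻¹' Bs)) := by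
          rw [← mul_assoc, e1, one_mul]
      _ ≤ _ := mul_le_mul_right (hb1.trans hl1) _
  obtain ⟨R₂, hR₂⟩ : ∃ R₂ : Set (Λ × ℝ), R₂ = R₁ \ st ⁻¹' Bs := ⟨_, rfl⟩
  have hR2m : MeasurableSet R₂ := by rw [hR₂]; exact hR1m.diff hBsm
  have hR2sub : R₂ ⊆ R₁ := by rw [hR₂]; exact Set.sdiff_subset
  have hl2 : μ (R \ R₂) ≤ ENNReal.ofReal (1 + 1 / η) * lam := by
    have h1 : R \ R₂ ⊆ (R \ R₁) ∪ (R ∩ st ⁻¹' Bs) := by
      rintro x ⟨hx, hx2⟩
      by_cases h : x ∈ R₁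
      · right
        refine ⟨hx, ?_⟩
        by_contra h3
        exact hx2 (by rw [hR₂]; exact ⟨h, h3⟩)
      · exact Or.inl ⟨hx, h⟩
    calc μ (R \ R₂) ≤ μ (R \ R₁) + μ (R ∩ st ⁻¹' Bs) := (measure_mono h1).trans (measure_union_le _ _)
      _ ≤ lam + ENNReal.ofReal (1 / η) * lam := add_le_add hl1 hb2
      _ = _ := by
          rw [ENNReal.ofReal_add zero_le_one (by positivity), ENNReal.ofReal_one, add_mul, one_mul]
  -- bad strips
  obtain ⟨Bt, hBt⟩ : ∃ Bt : Set D₁, Bt = {s | 2 * μ (R₂ ∩ sp ⁻¹' {s}) < μ (R ∩ sp ⁻¹' {s}) ∨ μ (R₂ ∩ sp ⁻¹' {s}) = 0} :=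
    ⟨_, rfl⟩
  have hBtm : MeasurableSet (sp ⁻¹' Bt) := k6a3_prune_meas sp hspm _
  have hb3 : μ (R₂ ∩ sp ⁻¹' Bt) ≤ μ (R \ R₂) := by
    have := k6a3_prune_sum μ sp hspm Bt R₂ (R \ R₂) (hR.diff hR2m) 1 fun s hs => ?_
    · rwa [one_mul] at this
    · rw [one_mul]
      rw [hBt] at hs
      rcases hs with hs | hs
      · have h3 : μ (R ∩ sp ⁻¹' {s}) = μ (R₂ ∩ sp ⁻¹' {s}) + μ ((R \ R₂) ∩ sp ⁻¹' {s}) := by
          rw [← measure_union ?_ ((hR.diff hR2m).inter (hspm s))]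
          · congr 1
            ext x
            simp only [Set.mem_inter_iff, Set.mem_union, Set.mem_sdiff]
            constructor
            · rintro ⟨hx, hx2⟩
              by_cases hx3 : x ∈ R₂
              · exact Or.inl ⟨hx3, hx2⟩
              · exact Or.inr ⟨⟨hx, hx3⟩, hx2⟩
            · rintro (⟨hx, hx2⟩ | ⟨⟨hx, _⟩, hx2⟩)
              · exact ⟨hR1sub (hR2sub hx), hx2⟩
              · exact ⟨hx, hx2⟩
          · rw [Set.disjoint_left]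
            rintro x ⟨hx, _⟩ ⟨⟨_, hx2⟩, _⟩
            exact hx2 hx
        rw [h3, two_mul] at hs
        exact (lt_of_add_lt_add_left hs).le
      · rw [hs]
        exact zero_le
  refine ⟨R₂ \ sp ⁻¹' Bt, hR2m.diff hBtm, fun x hx => hR1sub (hR2sub hx.1), ?_, ?_, ?_, ?_⟩
  · have h1 : R \ (R₂ \ sp ⁻¹' Bt) ⊆ (R \ R₂) ∪ (R₂ ∩ sp ⁻¹' Bt) := by
      rintro x ⟨hx, hx2⟩
      by_cases h : x ∈ R₂
      · right
        refine ⟨h, ?_⟩
        by_contra h3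
        exact hx2 ⟨h, h3⟩
      · exact Or.inl ⟨hx, h⟩
    calc μ (R \ (R₂ \ sp ⁻¹' Bt)) ≤ μ (R \ R₂) + μ (R₂ ∩ sp ⁻¹' Bt) :=
          (measure_mono h1).trans (measure_union_le _ _)
      _ ≤ ENNReal.ofReal (1 + 1 / η) * lam + ENNReal.ofReal (1 + 1 / η) * lam := add_le_add hl2 (hb3.trans hl2)
      _ = ENNReal.ofReal (2 * (1 + 1 / η) * Nn * θ) * ν Set.univ := by
          have h0 : (0 : ℝ) ≤ 1 + 1 / η := by positivity
          rw [← two_mul, hlam, ← mul_assoc, ← mul_assoc, ← ENNReal.ofReal_ofNat 2,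
            ← ENNReal.ofReal_mul (by norm_num), ← ENNReal.ofReal_mul (by positivity)]
          congr 2
          ring
      _ ≤ _ := by
          refine mul_le_mul_left (ENNReal.ofReal_le_ofReal ?_) _
          have h0 : (0 : ℝ) ≤ (1 + 1 / η) * Nn * θ := by positivity
          nlinarith
  · rintro d ⟨x, ⟨hx2, hxt⟩, hxd⟩
    have hxd' : st x = d := hxd
    have hdgood : d ∉ Bs := by
      intro hd
      rw [hR₂] at hx2
      exact hx2.2 (by rw [Set.mem_preimage, hxd']; exact hd)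
    have hsgood : g d ∉ Bt := by
      intro hs
      refine hxt ?_
      rw [Set.mem_preimage, hsp]
      simp only
      rw [hxd']; exact hs
    have e1 : (R \ (R₂ \ sp ⁻¹' Bt)) ∩ st ⁻¹' {d} ⊆ (R \ R₁) ∩ st ⁻¹' {d} := by
      rintro y ⟨⟨hy, hy2⟩, hyd⟩
      have hyd' : st y = d := hyd
      refine ⟨⟨hy, fun hy1 => hy2 ⟨?_, ?_⟩⟩, hyd⟩
      · rw [hR₂]
        refine ⟨hy1, ?_⟩
        rw [Set.mem_preimage, hyd']
        exact hdgood
      · rw [Set.mem_preimage, hsp]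
        simp only
        rw [hyd']; exact hsgood
    refine (measure_mono e1).trans ?_
    rw [hBs] at hdgood
    exact not_lt.1 hdgood
  · rintro s ⟨x, ⟨hx2, hxt⟩, hxs⟩
    have hxs' : sp x = s := hxs
    have hsgood : s ∉ Bt := by
      intro hs
      exact hxt (by rw [Set.mem_preimage, hxs']; exact hs)
    have e1 : (R₂ \ sp ⁻¹' Bt) ∩ sp ⁻¹' {s} = R₂ ∩ sp ⁻¹' {s} := by
      ext y
      constructor
      · rintro ⟨⟨hy, _⟩, hys⟩
        exact ⟨hy, hys⟩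
      · rintro ⟨hy, hys⟩
        have hys' : sp y = s := hys
        exact ⟨⟨hy, by rw [Set.mem_preimage, hys']; exact hsgood⟩, hys⟩
    rw [e1]
    rw [hBt] at hsgood
    simp only [Set.mem_ofPred_eq, not_or, not_lt] at hsgood
    exact ⟨pos_iff_ne_zero.2 hsgood.2, hsgood.1⟩
  · intro s
    refine le_trans (mul_le_mul_right (measure_mono ?_) _) (hmark s).2
    rintro l ⟨t, ⟨ht2, _⟩, hts⟩
    have h1 : (l, t) ∈ k6aLong R sp (ENNReal.ofReal θ) := by rw [← hR₁]; exact hR2sub ht2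
    have h2 : sp (l, t) = s := by rw [hsp]; exact hts
    have h3 := h1.2
    rw [h2] at h3
    exact h3

end Claimed.Agent.R252
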