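/-
row252, unit S6a3, leaf L-252-S6a3-STAGE (helper117): ONE STAGE of the strip construction (06-isotropic.tex l.602-655).
ASSEMBLY of `k6a3_pairs_count_stmt`, `k6a3_prune_stmt`, `k6a3_fill_stmt`, `k6a3_strip_count_stmt` (taken as hypotheses).
-/
import Claimed.Agent.R252.S6a.StripContract

set_option autoImplicit false

namespace Claimed.Agent.R252

open MeasureTheory
open scoped ENNReal

/-- a countable measurable label: an inequality state by state sums up -/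
theorem k6a3_stage_sum_le {Ω D₀ : Type} [MeasurableSpace Ω] [Countable D₀] (μ : Measure Ω) (st : Ω → D₀)
    (hst : ∀ d, MeasurableSet (st ⁻¹' {d})) (A B : Set Ω) (c : ℝ≥0∞)
    (h : ∀ d, μ (A ∩ st ⁻¹' {d}) ≤ c * μ (B ∩ st ⁻¹' {d})) : μ A ≤ c * μ B := by
  have hA : A = ⋃ d, A ∩ st ⁻¹' {d} := by
    ext x
    simp
  have hB : ∑' d, μ (B ∩ st ⁻¹' {d}) = μ B := by
    have h1 : ∀ d, μ (B ∩ st ⁻¹' {d}) = (μ.restrict B) (st ⁻¹' {d}) := by
      intro d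
      rw [Measure.restrict_apply (hst d), Set.inter_comm]
    simp_rw [h1]
    rw [← measure_iUnion _ hst]
    · have : (⋃ d, st ⁻¹' {d}) = Set.univ := by
        ext x
        simp
      rw [this, Measure.restrict_apply MeasurableSet.univ, Set.univ_inter]
    · intro d d' hdd
      refine Set.disjoint_left.mpr fun x hx hx' => hdd ?_
      simp only [Set.mem_preimage, Set.mem_singleton_iff] at hx hx'
      rw [← hx, ← hx']
  calc μ A = μ (⋃ d, A ∩ st ⁻¹' {d}) := by rw [← hA]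
    _ ≤ ∑' d, μ (A ∩ st ⁻¹' {d}) := measure_iUnion_le _
    _ ≤ ∑' d, c * μ (B ∩ st ⁻¹' {d}) := ENNReal.tsum_le_tsum h
    _ = c * μ B := by rw [ENNReal.tsum_mul_left, hB]

/-- events of a function of a countable measurable label -/
theorem k6a3_stage_meas {Ω D₀ β : Type} [MeasurableSpace Ω] [Countable D₀] (st : Ω → D₀)
    (hst : ∀ d, MeasurableSet (st ⁻¹' {d})) (f : D₀ → β) (s : β) : MeasurableSet {e | f (st e) = s} := by
  have : {e | f (st e) = s} = ⋃ d ∈ {d | f d = s}, st ⁻¹' {d} := by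
    ext x
    simp
  rw [this]
  exact MeasurableSet.biUnion (Set.to_countable _) fun d _ => hst d

/-- breadth of a fine state survives the loss of at most one half of its mass -/
theorem k6a3_stage_half {Ω : Type} [MeasurableSpace Ω] (μ : Measure Ω) (R₀ R' Sd Sl : Set Ω)
    (hsub : R' ⊆ R₀) (hfin : μ (R₀ ∩ Sd) ≠ ∞)
    (hk : μ ((R₀ \ R') ∩ Sd) ≤ 1 / 2 * μ (R₀ ∩ Sd)) (hb : μ (R₀ ∩ Sd ∩ Sl) ≤ 1 / 4 * μ (R₀ ∩ Sd)) :
    μ (R' ∩ Sd ∩ Sl) ≤ 1 / 2 * μ (R' ∩ Sd) := by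
  have h1 : μ (R₀ ∩ Sd) ≤ μ (R' ∩ Sd) + μ ((R₀ \ R') ∩ Sd) := by
    refine le_trans (measure_mono ?_) (measure_union_le _ _)
    intro x hx
    by_cases hxR : x ∈ R'
    · exact Or.inl ⟨hxR, hx.2⟩
    · exact Or.inr ⟨⟨hx.1, hxR⟩, hx.2⟩
  have h2 : 1 / 2 * μ (R₀ ∩ Sd) ≤ μ (R' ∩ Sd) := by
    have h3 : μ (R₀ ∩ Sd) ≤ μ (R' ∩ Sd) + 1 / 2 * μ (R₀ ∩ Sd) := h1.trans (by gcongr)
    have h4 : 1 / 2 * μ (R₀ ∩ Sd) + 1 / 2 * μ (R₀ ∩ Sd) = μ (R₀ ∩ Sd) := by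
      rw [← add_mul, one_div, ENNReal.inv_two_add_inv_two, one_mul]
    have hfin' : 1 / 2 * μ (R₀ ∩ Sd) ≠ ∞ := ENNReal.mul_ne_top (by simp) hfin
    refine (ENNReal.add_le_add_iff_right hfin').mp ?_
    rw [h4]
    exact h3
  calc μ (R' ∩ Sd ∩ Sl) ≤ μ (R₀ ∩ Sd ∩ Sl) := measure_mono (by
        intro x hx
        exact ⟨⟨hsub hx.1.1, hx.1.2⟩, hx.2⟩)
    _ ≤ 1 / 4 * μ (R₀ ∩ Sd) := hb
    _ = 1 / 2 * (1 / 2 * μ (R₀ ∩ Sd)) := by
        rw [← mul_assoc]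
        congr 1
        rw [one_div, one_div, ← ENNReal.mul_inv (by simp) (by simp)]
        norm_num
    _ ≤ 1 / 2 * μ (R' ∩ Sd) := by gcongr

/-- two points of one cell -/
theorem k6a3_stage_cell_dist {D : ℕ} (ρ : ℝ) (hρ : 0 < ρ) (x y : Fin D → ℝ) (h : k6a_cell ρ x = k6a_cell ρ y) :
    ‖x - y‖ ≤ ρ := by
  rw [pi_norm_le_iff_of_nonneg hρ.le]
  intro i
  have h1 : ⌊x i / ρ⌋ = ⌊y i / ρ⌋ := congrFun h i
  have h2 := Int.abs_sub_lt_one_of_floor_eq_floor h1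
  rw [← sub_div, abs_div, abs_of_pos hρ, div_lt_one hρ] at h2
  simpa [Real.norm_eq_abs] using h2.le

/-- cell indices of two nearby numbers -/
theorem k6a3_stage_floor_diff (p a x y : ℝ) (hp : 0 < p) (h : |x - y| ≤ a) :
    |((⌊x / p⌋ : ℤ) : ℝ) - ((⌊y / p⌋ : ℤ) : ℝ)| * p ≤ a + p := by
  have hx1 := Int.floor_le (x / p)
  have hx2 := Int.lt_floor_add_one (x / p)
  have hy1 := Int.floor_le (y / p)
  have hy2 := Int.lt_floor_add_one (y / p)
  have h3 := abs_le.mp h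
  have e1 : x / p * p = x := div_mul_cancel₀ x hp.ne'
  have e2 : y / p * p = y := div_mul_cancel₀ y hp.ne'
  rw [← abs_of_pos hp, ← abs_mul, abs_le, abs_of_pos hp]
  constructor <;> nlinarith

/-- the centre of the cell of a number -/
theorem k6a3_stage_centre (p x : ℝ) (hp : 0 < p) : |(((⌊x / p⌋ : ℤ) : ℝ) + 1 / 2) * p - x| ≤ p / 2 := by
  have hx1 := Int.floor_le (x / p)
  have hx2 := Int.lt_floor_add_one (x / p)
  have e1 : x / p * p = x := div_mul_cancel₀ x hp.ne'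
  rw [abs_le]
  constructor <;> nlinarith

/-- the arithmetic of the loss -/
theorem k6a3_stage_loss (j : ℕ) (K ρ K₁ η : ℝ) (hK : 1 ≤ K) (hρ : 0 < ρ) (hρ1 : ρ ≤ 1) (hK₁ : 1 ≤ K₁) (hη : 0 < η)
    (hη1 : η ≤ 1) :
    3 * (1 + 1 / η) * (3 * 6 ^ (j + 2) * (3 * K / ρ + 1)) * (ρ / K₁) ≤ 72 * 6 ^ (j + 2) * K / (η * K₁) := by
  have hK₁0 : 0 < K₁ := by linarith
  have h6 : (0 : ℝ) < 6 ^ (j + 2) := by positivity
  have e1 : 3 * (1 + 1 / η) * (3 * 6 ^ (j + 2) * (3 * K / ρ + 1)) * (ρ / K₁)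
      = 9 * 6 ^ (j + 2) * ((η + 1) * (3 * K + ρ)) / (η * K₁) := by
    field_simp
    norm_num
  rw [e1]
  apply div_le_div_of_nonneg_right _ (by positivity)
  have h2 : (η + 1) * (3 * K + ρ) ≤ 2 * (4 * K) := by
    apply mul_le_mul <;> nlinarith
  nlinarith

/-- the arithmetic of the count -/
theorem k6a3_stage_arith (j : ℕ) (ε Cf Cs K K₁ w ρ p r Ks N : ℝ) (hCf : 0 < Cf) (hCs : 0 < Cs) (hK : 1 ≤ K)
    (hK₁ : 1 ≤ K₁) (hw : 0 < w) (hw1 : w ≤ 1) (hp : 0 < p) (hpr : p ≤ r) (hrρ : r ≤ ρ) (hKs : 0 ≤ Ks)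
    (h : N * ((2 * ρ / p) ^ (j + 1) / (Cf * (2 * max K (2 * K₁) / w) ^ Cf * (2 * ρ / p) ^ ε))
      ≤ Cs * K ^ 2 * Ks * (ρ / r) ^ (j + 1)) :
    N ≤ (72 * 6 ^ (j + 2) + Cs * Cf * 4 ^ Cf * 2 ^ ε + Cf + 2) *
      (K * K₁ / w) ^ (72 * 6 ^ (j + 2) + Cs * Cf * 4 ^ Cf * 2 ^ ε + Cf + 2) * (ρ / p) ^ ε * Ks * (p / r) ^ (j + 1) := by
  have hr : 0 < r := by linarith
  have hρ : 0 < ρ := by linarith
  have hK₁0 : 0 < K₁ := by linarith
  have hK0 : 0 < K := by linarith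
  set X : ℝ := K * K₁ / w with hX
  have hX1 : 1 ≤ X := by
    rw [hX, le_div_iff₀ hw]
    nlinarith
  have hKX : K ≤ X := by
    rw [hX, le_div_iff₀ hw]
    nlinarith
  have hmax : 2 * max K (2 * K₁) / w ≤ 4 * X := by
    rw [hX, div_le_iff₀ hw]
    have : max K (2 * K₁) ≤ 2 * (K * K₁) := max_le (by nlinarith) (by nlinarith)
    have e : 4 * (K * K₁ / w) * w = 4 * (K * K₁) := by field_simp
    rw [e]
    linarith
  have hmax0 : 0 < 2 * max K (2 * K₁) / w := by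
    have : 0 < max K (2 * K₁) := lt_max_of_lt_left hK0
    positivity
  set Dn : ℝ := Cf * (2 * max K (2 * K₁) / w) ^ Cf * (2 * ρ / p) ^ ε with hDn
  have hDn0 : 0 < Dn := by positivity
  have hDn_le : Dn ≤ Cf * (4 ^ Cf * X ^ Cf) * (2 ^ ε * (ρ / p) ^ ε) := by
    rw [hDn]
    have h1 : (2 * max K (2 * K₁) / w) ^ Cf ≤ 4 ^ Cf * X ^ Cf := by
      rw [← Real.mul_rpow (by norm_num) (by linarith)]
      exact Real.rpow_le_rpow hmax0.le hmax hCf.le
    have h2 : (2 * ρ / p) ^ ε = 2 ^ ε * (ρ / p) ^ ε := by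
      rw [← Real.mul_rpow (by norm_num) (by positivity)]
      congr 1
      ring
    rw [h2]
    gcongr
  have hP : (0 : ℝ) < (2 * ρ / p) ^ (j + 1) := by positivity
  have h1 : N * (2 * ρ / p) ^ (j + 1) ≤ Cs * K ^ 2 * Ks * (ρ / r) ^ (j + 1) * Dn := by
    rw [← mul_div_assoc, div_le_iff₀ hDn0] at h
    exact h
  have h2 : (ρ / r) ^ (j + 1) = (p / r) ^ (j + 1) * (ρ / p) ^ (j + 1) := by
    rw [← mul_pow]
    congr 1
    field_simp
  have h3 : (ρ / p) ^ (j + 1) ≤ (2 * ρ / p) ^ (j + 1) := by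
    apply pow_le_pow_left₀ (by positivity)
    apply div_le_div_of_nonneg_right _ hp.le
    linarith
  have h4 : N * (2 * ρ / p) ^ (j + 1) ≤ (Cs * K ^ 2 * Ks * (p / r) ^ (j + 1) * Dn) * (2 * ρ / p) ^ (j + 1) := by
    calc N * (2 * ρ / p) ^ (j + 1) ≤ Cs * K ^ 2 * Ks * (ρ / r) ^ (j + 1) * Dn := h1
      _ = (Cs * K ^ 2 * Ks * (p / r) ^ (j + 1) * Dn) * (ρ / p) ^ (j + 1) := by rw [h2]; ring
      _ ≤ (Cs * K ^ 2 * Ks * (p / r) ^ (j + 1) * Dn) * (2 * ρ / p) ^ (j + 1) := by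
          apply mul_le_mul_of_nonneg_left h3
          positivity
  have h5 : N ≤ Cs * K ^ 2 * Ks * (p / r) ^ (j + 1) * Dn := le_of_mul_le_mul_right h4 hP
  set C : ℝ := 72 * 6 ^ (j + 2) + Cs * Cf * 4 ^ Cf * 2 ^ ε + Cf + 2 with hC
  have h40 : (0 : ℝ) < 4 ^ Cf := by positivity
  have h20 : (0 : ℝ) < 2 ^ ε := by positivity
  have hC1 : Cs * Cf * 4 ^ Cf * 2 ^ ε ≤ C := by
    rw [hC]
    have : (0 : ℝ) < 72 * 6 ^ (j + 2) := by positivity
    linarith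
  have hC2 : Cf + 2 ≤ C := by
    rw [hC]
    have : (0 : ℝ) < 72 * 6 ^ (j + 2) := by positivity
    have : 0 < Cs * Cf * 4 ^ Cf * 2 ^ ε := by positivity
    linarith
  have hXC : K ^ 2 * X ^ Cf ≤ X ^ C := by
    calc K ^ 2 * X ^ Cf ≤ X ^ 2 * X ^ Cf := by gcongr
      _ = X ^ (Cf + 2) := by
          rw [add_comm, Real.rpow_add (by linarith), Real.rpow_two]
      _ ≤ X ^ C := Real.rpow_le_rpow_of_exponent_le hX1 hC2
  have hre : (0 : ℝ) ≤ (ρ / p) ^ ε := by positivity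
  have hpr0 : (0 : ℝ) ≤ (p / r) ^ (j + 1) := by positivity
  calc N ≤ Cs * K ^ 2 * Ks * (p / r) ^ (j + 1) * Dn := h5
    _ ≤ Cs * K ^ 2 * Ks * (p / r) ^ (j + 1) * (Cf * (4 ^ Cf * X ^ Cf) * (2 ^ ε * (ρ / p) ^ ε)) := by
        apply mul_le_mul_of_nonneg_left hDn_le
        positivity
    _ = (Cs * Cf * 4 ^ Cf * 2 ^ ε) * (K ^ 2 * X ^ Cf) * (ρ / p) ^ ε * Ks * (p / r) ^ (j + 1) := by ring
    _ ≤ C * X ^ C * (ρ / p) ^ ε * Ks * (p / r) ^ (j + 1) := by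
        have hXC0 : 0 ≤ K ^ 2 * X ^ Cf := by positivity
        have hC0 : 0 ≤ C := le_trans (by positivity) hC1
        gcongr

theorem k6a3_stage (h1 : k6a3_pairs_count_stmt) (h2 : k6a3_prune_stmt) (h3 : k6a3_fill_stmt)
    (h4 : k6a3_strip_count_stmt) : k6a3_stage_stmt := by
  intro j ε hj hε
  obtain ⟨Cf, hCf, hfill⟩ := h3 j ε hj hε
  obtain ⟨Cs, hCs, hcount⟩ := h4 (j + 1)
  have h40 : (0 : ℝ) < 4 ^ Cf := by positivity
  have h20 : (0 : ℝ) < 2 ^ ε := by positivity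
  refine ⟨72 * 6 ^ (j + 2) + Cs * Cf * 4 ^ Cf * 2 ^ ε + Cf + 2, by positivity, ?_⟩
  intro Λ D₀ _ _ ν c R₀ R st Z G GC K K₂ b eg ρ w p K₁ η θ₀ hGeo hRm hRsub hK hK₂ hb hbp hp hpρ hρ1 hw hw1 hK₁ hη hθ₀
    hθη hsmall hKept
  have : IsFiniteMeasure ν := ⟨lt_of_le_of_lt hGeo.nu_le ENNReal.one_lt_top⟩
  have hρ : 0 < ρ := by linarith
  have hK₁0 : 0 < K₁ := by linarith
  have hη1 : η ≤ 1 := by linarith
  set μ : Measure (Λ × ℝ) := ν.prod volume with hμ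
  -- finiteness of the masses
  have hfinR₀ : ∀ A : Set (Λ × ℝ), μ (R₀ ∩ A) ≠ ∞ := by
    intro A
    have hsub : R₀ ∩ A ⊆ Set.univ ×ˢ Set.Icc (0 : ℝ) 1 := by
      intro e he
      exact ⟨trivial, (hGeo.tI e he.1).1, (hGeo.tI e he.1).2.le⟩
    refine ne_top_of_le_ne_top ?_ (measure_mono hsub)
    rw [hμ, Measure.prod_prod]
    exact ENNReal.mul_ne_top (measure_ne_top _ _) (by simp)
  set gl : D₀ → (Fin (j + 2) → ℤ) × ℤ := fun d => k6a3_lab ρ p GC (Z d) with hgl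
  set Nn : ℝ := 3 * 6 ^ (j + 2) * (3 * K / ρ + 1) with hNn
  have hNn0 : 0 ≤ Nn := by positivity
  -- a line meets few labels
  have hpairs : ∀ l, ∃ F : Finset ((Fin (j + 2) → ℤ) × ℤ), (F.card : ℝ) ≤ Nn ∧ ∀ t, (l, t) ∈ R → gl (st (l, t)) ∈ F := by
    intro l
    by_cases hl : ∃ t, (l, t) ∈ R
    · obtain ⟨t₀, ht₀⟩ := hl
      have hT : ∀ t ∈ {t | (l, t) ∈ R}, (l, t) ∈ R₀ := fun t ht => hRsub (show (l, t) ∈ R from ht)
      obtain ⟨F, hF, hF'⟩ := h1 j (c l) {t | (l, t) ∈ R} (fun t => Z (st (l, t))) (fun t => G (st (l, t))) GC K K₂ b eg ρ p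
        hK hK₂ hb (hbp.trans hpρ) hρ hp (hGeo.cb (l, t₀) (hRsub ht₀))
        (fun t ht => ⟨(hGeo.tI (l, t) (hT t ht)).1, (hGeo.tI (l, t) (hT t ht)).2.le⟩)
        (fun t ht => hGeo.ctr (l, t) (hT t ht)) (fun t ht => hGeo.graph (l, t) (hT t ht))
        (fun t ht => hGeo.row (l, t) (hT t ht)) hGeo.GCb hsmall
      exact ⟨F, hF, fun t ht => hF' t ht⟩
    · exact ⟨∅, by simpa using hNn0, fun t ht => absurd ⟨t, ht⟩ hl⟩
  obtain ⟨R', hR'm, hR'sub, hloss, hstates, hstrips, hprior⟩ := h2 ν R hRm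
    (fun e he => ⟨(hGeo.tI e (hRsub he)).1, (hGeo.tI e (hRsub he)).2.le⟩) st gl hGeo.mst Nn (ρ / K₁) η hNn0
    (by positivity) hη hpairs
  have hR'R₀ : R' ⊆ R₀ := hR'sub.trans hRsub
  -- the fine states keep their mass
  have hKept' : k6a3_Kept ν R₀ R' st (θ₀ + η) := by
    intro d hd
    obtain ⟨x, hx⟩ := hd
    have hk1 := hKept d ⟨x, hR'sub hx.1, hx.2⟩
    have hk2 := hstates d ⟨x, hx⟩
    have hk3 : μ (R ∩ st ⁻¹' {d}) ≤ μ (R₀ ∩ st ⁻¹' {d}) := measure_mono (Set.inter_subset_inter_left _ hRsub)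
    calc μ ((R₀ \ R') ∩ st ⁻¹' {d}) ≤ μ ((R₀ \ R) ∩ st ⁻¹' {d} ∪ (R \ R') ∩ st ⁻¹' {d}) := by
          apply measure_mono
          intro y hy
          by_cases hyR : y ∈ R
          · exact Or.inr ⟨⟨hyR, hy.1.2⟩, hy.2⟩
          · exact Or.inl ⟨⟨hy.1.1, hyR⟩, hy.2⟩
      _ ≤ μ ((R₀ \ R) ∩ st ⁻¹' {d}) + μ ((R \ R') ∩ st ⁻¹' {d}) := measure_union_le _ _
      _ ≤ ENNReal.ofReal θ₀ * μ (R₀ ∩ st ⁻¹' {d}) + ENNReal.ofReal η * μ (R₀ ∩ st ⁻¹' {d}) := by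
          gcongr
          exact hk2.trans (by gcongr)
      _ = ENNReal.ofReal (θ₀ + η) * μ (R₀ ∩ st ⁻¹' {d}) := by
          rw [ENNReal.ofReal_add hθ₀ hη.le, add_mul]
  refine ⟨R', hR'm, hR'sub, ?_, hKept', ?_⟩
  · -- the loss
    calc μ (R \ R') ≤ ENNReal.ofReal (3 * (1 + 1 / η) * Nn * (ρ / K₁)) * ν Set.univ := hloss
      _ ≤ ENNReal.ofReal (3 * (1 + 1 / η) * Nn * (ρ / K₁)) * 1 := by gcongr; exact hGeo.nu_le
      _ = ENNReal.ofReal (3 * (1 + 1 / η) * Nn * (ρ / K₁)) := mul_one _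
      _ ≤ _ := by
          apply ENNReal.ofReal_le_ofReal
          refine (k6a3_stage_loss j K ρ K₁ η hK hρ hρ1 hK₁ hη hη1).trans ?_
          apply div_le_div_of_nonneg_right _ (by positivity)
          apply mul_le_mul_of_nonneg_right _ (by linarith)
          have : 0 < Cs * Cf * 4 ^ Cf * 2 ^ ε := by positivity
          linarith
  · intro r Ks hpr hrρ hSupp n x₀
    have hKs : 0 ≤ Ks := by
      obtain ⟨T, hT, -⟩ := hSupp n
      exact le_trans (Nat.cast_nonneg _) hT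
    set K' : ℝ := max K (2 * K₁) with hK'
    have hK'1 : 1 ≤ K' := le_max_of_le_left hK
    have hK'2 : 2 * K₁ ≤ K' := le_max_right _ _
    have hK'0 : 0 < K' := by linarith
    set Dn : ℝ := Cf * (2 * K' / w) ^ Cf * (2 * ρ / p) ^ ε with hDn
    have hDn0 : 0 < Dn := by positivity
    set F : ℝ := (2 * ρ / p) ^ (j + 1) / Dn with hF
    have hF0 : 0 ≤ F := by positivity
    set S : Set (Λ × ℝ) := {e | e ∈ R' ∧ k6a_cell ρ (Z (st e)) = n} with hS
    -- filling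
    have hfillS : ∀ i ∈ S, ∃ T : Finset (Fin (j + 1) → ℤ), F ≤ T.card ∧ ∀ E ∈ T, ∃ i' ∈ S,
        ⌊k6a3_nrm (GC n) (Z (st i')) / p⌋ = ⌊k6a3_nrm (GC n) (Z (st i)) / p⌋ ∧
          k6a_cell p (Fin.tail (Z (st i'))) = E := by
      intro i hi
      set s : (Fin (j + 2) → ℤ) × ℤ := gl (st i) with hs
      set Q : Set (Λ × ℝ) := R' ∩ {e | gl (st e) = s} with hQ
      have hiQ : i ∈ Q := ⟨hi.1, rfl⟩
      obtain ⟨hQpos, hQhalf⟩ := hstrips s ⟨i, hiQ⟩
      have hprs := hprior s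
      have hQS : ∀ e ∈ Q, e ∈ S ∧ ⌊k6a3_nrm (GC n) (Z (st e)) / p⌋ = ⌊k6a3_nrm (GC n) (Z (st i)) / p⌋ := by
        intro e he
        have h5 : k6a3_lab ρ p GC (Z (st e)) = k6a3_lab ρ p GC (Z (st i)) := he.2
        have h6 : k6a_cell ρ (Z (st e)) = k6a_cell ρ (Z (st i)) := congrArg Prod.fst h5
        have h7 : ⌊k6a3_nrm (GC (k6a_cell ρ (Z (st e)))) (Z (st e)) / p⌋
            = ⌊k6a3_nrm (GC (k6a_cell ρ (Z (st i)))) (Z (st i)) / p⌋ := congrArg Prod.snd h5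
        have h8 : k6a_cell ρ (Z (st e)) = n := h6.trans hi.2
        refine ⟨⟨he.1, h8⟩, ?_⟩
        rw [h8, hi.2] at h7
        exact h7
      set cl : Λ × ℝ → Fin (j + 1) → ℤ := fun e => k6a_cell p (Fin.tail (Z (st e))) with hcl
      have hdiam : ∀ e ∈ Q, ∀ e' ∈ Q, ∀ k, |((cl e k : ℤ) : ℝ) - ((cl e' k : ℤ) : ℝ)| * p ≤ 2 * ρ := by
        intro e he e' he' k
        have h9 : ‖Z (st e) - Z (st e')‖ ≤ ρ :=
          k6a3_stage_cell_dist ρ hρ _ _ ((hQS e he).1.2.trans (hQS e' he').1.2.symm)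
        have h10 : |Fin.tail (Z (st e)) k - Fin.tail (Z (st e')) k| ≤ ρ := by
          have := (norm_le_pi_norm (Z (st e) - Z (st e')) k.succ).trans h9
          simpa [Fin.tail, Real.norm_eq_abs] using this
        have h11 := k6a3_stage_floor_diff p ρ _ _ hp h10
        have h12 : |((cl e k : ℤ) : ℝ) - ((cl e' k : ℤ) : ℝ)| * p ≤ ρ + p := h11
        linarith
      have hOfin : {E | ∃ e ∈ Q, cl e = E}.Finite := by
        refine Set.Finite.subset (Set.finite_Icc (fun k => cl i k - ⌈2 * ρ / p⌉) (fun k => cl i k + ⌈2 * ρ / p⌉)) ?_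
        rintro E ⟨e, he, rfl⟩
        have h13 : ∀ k, |cl e k - cl i k| ≤ ⌈2 * ρ / p⌉ := by
          intro k
          have h14 := hdiam e he i hiQ k
          rw [← le_div_iff₀ hp] at h14
          have h15 := h14.trans (Int.le_ceil _)
          exact_mod_cast h15
        constructor <;> intro k <;> have := abs_le.mp (h13 k) <;> simp only <;> omega
      refine ⟨hOfin.toFinset, ?_, ?_⟩
      · have hQm : MeasurableSet Q := hR'm.inter (k6a3_stage_meas st hGeo.mst gl s)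
        have hclm : ∀ E, MeasurableSet (cl ⁻¹' {E}) := fun E =>
          k6a3_stage_meas st hGeo.mst (fun d => k6a_cell p (Fin.tail (Z d))) E
        have hQR : Q ⊆ R ∩ {e | gl (st e) = s} := fun e he => ⟨hR'sub he.1, he.2⟩
        have hbr : ∀ (E : Fin (j + 1) → ℤ) (nn : Fin j → ℝ) (b₀ : ℝ), nn ⬝ᵥ nn = 1 →
            μ (Q ∩ cl ⁻¹' {E} ∩ {e | |nn ⬝ᵥ k5_yd (c e.1) - b₀| ≤ w}) ≤ 1 / 2 * μ (Q ∩ cl ⁻¹' {E}) := by
          intro E nn b₀ hnn
          refine k6a3_stage_sum_le μ st hGeo.mst _ _ _ fun d => ?_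
          by_cases hd : gl d = s ∧ k6a_cell p (Fin.tail (Z d)) = E
          · have hA : Q ∩ cl ⁻¹' {E} ∩ {e | |nn ⬝ᵥ k5_yd (c e.1) - b₀| ≤ w} ∩ st ⁻¹' {d}
                ⊆ R' ∩ st ⁻¹' {d} ∩ {e | |nn ⬝ᵥ k5_yd (c e.1) - b₀| ≤ w} :=
              fun x hx => ⟨⟨hx.1.1.1.1, hx.2⟩, hx.1.2⟩
            have hB : R' ∩ st ⁻¹' {d} ⊆ Q ∩ cl ⁻¹' {E} ∩ st ⁻¹' {d} := by
              intro x hx
              have hxd : st x = d := hx.2
              refine ⟨⟨⟨hx.1, ?_⟩, ?_⟩, hx.2⟩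
              · show gl (st x) = s
                rw [hxd]; exact hd.1
              · show k6a_cell p (Fin.tail (Z (st x))) = E
                rw [hxd]; exact hd.2
            refine (measure_mono hA).trans (le_trans ?_ (mul_le_mul_right (measure_mono hB) _))
            by_cases hne : (R' ∩ st ⁻¹' {d}).Nonempty
            · refine k6a3_stage_half μ R₀ R' (st ⁻¹' {d}) _ hR'R₀ (hfinR₀ _) ?_ (hGeo.broad d nn b₀ hnn)
              refine (hKept' d hne).trans (mul_le_mul_left ?_ _)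
              calc ENNReal.ofReal (θ₀ + η) ≤ ENNReal.ofReal (1 / 2) := ENNReal.ofReal_le_ofReal hθη
                _ = 1 / 2 := by
                    rw [ENNReal.ofReal_div_of_pos (by norm_num)]
                    simp
            · rw [Set.not_nonempty_iff_eq_empty] at hne
              rw [hne]
              simp
          · have hE : Q ∩ cl ⁻¹' {E} ∩ {e | |nn ⬝ᵥ k5_yd (c e.1) - b₀| ≤ w} ∩ st ⁻¹' {d} = ∅ := by
              rw [Set.eq_empty_iff_forall_notMem]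
              intro x hx
              have hxd : st x = d := hx.2
              apply hd
              refine ⟨?_, ?_⟩
              · rw [← hxd]; exact hx.1.1.1.2
              · rw [← hxd]; exact hx.1.1.2
            rw [hE]
            simp
        have hM0 : 0 < μ (R ∩ {e | gl (st e) = s}) := hQpos.trans_le (measure_mono hQR)
        have hMfin : μ (R ∩ {e | gl (st e) = s}) ≠ ∞ :=
          ne_top_of_le_ne_top (hfinR₀ {e | gl (st e) = s}) (measure_mono (Set.inter_subset_inter_left _ hRsub))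
        have hM1 : μ (R ∩ {e | gl (st e) = s}) ≤ ENNReal.ofReal K' * μ Q := by
          refine hQhalf.trans (mul_le_mul_left ?_ _)
          rw [← ENNReal.ofReal_ofNat 2]
          exact ENNReal.ofReal_le_ofReal (by linarith)
        have hM2 : ENNReal.ofReal (2 * ρ) * ν {l | ∃ t, (l, t) ∈ Q} ≤ ENNReal.ofReal K' * μ (R ∩ {e | gl (st e) = s}) := by
          have e1 : ENNReal.ofReal (2 * ρ) = ENNReal.ofReal (2 * K₁) * ENNReal.ofReal (ρ / K₁) := by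
            rw [← ENNReal.ofReal_mul (by positivity)]
            congr 1
            field_simp
          rw [e1, mul_assoc]
          calc ENNReal.ofReal (2 * K₁) * (ENNReal.ofReal (ρ / K₁) * ν {l | ∃ t, (l, t) ∈ Q})
              ≤ ENNReal.ofReal (2 * K₁) * μ (R ∩ {e | gl (st e) = s}) := mul_le_mul_right hprs _
            _ ≤ ENNReal.ofReal K' * μ (R ∩ {e | gl (st e) = s}) :=
                mul_le_mul_left (ENNReal.ofReal_le_ofReal hK'2) _
        have hcen : ∀ e ∈ Q, ∀ k, |((cl e k : ℝ) + 1 / 2) * p - k6a3_z (c e.1) e.2 k| ≤ 2 * p := by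
          intro e he k
          have h16 := k6a3_stage_centre p (Fin.tail (Z (st e)) k) hp
          have h17 : |k6a3_z (c e.1) e.2 k - Fin.tail (Z (st e)) k| ≤ b := by
            have := (norm_le_pi_norm (k6a3_Wi c e - Z (st e)) k.succ).trans (hGeo.ctr e (hR'R₀ he.1))
            simpa [Fin.tail, Real.norm_eq_abs, k6a3_Wi, k6a3_W] using this
          have h18 : |((cl e k : ℝ) + 1 / 2) * p - Fin.tail (Z (st e)) k| ≤ p / 2 := h16
          have h19 := abs_le.mp h17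
          have h20' := abs_le.mp h18
          rw [abs_le]
          constructor <;> linarith
        have hmain := hfill ν c Q cl hOfin.toFinset p (2 * ρ) 2 w K' (μ (R ∩ {e | gl (st e) = s})) hGeo.mc hQm hclm hp
          (by linarith) (by norm_num) hw hw1 hK'1
          (fun e he => ⟨(hGeo.cb e (hR'R₀ he.1)).trans (le_max_left _ _), (hGeo.tI e (hR'R₀ he.1)).1,
            (hGeo.tI e (hR'R₀ he.1)).2.le⟩)
          (fun e he => hOfin.mem_toFinset.mpr ⟨e, he, rfl⟩)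
          (by
            intro E hE E' hE' k
            obtain ⟨e, he, rfl⟩ := hOfin.mem_toFinset.mp hE
            obtain ⟨e', he', rfl⟩ := hOfin.mem_toFinset.mp hE'
            exact hdiam e he e' he' k)
          hcen hbr hM0 hMfin hM1 hM2
        rw [hF, div_le_iff₀ hDn0, mul_comm (hOfin.toFinset.card : ℝ) Dn]
        exact hmain
      · intro E hE
        obtain ⟨e, he, rfl⟩ := hOfin.mem_toFinset.mp hE
        exact ⟨e, (hQS e he).1, (hQS e he).2, rfl⟩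
    obtain ⟨T, hT, hT'⟩ := hcount S (k6a3_Wi c) (fun e => Z (st e)) (GC n) K Ks F b p r ρ hK hF0 hbp hp hpr hrρ
      (hGeo.GCb n) (fun i hi => hGeo.ctr i (hR'R₀ hi.1))
      (fun i hi i' hi' => k6a3_stage_cell_dist ρ hρ _ _ (hi.2.trans hi'.2.symm)) hfillS
      (fun n' => by
        obtain ⟨T, hT, hT'⟩ := hSupp n'
        exact ⟨T, hT, fun i hi => hT' i (hR'R₀ hi.1)⟩) x₀
    refine ⟨T, ?_, fun e he hn => hT' e ⟨he, hn⟩⟩
    exact k6a3_stage_arith j ε Cf Cs K K₁ w ρ p r Ks T.card hCf hCs hK hK₁ hw hw1 hp hpr hrρ hKs hT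

end Claimed.Agent.R252
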