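/-
row252, unit S6a3 (sub-architect helper117): the leaves TRANSFER (F4), INTERP (F5), BLOCKDIST (F2), STAGES (E3) in ONE file (file budget).   helper113
-/
import Claimed.Agent.R252.S6a.StripContract

set_option autoImplicit false

namespace Claimed.Agent.R252

open MeasureTheory
open scoped ENNReal

/-! ### F4 -/

theorem k6a3_count_transfer : k6a3_count_transfer_stmt := by
  intro I S f g κ err p r Kc hp hpr herr hfg hg x₀
  classical
  obtain ⟨T0, hT0, h0⟩ := hg (x₀ - κ - r)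
  obtain ⟨T1, hT1, h1⟩ := hg (x₀ - κ)
  obtain ⟨T2, hT2, h2⟩ := hg (x₀ - κ + r)
  set c : ℤ := ⌊κ / p⌋ with hc
  refine ⟨(T0 ∪ T1 ∪ T2).biUnion fun σ => Finset.Icc (σ + c - 1) (σ + c + 2), ?_, ?_⟩
  · have hcard : ((T0 ∪ T1 ∪ T2).biUnion fun σ => Finset.Icc (σ + c - 1) (σ + c + 2)).card ≤ (T0 ∪ T1 ∪ T2).card * 4 := by
      refine Finset.card_biUnion_le_card_mul _ _ _ fun σ _ => ?_
      rw [Int.card_Icc]
      have : σ + c + 2 + 1 - (σ + c - 1) = 4 := by ring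
      rw [this]
      rfl
    have h3 : (T0 ∪ T1 ∪ T2).card ≤ T0.card + T1.card + T2.card :=
      (Finset.card_union_le _ _).trans (Nat.add_le_add_right (Finset.card_union_le _ _) _)
    have h4 : (((T0 ∪ T1 ∪ T2).biUnion fun σ => Finset.Icc (σ + c - 1) (σ + c + 2)).card : ℝ)
        ≤ ((T0.card : ℝ) + T1.card + T2.card) * 4 := by
      have := hcard.trans (Nat.mul_le_mul_right 4 h3)
      exact_mod_cast this
    linarith
  · intro i hi hx1 hx2
    have hd := abs_le.1 (hfg i hi)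
    have hσ : ⌊g i / p⌋ ∈ T0 ∪ T1 ∪ T2 := by
      rw [Finset.mem_union, Finset.mem_union]
      by_cases c1 : g i ≤ x₀ - κ
      · exact Or.inl (Or.inl (h0 i hi (by linarith [hd.2]) (by linarith)))
      · push Not at c1
        by_cases c2 : g i ≤ x₀ - κ + r
        · exact Or.inl (Or.inr (h1 i hi c1.le c2))
        · push Not at c2
          exact Or.inr (h2 i hi c2.le (by linarith [hd.1]))
    refine Finset.mem_biUnion.2 ⟨_, hσ, Finset.mem_Icc.2 ⟨?_, ?_⟩⟩
    · rw [Int.le_floor]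
      have a1 := Int.floor_le (g i / p)
      have a2 := Int.floor_le (κ / p)
      have a3 : -1 ≤ (f i - g i - κ) / p := by
        rw [le_div_iff₀ hp]; linarith [hd.1]
      have e : f i / p = g i / p + κ / p + (f i - g i - κ) / p := by field_simp; ring
      push_cast
      rw [e]
      linarith
    · have : ⌊f i / p⌋ < ⌊g i / p⌋ + c + 3 := by
        rw [Int.floor_lt]
        have a1 := Int.lt_floor_add_one (g i / p)
        have a2 := Int.lt_floor_add_one (κ / p)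
        have a3 : (f i - g i - κ) / p ≤ 1 := by
          rw [div_le_iff₀ hp]; linarith [hd.2]
        have e : f i / p = g i / p + κ / p + (f i - g i - κ) / p := by field_simp; ring
        push_cast
        rw [e]
        linarith
      omega

/-! ### F2 -/

theorem k6a3_block_dist_bin {a a' ρ : ℝ} (hρ : 0 < ρ) (h : ⌊a / ρ⌋ = ⌊a' / ρ⌋) : |a - a'| ≤ ρ := by
  have h1 := Int.abs_sub_lt_one_of_floor_eq_floor h
  have e : a / ρ - a' / ρ = (a - a') / ρ := by ring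
  rw [e, abs_div, abs_of_pos hρ, div_lt_one hρ] at h1
  exact h1.le

theorem k6a3_block_dist : k6a3_block_dist_stmt := by
  intro j c c' K ρ t u hρ hK hc hbin ht0 ht1 hu0 hu1
  have hb1 : ∀ i, |c.1 i - c'.1 i| ≤ ρ := fun i =>
    k6a3_block_dist_bin hρ (congrFun (congrArg Prod.fst hbin) i)
  have hb2 : ∀ i a, |c.2 i a - c'.2 i a| ≤ ρ := fun i a =>
    k6a3_block_dist_bin hρ (congrFun (congrFun (congrArg Prod.snd hbin) i) a)
  have hc1 : ∀ i, |c.1 i| ≤ K := fun i =>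
    ((norm_le_pi_norm c.1 i).trans (norm_fst_le c)).trans hc
  have hc2 : ∀ i a, |c.2 i a| ≤ K := fun i a =>
    (((norm_le_pi_norm (c.2 i) a).trans (norm_le_pi_norm c.2 i)).trans (norm_snd_le c)).trans hc
  have hd0 : 0 ≤ |t - u| := abs_nonneg _
  have hR : 0 ≤ 3 * K * |t - u| + 3 * ρ := by positivity
  rw [pi_norm_le_iff_of_nonneg hR]
  intro i
  rw [Real.norm_eq_abs, Pi.sub_apply]
  refine Fin.cases ?_ (fun i' => Fin.cases ?_ (fun a => ?_) i') i
  · -- the signal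
    show |k5_x c t - k5_x c' u| ≤ _
    unfold k5_x
    have e : c.1 0 + t * c.1 1 + t ^ 2 * c.1 2 - (c'.1 0 + u * c'.1 1 + u ^ 2 * c'.1 2)
        = (t - u) * c.1 1 + (t - u) * ((t + u) * c.1 2) + (c.1 0 - c'.1 0) + u * (c.1 1 - c'.1 1) + u ^ 2 * (c.1 2 - c'.1 2) := by ring
    rw [e]
    have a1 : |(t - u) * c.1 1| ≤ |t - u| * K := by
      rw [abs_mul]; exact mul_le_mul_of_nonneg_left (hc1 1) hd0
    have a2 : |(t - u) * ((t + u) * c.1 2)| ≤ |t - u| * (2 * K) := by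
      rw [abs_mul, abs_mul]
      refine mul_le_mul_of_nonneg_left ?_ hd0
      have : |t + u| ≤ 2 := by rw [abs_le]; constructor <;> linarith
      exact mul_le_mul this (hc1 2) (abs_nonneg _) (by norm_num)
    have a3 : |u * (c.1 1 - c'.1 1)| ≤ ρ := by
      rw [abs_mul, abs_of_nonneg hu0]
      calc u * |c.1 1 - c'.1 1| ≤ 1 * ρ := mul_le_mul hu1 (hb1 1) (abs_nonneg _) (by norm_num)
        _ = ρ := one_mul _
    have a4 : |u ^ 2 * (c.1 2 - c'.1 2)| ≤ ρ := by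
      rw [abs_mul, abs_of_nonneg (sq_nonneg u)]
      have : u ^ 2 ≤ 1 := by nlinarith
      calc u ^ 2 * |c.1 2 - c'.1 2| ≤ 1 * ρ := mul_le_mul this (hb1 2) (abs_nonneg _) (by norm_num)
        _ = ρ := one_mul _
    have := abs_add_le ((t - u) * c.1 1 + (t - u) * ((t + u) * c.1 2) + (c.1 0 - c'.1 0) + u * (c.1 1 - c'.1 1)) (u ^ 2 * (c.1 2 - c'.1 2))
    have := abs_add_le ((t - u) * c.1 1 + (t - u) * ((t + u) * c.1 2) + (c.1 0 - c'.1 0)) (u * (c.1 1 - c'.1 1))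
    have := abs_add_le ((t - u) * c.1 1 + (t - u) * ((t + u) * c.1 2)) (c.1 0 - c'.1 0)
    have := abs_add_le ((t - u) * c.1 1) ((t - u) * ((t + u) * c.1 2))
    have := hb1 0
    linarith
  · -- the time
    show |t - u| ≤ _
    nlinarith
  · -- the tangential signal
    show |k5_y c t a - k5_y c' u a| ≤ _
    unfold k5_y
    have e : c.2 0 a + t * c.2 1 a - (c'.2 0 a + u * c'.2 1 a)
        = (t - u) * c.2 1 a + (c.2 0 a - c'.2 0 a) + u * (c.2 1 a - c'.2 1 a) := by ring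
    rw [e]
    have a1 : |(t - u) * c.2 1 a| ≤ |t - u| * K := by
      rw [abs_mul]; exact mul_le_mul_of_nonneg_left (hc2 1 a) hd0
    have a3 : |u * (c.2 1 a - c'.2 1 a)| ≤ ρ := by
      rw [abs_mul, abs_of_nonneg hu0]
      calc u * |c.2 1 a - c'.2 1 a| ≤ 1 * ρ := mul_le_mul hu1 (hb2 1 a) (abs_nonneg _) (by norm_num)
        _ = ρ := one_mul _
    have := abs_add_le ((t - u) * c.2 1 a + (c.2 0 a - c'.2 0 a)) (u * (c.2 1 a - c'.2 1 a))
    have := abs_add_le ((t - u) * c.2 1 a) (c.2 0 a - c'.2 0 a)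
    have := hb2 0 a
    nlinarith

/-! ### F5 -/

theorem k6a3_count_interp_anti {L : ℕ} {s : ℕ → ℝ} (h : ∀ i < L, s (i + 1) ≤ s i) {a b : ℕ} (hab : a ≤ b) (hb : b ≤ L) :
    s b ≤ s a := by
  induction b, hab using Nat.le_induction with
  | base => exact le_rfl
  | succ n _ ih => exact (h n (by omega)).trans (ih (by omega))

/-- an `s'`-cell meets at most two `q`-cells (`s' ≤ q`) -/
theorem k6a3_count_interp_two {x s' q : ℝ} (hs : 0 < s') (hsq : s' ≤ q) :
    ⌊x / q⌋ = ⌊(⌊x / s'⌋ : ℝ) * s' / q⌋ ∨ ⌊x / q⌋ = ⌊(⌊x / s'⌋ : ℝ) * s' / q⌋ + 1 := by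
  have hq : 0 < q := lt_of_lt_of_le hs hsq
  set σ : ℤ := ⌊x / s'⌋ with hσ
  have h1 : (σ : ℝ) * s' ≤ x := by
    have := Int.floor_le (x / s')
    rwa [le_div_iff₀ hs] at this
  have h2 : x < ((σ : ℝ) + 1) * s' := by
    have := Int.lt_floor_add_one (x / s')
    rwa [div_lt_iff₀ hs] at this
  set τ : ℤ := ⌊(σ : ℝ) * s' / q⌋ with hτ
  have h3 : (τ : ℝ) ≤ (σ : ℝ) * s' / q := Int.floor_le _
  have h4 : (σ : ℝ) * s' / q < τ + 1 := Int.lt_floor_add_one _
  have h5 : τ ≤ ⌊x / q⌋ := by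
    rw [Int.le_floor]
    exact h3.trans (div_le_div_of_nonneg_right h1 hq.le)
  have h6 : ⌊x / q⌋ < τ + 2 := by
    rw [Int.floor_lt]
    push_cast
    have : x / q < (σ : ℝ) * s' / q + 1 := by
      rw [div_lt_iff₀ hq, add_mul, div_mul_cancel₀ _ hq.ne']
      nlinarith
    linarith
  omega

theorem k6a3_count_interp : k6a3_count_interp_stmt := by
  intro 𝒜 L s A Kc d ζ hA hd0 hd1 hKc hgrid hyp q r x₀ hζq hqr hr1
  classical
  obtain ⟨s0, sL, spos, santi, srat⟩ := hgrid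
  have hζ : 0 < ζ := sL ▸ spos L le_rfl
  have hq : 0 < q := lt_of_lt_of_le hζ hζq
  have hr : 0 < r := lt_of_lt_of_le hq hqr
  -- the index `i`
  set i := Nat.findGreatest (fun i => r ≤ s i) L with hi
  have hiL : i ≤ L := Nat.findGreatest_le L
  have hri : r ≤ s i := Nat.findGreatest_spec (P := fun i => r ≤ s i) (Nat.zero_le L) (by rw [s0]; exact hr1)
  have hiA : s i ≤ A * r := by
    rcases hiL.eq_or_lt with e | hlt
    · rw [e, sL]
      nlinarith
    · have : ¬ r ≤ s (i + 1) := Nat.findGreatest_is_greatest (P := fun i => r ≤ s i) (Nat.lt_succ_self i) hlt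
      push Not at this
      exact (srat i hlt).trans (mul_le_mul_of_nonneg_left this.le (by linarith))
  -- the index `i'`
  have hex : ∃ k, s k ≤ q := ⟨L, by rw [sL]; exact hζq⟩
  set i' := Nat.find hex with hi'
  have hi'L : i' ≤ L := Nat.find_min' hex (by rw [sL]; exact hζq)
  have hsi' : s i' ≤ q := Nat.find_spec hex
  have hqA : q ≤ A * s i' := by
    rcases Nat.eq_zero_or_pos i' with e | hpos
    · rw [e, s0]
      nlinarith
    · have : ¬ s (i' - 1) ≤ q := Nat.find_min hex (by omega)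
      push Not at this
      have h1 := srat (i' - 1) (by omega)
      rw [Nat.sub_add_cancel hpos] at h1
      linarith
  -- the pair of indices
  obtain ⟨i₁, h11, h12, h13⟩ : ∃ i₁, i₁ ≤ i' ∧ r ≤ s i₁ ∧ s i₁ ≤ A * r := by
    rcases le_total i i' with h | h
    · exact ⟨i, h, hri, hiA⟩
    · refine ⟨i', le_rfl, hri.trans (k6a3_count_interp_anti santi h hiL), ?_⟩
      nlinarith
  have hs' : 0 < s i' := spos i' hi'L
  obtain ⟨T, hT, hmem⟩ := hyp i₁ i' h11 hi'L x₀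
  refine ⟨T.biUnion fun σ => {⌊(σ : ℝ) * s i' / q⌋, ⌊(σ : ℝ) * s i' / q⌋ + 1}, ?_, ?_⟩
  · have hcard : (T.biUnion fun σ : ℤ => ({⌊(σ : ℝ) * s i' / q⌋, ⌊(σ : ℝ) * s i' / q⌋ + 1} : Finset ℤ)).card ≤ T.card * 2 :=
      Finset.card_biUnion_le_card_mul _ _ _ fun σ _ => Finset.card_le_two
    have h1 : ((T.biUnion fun σ : ℤ => ({⌊(σ : ℝ) * s i' / q⌋, ⌊(σ : ℝ) * s i' / q⌋ + 1} : Finset ℤ)).card : ℝ) ≤ (T.card : ℝ) * 2 := by
      exact_mod_cast hcard
    have h2 : s i₁ / s i' ≤ A ^ 2 * (r / q) := by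
      rw [div_le_iff₀ hs']
      have e : A ^ 2 * (r / q) * s i' = A * r * (A * s i') / q := by field_simp
      rw [e, le_div_iff₀ hq]
      exact mul_le_mul h13 hqA hq.le (by positivity)
    have h3 : (s i₁ / s i') ^ d ≤ A ^ 2 * (r / q) ^ d := by
      have hs1 : 0 < s i₁ := lt_of_lt_of_le hr h12
      calc (s i₁ / s i') ^ d ≤ (A ^ 2 * (r / q)) ^ d := Real.rpow_le_rpow (by positivity) h2 hd0
        _ = (A ^ 2) ^ d * (r / q) ^ d := Real.mul_rpow (by positivity) (by positivity)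
        _ ≤ A ^ 2 * (r / q) ^ d := by
          refine mul_le_mul_of_nonneg_right ?_ (by positivity)
          calc (A ^ 2) ^ d ≤ (A ^ 2) ^ (1 : ℝ) := Real.rpow_le_rpow_of_exponent_le (by nlinarith) hd1
            _ = A ^ 2 := Real.rpow_one _
    have h4 := mul_le_mul_of_nonneg_left h3 hKc
    nlinarith
  · intro x hx hx1 hx2
    have hσ := hmem x hx hx1 (by linarith)
    refine Finset.mem_biUnion.2 ⟨_, hσ, ?_⟩
    rw [Finset.mem_insert, Finset.mem_singleton]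
    exact k6a3_count_interp_two hs' hsi'

/-! ### E3 -/

theorem k6a3_stages_strips_mono {m : ℕ} {Ω D₀ : Type} {R R' : Set Ω} {st : Ω → D₀} {Z : D₀ → Fin (m + 1) → ℝ}
    {GC : (Fin (m + 1) → ℤ) → Fin m → ℝ} {ρ p r Kc Kc' : ℝ} (h : k6a3_Strips R st Z GC ρ p r Kc) (hR : R' ⊆ R)
    (hK : Kc ≤ Kc') : k6a3_Strips R' st Z GC ρ p r Kc' := by
  intro n x₀
  obtain ⟨T, hT, hm⟩ := h n x₀
  exact ⟨T, hT.trans hK, fun e he => hm e (hR he)⟩

theorem k6a3_stages_supp_nonneg {j : ℕ} {Λ : Type} {c : Λ → k5_Co j} {R : Set (Λ × ℝ)} {r p Ks : ℝ}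
    (h : k6a3_Supp c R r p Ks) : 0 ≤ Ks := by
  obtain ⟨T, hT, -⟩ := h 0
  exact (Nat.cast_nonneg _).trans hT

theorem k6a3_stages (hstage : k6a3_stage_stmt) : k6a3_stages_stmt := by
  intro j ε hj hε
  obtain ⟨C₀, hC₀, hst⟩ := hstage j ε hj hε
  refine ⟨2 * C₀, by positivity, ?_⟩
  intro Λ D₀ _ _ ν c R₀ st Z G GC K K₂ b eg ρ w K₁ n ps hgeo hK hK₂ hb hρ1 hw hw1 hK₁ hps
  set η : ℝ := 1 / (2 * (n : ℝ)) with hη
  set a : ℝ := C₀ * K / (η * K₁) with ha
  have key : ∀ m, m ≤ n → ∃ R' : Set (Λ × ℝ), MeasurableSet R' ∧ R' ⊆ R₀ ∧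
      (ν.prod volume) (R₀ \ R') ≤ ENNReal.ofReal ((m : ℝ) * a) ∧ k6a3_Kept ν R₀ R' st ((m : ℝ) * η) ∧
      ∀ i < m, ∀ r Ks : ℝ, ps i ≤ r → r ≤ ρ → k6a3_Supp c R₀ r (ps i) Ks →
        k6a3_Strips R' st Z GC ρ (ps i) r (C₀ * (K * K₁ / w) ^ C₀ * (ρ / ps i) ^ ε * Ks * (ps i / r) ^ (j + 1)) := by
    intro m
    induction m with
    | zero =>
      intro _
      refine ⟨R₀, hgeo.mR, subset_rfl, by simp, ?_, fun i hi => absurd hi (Nat.not_lt_zero i)⟩
      intro d _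
      simp
    | succ m ih =>
      intro hm
      obtain ⟨R, hRm, hRs, hRμ, hRk, hRstr⟩ := ih (by omega)
      have hn : (0 : ℝ) < n := by
        have : 0 < n := by omega
        exact_mod_cast this
      have hη0 : 0 < η := by rw [hη]; positivity
      have ha0 : 0 ≤ a := by rw [ha]; positivity
      obtain ⟨p1, p2, p3, p4⟩ := hps m (by omega)
      have hθ : (m : ℝ) * η + η ≤ 1 / 2 := by
        have h1 : ((m : ℝ) + 1) ≤ n := by exact_mod_cast hm
        have e : (m : ℝ) * η + η = ((m : ℝ) + 1) / (2 * n) := by rw [hη]; ring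
        rw [e, div_le_iff₀ (by positivity)]
        linarith
      obtain ⟨R', hR'm, hR's, hR'μ, hR'k, hR'str⟩ := hst ν c R₀ R st Z G GC K K₂ b eg ρ w (ps m) K₁ η ((m : ℝ) * η)
        hgeo hRm hRs hK hK₂ hb p1 p2 p3 hρ1 hw hw1 hK₁ hη0 (by positivity) hθ p4 hRk
      refine ⟨R', hR'm, hR's.trans hRs, ?_, ?_, ?_⟩
      · have hsub : R₀ \ R' ⊆ (R₀ \ R) ∪ (R \ R') := by
          intro e he
          by_cases h : e ∈ R
          · exact Or.inr ⟨h, he.2⟩
          · exact Or.inl ⟨he.1, h⟩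
        calc (ν.prod volume) (R₀ \ R') ≤ (ν.prod volume) (R₀ \ R) + (ν.prod volume) (R \ R') :=
              (measure_mono hsub).trans (measure_union_le _ _)
          _ ≤ ENNReal.ofReal ((m : ℝ) * a) + ENNReal.ofReal a := add_le_add hRμ hR'μ
          _ = ENNReal.ofReal ((m : ℝ) * a + a) := (ENNReal.ofReal_add (by positivity) ha0).symm
          _ = ENNReal.ofReal (((m + 1 : ℕ) : ℝ) * a) := by congr 1; push_cast; ring
      · have e : ((m + 1 : ℕ) : ℝ) * η = (m : ℝ) * η + η := by push_cast; ring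
        rw [e]
        exact hR'k
      · intro i hi r Ks h1 h2 h3
        rcases Nat.lt_succ_iff_lt_or_eq.1 hi with h | h
        · exact k6a3_stages_strips_mono (hRstr i h r Ks h1 h2 h3) hR's le_rfl
        · subst h
          exact hR'str r Ks h1 h2 h3
  obtain ⟨R', h1, h2, h3, -, h5⟩ := key n le_rfl
  refine ⟨R', h1, h2, h3.trans (ENNReal.ofReal_le_ofReal (le_of_eq ?_)), ?_⟩
  · rcases Nat.eq_zero_or_pos n with h0 | h0
    · subst h0; simp
    · have hn : (0 : ℝ) < n := by exact_mod_cast h0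
      rw [ha, hη]
      field_simp
  · intro i hi r Ks g1 g2 g3
    obtain ⟨p1, p2, p3, p4⟩ := hps i hi
    refine k6a3_stages_strips_mono (h5 i hi r Ks g1 g2 g3) subset_rfl ?_
    have hKs := k6a3_stages_supp_nonneg g3
    have hρ : 0 < ρ := lt_of_lt_of_le p2 p3
    have hr : 0 < r := lt_of_lt_of_le p2 g1
    have hX : 1 ≤ K * K₁ / w := by
      rw [le_div_iff₀ hw]
      nlinarith
    have hpow : (K * K₁ / w) ^ C₀ ≤ (K * K₁ / w) ^ (2 * C₀) :=
      Real.rpow_le_rpow_of_exponent_le hX (by linarith)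
    have hpos : 0 ≤ (K * K₁ / w) ^ C₀ := by positivity
    have h6 : C₀ * (K * K₁ / w) ^ C₀ ≤ 2 * C₀ * (K * K₁ / w) ^ (2 * C₀) := by nlinarith
    have h7 : 0 ≤ (ρ / ps i) ^ ε := by positivity
    have h8 : 0 ≤ (ps i / r) ^ (j + 1) := by positivity
    exact mul_le_mul_of_nonneg_right (mul_le_mul_of_nonneg_right (mul_le_mul_of_nonneg_right h6 h7) hKs) h8

end Claimed.Agent.R252
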