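/-
row252, unit S6a3, leaf L-252-S6a3-ZSUPP (helper134): F7, the scalar-normal support bound of the zoom, from F5 and F6.
-/
import Claimed.Agent.R252.S6a.StripContract

set_option autoImplicit false

namespace Claimed.Agent.R252

/-- a grid is decreasing -/
theorem k6a3_zoom_supp_mono (L : ℕ) (s : ℕ → ℝ) (h : ∀ i < L, s (i + 1) ≤ s i) : ∀ k i, i + k ≤ L → s (i + k) ≤ s i := by
  intro k
  induction k with
  | zero => intro i _; exact le_rfl
  | succ k ih =>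
    intro i hi
    exact (h (i + k) (by omega)).trans (ih i (by omega))

theorem k6a3_zoom_supp (h5 : k6a3_count_interp_stmt) (h6 : k6a3_zoom_supp_grid_stmt) : k6a3_zoom_supp_stmt := by
  intro j
  obtain ⟨C₆, hC₆, H6⟩ := h6 j
  refine ⟨2 * C₆, by positivity, ?_⟩
  intro Λ D₀ c R st Z G GC β t f K K₂ b ρ ζ A d Kc L s hK hK₂ hb0 hb hρ ht0 ht1 hKc hA hd0 hd1 hgrid hcK hctr hrow hGC hf hsmall hstrips
  obtain ⟨g0, gL, gpos, gmono, gA⟩ := hgrid
  have hmono : ∀ i i', i ≤ i' → i' ≤ L → s i' ≤ s i := by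
    intro i i' h1 h2
    have := k6a3_zoom_supp_mono L s gmono (i' - i) i (by omega)
    rwa [show i + (i' - i) = i' by omega] at this
  have key := h5 {x | ∃ l, (l, t) ∈ R ∧ k5_cbin ρ (c l) = β ∧ x = k5_S f (k6a3_zm ρ β (c l)) t} L s A (C₆ * Kc) d ζ hA hd0 hd1 (by positivity)
    ⟨g0, gL, gpos, gmono, gA⟩ ?_
  · intro q r a hq hqr hr
    obtain ⟨T, hTc, hT⟩ := key q r a hq hqr hr
    refine ⟨T, hTc.trans (le_of_eq (by ring)), ?_⟩
    intro l hl h1 h2
    obtain ⟨hlR, hlβ⟩ : (l, t) ∈ R ∧ k5_cbin ρ (c l) = β := hl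
    have e : k6a3_zc c ρ β l = k6a3_zm ρ β (c l) := by
      unfold k6a3_zc
      rw [if_pos hlβ]
    rw [e] at h1 h2 ⊢
    exact hT _ ⟨l, hlR, hlβ, rfl⟩ h1 h2
  · intro i i' hii hi' x₀
    have hsi : 0 < s i := gpos i (hii.trans hi')
    have hsi' : 0 < s i' := gpos i' hi'
    have hζ : ζ ≤ s i' := by
      rw [← gL]
      exact hmono i' L hi' le_rfl
    obtain ⟨T, hTc, hT⟩ := H6 c R st Z G GC β t f K K₂ b ρ (ρ * s i') (ρ * s i) (Kc * (s i / s i') ^ d) hK hK₂ hb0 hb hρ (by positivity)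
      (mul_le_mul_of_nonneg_left (hmono i i' hii hi') hρ.le) ht0 ht1 (by positivity) hcK hctr hrow hGC hf
      (hsmall.trans (mul_le_mul_of_nonneg_left hζ hρ.le)) (hstrips i i' hii hi') (ρ * x₀)
    refine ⟨T, hTc.trans (le_of_eq (by ring)), ?_⟩
    rintro x ⟨l, hlR, hlβ, rfl⟩ h1 h2
    have := hT l hlR hlβ (mul_le_mul_of_nonneg_left h1 hρ.le) (by nlinarith)
    rwa [mul_div_mul_left _ _ hρ.ne'] at this

end Claimed.Agent.R252
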