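/-
row252, unit S6a3, leaf L-252-S6a3-ZSUPPGRID (helper210): F6, the scalar `ρ (x - f ỹ)` of the zoom at ONE time against the strip
coordinates of the `≤ 11^(j+2)` nearby cubes (06-isotropic.tex l.681-690).
ASSEMBLY of `k6a3_zm_alg_stmt` (F1), `k6a3_block_dist_stmt` (F2), `k6a3_count_transfer_stmt` (F4), taken as hypotheses.
-/
import Claimed.Agent.R252.S6a.StripContract
import Claimed.Agent.R252.S6a.K3Pairs

set_option autoImplicit false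

namespace Claimed.Agent.R252

/-- floors of two numbers at distance `≤ 5` -/
theorem k6a3_zoom_supp_grid_floor (x y : ℝ) (h : |x - y| ≤ 5) : ⌊x⌋ - ⌊y⌋ ∈ Finset.Icc (-5 : ℤ) 5 := by
  have hx1 := Int.floor_le x
  have hx2 := Int.lt_floor_add_one x
  have hy1 := Int.floor_le y
  have hy2 := Int.lt_floor_add_one y
  obtain ⟨h1, h2⟩ := abs_le.1 h
  have a1 : ((⌊x⌋ : ℤ) : ℝ) < ((⌊y⌋ + 6 : ℤ) : ℝ) := by
    push_cast
    linarith
  have a2 : ((⌊y⌋ : ℤ) : ℝ) < ((⌊x⌋ + 6 : ℤ) : ℝ) := by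
    push_cast
    linarith
  have b1 : ⌊x⌋ < ⌊y⌋ + 6 := by exact_mod_cast a1
  have b2 : ⌊y⌋ < ⌊x⌋ + 6 := by exact_mod_cast a2
  rw [Finset.mem_Icc]
  constructor <;> omega

/-- cube indices of two points at distance `≤ 5 ρ` -/
theorem k6a3_zoom_supp_grid_cell {D : ℕ} (ρ : ℝ) (hρ : 0 < ρ) (P P' : Fin D → ℝ) (h : ‖P - P'‖ ≤ 5 * ρ) :
    k6a_cell ρ P - k6a_cell ρ P' ∈ Fintype.piFinset fun _ : Fin D => Finset.Icc (-5 : ℤ) 5 := by
  rw [Fintype.mem_piFinset]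
  intro i
  refine k6a3_zoom_supp_grid_floor _ _ ?_
  have h1 : |(P - P') i| ≤ 5 * ρ := (norm_le_pi_norm (P - P') i).trans h
  rw [← sub_div, abs_div, abs_of_pos hρ, div_le_iff₀ hρ]
  exact h1

/-- the algebraic identity of l.681-690 -/
theorem k6a3_zoom_supp_grid_id {j : ℕ} (f : Fin j → ℝ) (g : Fin (j + 1) → ℝ) (c c' cr : k5_Co j) (ρ t : ℝ)
    (hx : ρ * k5_x c' t = k5_x c t - ρ * k5_x cr t) (hy : ∀ a, ρ * k5_y c' t a = k5_y c t a - ρ * k5_y cr t a) :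
    ρ * k5_S f c' t - k6a3_nrm g (k6a3_W c t) - (-(ρ * k5_x cr t) + g 0 * t + k6a3_gy g ⬝ᵥ (fun a => ρ * k5_y cr t a))
      = (k6a3_gy g - f) ⬝ᵥ (fun a => ρ * k5_y c' t a) := by
  have e1 : k6a3_nrm g (k6a3_W c t) = k5_x c t - (g 0 * t + k6a3_gy g ⬝ᵥ k5_y c t) := by
    unfold k6a3_nrm k6a3_W k6a3_z k6a3_gy dotProduct
    rw [Fin.sum_univ_succ]
    simp [Fin.tail]
  have e2 : k5_y c t = (fun a => ρ * k5_y c' t a) + fun a => ρ * k5_y cr t a := by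
    ext a
    simp [hy a]
  have e3 : ρ * k5_S f c' t = ρ * k5_x c' t - f ⬝ᵥ (fun a => ρ * k5_y c' t a) := by
    unfold k5_S
    rw [mul_sub]
    congr 1
    unfold dotProduct
    rw [Finset.mul_sum]
    exact Finset.sum_congr rfl fun a _ => by ring
  rw [e1, e3, hx, e2, dotProduct_add, sub_dotProduct]
  ring

/-- the error term of the identity -/
theorem k6a3_zoom_supp_grid_err {j : ℕ} (f : Fin j → ℝ) (g g' : Fin (j + 1) → ℝ) (c' : k5_Co j) (K₂ ρ t : ℝ) (hK₂ : 0 ≤ K₂)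
    (hρ : 0 < ρ) (ht0 : 0 ≤ t) (ht1 : t ≤ 1) (hc' : ‖c'‖ ≤ 1) (h1 : ‖g' - g‖ ≤ K₂ * ρ) (h2 : ‖f - k6a3_gy g'‖ ≤ K₂ * ρ) :
    |(k6a3_gy g - f) ⬝ᵥ (fun a => ρ * k5_y c' t a)| ≤ 4 * j * K₂ * ρ ^ 2 := by
  have h3 := k6a3_pairs_count_dot (k6a3_gy g - f) (fun a => ρ * k5_y c' t a) (2 * (K₂ * ρ)) (2 * ρ) (by positivity) ?_ ?_
  · calc _ ≤ _ := h3
      _ = _ := by ring
  · intro a
    have a1 : |(g' - g) a.succ| ≤ K₂ * ρ := (norm_le_pi_norm (g' - g) a.succ).trans h1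
    have a2 : |(f - k6a3_gy g') a| ≤ K₂ * ρ := (norm_le_pi_norm (f - k6a3_gy g') a).trans h2
    have e : (k6a3_gy g - f) a = -((g' - g) a.succ) - (f - k6a3_gy g') a := by
      simp only [k6a3_gy, Fin.tail, Pi.sub_apply]
      ring
    rw [e]
    rw [abs_le] at a1 a2 ⊢
    constructor <;> linarith [a1.1, a1.2, a2.1, a2.2]
  · intro a
    obtain ⟨-, hc2⟩ := k6a3_pairs_count_co c' 1 hc'
    rw [abs_mul, abs_of_pos hρ, mul_comm]
    refine mul_le_mul_of_nonneg_right ?_ hρ.le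
    have b0 := abs_le.1 (hc2 0 a)
    have b1 := abs_le.1 (hc2 1 a)
    unfold k5_y
    rw [abs_le]
    constructor <;> nlinarith [b0.1, b0.2, b1.1, b1.2]

theorem k6a3_zoom_supp_grid (h1 : k6a3_zm_alg_stmt) (h2 : k6a3_block_dist_stmt) (h4 : k6a3_count_transfer_stmt) :
    k6a3_zoom_supp_grid_stmt := by
  intro j
  refine ⟨12 * 11 ^ (j + 2), by positivity, ?_⟩
  intro Λ D₀ c R st Z G GC β t f K K₂ b ρ p r Kc hK hK₂ hb0 hb hρ hp hpr ht0 ht1 hKc hcb hctr hrow hGC hf herr hstr x₀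
  classical
  have hK0 : 0 ≤ K := by linarith
  by_cases hne : ∃ l₀, (l₀, t) ∈ R ∧ k5_cbin ρ (c l₀) = β
  swap
  · refine ⟨∅, ?_, fun l hl hβ => absurd ⟨l, hl, hβ⟩ hne⟩
    simp only [Finset.card_empty, Nat.cast_zero]
    positivity
  obtain ⟨l₀, hl₀, hβ₀⟩ := hne
  -- one cube
  have hcube : ∀ n : Fin (j + 2) → ℤ, ∃ T : Finset ℤ, (T.card : ℝ) ≤ 12 * Kc ∧
      ∀ l ∈ {l | (l, t) ∈ R ∧ k5_cbin ρ (c l) = β ∧ k6a_cell ρ (Z (st (l, t))) = n},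
        x₀ ≤ ρ * k5_S f (k6a3_zm ρ β (c l)) t → ρ * k5_S f (k6a3_zm ρ β (c l)) t ≤ x₀ + r →
          ⌊ρ * k5_S f (k6a3_zm ρ β (c l)) t / p⌋ ∈ T := by
    intro n
    refine h4 {l | (l, t) ∈ R ∧ k5_cbin ρ (c l) = β ∧ k6a_cell ρ (Z (st (l, t))) = n}
      (fun l => ρ * k5_S f (k6a3_zm ρ β (c l)) t) (fun l => k6a3_nrm (GC n) (Z (st (l, t))))
      (-(ρ * k5_x (k6a3_cr β) t) + GC n 0 * t + k6a3_gy (GC n) ⬝ᵥ (fun a => ρ * k5_y (k6a3_cr β) t a))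
      (4 * j * K₂ * ρ ^ 2 + (1 + (j + 1) * K) * b) p r Kc hp hpr herr ?_ ?_ x₀
    · rintro l ⟨hl, hβ, hn⟩
      obtain ⟨hx, hy, -, -, hnorm, -, -⟩ := h1 j ρ β (c l) hρ
      have e1 := k6a3_zoom_supp_grid_id f (GC n) (c l) (k6a3_zm ρ β (c l)) (k6a3_cr β) ρ t (hx t) (hy t)
      have hrow' : ‖G (st (l, t)) - GC n‖ ≤ K₂ * ρ := by
        have := hrow (l, t) hl
        rwa [hn] at this
      have e2 := k6a3_zoom_supp_grid_err f (GC n) (G (st (l, t))) (k6a3_zm ρ β (c l)) K₂ ρ t hK₂ hρ ht0 ht1 (hnorm hβ) hrow' (hf l hl hβ)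
      have e3 := k6a3_pairs_count_nrm (GC n) (k6a3_W (c l) t) (Z (st (l, t))) K b hK0 (hGC n) (hctr (l, t) hl)
      push_cast at e3
      rw [← e1] at e2
      show |ρ * k5_S f (k6a3_zm ρ β (c l)) t - k6a3_nrm (GC n) (Z (st (l, t)))
        - (-(ρ * k5_x (k6a3_cr β) t) + GC n 0 * t + k6a3_gy (GC n) ⬝ᵥ (fun a => ρ * k5_y (k6a3_cr β) t a))| ≤ _
      rw [abs_le] at e2 e3 ⊢
      constructor <;> linarith [e2.1, e2.2, e3.1, e3.2]
    · intro y₀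
      obtain ⟨T, hT1, hT2⟩ := hstr n y₀
      exact ⟨T, hT1, fun l hl a1 a2 => hT2 (l, t) hl.1 hl.2.2 a1 a2⟩
  choose Tn hTn1 hTn2 using hcube
  refine ⟨(Fintype.piFinset fun _ : Fin (j + 2) => Finset.Icc (-5 : ℤ) 5).biUnion
    fun δ => Tn (δ + k6a_cell ρ (Z (st (l₀, t)))), ?_, ?_⟩
  · have hc1 : ((Fintype.piFinset fun _ : Fin (j + 2) => Finset.Icc (-5 : ℤ) 5).card : ℝ) = 11 ^ (j + 2) := by
      rw [Fintype.card_piFinset]
      simp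
    calc (((Fintype.piFinset fun _ : Fin (j + 2) => Finset.Icc (-5 : ℤ) 5).biUnion
          fun δ => Tn (δ + k6a_cell ρ (Z (st (l₀, t))))).card : ℝ)
        ≤ ((∑ δ ∈ Fintype.piFinset fun _ : Fin (j + 2) => Finset.Icc (-5 : ℤ) 5, (Tn (δ + k6a_cell ρ (Z (st (l₀, t))))).card : ℕ) : ℝ) := by
          exact_mod_cast Finset.card_biUnion_le
      _ = ∑ δ ∈ Fintype.piFinset fun _ : Fin (j + 2) => Finset.Icc (-5 : ℤ) 5, ((Tn (δ + k6a_cell ρ (Z (st (l₀, t))))).card : ℝ) := by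
          push_cast
          rfl
      _ ≤ ∑ _δ ∈ Fintype.piFinset fun _ : Fin (j + 2) => Finset.Icc (-5 : ℤ) 5, 12 * Kc := Finset.sum_le_sum fun δ _ => hTn1 _
      _ = 12 * 11 ^ (j + 2) * Kc := by
          rw [Finset.sum_const, nsmul_eq_mul, hc1]
          ring
  · intro l hl hβ a1 a2
    have hd : ‖Z (st (l, t)) - Z (st (l₀, t))‖ ≤ 5 * ρ := by
      have d1 := h2 j (c l) (c l₀) K ρ t t hρ hK (hcb (l, t) hl) (hβ.trans hβ₀.symm) ht0 ht1 ht0 ht1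
      rw [sub_self, abs_zero, mul_zero, zero_add] at d1
      have d2 : ‖k6a3_W (c l) t - Z (st (l, t))‖ ≤ b := hctr (l, t) hl
      have d3 : ‖k6a3_W (c l₀) t - Z (st (l₀, t))‖ ≤ b := hctr (l₀, t) hl₀
      have e : Z (st (l, t)) - Z (st (l₀, t)) = -(k6a3_W (c l) t - Z (st (l, t))) + (k6a3_W (c l) t - k6a3_W (c l₀) t)
          + (k6a3_W (c l₀) t - Z (st (l₀, t))) := by abel
      rw [e]
      refine (norm_add_le _ _).trans ?_
      have d4 := norm_add_le (-(k6a3_W (c l) t - Z (st (l, t)))) (k6a3_W (c l) t - k6a3_W (c l₀) t)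
      rw [norm_neg] at d4
      linarith
    have hδ := k6a3_zoom_supp_grid_cell ρ hρ _ _ hd
    rw [Finset.mem_biUnion]
    refine ⟨_, hδ, hTn2 _ l ⟨hl, hβ, ?_⟩ a1 a2⟩
    rw [sub_add_cancel]

end Claimed.Agent.R252
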