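import Claimed.Agent.R252.S6a.StripContract

/-!
# Row 252, S6a3, leaf L-252-S6a3-ZMALG (prover helper187): F1, the algebra of the parameter zoom.   `k6a3_zm_alg : k6a3_zm_alg_stmt`.   NO SORRY.
-/

set_option autoImplicit false

namespace Claimed.Agent.R252

theorem k6a3_zmalg_x {j : ℕ} {ρ : ℝ} (hρ : 0 < ρ) (β : (Fin 3 → ℤ) × (Fin 2 → Fin j → ℤ)) (c : k5_Co j) (t : ℝ) :
    ρ * k5_x (k6a3_zm ρ β c) t = k5_x c t - ρ * k5_x (k6a3_cr β) t := by
  simp only [k5_x, k6a3_zm, k6a3_cr]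
  field_simp
  ring

theorem k6a3_zmalg_y {j : ℕ} {ρ : ℝ} (hρ : 0 < ρ) (β : (Fin 3 → ℤ) × (Fin 2 → Fin j → ℤ)) (c : k5_Co j) (t : ℝ) (a : Fin j) :
    ρ * k5_y (k6a3_zm ρ β c) t a = k5_y c t a - ρ * k5_y (k6a3_cr β) t a := by
  simp only [k5_y, k6a3_zm, k6a3_cr]
  field_simp
  ring

theorem k6a3_zmalg_fract {ρ x : ℝ} {b : ℤ} (h : ⌊x / ρ⌋ = b) : |x / ρ - b| ≤ 1 := by
  rw [← h]
  have h1 := Int.floor_le (x / ρ)
  have h2 := Int.lt_floor_add_one (x / ρ)
  rw [abs_le]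
  constructor <;> linarith

theorem k6a3_zmalg_floor {ρ : ℝ} (hρ : 0 < ρ) (x : ℝ) (b : ℤ) (i : ℕ) :
    ⌊(x / ρ - b) / (1 / 2 : ℝ) ^ i⌋ = ⌊x / (ρ * (1 / 2 : ℝ) ^ i)⌋ - 2 ^ i * b := by
  have e : (x / ρ - b) / (1 / 2 : ℝ) ^ i = x / (ρ * (1 / 2 : ℝ) ^ i) - ((2 ^ i * b : ℤ) : ℝ) := by
    push_cast
    have h4 : ((1 / 2 : ℝ) ^ i)⁻¹ = 2 ^ i := by
      rw [← inv_pow]
      norm_num
    rw [div_eq_mul_inv (x / ρ - b), h4, div_eq_mul_inv x (ρ * (1 / 2 : ℝ) ^ i), mul_inv, h4, div_eq_mul_inv]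
    ring
  rw [e, Int.floor_sub_intCast]

theorem k6a3_zm_alg : k6a3_zm_alg_stmt := by
  intro j ρ β c hρ
  refine ⟨k6a3_zmalg_x hρ β c, k6a3_zmalg_y hρ β c, ?_, ?_, ?_, ?_, ?_⟩
  · intro t
    simp only [k5_xD, k6a3_zm, k6a3_cr]
    field_simp
    ring
  · intro a
    simp only [k5_yd, k6a3_zm, k6a3_cr]
    field_simp
  · intro h
    have h1 : ∀ i, ⌊c.1 i / ρ⌋ = β.1 i := fun i => congrFun (congrArg Prod.fst h) i
    have h2 : ∀ i a, ⌊c.2 i a / ρ⌋ = β.2 i a := fun i a => congrFun (congrFun (congrArg Prod.snd h) i) a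
    rw [Prod.norm_def, max_le_iff]
    constructor
    · rw [pi_norm_le_iff_of_nonneg zero_le_one]
      intro i
      rw [Real.norm_eq_abs]
      exact k6a3_zmalg_fract (h1 i)
    · rw [pi_norm_le_iff_of_nonneg zero_le_one]
      intro i
      rw [pi_norm_le_iff_of_nonneg zero_le_one]
      intro a
      rw [Real.norm_eq_abs]
      exact k6a3_zmalg_fract (h2 i a)
  · intro i
    simp only [k5_cbin, k6a3_zm]
    refine Prod.ext ?_ ?_
    · funext k
      exact k6a3_zmalg_floor hρ _ _ i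
    · funext k a
      exact k6a3_zmalg_floor hρ _ _ i
  · intro q a t e
    have hx := k6a3_zmalg_x hρ β c t
    have hy := k6a3_zmalg_y hρ β c t
    simp only [k5_InQ]
    constructor
    · rintro ⟨h1, h2, h3⟩
      refine ⟨?_, ?_, fun b => ⟨?_, ?_⟩⟩
      · have := mul_le_mul_of_nonneg_left h1 hρ.le
        linarith
      · have := mul_le_mul_of_nonneg_left h2 hρ.le
        linarith
      · have := mul_le_mul_of_nonneg_left (h3 b).1 hρ.le
        have := hy b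
        linarith
      · have := mul_le_mul_of_nonneg_left (h3 b).2 hρ.le
        have := hy b
        linarith
    · rintro ⟨h1, h2, h3⟩
      refine ⟨?_, ?_, fun b => ⟨?_, ?_⟩⟩
      · apply le_of_mul_le_mul_left _ hρ
        linarith
      · apply le_of_mul_le_mul_left _ hρ
        linarith
      · apply le_of_mul_le_mul_left _ hρ
        have := hy b
        have := (h3 b).1
        linarith
      · apply le_of_mul_le_mul_left _ hρ
        have := hy b
        have := (h3 b).2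
        linarith

end Claimed.Agent.R252
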