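/-
row252, unit S6a3, leaf L-252-S6a3-ZOOMROW (helper134): F3 = (6.19), a time-only measurable row.
-/
import Claimed.Agent.R252.S6a.StripContract

set_option autoImplicit false

namespace Claimed.Agent.R252

/-- two reals of one bin of width `ρ` are `ρ`-close -/
theorem k6a3_zoom_row_close (ρ : ℝ) (hρ : 0 < ρ) (x y : ℝ) (h : ⌊x / ρ⌋ = ⌊y / ρ⌋) : |x - y| ≤ ρ := by
  have h1 := Int.abs_sub_lt_one_of_floor_eq_floor h
  rw [← sub_div, abs_div, abs_of_pos hρ, div_lt_one hρ] at h1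
  exact h1.le

theorem k6a3_zoom_row : k6a3_zoom_row_stmt := by
  intro Ω S q tm Y Kr B ρ hρ hKr hB hY hlip
  classical
  obtain ⟨H, hH⟩ : ∃ H : ℤ → Fin q → ℝ, H = fun k => if h : ∃ e, e ∈ S ∧ ⌊tm e / ρ⌋ = k then Y h.choose else 0 := ⟨_, rfl⟩
  have hHB : ∀ k, ‖H k‖ ≤ B := by
    intro k
    rw [hH]
    by_cases h : ∃ e, e ∈ S ∧ ⌊tm e / ρ⌋ = k
    · simp only [dif_pos h]
      exact hY _ h.choose_spec.1
    · simp only [dif_neg h, norm_zero]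
      exact hB
  have hrep : ∀ e ∈ S, ∃ e₀ ∈ S, H ⌊tm e / ρ⌋ = Y e₀ ∧ |tm e₀ - tm e| ≤ ρ := by
    intro e he
    have h : ∃ e', e' ∈ S ∧ ⌊tm e' / ρ⌋ = ⌊tm e / ρ⌋ := ⟨e, he, rfl⟩
    refine ⟨h.choose, h.choose_spec.1, ?_, k6a3_zoom_row_close ρ hρ _ _ h.choose_spec.2⟩
    rw [hH]
    simp only [dif_pos h]
  refine ⟨fun t => H ⌊t / ρ⌋, ?_, fun t => hHB _, ?_, ?_⟩
  · exact (measurable_from_top (f := H)).comp (measurable_id.div_const ρ).floor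
  · intro e he
    obtain ⟨e₀, he₀, h1, h2⟩ := hrep e he
    show ‖H ⌊tm e / ρ⌋ - Y e‖ ≤ _
    rw [h1]
    calc ‖Y e₀ - Y e‖ ≤ Kr * (|tm e₀ - tm e| + ρ) := hlip e₀ he₀ e he
      _ ≤ Kr * (ρ + ρ) := mul_le_mul_of_nonneg_left (by linarith) hKr
      _ = 2 * Kr * ρ := by ring
  · intro e he e' he'
    obtain ⟨e₀, he₀, h1, h2⟩ := hrep e he
    obtain ⟨e₁, he₁, h3, h4⟩ := hrep e' he'
    show ‖H ⌊tm e / ρ⌋ - H ⌊tm e' / ρ⌋‖ ≤ _
    rw [h1, h3]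
    refine (hlip e₀ he₀ e₁ he₁).trans (mul_le_mul_of_nonneg_left ?_ hKr)
    have : |tm e₀ - tm e₁| ≤ |tm e₀ - tm e| + |tm e - tm e'| + |tm e₁ - tm e'| := by
      have e1 : tm e₀ - tm e₁ = (tm e₀ - tm e) + (tm e - tm e') + -(tm e₁ - tm e') := by ring
      rw [e1]
      refine (abs_add_le _ _).trans ?_
      rw [abs_neg]
      exact add_le_add_left (abs_add_le _ _) _
    linarith

end Claimed.Agent.R252
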