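import Claimed.Agent.R252.S6a.Layers
import Claimed.Agent.R252.S6a.Q4Defs

/-!
# ROW 252, unit S6a (sub-architect helper198; prefix `k6a4_`), file 7: THE BRIDGE  `K6aDat` (S6a/Layers)  ⟶  the language of Sec. 5 (`k5_Co`, `k5_bin`, ...), common to S6a3 and S6a4.   CONTRACT: each `sorry` is a leaf `L-252-S6a4-B*`.

* `k6a4_co D l : k5_Co j`   coefficients `(xc, ![y0, V])`;   `ν° = D.ν.restrict Lc`;   width of the level `i` : `(1/2)^i`.
* `k5_bin ((1/2)^i) = k6aBin i`, `k5_vbin ((1/2)^i) = k6aVBin i`, `k5_cbin ((1/2)^i) (k6a4_co D l) = k6a4_ix (D.bc i l)` (`k6a4_ix` = reordering, injective).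
* `k6a4_cw m` = coarsening of a physical cell by `m` levels (integer floor division by `2^m`).
-/

set_option autoImplicit false

namespace Claimed.Agent.R252

open MeasureTheory Set
open scoped BigOperators ENNReal

variable {j : ℕ}

/-- the coefficients of a trajectory in the language of Sec. 5 -/
def k6a4_co (D : K6aDat j) (l : D.L) : k5_Co j := (D.xc l, ![D.y0 l, D.V l])

/-- reordering of the block index -/
def k6a4_ix (B : K6aBc j) : k6a4_Ix j := (B.2.2, ![B.1, B.2.1])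

/-- coarsening of a physical cell by `m` levels -/
def k6a4_cw (m : ℕ) (c : K6aWc j) : K6aWc j := ((c.1.1 / 2 ^ m, fun a => c.1.2 a / 2 ^ m), c.2 / 2 ^ m)

theorem k6a4_bridge_eqns_cite : True := by
  have := @k6a4_co.eq_1
  have := @k6a4_ix.eq_1
  have := @k6a4_cw.eq_1
  trivial

/-! ### B1. trajectories -/

theorem k6a4_co_x (D : K6aDat j) (l : D.L) (t : ℝ) : k5_x (k6a4_co D l) t = D.X l t := by
  simp only [k5_x, k6a4_co, K6aDat.X]
  ring

theorem k6a4_co_y (D : K6aDat j) (l : D.L) (t : ℝ) : k5_y (k6a4_co D l) t = D.y l t := by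
  funext a
  simp [k5_y, k6a4_co, K6aDat.y]

theorem k6a4_co_yd (D : K6aDat j) (l : D.L) : k5_yd (k6a4_co D l) = D.V l := by
  rfl

theorem k6a4_co_xD (D : K6aDat j) (l : D.L) (t : ℝ) : k5_xD 1 (k6a4_co D l) t = D.Xd l t := by
  simp only [k5_xD, k6a4_co, K6aDat.Xd]
  ring

theorem k6a4_co_meas (D : K6aDat j) (K : ℝ) (h : D.WF K) : Measurable (k6a4_co D) := by
  refine Measurable.prodMk h.m_xc (measurable_pi_iff.2 ?_)
  rw [Fin.forall_fin_two]
  exact ⟨h.m_y0, h.m_V⟩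

theorem k6a4_co_norm (D : K6aDat j) (K : ℝ) (h : D.WF K) (l : D.L) : ‖k6a4_co D l‖ ≤ K := by
  obtain ⟨h1, h2, h3⟩ := h.bd l
  have hK : 0 ≤ K := (norm_nonneg _).trans h1
  rw [Prod.norm_def]
  refine max_le h3 ((pi_norm_le_iff_of_nonneg hK).2 ?_)
  rw [Fin.forall_fin_two]
  exact ⟨h1, h2⟩

/-! ### B2. bins -/

theorem k6a4_bin_eq (i : ℕ) (x : ℝ) : k5_bin ((1 / 2 : ℝ) ^ i) x = k6aBin i x := by
  unfold k5_bin k6aBin
  rw [one_div, inv_pow, div_inv_eq_mul]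

theorem k6a4_vbin_eq (i : ℕ) (u : Fin j → ℝ) : k5_vbin ((1 / 2 : ℝ) ^ i) u = k6aVBin i u := by
  funext a
  exact k6a4_bin_eq i (u a)

theorem k6a4_cbin_eq (D : K6aDat j) (i : ℕ) (l : D.L) : k5_cbin ((1 / 2 : ℝ) ^ i) (k6a4_co D l) = k6a4_ix (D.bc i l) := by
  refine Prod.ext (funext fun a => k6a4_bin_eq i _) (funext ?_)
  rw [Fin.forall_fin_two]
  exact ⟨funext fun a => k6a4_bin_eq i _, funext fun a => k6a4_bin_eq i _⟩

theorem k6a4_ix_inj : Function.Injective (k6a4_ix (j := j)) := by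
  intro B B' h
  have h1 : B.2.2 = B'.2.2 := congrArg Prod.fst h
  have h2 : B.1 = B'.1 := congrFun (congrArg Prod.snd h) 0
  have h3 : B.2.1 = B'.2.1 := congrFun (congrArg Prod.snd h) 1
  exact Prod.ext h2 (Prod.ext h3 h1)

theorem k6a4_pm_eq (π : Measure (Fin j → ℝ)) (i : ℕ) (J : Fin j → ℤ) :
    k6a4_pm π ((1 / 2 : ℝ) ^ i) J = (π (k6aCube i J)).toReal := by
  unfold k6a4_pm k6aCube
  simp only [k6a4_vbin_eq]
  rfl

/-- the widths `ρ r`, `ρ = (1/2)^nr`, `r ∈ k5_Dy ((1/2)^nz)` are the levels `nr + i`, `i ≤ nz` -/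
theorem k6a4_dy_level (nr nz : ℕ) (r : ℝ) (hr : r ∈ k5_Dy ((1 / 2 : ℝ) ^ nz)) :
    ∃ i ≤ nz, r = (1 / 2 : ℝ) ^ i ∧ (1 / 2 : ℝ) ^ nr * r = (1 / 2 : ℝ) ^ (nr + i) := by
  obtain ⟨h1, i, rfl⟩ := hr
  refine ⟨i, ?_, rfl, (pow_add _ _ _).symm⟩
  exact (pow_le_pow_iff_right_of_lt_one₀ (by norm_num) (by norm_num)).1 h1

/-! ### B3. nested cells -/

theorem k6a4_bin_coarse (i i' : ℕ) (h : i ≤ i') (x : ℝ) : k6aBin i x = k6aBin i' x / 2 ^ (i' - i) := by
  unfold k6aBin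
  have h1 : x * 2 ^ i = x * 2 ^ i' / ((2 ^ (i' - i) : ℕ) : ℝ) := by
    have h2 : (2 : ℝ) ^ i' = 2 ^ i * 2 ^ (i' - i) := by rw [← pow_add, Nat.add_sub_cancel' h]
    rw [h2]
    push_cast
    field_simp
  rw [h1, Int.floor_div_natCast]
  push_cast
  rfl

theorem k6a4_wc_coarse (D : K6aDat j) (i i' : ℕ) (h : i ≤ i') (e : D.L × ℝ) : D.wc i e = k6a4_cw (i' - i) (D.wc i' e) := by
  refine Prod.ext (Prod.ext ?_ (funext fun a => ?_)) ?_
  · exact k6a4_bin_coarse i i' h _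
  · exact k6a4_bin_coarse i i' h _
  · exact k6a4_bin_coarse i i' h _

/-- a physical cell of the level `i` has diameter `≤ (1/2)^i` -/
theorem k6a4_wc_diam (D : K6aDat j) (i : ℕ) (e e' : D.L × ℝ) (h : D.wc i e = D.wc i e') :
    ‖k6a4_Z (k6a4_co D e.1) e.2 - k6a4_Z (k6a4_co D e'.1) e'.2‖ ≤ (1 / 2 : ℝ) ^ i := by
  have hw : (0 : ℝ) < (1 / 2 : ℝ) ^ i := by positivity
  have key : ∀ x x' : ℝ, k6aBin i x = k6aBin i x' → |x - x'| ≤ (1 / 2 : ℝ) ^ i := by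
    intro x x' hx
    unfold k6aBin at hx
    have h1 := Int.floor_le (x * 2 ^ i)
    have h2 := Int.lt_floor_add_one (x * 2 ^ i)
    have h3 := Int.floor_le (x' * 2 ^ i)
    have h4 := Int.lt_floor_add_one (x' * 2 ^ i)
    rw [hx] at h1 h2
    have h5 : (0 : ℝ) < 2 ^ i := by positivity
    have h6 : |x - x'| * 2 ^ i ≤ 1 := by
      have h7 : |x - x'| * 2 ^ i = |(x - x') * 2 ^ i| := by rw [abs_mul, abs_of_pos h5]
      rw [h7, abs_le]
      constructor <;> nlinarith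
    rw [one_div, inv_pow, ← one_div, le_div_iff₀ h5]
    exact h6
  have ht : k6aBin i e.2 = k6aBin i e'.2 := congrArg (fun z => z.1.1) h
  have hy : ∀ a, k6aBin i (D.y e.1 e.2 a) = k6aBin i (D.y e'.1 e'.2 a) := fun a => congrFun (congrArg (fun z => z.1.2) h) a
  have hX : k6aBin i (D.X e.1 e.2) = k6aBin i (D.X e'.1 e'.2) := congrArg (fun z => z.2) h
  rw [pi_norm_le_iff_of_nonneg hw.le, Fin.forall_fin_succ, Fin.forall_fin_succ']
  simp only [Pi.sub_apply, k6a4_Z, Fin.cons_zero, Fin.cons_succ, Fin.snoc_castSucc, Fin.snoc_last, Real.norm_eq_abs,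
    k6a4_co_x, k6a4_co_y]
  exact ⟨key _ _ ht, fun a => key _ _ (hy a), key _ _ hX⟩

/-! ### B4. measurability and finiteness of the states -/

theorem k6a4b_bin_measurable (i : ℕ) : Measurable (k6aBin i) := by
  have h : Measurable fun x : ℝ => x * 2 ^ i := by fun_prop
  exact Int.measurable_floor.comp h

theorem k6a4b_wc_measurable (D : K6aDat j) (K : ℝ) (h : D.WF K) (i : ℕ) : Measurable (D.wc i) := by
  have h1 : ∀ a, Measurable fun e : D.L × ℝ => D.y0 e.1 a := fun a =>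
    (measurable_pi_apply a).comp (h.m_y0.comp measurable_fst)
  have h2 : ∀ a, Measurable fun e : D.L × ℝ => D.V e.1 a := fun a =>
    (measurable_pi_apply a).comp (h.m_V.comp measurable_fst)
  have h3 : ∀ a, Measurable fun e : D.L × ℝ => D.xc e.1 a := fun a =>
    (measurable_pi_apply a).comp (h.m_xc.comp measurable_fst)
  refine Measurable.prodMk (Measurable.prodMk ?_ (measurable_pi_iff.2 fun a => ?_)) ?_
  · exact (k6a4b_bin_measurable i).comp measurable_snd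
  · have h4 : Measurable fun e : D.L × ℝ => D.y e.1 e.2 a := by
      simp only [K6aDat.y, Pi.add_apply, Pi.smul_apply, smul_eq_mul]
      exact (h1 a).add (measurable_snd.mul (h2 a))
    exact (k6a4b_bin_measurable i).comp h4
  · have h4 : Measurable fun e : D.L × ℝ => D.X e.1 e.2 := by
      simp only [K6aDat.X]
      exact ((h3 0).add ((h3 1).mul measurable_snd)).add ((h3 2).mul (measurable_snd.pow_const 2))
    exact (k6a4b_bin_measurable i).comp h4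

theorem k6a4_wc_meas (D : K6aDat j) (K : ℝ) (h : D.WF K) (i : ℕ) (c : K6aWc j) : MeasurableSet (D.wc i ⁻¹' {c}) := by
  exact k6a4b_wc_measurable D K h i (measurableSet_singleton c)

theorem k6a4_ms_meas (D : K6aDat j) (K : ℝ) (h : D.WF K) (n0 : ℕ) (s : D.Lb × K6aWc j) :
    MeasurableSet (D.ms n0 ⁻¹' {s}) := by
  have h1 : D.ms n0 ⁻¹' {s} = D.lab ⁻¹' {s.1} ∩ D.wc n0 ⁻¹' {s.2} := by
    ext e
    simp only [mem_preimage, mem_singleton_iff, mem_inter_iff, K6aDat.ms]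
    exact Prod.ext_iff
  rw [h1]
  exact (h.m_lab s.1).inter (k6a4_wc_meas D K h n0 s.2)

theorem k6a4_ms_fin (D : K6aDat j) (K : ℝ) (h : D.WF K) (n0 : ℕ) :
    ∃ Ws : Finset (D.Lb × K6aWc j), ∀ e : D.L × ℝ, 0 ≤ e.2 → e.2 ≤ 1 → D.ms n0 e ∈ Ws := by
  classical
  set R : ℝ := (3 * K + 1) * 2 ^ n0 with hR
  have key : ∀ x : ℝ, |x| ≤ 3 * K + 1 → k6aBin n0 x ∈ Finset.Icc ⌊-R⌋ ⌊R⌋ := by
    intro x hx
    have h5 : (0 : ℝ) < 2 ^ n0 := by positivity
    rw [abs_le] at hx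
    rw [Finset.mem_Icc]
    unfold k6aBin
    exact ⟨Int.floor_le_floor (by rw [hR]; nlinarith [hx.1]), Int.floor_le_floor (by rw [hR]; nlinarith [hx.2])⟩
  refine ⟨Finset.univ ×ˢ ((Finset.Icc ⌊-R⌋ ⌊R⌋ ×ˢ Fintype.piFinset fun _ => Finset.Icc ⌊-R⌋ ⌊R⌋) ×ˢ Finset.Icc ⌊-R⌋ ⌊R⌋), ?_⟩
  intro e ht0 ht1
  obtain ⟨h1, h2, h3⟩ := h.bd e.1
  have hK : 0 ≤ K := (norm_nonneg _).trans h1
  simp only [K6aDat.ms, K6aDat.wc, K6aDat.zc, Finset.mem_product, Finset.mem_univ, true_and, Fintype.mem_piFinset]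
  refine ⟨⟨key _ ?_, fun a => key _ ?_⟩, key _ ?_⟩
  · rw [abs_of_nonneg ht0]
    linarith
  · have h4 : |D.y0 e.1 a| ≤ K := (norm_le_pi_norm (D.y0 e.1) a).trans h1
    have h5 : |D.V e.1 a| ≤ K := (norm_le_pi_norm (D.V e.1) a).trans h2
    simp only [K6aDat.y, Pi.add_apply, Pi.smul_apply, smul_eq_mul]
    have h6 : |e.2 * D.V e.1 a| ≤ K := by
      rw [abs_mul, abs_of_nonneg ht0]
      nlinarith [abs_nonneg (D.V e.1 a)]
    calc |D.y0 e.1 a + e.2 * D.V e.1 a| ≤ |D.y0 e.1 a| + |e.2 * D.V e.1 a| := abs_add_le _ _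
      _ ≤ 3 * K + 1 := by linarith
  · have h4 : ∀ a, |D.xc e.1 a| ≤ K := fun a => (norm_le_pi_norm (D.xc e.1) a).trans h3
    simp only [K6aDat.X]
    have h6 : |D.xc e.1 1 * e.2| ≤ K := by
      rw [abs_mul, abs_of_nonneg ht0]
      nlinarith [abs_nonneg (D.xc e.1 1), h4 1]
    have h7 : |D.xc e.1 2 * e.2 ^ 2| ≤ K := by
      rw [abs_mul, abs_of_nonneg (by positivity : 0 ≤ e.2 ^ 2)]
      have : e.2 ^ 2 ≤ 1 := by nlinarith
      nlinarith [abs_nonneg (D.xc e.1 2), h4 2]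
    calc |D.xc e.1 0 + D.xc e.1 1 * e.2 + D.xc e.1 2 * e.2 ^ 2|
        ≤ |D.xc e.1 0 + D.xc e.1 1 * e.2| + |D.xc e.1 2 * e.2 ^ 2| := abs_add_le _ _
      _ ≤ |D.xc e.1 0| + |D.xc e.1 1 * e.2| + |D.xc e.1 2 * e.2 ^ 2| := by
          gcongr
          exact abs_add_le _ _
      _ ≤ 3 * K + 1 := by linarith [h4 0]

/-! ### B5. the measures -/

/-- on families inside `Lc × [0,1]` the prior of `K6aDat` is `ν° × dt` -/
theorem k6a4_prior_eq (D : K6aDat j) (K : ℝ) (h : D.WF K) (Lc : Set D.L) (hLc : MeasurableSet Lc) (S : Set (D.L × ℝ))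
    (hS : MeasurableSet S) (hsub : S ⊆ Lc ×ˢ Icc (0 : ℝ) 1) : D.prior S = ((D.ν.restrict Lc).prod volume) S := by
  have := h.prob
  have h1 : D.prior = (D.ν.prod volume).restrict (univ ×ˢ Icc (0 : ℝ) 1) := by
    rw [← Measure.prod_restrict, Measure.restrict_univ]
    rfl
  have h2 : (D.ν.restrict Lc).prod (volume : Measure ℝ) = (D.ν.prod volume).restrict (Lc ×ˢ univ) := by
    rw [← Measure.prod_restrict, Measure.restrict_univ]
  rw [h1, h2, Measure.restrict_apply hS, Measure.restrict_apply hS]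
  congr 1
  have e1 : S ∩ univ ×ˢ Icc (0 : ℝ) 1 = S := inter_eq_left.2 fun z hz => ⟨mem_univ _, (hsub hz).2⟩
  have e2 : S ∩ Lc ×ˢ (univ : Set ℝ) = S := inter_eq_left.2 fun z hz => ⟨(hsub hz).1, mem_univ _⟩
  rw [e1, e2]

theorem k6a4_prior_mass (D : K6aDat j) (K : ℝ) (h : D.WF K) (Lc : Set D.L) (hLc : MeasurableSet Lc) (S : Set (D.L × ℝ))
    (hS : MeasurableSet S) (hsub : S ⊆ Lc ×ˢ Icc (0 : ℝ) 1) : k5_mass (D.ν.restrict Lc) S = (D.prior S).toReal := by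
  rw [k6a4_prior_eq D K h Lc hLc S hS hsub]
  rfl

/-- the time `t = 1` is null -/
theorem k6a4_prior_lt_one (D : K6aDat j) (K : ℝ) (h : D.WF K) (S : Set (D.L × ℝ)) (hS : MeasurableSet S) :
    D.prior (S ∩ {e | e.2 < 1}) = D.prior S := by
  have := h.prob
  refine measure_inter_conull ?_
  have h1 : ({e : D.L × ℝ | e.2 < 1})ᶜ = univ ×ˢ Ici (1 : ℝ) := by
    ext e
    simp
  rw [h1]
  show (D.ν.prod (volume.restrict (Icc (0 : ℝ) 1))) (univ ×ˢ Ici (1 : ℝ)) = 0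
  rw [Measure.prod_prod, Measure.restrict_apply measurableSet_Ici]
  have h2 : Ici (1 : ℝ) ∩ Icc (0 : ℝ) 1 ⊆ {1} := fun x hx => le_antisymm hx.2.2 hx.1
  rw [measure_mono_null h2 (by simp), mul_zero]

end Claimed.Agent.R252
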