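/-
CONTRACT  (row252, unit S6a3, sub-architect helper117; prefix `k6a3_`): SHARED FILE of the leaves L-252-S6a3-BR3 .. BR9 (file budget: no more one-leaf files).
Statements + PROOF sketches: docstrings of the `def …_stmt` in `S6a/StripHub.lean`.   Replace YOUR `sorry` only (helper lemmas directly above your theorem, prefix `k6a3_<name>_`), splice on a fresh pull.
`S6a/Q4Bridge.lean` (helper198) has the same dictionary under the names `k6a4_co = k6a3_co`, `k6a4_ix = k6a3_encB`, `k6a4_cw = k6a3_crs` (all `rfl`): cite its lemmas freely.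
-/
import Claimed.Agent.R252.S6a.StripHub
import Claimed.Agent.R252.S6a.Q4Bridge
import Claimed.Agent.R252.S6a.K3Main
import Claimed.Agent.R252.S6a.K3FieldLip
import Claimed.Agent.R252.S6a.K3ListShift
import Claimed.Agent.R252.S6a.K3CubeRow
import Claimed.Agent.R252.S6a.K3Transfer
import Claimed.Agent.R252.S6a.K3Stage
import Claimed.Agent.R252.S6a.K3Pairs
import Claimed.Agent.R252.S6a.K3Prune
import Claimed.Agent.R252.S6a.K3Fill
import Claimed.Agent.R252.S6a.K3StripCount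
import Claimed.Agent.R252.S6a.K3ZoomRow
import Claimed.Agent.R252.S6a.K3ZSupp
import Claimed.Agent.R252.S6a.K3ZSuppGrid
import Claimed.Agent.R252.S6a.K3ZmAlg
import Claimed.Agent.R252.S6a.K3BrAlg
import Claimed.Agent.R252.S6a.K3BrBin

set_option autoImplicit false

namespace Claimed.Agent.R252

open MeasureTheory
open scoped ENNReal

theorem k6a3_br_prior_le_one {j : ℕ} (D : K6aDat j) (K : ℝ) (h : D.WF K) (S : Set (D.L × ℝ)) : D.prior S ≤ 1 := by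
  have := h.prob
  refine (measure_mono (Set.subset_univ S)).trans ?_
  show (D.ν.prod (volume.restrict (Set.Icc (0 : ℝ) 1))) Set.univ ≤ 1
  rw [← Set.univ_prod_univ, Measure.prod_prod, measure_univ, one_mul, Measure.restrict_apply MeasurableSet.univ,
    Set.univ_inter, Real.volume_Icc]
  simp

/-- BR3 -/
theorem k6a3_br_prior : k6a3_br_prior_stmt := by
  intro j D K Lc S hW hLc hS hsub
  exact ⟨k6a4_prior_eq D K hW Lc hLc S hS hsub, k6a3_br_prior_le_one D K hW S, k6a4_prior_mass D K hW Lc hLc S hS hsub⟩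

theorem k6a3_br_grid_W_pos (i : ℕ) : 0 < k6aW i := by
  unfold k6aW
  positivity

theorem k6a3_br_grid_W_anti {a b : ℕ} (h : a ≤ b) : k6aW b ≤ k6aW a := by
  unfold k6aW
  exact pow_le_pow_of_le_one (by norm_num) (by norm_num) h

theorem k6a3_br_grid_W_add (a s : ℕ) : k6aW a = 2 ^ s * k6aW (a + s) := by
  unfold k6aW
  rw [pow_add, ← mul_assoc, mul_comm ((2 : ℝ) ^ s), mul_assoc, ← mul_pow]
  norm_num

/-- BR4 -/
theorem k6a3_br_grid : k6a3_br_grid_stmt := by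
  intro n sp hsp
  have hL : n ≤ k6a3_gl n sp * sp := by
    unfold k6a3_gl
    have h1 := Nat.div_add_mod (n + sp - 1) sp
    have h2 := Nat.mod_lt (n + sp - 1) (by omega : 0 < sp)
    rw [mul_comm] at h1
    omega
  refine ⟨⟨?_, ?_, fun i _ => k6a3_br_grid_W_pos _, fun i _ => ?_, fun i _ => ?_⟩, ?_, fun i => ⟨min (i * sp) n, min_le_right _ _, rfl⟩⟩
  · simp [k6a3_gs, k6aW]
  · simp only [k6a3_gs]
    rw [min_eq_right hL]
  · refine k6a3_br_grid_W_anti (min_le_min_right n ?_)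
    exact Nat.mul_le_mul_right sp (Nat.le_succ i)
  · simp only [k6a3_gs]
    rw [k6a3_br_grid_W_add (min (i * sp) n) sp]
    refine mul_le_mul_of_nonneg_left (k6a3_br_grid_W_anti ?_) (by positivity)
    rw [Nat.succ_mul]
    omega
  · have hsp0 : (0 : ℝ) < sp := by exact_mod_cast (by omega : 0 < sp)
    have h1 : ((k6a3_gl n sp : ℕ) : ℝ) ≤ ((n + sp - 1 : ℕ) : ℝ) / sp := Nat.cast_div_le
    refine h1.trans ?_
    rw [div_add_one hsp0.ne']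
    refine div_le_div_of_nonneg_right ?_ hsp0.le
    have : ((n + sp - 1 : ℕ) : ℝ) ≤ ((n + sp : ℕ) : ℝ) := by exact_mod_cast Nat.sub_le _ _
    simpa using this

/-- preimages of sets of master states are measurable -/
theorem k6a3_br_in0_pre {j : ℕ} (D : K6aDat j) (K : ℝ) (h : D.WF K) (n0 : ℕ) (A : Set (D.Lb × K6aWc j)) :
    MeasurableSet (D.ms n0 ⁻¹' A) := by
  have : D.ms n0 ⁻¹' A = ⋃ s ∈ A, D.ms n0 ⁻¹' {s} := by
    ext e
    simp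
  rw [this]
  exact MeasurableSet.biUnion (Set.to_countable A) fun s _ => k6a4_ms_meas D K h n0 s

/-- slabs of velocities are measurable -/
theorem k6a3_br_in0_slab {j : ℕ} (D : K6aDat j) (K : ℝ) (h : D.WF K) (n : Fin j → ℝ) (c w : ℝ) :
    MeasurableSet {e : D.L × ℝ | |n ⬝ᵥ D.V e.1 - c| ≤ w} := by
  have h1 : Measurable fun e : D.L × ℝ => |n ⬝ᵥ D.V e.1 - c| := by
    have h2 : Measurable fun e : D.L × ℝ => n ⬝ᵥ D.V e.1 := by
      unfold dotProduct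
      refine Finset.measurable_sum _ fun a _ => ?_
      exact ((measurable_pi_apply a).comp (h.m_V.comp measurable_fst)).const_mul _
    exact (h2.sub_const c).abs
  exact h1 measurableSet_Iic

theorem k6a3_br_in0_ratio {m m' : ℕ} (h : m ≤ m') : k6aW m / k6aW m' = 2 ^ (m' - m) := by
  rw [div_eq_iff (k6a3_br_grid_W_pos m').ne', k6a3_br_grid_W_add m (m' - m), Nat.add_sub_cancel' h]

/-- BR5 -/
theorem k6a3_br_in0 (hA : k6a3_br_alg_stmt) (hB : k6a3_br_bin_stmt) (hP : k6a3_br_prior_stmt) (hG : k6a3_br_grid_stmt) :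
    k6a3_br_in0_stmt := by
  classical
  intro j D d K δ w κ nz nr nb n0 sp E U Lc m0 g hK hsp hrb hb0 hrz hκ hδ hW hPh hGr hBr hU hUE
  obtain ⟨-, -, hAV, hAd, hAdot, hAn, -, hAm⟩ := hA j D
  obtain ⟨hBm, hBW, hBR, -, -, -, hBc, -, -, -, hBctr, -⟩ := hB j D
  obtain ⟨hmc, hcb⟩ := hAm K hW
  have := hW.prob
  set Nr : Set (D.Lb × K6aWc j) := {s | K6aNarrow D U (D.ms n0) (1 / 100) w s} with hNr
  set R : Set (D.L × ℝ) := U ∩ D.ms n0 ⁻¹' Nrᶜ ∩ {e | e.2 < 1} with hR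
  have hlt : MeasurableSet {e : D.L × ℝ | e.2 < 1} := measurable_snd measurableSet_Iio
  have hRm : MeasurableSet R := (hU.inter (k6a3_br_in0_pre D K hW n0 _)).inter hlt
  have hRU : R ⊆ U := fun e he => he.1.1
  have hRE : R ⊆ E := hRU.trans hUE
  have hbox : ∀ S : Set (D.L × ℝ), S ⊆ U → S ⊆ Lc ×ˢ Set.Icc (0 : ℝ) 1 := fun S hS => (hS.trans hUE).trans hPh.E_sub
  have hGst : ∀ e, k6a3_G D g (n0 - nb) (D.ms n0 e) = k6a3_rowv (g (D.wc nb e)) := by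
    intro e
    show k6a3_rowv (g (k6a3_crs (n0 - nb) (D.wc n0 e))) = _
    rw [← hBc nb n0 e hb0]
  refine ⟨R, hRU, ?_, ?_⟩
  · -- the loss
    have h1 : D.prior U = D.prior (U ∩ {e | e.2 < 1}) := (k6a4_prior_lt_one D K hW U hU).symm
    have h2 : U ∩ {e | e.2 < 1} ⊆ R ∪ (U ∩ {e | K6aNarrow D U (D.ms n0) (1 / 100) w (D.ms n0 e)}) := by
      rintro e ⟨he1, he2⟩
      by_cases hn : K6aNarrow D U (D.ms n0) (1 / 100) w (D.ms n0 e)
      · exact Or.inr ⟨he1, hn⟩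
      · exact Or.inl ⟨⟨he1, hn⟩, he2⟩
    calc D.prior U = D.prior (U ∩ {e | e.2 < 1}) := h1
      _ ≤ D.prior (R ∪ (U ∩ {e | K6aNarrow D U (D.ms n0) (1 / 100) w (D.ms n0 e)})) := measure_mono h2
      _ ≤ D.prior R + D.prior (U ∩ {e | K6aNarrow D U (D.ms n0) (1 / 100) w (D.ms n0 e)}) := measure_union_le _ _
      _ ≤ D.prior R + ENNReal.ofReal δ := by
        gcongr
        exact hBr U hU hUE
  · refine
      { nu_le := ?_
        mc := hmc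
        mR := hRm
        mst := fun s => k6a4_ms_meas D K hW n0 s
        tI := fun e he => ⟨((hbox R hRU) he).2.1, he.2⟩
        cb := fun e _ => hcb e.1
        ctr := fun e _ => hBctr n0 e
        Gb := fun s => ?_
        graph := fun e he => ?_
        grid := (hG nr sp hsp).1
        lists := fun i _ n => ?_
        broad := fun s n b₀ hn => ?_
        grid' := (hG nz sp hsp).1
        supp := fun i i' hii _ n => ?_ }
    · calc (D.ν.restrict Lc) Set.univ ≤ D.ν Set.univ := Measure.restrict_le_self _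
        _ = 1 := measure_univ
    · show ‖k6a3_rowv _‖ ≤ K
      rw [hAn]
      exact hGr.bound _
    · rw [hGst, hAdot, hAd]
      exact hGr.est e (hRE he)
    · -- lists
      obtain ⟨m, hm, hsm⟩ := (hG nr sp hsp).2.2 i
      rw [hsm]
      by_cases hc : ∃ c, k6a3_enc c = n
      · obtain ⟨c, rfl⟩ := hc
        obtain ⟨F, hF1, hF2⟩ := hGr.lists m (hm.trans hrb) (hκ.trans (k6a3_br_grid_W_anti hm)) c
        refine ⟨F.image k6a3_encR, ?_, fun e he hce => ?_⟩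
        · refine le_trans ?_ hF1
          exact_mod_cast Finset.card_image_le
        · rw [hBW] at hce
          rw [hGst, hBR]
          exact Finset.mem_image_of_mem _ (hF2 e (hRE he) ((hB j D).2.2.2.1 hce))
      · refine ⟨∅, by simpa using (by linarith : (0 : ℝ) ≤ K), fun e _ hce => ?_⟩
        rw [hBW] at hce
        exact absurd ⟨_, hce⟩ hc
    · -- breadth
      have hslab : {e : D.L × ℝ | |n ⬝ᵥ k5_yd (k6a3_co D e.1) - b₀| ≤ w} = {e : D.L × ℝ | |n ⬝ᵥ D.V e.1 - b₀| ≤ w} := by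
        ext e
        simp only [Set.mem_ofPred_eq, hAV]
      rw [hslab]
      have hms := k6a4_ms_meas D K hW n0 s
      have hsl := k6a3_br_in0_slab D K hW n b₀ w
      rw [← (hP j D K Lc _ hW hPh.Lc_meas ((hRm.inter hms).inter hsl)
          (hbox _ fun e he => hRU he.1.1)).1,
        ← (hP j D K Lc _ hW hPh.Lc_meas (hRm.inter hms) (hbox _ fun e he => hRU he.1)).1]
      by_cases hs : s ∈ Nr
      · have h0 : R ∩ D.ms n0 ⁻¹' {s} = ∅ := by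
          ext e
          simp only [Set.mem_inter_iff, Set.mem_preimage, Set.mem_singleton_iff, Set.mem_empty_iff_false, iff_false]
          rintro ⟨he, rfl⟩
          exact he.1.2 hs
        rw [h0]
        simp
      · have h1 : R ∩ D.ms n0 ⁻¹' {s} = (U ∩ D.ms n0 ⁻¹' {s}) ∩ {e | e.2 < 1} := by
          ext e
          constructor
          · rintro ⟨he, hes⟩
            exact ⟨⟨he.1.1, hes⟩, he.2⟩
          · rintro ⟨⟨he, hes⟩, he1⟩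
            refine ⟨⟨⟨he, ?_⟩, he1⟩, hes⟩
            have hes' : D.ms n0 e = s := hes
            show D.ms n0 e ∉ Nr
            rw [hes']
            exact hs
        have h2 : D.prior (R ∩ D.ms n0 ⁻¹' {s}) = D.prior (U ∩ D.ms n0 ⁻¹' {s}) := by
          rw [h1]
          exact k6a4_prior_lt_one D K hW _ (hU.inter hms)
        have h3 : ¬ (ENNReal.ofReal (1 / 100) * D.prior (U ∩ D.ms n0 ⁻¹' {s})
            ≤ D.prior (U ∩ D.ms n0 ⁻¹' {s} ∩ {e | |n ⬝ᵥ D.V e.1 - b₀| ≤ w})) := fun h => hs ⟨n, b₀, hn, h⟩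
        rw [not_le] at h3
        rw [h2]
        calc D.prior (R ∩ D.ms n0 ⁻¹' {s} ∩ {e | |n ⬝ᵥ D.V e.1 - b₀| ≤ w})
            ≤ D.prior (U ∩ D.ms n0 ⁻¹' {s} ∩ {e | |n ⬝ᵥ D.V e.1 - b₀| ≤ w}) :=
              measure_mono fun e he => ⟨⟨hRU he.1.1, he.1.2⟩, he.2⟩
          _ ≤ ENNReal.ofReal (1 / 100) * D.prior (U ∩ D.ms n0 ⁻¹' {s}) := h3.le
          _ ≤ 1 / 4 * D.prior (U ∩ D.ms n0 ⁻¹' {s}) := by
            gcongr
            rw [show (1 / 4 : ℝ≥0∞) = ENNReal.ofReal (1 / 4) by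
              rw [ENNReal.ofReal_div_of_pos (by norm_num)]; simp]
            exact ENNReal.ofReal_le_ofReal (by norm_num)
    · -- support
      set m := min (i * sp) nz with hm
      set m' := min (i' * sp) nz with hm'
      have hmm : m ≤ m' := min_le_min_right nz (Nat.mul_le_mul_right sp hii)
      have hmz : m' ≤ nz := min_le_right _ _
      show ∃ T : Finset (Fin (j + 2) → ℤ), (T.card : ℝ) ≤ K * (k6aW m / k6aW m') ^ ((j : ℝ) + 1 + d) ∧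
        ∀ e ∈ R, k6a_cell (k6aW nr * k6aW m) (k6a3_Wi (k6a3_co D) e) = n →
          k6a_cell (k6aW nr * k6aW m') (k6a3_Wi (k6a3_co D) e) ∈ T
      rw [hBm, hBm, k6a3_br_in0_ratio hmm]
      by_cases hc : ∃ c, k6a3_enc c = n
      · obtain ⟨c, rfl⟩ := hc
        obtain ⟨F, hF1, hF2⟩ := hPh.loc (nr + m) (nr + m') (by omega) (by omega) c
        refine ⟨F.image k6a3_enc, ?_, fun e he hce => ?_⟩
        · refine le_trans ?_ (hF1.trans (le_of_eq ?_))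
          · exact_mod_cast Finset.card_image_le
          · rw [show nr + m' - (nr + m) = m' - m by omega]
        · rw [hBW] at hce ⊢
          exact Finset.mem_image_of_mem _ (hF2 e (hRE he) ((hB j D).2.2.2.1 hce))
      · refine ⟨∅, ?_, fun e _ hce => ?_⟩
        · simp only [Finset.card_empty, Nat.cast_zero]
          have : (0 : ℝ) ≤ K := by linarith
          positivity
        · rw [hBW] at hce
          exact absurd ⟨_, hce⟩ hc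

theorem k6a3_br_cap_bin (i : ℕ) (a x : ℝ) (h1 : a ≤ x) (h2 : x < a + 2 * k6aW i) :
    k6aBin i x ∈ ({k6aBin i a, k6aBin i a + 1, k6aBin i a + 2} : Finset ℤ) := by
  have hp : (0 : ℝ) < 2 ^ i := by positivity
  have hw : k6aW i * 2 ^ i = 1 := by
    unfold k6aW
    rw [← mul_pow]
    norm_num
  have h3 : a * 2 ^ i ≤ x * 2 ^ i := mul_le_mul_of_nonneg_right h1 hp.le
  have h4 : x * 2 ^ i < a * 2 ^ i + 2 := by
    have := mul_lt_mul_of_pos_right h2 hp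
    nlinarith
  have h5 : k6aBin i a ≤ k6aBin i x := Int.floor_le_floor h3
  have h6 : k6aBin i x < k6aBin i a + 3 := by
    unfold k6aBin
    rw [Int.floor_lt]
    have := Int.lt_floor_add_one (a * 2 ^ i)
    push_cast
    linarith
  simp only [Finset.mem_insert, Finset.mem_singleton]
  omega

theorem k6a3_br_cap_level (N : ℕ) (p : ℝ) (h1 : k6aW N ≤ p) (h2 : p ≤ 1) :
    ∃ i ≤ N, k6aW i ≤ p ∧ p < 2 * k6aW i := by
  classical
  have hex : ∃ i, k6aW i ≤ p := ⟨N, h1⟩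
  refine ⟨Nat.find hex, Nat.find_min' hex h1, Nat.find_spec hex, ?_⟩
  rcases Nat.eq_zero_or_pos (Nat.find hex) with h0 | h0
  · rw [h0]
    simp only [k6aW, pow_zero]
    linarith
  · have h3 := Nat.find_min hex (Nat.sub_lt h0 one_pos)
    rw [not_le] at h3
    have h4 : k6aW (Nat.find hex - 1) = 2 * k6aW (Nat.find hex) := by
      obtain ⟨m, hm⟩ : ∃ m, Nat.find hex = m + 1 := ⟨Nat.find hex - 1, by omega⟩
      rw [hm]
      simp only [k6aW, Nat.add_sub_cancel, pow_succ]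
      ring
    rwa [h4] at h3

/-- BR6 -/
theorem k6a3_br_cap (hA : k6a3_br_alg_stmt) (hB : k6a3_br_bin_stmt) : k6a3_br_cap_stmt := by
  classical
  intro j D d K nz nr n0 E Lc m0 hK hd hn hW hP r hr q a y₀ J t hq hqr
  obtain ⟨hAx, hAy, -⟩ := hA j D
  obtain ⟨hBm, -, -, -, -, -, -, -, hBv, hBc, -, hBd⟩ := hB j D
  obtain ⟨i, hi, rfl⟩ := (hBd nz r).1 hr
  rw [hBm nr i]
  set p : ℝ := k6aW nr * q with hp
  have hp1 : k6aW (nr + nz) ≤ p := by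
    rw [← hBm]
    exact mul_le_mul_of_nonneg_left hq (k6a3_br_grid_W_pos nr).le
  have hp2 : p ≤ 1 := by
    have h1 : p ≤ k6aW (nr + i) := by
      rw [← hBm]
      exact mul_le_mul_of_nonneg_left hqr (k6a3_br_grid_W_pos nr).le
    refine h1.trans ?_
    unfold k6aW
    exact pow_le_one₀ (by norm_num) (by norm_num)
  obtain ⟨i', hi', hw1, hw2⟩ := k6a3_br_cap_level (nr + nz) p hp1 hp2
  have hw0 := k6a3_br_grid_W_pos i'
  set T : ℝ → Finset ℤ := fun x => {k6aBin i' x, k6aBin i' x + 1, k6aBin i' x + 2} with hT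
  set Bx : Finset ((Fin j → ℤ) × ℤ) := (Fintype.piFinset fun b => T (y₀ b)) ×ˢ T a with hBx
  have hcard : Bx.card ≤ 3 ^ (j + 1) := by
    rw [hBx, Finset.card_product, Fintype.card_piFinset, pow_succ]
    refine Nat.mul_le_mul ?_ Finset.card_le_three
    calc ∏ b : Fin j, (T (y₀ b)).card ≤ ∏ _b : Fin j, 3 := Finset.prod_le_prod' fun b _ => Finset.card_le_three
      _ = 3 ^ j := by simp
  have hsub : {l | (l, t) ∈ E ∧ k5_InQ p a y₀ (k6a3_co D l) t ∧ k5_vbin (k6aW (nr + i)) (k5_yd (k6a3_co D l)) = J}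
      ⊆ ⋃ c ∈ Bx, {l | (l, t) ∈ E ∧ D.sc i' l t = c ∧ D.vb (nr + i) l = J} := by
    rintro l ⟨h1, ⟨h2, h3, h4⟩, h5⟩
    rw [hAx] at h2 h3
    rw [hBv] at h5
    refine Set.mem_biUnion (x := D.sc i' l t) ?_ ⟨h1, rfl, h5⟩
    rw [hBx, Finset.mem_coe, Finset.mem_product]
    refine ⟨Fintype.mem_piFinset.2 fun b => ?_, ?_⟩
    · have h6 := h4 b
      rw [hAy] at h6
      exact k6a3_br_cap_bin i' _ _ h6.1 (by linarith [h6.2])
    · exact k6a3_br_cap_bin i' _ _ h2 (by linarith)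
  have hpal : D.pal (k6aCube (nr + i) J) ≠ ⊤ :=
    ((measure_mono (Set.subset_univ _)).trans_lt (hW.pal_le.trans_lt ENNReal.one_lt_top)).ne
  have hmain : (D.ν.restrict Lc) {l | (l, t) ∈ E ∧ k5_InQ p a y₀ (k6a3_co D l) t ∧
      k5_vbin (k6aW (nr + i)) (k5_yd (k6a3_co D l)) = J}
      ≤ (3 ^ (j + 1) : ℕ) * (ENNReal.ofReal (K * k6aW i' ^ ((j : ℝ) + d)) * D.pal (k6aCube (nr + i) J)) := by
    calc _ ≤ D.ν _ := Measure.restrict_le_self _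
      _ ≤ D.ν (⋃ c ∈ Bx, {l | (l, t) ∈ E ∧ D.sc i' l t = c ∧ D.vb (nr + i) l = J}) := measure_mono hsub
      _ ≤ ∑ c ∈ Bx, D.ν {l | (l, t) ∈ E ∧ D.sc i' l t = c ∧ D.vb (nr + i) l = J} := measure_biUnion_finset_le _ _
      _ ≤ ∑ _c ∈ Bx, (ENNReal.ofReal (K * k6aW i' ^ ((j : ℝ) + d)) * D.pal (k6aCube (nr + i) J)) :=
        Finset.sum_le_sum fun c _ => hP.slice (nr + i) (by omega) i' (by omega) t c J
      _ = (Bx.card : ℝ≥0∞) * (ENNReal.ofReal (K * k6aW i' ^ ((j : ℝ) + d)) * D.pal (k6aCube (nr + i) J)) := by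
        rw [Finset.sum_const, nsmul_eq_mul]
      _ ≤ _ := by gcongr
  have hK0 : 0 ≤ K := by linarith
  have hpow : k6aW i' ^ ((j : ℝ) + d) ≤ p ^ ((j : ℝ) + d) := Real.rpow_le_rpow hw0.le hw1 (by positivity)
  have hreal := ENNReal.toReal_mono (ENNReal.mul_ne_top (ENNReal.natCast_ne_top _) (ENNReal.mul_ne_top ENNReal.ofReal_ne_top hpal)) hmain
  rw [ENNReal.toReal_mul, ENNReal.toReal_mul, ENNReal.toReal_natCast,
    ENNReal.toReal_ofReal (mul_nonneg hK0 (Real.rpow_nonneg hw0.le _))] at hreal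
  have hpm : k6a4_pm D.pal (k6aW (nr + i)) J = (D.pal (k6aCube (nr + i) J)).toReal := by
    unfold k6a4_pm
    rw [hBc]
    rfl
  rw [hpm]
  refine le_trans hreal ?_
  push_cast
  have h0 : 0 ≤ (D.pal (k6aCube (nr + i) J)).toReal := ENNReal.toReal_nonneg
  calc (3 : ℝ) ^ (j + 1) * (K * k6aW i' ^ ((j : ℝ) + d) * (D.pal (k6aCube (nr + i) J)).toReal)
      ≤ 3 ^ (j + 1) * (K * p ^ ((j : ℝ) + d) * (D.pal (k6aCube (nr + i) J)).toReal) := by gcongr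
    _ = _ := by ring

/-- levels of the widths `ρ r` -/
theorem k6a3_br_in4_level {nz : ℕ} (nr : ℕ) {r : ℝ} (hr : r ∈ k5_Dy (k6aW nz)) :
    ∃ i ≤ nz, k6aW nr * r = k6aW (nr + i) := by
  obtain ⟨hr1, i, rfl⟩ := hr
  refine ⟨i, (pow_le_pow_iff_right_of_lt_one₀ (by norm_num) (by norm_num)).1 hr1, ?_⟩
  show (1 / 2 : ℝ) ^ nr * (1 / 2 : ℝ) ^ i = (1 / 2 : ℝ) ^ (nr + i)
  rw [pow_add]

theorem k6a3_br_in4_pm {j : ℕ} (π : Measure (Fin j → ℝ)) (m : ℕ) (J : Fin j → ℤ) :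
    k6a4_pm π (k6aW m) J = (π (k6aCube m J)).toReal := by
  have h : {u : Fin j → ℝ | k5_vbin (k6aW m) u = J} = k6aCube m J := by
    ext u
    show k5_vbin ((1 / 2 : ℝ) ^ m) u = J ↔ k6aVBin m u = J
    rw [k6a4_vbin_eq]
  show π.real {u | k5_vbin (k6aW m) u = J} = _
  rw [h, measureReal_def]

theorem k6a3_br_in4_vb_meas {j : ℕ} (D : K6aDat j) {K : ℝ} (h : D.WF K) (m : ℕ) (J : Fin j → ℤ) :
    MeasurableSet {e : D.L × ℝ | D.vb m e.1 = J} := by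
  have h1 : Measurable fun e : D.L × ℝ => D.vb m e.1 := by
    refine measurable_pi_iff.2 fun a => ?_
    exact Int.measurable_floor.comp
      ((((measurable_pi_apply a).comp h.m_V).comp measurable_fst).mul_const _)
  exact h1 (measurableSet_singleton J)

/-- BR7 -/
theorem k6a3_br_in4 (hA : k6a3_br_alg_stmt) (hB : k6a3_br_bin_stmt) (_hP : k6a3_br_prior_stmt) (h6 : k6a3_br_cap_stmt) :
    k6a3_br_in4_stmt := by
  classical
  intro j D d K K' κ nz nr nb n0 E E' Lc m0 g F hK hKK' hd hrb hb0 hrz hWF hPh hGr hE'm hE'E hlt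
    hFm hFb hFG hFF hsupp
  obtain ⟨a1, a2, a3, a4, a5, a6, a7, a8⟩ := hA j D
  obtain ⟨b1, b2, b3, b4, b5, b6, b7, b8, b9, b10, b11, b12⟩ := hB j D
  have hprob := hWF.prob
  have hK0 : 0 ≤ K := zero_le_one.trans hK
  have hKle : K ≤ K' := by
    refine le_trans ?_ hKK'
    have : (1 : ℝ) ≤ 3 ^ (j + 1) := one_le_pow₀ (by norm_num)
    nlinarith
  have hK'0 : 0 ≤ K' := hK0.trans hKle
  have hpalfin : IsFiniteMeasure D.pal := ⟨lt_of_le_of_lt hWF.pal_le ENNReal.one_lt_top⟩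
  have hsub : ∀ S : Set (D.L × ℝ), S ⊆ E' → S ⊆ Lc ×ˢ Set.Icc (0 : ℝ) 1 := fun S hS =>
    (hS.trans hE'E).trans hPh.E_sub
  have hm0fin : ∀ s, m0 s ≠ ∞ := fun s =>
    ne_top_of_le_ne_top ENNReal.ofReal_ne_top (by simpa using hPh.m0_sum {s})
  have hnr0 : nr ≤ n0 := hrb.trans hb0
  obtain ⟨Ws, hWs⟩ := k6a4_ms_fin D K hWF n0
  refine ⟨Ws, ?_⟩
  refine
    { fin := inferInstance
      nu1 := ?_
      pfin := hpalfin
      pi1 := ?_
      mc := (a8 K hWF).1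
      mE := hE'm
      tI := fun l t h => ⟨(hPh.E_sub (hE'E h)).2.1, hlt _ h⟩
      cb := fun l => ((a8 K hWF).2 l).trans hKle
      mw := fun i => k6a4_ms_meas D K hWF n0 i
      wS := fun e he => hWs e (hPh.E_sub (hE'E he)).2.1 (hPh.E_sub (hE'E he)).2.2
      wd := fun e _ e' _ h => k6a4_wc_diam D n0 e e' (congrArg Prod.snd h)
      m0n := fun i => ENNReal.toReal_nonneg
      m0s := ?_
      joint := ?_
      plist := ?_
      graph := ?_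
      floor := ?_
      cap := ?_
      mF := hFm
      Fb := hFb
      FG := ?_
      FF := hFF
      supp := hsupp }
  · rw [measureReal_def, Measure.restrict_apply MeasurableSet.univ, Set.univ_inter]
    exact ENNReal.toReal_le_of_le_ofReal zero_le_one (by simpa using prob_le_one)
  · rw [measureReal_def]
    exact ENNReal.toReal_le_of_le_ofReal zero_le_one (by simpa using hWF.pal_le)
  · rw [← ENNReal.toReal_sum fun s _ => hm0fin s]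
    exact (ENNReal.toReal_le_of_le_ofReal hK0 (hPh.m0_sum Ws)).trans hKle
  · -- joint
    intro r hr s J
    obtain ⟨i, hi, hw⟩ := k6a3_br_in4_level nr hr
    have hm : nr + i ≤ n0 := (Nat.add_le_add_left hi nr).trans hrz
    rw [hw, k6a3_br_in4_pm]
    have hS : {e : D.L × ℝ | e ∈ E' ∧ D.ms n0 e = s ∧ k6a4_vb (k6aW (nr + i)) (k6a3_co D) e = J}
        = E' ∩ D.ms n0 ⁻¹' {s} ∩ {e | D.vb (nr + i) e.1 = J} := by
      ext e
      have : k6a4_vb (k6aW (nr + i)) (k6a3_co D) e = D.vb (nr + i) e.1 := b9 (nr + i) e.1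
      simp only [Set.mem_ofPred_eq, Set.mem_inter_iff, Set.mem_preimage, Set.mem_singleton_iff, this,
        and_assoc]
    rw [hS, k6a4_prior_mass D K hWF Lc hPh.Lc_meas _
      ((hE'm.inter (k6a4_ms_meas D K hWF n0 s)).inter (k6a3_br_in4_vb_meas D hWF _ J))
      (hsub _ fun e he => he.1.1)]
    have h1 : D.prior (E' ∩ D.ms n0 ⁻¹' {s} ∩ {e | D.vb (nr + i) e.1 = J})
        ≤ ENNReal.ofReal K * D.pal (k6aCube (nr + i) J) * m0 s :=
      (measure_mono (Set.inter_subset_inter_left _ (Set.inter_subset_inter_left _ hE'E))).trans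
        (hPh.joint (nr + i) hm s J)
    have h2 := ENNReal.toReal_mono (ENNReal.mul_ne_top (ENNReal.mul_ne_top ENNReal.ofReal_ne_top
      (measure_ne_top _ _)) (hm0fin s)) h1
    rw [ENNReal.toReal_mul, ENNReal.toReal_mul, ENNReal.toReal_ofReal hK0] at h2
    refine h2.trans ?_
    have e1 : (0 : ℝ) ≤ (D.pal (k6aCube (nr + i) J)).toReal := ENNReal.toReal_nonneg
    have e2 : (0 : ℝ) ≤ (m0 s).toReal := ENNReal.toReal_nonneg
    calc K * (D.pal (k6aCube (nr + i) J)).toReal * (m0 s).toReal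
        = K * ((m0 s).toReal * (D.pal (k6aCube (nr + i) J)).toReal) := by ring
      _ ≤ K' * ((m0 s).toReal * (D.pal (k6aCube (nr + i) J)).toReal) :=
          mul_le_mul_of_nonneg_right hKle (mul_nonneg e2 e1)
      _ = K' * (m0 s).toReal * (D.pal (k6aCube (nr + i) J)).toReal := by ring
  · -- plist
    intro s I
    obtain ⟨T, hT, hT'⟩ := hPh.blk_list nr hnr0 (k6a3_crs (n0 - nr) s.2) I
    refine ⟨T.image k6a3_encB, ?_, fun e he hs hI => ?_⟩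
    · refine le_trans ?_ (hT.trans hKle)
      exact_mod_cast Finset.card_image_le
    · have h1 : D.wc nr e = k6a3_crs (n0 - nr) s.2 := by
        rw [b7 nr n0 e hnr0, ← hs]
        rfl
      have h2 : D.vb nr e.1 = I := by
        rw [← b9 nr e.1]
        exact hI
      have h3 : k6a4_bk (k6aW nr) (k6a3_co D) e = k6a3_encB (D.bc nr e.1) := b8 nr e.1
      rw [h3]
      exact Finset.mem_image_of_mem _ (hT' e (hE'E he) h1 h2)
  · -- graph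
    intro e he
    have h := hGr.est e (hE'E he)
    rw [a4, a3]
    have h1 : k6a3_crs (n0 - nb) (D.ms n0 e).2 = D.wc nb e := (b7 nb n0 e hb0).symm
    rw [h1, sub_sub]
    exact h
  · -- floor
    intro r hr e he
    obtain ⟨i, hi, hw⟩ := k6a3_br_in4_level nr hr
    have hm : nr + i ≤ n0 := (Nat.add_le_add_left hi nr).trans hrz
    rw [hw, k6a3_br_in4_pm]
    have h1 : k6a4_vb (k6aW (nr + i)) (k6a3_co D) e = D.vb (nr + i) e.1 := b9 (nr + i) e.1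
    have h2 : {l : D.L | k5_cbin (k6aW (nr + i)) (k6a3_co D l) = k6a4_bk (k6aW (nr + i)) (k6a3_co D) e}
        = D.bc (nr + i) ⁻¹' {D.bc (nr + i) e.1} := by
      ext l
      have e1 : k6a4_bk (k6aW (nr + i)) (k6a3_co D) e = k6a3_encB (D.bc (nr + i) e.1) := b8 (nr + i) e.1
      simp only [Set.mem_ofPred_eq, Set.mem_preimage, Set.mem_singleton_iff, e1, b8, b6.eq_iff]
    rw [h1, h2, measureReal_def, Measure.restrict_apply' hPh.Lc_meas, Set.inter_comm]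
    have h3 := hPh.blk_lo (nr + i) hm e (hE'E he)
    have h4 := ENNReal.toReal_mono (ENNReal.mul_ne_top ENNReal.ofReal_ne_top (measure_ne_top _ _)) h3
    rw [ENNReal.toReal_mul, ENNReal.toReal_mul, ENNReal.toReal_ofReal hK0,
      ENNReal.toReal_ofReal (Real.rpow_nonneg (k6a3_br_grid_W_pos _).le _)] at h4
    exact h4.trans (mul_le_mul_of_nonneg_right hKle ENNReal.toReal_nonneg)
  · -- cap
    intro r hr q a y₀ J t hq hqr
    have h := h6 j D d K nz nr n0 E Lc m0 hK hd hrz hWF hPh r hr q a y₀ J t hq hqr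
    have hmono : (D.ν.restrict Lc).real {l | (l, t) ∈ E' ∧ k5_InQ (k6aW nr * q) a y₀ (k6a3_co D l) t ∧
          k5_vbin (k6aW nr * r) (k5_yd (k6a3_co D l)) = J}
        ≤ (D.ν.restrict Lc).real {l | (l, t) ∈ E ∧ k5_InQ (k6aW nr * q) a y₀ (k6a3_co D l) t ∧
          k5_vbin (k6aW nr * r) (k5_yd (k6a3_co D l)) = J} :=
      measureReal_mono fun l hl => ⟨hE'E hl.1, hl.2⟩
    refine (hmono.trans h).trans ?_
    have hq0 : 0 ≤ k6aW nr * q :=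
      mul_nonneg (k6a3_br_grid_W_pos nr).le ((k6a3_br_grid_W_pos nz).le.trans hq)
    have e1 : 0 ≤ (k6aW nr * q) ^ ((j : ℝ) + d) := Real.rpow_nonneg hq0 _
    have e2 : 0 ≤ k6a4_pm D.pal (k6aW nr * r) J := measureReal_nonneg
    exact mul_le_mul_of_nonneg_right (mul_le_mul_of_nonneg_right hKK' e1) e2
  · -- FG
    intro e he
    have h := hFG e he
    have h1 : k6a3_gy (k6a3_G D g (n0 - nb) (D.ms n0 e)) = (g (k6a3_crs (n0 - nb) (D.ms n0 e).2)).2 :=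
      a7 _
    rw [h1] at h
    exact h

/-- the arithmetic of the slack in BR8 -/
theorem k6a3_hub1_slack (j : ℕ) (C₀ K A K₁ w ζ ε₁ K' : ℝ) (hC₀ : 1 ≤ C₀) (hK : 1 ≤ K) (hA : 1 ≤ A) (hK₁ : 1 ≤ K₁)
    (hw : 0 < w) (hw1 : w ≤ 1) (hζ : 0 < ζ) (hζ1 : ζ ≤ 1) (hε₁ : 0 < ε₁)
    (h : (C₀ + 3 ^ (j + 1)) * (K * A * K₁ / w) ^ (C₀ + 3 ^ (j + 1)) * ζ ^ (-ε₁) ≤ K') :
    3 ^ (j + 1) * K ≤ K' ∧ K ≤ K' ∧ C₀ * (K * A) ^ C₀ ≤ K' ∧ C₀ * (K * A * K₁ / w) ^ C₀ * ζ ^ (-ε₁) ≤ K' := by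
  have h3 : (1 : ℝ) ≤ 3 ^ (j + 1) := one_le_pow₀ (by norm_num)
  set C : ℝ := C₀ + 3 ^ (j + 1) with hC
  have hCC₀ : C₀ ≤ C := by linarith
  have hC1 : 1 ≤ C := by linarith
  set X : ℝ := K * A * K₁ / w with hX
  have hKA : 1 ≤ K * A := by nlinarith
  have hKAX : K * A ≤ X := by
    rw [hX, le_div_iff₀ hw]
    nlinarith
  have hX1 : 1 ≤ X := hKA.trans hKAX
  have hKX : K ≤ X := le_trans (by nlinarith) hKAX
  have hz : 1 ≤ ζ ^ (-ε₁) := Real.one_le_rpow_of_pos_of_le_one_of_nonpos hζ hζ1 (by linarith)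
  have hXC : X ≤ X ^ C := by
    calc X = X ^ (1 : ℝ) := (Real.rpow_one X).symm
      _ ≤ X ^ C := Real.rpow_le_rpow_of_exponent_le hX1 hC1
  have hXC0 : 0 < X ^ C := by positivity
  have hbase : C * X ^ C ≤ K' := by
    refine le_trans ?_ h
    have : 0 ≤ C * X ^ C := by positivity
    nlinarith
  have hXC₀ : X ^ C₀ ≤ X ^ C := Real.rpow_le_rpow_of_exponent_le hX1 hCC₀
  refine ⟨?_, ?_, ?_, ?_⟩
  · refine le_trans ?_ hbase
    have h5 : (3 : ℝ) ^ (j + 1) ≤ C := by linarith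
    exact mul_le_mul h5 (hKX.trans hXC) (by linarith) (by linarith)
  · have h7 : X ^ C ≤ C * X ^ C := by nlinarith
    exact ((hKX.trans hXC).trans h7).trans hbase
  · refine le_trans ?_ hbase
    have h6 : (K * A) ^ C₀ ≤ X ^ C₀ := Real.rpow_le_rpow (by linarith) hKAX (by linarith)
    apply mul_le_mul hCC₀ (h6.trans hXC₀) (by positivity) (by linarith)
  · refine le_trans ?_ h
    have : C₀ * X ^ C₀ ≤ C * X ^ C := mul_le_mul hCC₀ hXC₀ (by positivity) (by linarith)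
    exact mul_le_mul_of_nonneg_right this (by linarith)

/-- the arithmetic of the mass in BR8 -/
theorem k6a3_hub1_mass (C₀ C K K₁ K' e δ a Lq : ℝ) (n : ℕ) (hC₀ : 1 ≤ C₀) (hCC : C₀ ≤ C) (hK : 1 ≤ K) (hK₁ : 1 ≤ K₁)
    (hδ : 0 ≤ δ) (hδe : 2 * δ ≤ e) (ha : 0 ≤ a) (hLq : 0 ≤ Lq)
    (h1 : e ≤ (C₀ * K) ^ n * (a + C₀ * K * Lq / K₁) + δ)
    (h2 : 4 * (C * K) ^ n * (C * K * Lq) ≤ e * K₁) (h3 : 4 * (C * K) ^ n ≤ e * K') : 1 / K' ≤ a := by
  have hK₁0 : 0 < K₁ := by linarith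
  have hCK : C₀ * K ≤ C * K := by nlinarith
  have hC₀K : 0 < C₀ * K := by nlinarith
  have hP : (C₀ * K) ^ n ≤ (C * K) ^ n := pow_le_pow_left₀ hC₀K.le hCK n
  have hP0 : 0 < (C₀ * K) ^ n := by positivity
  have hPC0 : 0 < (C * K) ^ n := lt_of_lt_of_le hP0 hP
  have he : 0 < e := by
    by_contra hne
    have : e = 0 := le_antisymm (not_lt.mp hne) (by linarith)
    rw [this] at h3
    nlinarith
  have hK'0 : 0 < K' := by
    by_contra hne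
    have : e * K' ≤ 0 := mul_nonpos_of_nonneg_of_nonpos he.le (not_lt.mp hne)
    nlinarith
  have h4 : (C₀ * K) ^ n * (C₀ * K * Lq / K₁) ≤ e / 4 := by
    have h5 : (C₀ * K) ^ n * (C₀ * K * Lq) ≤ (C * K) ^ n * (C * K * Lq) := by
      apply mul_le_mul hP _ (by positivity) hPC0.le
      exact mul_le_mul_of_nonneg_right hCK hLq
    rw [← mul_div_assoc, div_le_iff₀ hK₁0]
    nlinarith
  have h6 : e / 4 ≤ (C₀ * K) ^ n * a := by
    have : (C₀ * K) ^ n * (a + C₀ * K * Lq / K₁) = (C₀ * K) ^ n * a + (C₀ * K) ^ n * (C₀ * K * Lq / K₁) := by ring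
    linarith
  have h7 : e / 4 ≤ (e * K' / 4) * a := by
    calc e / 4 ≤ (C₀ * K) ^ n * a := h6
      _ ≤ (C * K) ^ n * a := mul_le_mul_of_nonneg_right hP ha
      _ ≤ (e * K' / 4) * a := mul_le_mul_of_nonneg_right (by linarith) ha
  rw [div_le_iff₀ hK'0]
  have h8 : e * 1 ≤ e * (a * K') := by nlinarith
  exact le_of_mul_le_mul_left h8 he

/-- BR8 -/
theorem k6a3_hub1 (hP : k6a3_br_prior_stmt) (h5 : k6a3_br_in0_stmt) (hE : k6a3_exit_stmt) (h7 : k6a3_br_in4_stmt) :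
    k6a3_hub1_stmt := by
  intro j ε₁ hj hε₁
  obtain ⟨C₀, hC₀, hexit⟩ := hE j ε₁ hj hε₁
  have h3 : (1 : ℝ) ≤ 3 ^ (j + 1) := one_le_pow₀ (by norm_num)
  refine ⟨C₀ + 3 ^ (j + 1), by linarith, ?_⟩
  intro D d K K' K₁ δ w e κ nz nr nb n0 sp E U Lc m0 g hd0 hd1 hK hK₁ hsp hrb hbn hrz hκ hWF hPhys hGraph hw hw1 hBrd hδ
    hδe hUm hUE hUmass hsmall hK₁big hK'big hK'mass
  set C : ℝ := C₀ + 3 ^ (j + 1) with hC
  have hCC₀ : C₀ ≤ C := by linarith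
  obtain ⟨R, hRU, hRloss, hIn0⟩ := h5 j D d K δ w κ nz nr nb n0 sp E U Lc m0 g hK hsp hrb hbn hrz hκ hδ hWF hPhys hGraph
    hBrd hUm hUE
  have hA : (1 : ℝ) ≤ 2 ^ sp := one_le_pow₀ (by norm_num)
  have hW0 : ∀ i, 0 < k6aW i := fun i => by
    unfold k6aW
    positivity
  have hW1 : ∀ i, k6aW i ≤ 1 := fun i => by
    unfold k6aW
    exact pow_le_one₀ (by norm_num) (by norm_num)
  have hKA : 1 ≤ K * 2 ^ sp := by nlinarith
  have hsm0 : 0 ≤ k6aW nb ^ κ + k6aW nr + k6aW n0 / k6aW nr := by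
    have := hW0 nb
    have := hW0 nr
    have := hW0 n0
    positivity
  have hsmall₀ : C₀ * (K * 2 ^ sp) ^ C₀ * (k6aW nb ^ κ + k6aW nr + k6aW n0 / k6aW nr) ≤ k6aW nz := by
    refine le_trans (mul_le_mul_of_nonneg_right ?_ hsm0) hsmall
    exact mul_le_mul hCC₀ (Real.rpow_le_rpow_of_exponent_le hKA hCC₀) (by positivity) (by linarith)
  obtain ⟨R', F, hR'm, hR'R, hmass, -, hFm, hFb, hFG, hFF, hsupp⟩ := hexit (D.ν.restrict Lc) (k6a3_co D) R (D.ms n0)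
    (fun s => k6a3_ctr n0 s.2) (k6a3_G D g (n0 - nb)) d K (2 ^ sp) (k6aW n0) (k6aW nb ^ κ) (k6aW nr) (k6aW nz) w K₁
    (k6a3_gl nr sp) (k6a3_gs nr sp) (k6a3_gl nz sp) (k6a3_gs nz sp) hIn0 hd0 hd1 hK hA (hW0 n0).le
    (Real.rpow_nonneg (hW0 nb).le κ) (hW1 nz) hw hw1 hK₁ hsmall₀
  obtain ⟨hs1, hs2, hs3, hs4⟩ := k6a3_hub1_slack j C₀ K (2 ^ sp) K₁ w (k6aW nz) ε₁ K' hC₀ hK hA hK₁ hw hw1 (hW0 nz) (hW1 nz)
    hε₁ hK'big
  have hR'E : R' ⊆ E := (hR'R.trans hRU).trans hUE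
  obtain ⟨Ws, hIn4⟩ := h7 j D d K K' κ nz nr nb n0 E R' Lc m0 g F hK hs1 hd0 hrb hbn hrz hWF hPhys hGraph hR'm hR'E
    (fun e he => (hIn0.tI e (hR'R he)).2) hFm (fun β t => (hFb β t).trans hs2)
    (fun e he => (hFG e he).trans (mul_le_mul_of_nonneg_right hs3 (hW0 nr).le))
    (fun e he e' he' hee => (hFF e he e' he' hee).trans
      (mul_le_mul_of_nonneg_right hs3 (add_nonneg (abs_nonneg _) (hW0 nr).le)))
    (fun β t q r a hq hqr hr => by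
      obtain ⟨T, hT, hT'⟩ := hsupp β t q r a hq hqr hr
      refine ⟨T, hT.trans (mul_le_mul_of_nonneg_right hs4 ?_), hT'⟩
      have hq0 : 0 < q := lt_of_lt_of_le (hW0 nz) hq
      have hr0 : 0 < r := lt_of_lt_of_le hq0 hqr
      positivity)
  refine ⟨R', Ws, F, hR'R.trans hRU, hIn4, ?_⟩
  -- the mass
  have hRsub : R ⊆ Lc ×ˢ Set.Icc (0 : ℝ) 1 := (hRU.trans hUE).trans hPhys.E_sub
  obtain ⟨hPR, -, -⟩ := hP j D K Lc R hWF hPhys.Lc_meas hIn0.mR hRsub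
  obtain ⟨hPR', hPR'1, hPR'm⟩ := hP j D K Lc R' hWF hPhys.Lc_meas hR'm (hR'R.trans hRsub)
  set a : ℝ := k5_mass (D.ν.restrict Lc) R' with ha
  have ha0 : 0 ≤ a := by
    rw [hPR'm]
    exact ENNReal.toReal_nonneg
  have hfin : D.prior R' ≠ ∞ := ne_top_of_le_ne_top ENNReal.one_ne_top hPR'1
  have hR'a : ((D.ν.restrict Lc).prod volume) R' = ENNReal.ofReal a := by
    rw [← hPR', hPR'm, ENNReal.ofReal_toReal hfin]
  have hq0 : 0 ≤ C₀ * K * ((k6a3_gl nz sp : ℝ) + 1) ^ 2 / K₁ := by positivity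
  have hP0 : 0 ≤ (C₀ * K) ^ (k6a3_gl nr sp + 1) := by positivity
  have hchain : ENNReal.ofReal e ≤ ENNReal.ofReal ((C₀ * K) ^ (k6a3_gl nr sp + 1) *
      (a + C₀ * K * ((k6a3_gl nz sp : ℝ) + 1) ^ 2 / K₁) + δ) := by
    calc ENNReal.ofReal e ≤ D.prior U := hUmass
      _ ≤ D.prior R + ENNReal.ofReal δ := hRloss
      _ = ((D.ν.restrict Lc).prod volume) R + ENNReal.ofReal δ := by rw [hPR]
      _ ≤ ENNReal.ofReal ((C₀ * K) ^ (k6a3_gl nr sp + 1)) *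
          (ENNReal.ofReal a + ENNReal.ofReal (C₀ * K * ((k6a3_gl nz sp : ℝ) + 1) ^ 2 / K₁)) + ENNReal.ofReal δ := by
          rw [← hR'a]
          gcongr
      _ = _ := by
          rw [← ENNReal.ofReal_add ha0 hq0, ← ENNReal.ofReal_mul hP0, ← ENNReal.ofReal_add (by positivity) hδ]
  have hreal : e ≤ (C₀ * K) ^ (k6a3_gl nr sp + 1) * (a + C₀ * K * ((k6a3_gl nz sp : ℝ) + 1) ^ 2 / K₁) + δ :=
    (ENNReal.ofReal_le_ofReal_iff (by positivity)).mp hchain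
  exact k6a3_hub1_mass C₀ C K K₁ K' e δ a (((k6a3_gl nz sp : ℝ) + 1) ^ 2) (k6a3_gl nr sp + 1) hC₀ hCC₀ hK hK₁ hδ hδe ha0
    (by positivity) hreal hK₁big hK'mass

theorem k6a3_hub_S1 (C K A t s x n z1 z2 z3 : ℝ) (hC : 1 ≤ C) (hCt : C ≤ (2 : ℝ) ^ t) (hK0 : 0 < K)
    (hK : K ≤ (2 : ℝ) ^ t) (hA0 : 0 < A) (hA : A ≤ (2 : ℝ) ^ (s + t)) (h3 : 3 ≤ (2 : ℝ) ^ t)
    (h1 : z1 ≤ (2 : ℝ) ^ (-(n + x))) (h2 : z2 ≤ (2 : ℝ) ^ (-(n + x))) (h3' : z3 ≤ (2 : ℝ) ^ (-(n + x)))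
    (hz : 0 ≤ z1 + z2 + z3) (hx : 2 * t + (2 * t + s) * C ≤ x) :
    C * (K * A) ^ C * (z1 + z2 + z3) ≤ (2 : ℝ) ^ (-n) := by
  have hKA : (K * A) ^ C ≤ (2 : ℝ) ^ ((2 * t + s) * C) := by
    rw [Real.rpow_mul two_pos.le]
    refine Real.rpow_le_rpow (by positivity) ?_ (by linarith)
    calc K * A ≤ (2 : ℝ) ^ t * (2 : ℝ) ^ (s + t) := by gcongr
      _ = (2 : ℝ) ^ (2 * t + s) := by rw [← Real.rpow_add two_pos]; congr 1; ring
  have hP : 0 < (2 : ℝ) ^ (-(n + x)) := Real.rpow_pos_of_pos two_pos _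
  have hzz : z1 + z2 + z3 ≤ (2 : ℝ) ^ t * (2 : ℝ) ^ (-(n + x)) := by nlinarith
  calc C * (K * A) ^ C * (z1 + z2 + z3)
      ≤ (2 : ℝ) ^ t * (2 : ℝ) ^ ((2 * t + s) * C) * ((2 : ℝ) ^ t * (2 : ℝ) ^ (-(n + x))) := by gcongr
    _ = (2 : ℝ) ^ (t + (2 * t + s) * C + (t + -(n + x))) := by
        rw [← Real.rpow_add two_pos, ← Real.rpow_add two_pos, ← Real.rpow_add two_pos]
    _ ≤ (2 : ℝ) ^ (-n) := Real.rpow_le_rpow_of_exponent_le one_le_two (by linarith)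

theorem k6a3_hub_S3 (C K A K₁ w V t s k u : ℝ) (hC : 1 ≤ C) (hCt : C ≤ (2 : ℝ) ^ t) (hK0 : 0 < K)
    (hK : K ≤ (2 : ℝ) ^ t) (hA0 : 0 < A) (hA : A ≤ (2 : ℝ) ^ (s + t)) (hK₁0 : 0 < K₁) (hK₁ : K₁ ≤ (2 : ℝ) ^ k)
    (hw : 0 < w) (hKw : 1 ≤ K * w) (hV0 : 0 ≤ V) (hV : V ≤ (2 : ℝ) ^ (u / 8))
    (hu : t + (3 * t + s + k) * C + u / 8 ≤ u) :
    C * (K * A * K₁ / w) ^ C * V ≤ (2 : ℝ) ^ u := by
  have hb : K * A * K₁ / w ≤ K * A * K₁ * K := by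
    rw [div_le_iff₀ hw]
    calc K * A * K₁ = K * A * K₁ * 1 := (mul_one _).symm
      _ ≤ K * A * K₁ * (K * w) := by gcongr
      _ = _ := by ring
  have hKA : (K * A * K₁ / w) ^ C ≤ (2 : ℝ) ^ ((3 * t + s + k) * C) := by
    rw [Real.rpow_mul two_pos.le]
    refine Real.rpow_le_rpow (by positivity) (hb.trans ?_) (by linarith)
    calc K * A * K₁ * K ≤ (2 : ℝ) ^ t * (2 : ℝ) ^ (s + t) * (2 : ℝ) ^ k * (2 : ℝ) ^ t := by gcongr
      _ = (2 : ℝ) ^ (3 * t + s + k) := by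
        rw [← Real.rpow_add two_pos, ← Real.rpow_add two_pos, ← Real.rpow_add two_pos]; congr 1; ring
  calc C * (K * A * K₁ / w) ^ C * V
      ≤ (2 : ℝ) ^ t * (2 : ℝ) ^ ((3 * t + s + k) * C) * (2 : ℝ) ^ (u / 8) := by gcongr
    _ = (2 : ℝ) ^ (t + (3 * t + s + k) * C + u / 8) := by
        rw [← Real.rpow_add two_pos, ← Real.rpow_add two_pos]
    _ ≤ (2 : ℝ) ^ u := Real.rpow_le_rpow_of_exponent_le one_le_two hu

theorem k6a3_hub_S4 (K Q e t k u : ℝ) (hK0 : 0 < K) (hK : K ≤ (2 : ℝ) ^ t) (h4 : 4 ≤ (2 : ℝ) ^ t) (hQ0 : 0 < Q)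
    (hQ : Q ≤ (2 : ℝ) ^ k) (he : 0 < e) (hKe : 1 ≤ K * e) (hu : 2 * t + k ≤ u) :
    4 * Q ≤ e * (2 : ℝ) ^ u := by
  have h1 : 4 * Q * K ≤ (2 : ℝ) ^ u := by
    calc 4 * Q * K ≤ (2 : ℝ) ^ t * (2 : ℝ) ^ k * (2 : ℝ) ^ t := by gcongr
      _ = (2 : ℝ) ^ (t + k + t) := by rw [← Real.rpow_add two_pos, ← Real.rpow_add two_pos]
      _ ≤ _ := Real.rpow_le_rpow_of_exponent_le one_le_two (by linarith)
  calc 4 * Q = 4 * Q * 1 := (mul_one _).symm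
    _ ≤ 4 * Q * (K * e) := by gcongr
    _ = e * (4 * Q * K) := by ring
    _ ≤ _ := by gcongr

theorem k6a3_hub_Sc (j : ℕ) (hj : j ≤ 2) (K' ζ ρ b η' T Z : ℝ) (hK' : 1 ≤ K') (hρ : 0 < ρ) (hρζ : ρ ≤ ζ) (hζ : ζ ≤ 1)
    (hb0 : 0 ≤ b) (hη0 : 0 ≤ η') (hT : 10 ≤ T) (hZ0 : 0 ≤ Z) (hb : b ≤ Z) (hη : η' ≤ Z) (hρρ : ρ ^ 2 ≤ Z)
    (hfin : T * K' * Z ≤ ρ * ζ) : k6a4_Sc j K' ζ ρ b η' := by
  have hj' : (j : ℝ) ≤ 2 := by exact_mod_cast hj
  have hj0 : (0 : ℝ) ≤ j := Nat.cast_nonneg _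
  have h10 : 10 * K' * Z ≤ ρ * ζ := le_trans (by gcongr) hfin
  have hKZ : Z ≤ K' * Z := le_mul_of_one_le_left hZ0 hK'
  refine ⟨hK', hρ, hρζ, hζ, hb0, hη0, ?_, ?_⟩
  · calc (4 + 3 * K') * b ≤ (4 + 3 * K') * Z := by gcongr
      _ ≤ 10 * K' * Z := by nlinarith
      _ ≤ _ := h10
  · have h1 : 2 * (K' + 1) * b ≤ 2 * (K' + 1) * Z := by gcongr
    have h2 : 2 * j * K' * ρ ^ 2 ≤ 2 * 2 * K' * Z := by gcongr
    nlinarith

theorem k6a3_hub_W (n : ℕ) : k6aW n = (2 : ℝ) ^ (-(n : ℝ)) := by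
  show (1 / 2 : ℝ) ^ n = _
  rw [Real.rpow_neg (by norm_num), Real.rpow_natCast, one_div, inv_pow]

theorem k6a3_hub_big (A c : ℝ) (hc : 0 < c) : ∃ k0 : ℕ, ∀ k : ℕ, k0 ≤ k → A ≤ (2 : ℝ) ^ (c * k) := by
  refine ⟨⌈Real.logb 2 (max A 1) / c⌉₊, fun k hk => ?_⟩
  have h1 : Real.logb 2 (max A 1) / c ≤ k := (Nat.le_ceil _).trans (by exact_mod_cast hk)
  have h2 : Real.logb 2 (max A 1) ≤ c * k := by rwa [div_le_iff₀' hc] at h1
  calc A ≤ max A 1 := le_max_left _ _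
    _ = (2 : ℝ) ^ Real.logb 2 (max A 1) := (Real.rpow_logb two_pos (by norm_num) (by positivity)).symm
    _ ≤ _ := Real.rpow_le_rpow_of_exponent_le one_le_two h2

theorem k6a3_hub_brd_mono {j : ℕ} (D : K6aDat j) {S : Type} (E : Set (D.L × ℝ)) (s : D.L × ℝ → S) (κ w w' δ : ℝ)
    (hw : w' ≤ w) (h : K6aBrd D E s κ w δ) : K6aBrd D E s κ w' δ := by
  intro E' hE' hsub
  refine le_trans (measure_mono ?_) (h E' hE' hsub)
  refine Set.inter_subset_inter_right _ ?_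
  rintro e ⟨n, c, hn, hle⟩
  refine ⟨n, c, hn, hle.trans (measure_mono ?_)⟩
  exact Set.inter_subset_inter_right _ fun e' (he' : _ ≤ w') => le_trans he' hw

/-- the coefficients -/
theorem k6a3_hub_coef (Rm ε C : ℝ) (hRm : 0 < Rm) (hε : 0 < ε) (hε4 : ε ≤ 1 / 4) (hC : 1 ≤ C) :
    ∃ σ Lm η : ℝ, 0 < σ ∧ 2 ≤ Lm ∧ Rm / σ + 2 = Lm ∧ 0 < η ∧
      (∀ x : ℝ, 0 ≤ x → 2 * (η * x) + (2 * (η * x) + σ * x) * C ≤ x) ∧
      (∀ x : ℝ, 0 ≤ x → η * x + (3 * (η * x) + σ * x + (2 * (η * x) * Lm + 6 * (η * x))) * C + ε * x / 8 ≤ ε * x) ∧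
      (∀ x : ℝ, 0 ≤ x → 2 * (η * x) + 2 * (η * x) * Lm ≤ ε * x) ∧
      (∀ x : ℝ, 0 ≤ x → η * x + ε * x ≤ x) := by
  have hC0 : 0 < C := by linarith
  obtain ⟨σ, hσ0, hCσ⟩ : ∃ σ : ℝ, 0 < σ ∧ C * σ = ε / 32 := ⟨ε / (32 * C), by positivity, by field_simp⟩
  obtain ⟨Lm, hLm2, hLmσ⟩ : ∃ Lm : ℝ, 2 ≤ Lm ∧ Rm / σ + 2 = Lm :=
    ⟨Rm / σ + 2, by have := div_pos hRm hσ0; linarith, rfl⟩
  obtain ⟨η, hη0, hq⟩ : ∃ η : ℝ, 0 < η ∧ C * η * (Lm + 6) = ε / 64 :=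
    ⟨ε / (64 * C * (Lm + 6)), by positivity, by field_simp⟩
  have hq1 : C * η * Lm + 6 * (C * η) = ε / 64 := by rw [← hq]; ring
  have hCη : η ≤ C * η := le_mul_of_one_le_left hη0.le hC
  have hCηL : 0 ≤ C * η * Lm := by positivity
  have hηL : η * Lm ≤ C * η * Lm := by gcongr
  refine ⟨σ, Lm, η, hσ0, hLm2, hLmσ, hη0, fun x hx => ?_, fun x hx => ?_, fun x hx => ?_, fun x hx => ?_⟩
  · calc 2 * (η * x) + (2 * (η * x) + σ * x) * C = (2 * η + 2 * (C * η) + C * σ) * x := by ring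
      _ ≤ 1 * x := by gcongr; linarith
      _ = x := one_mul x
  · calc η * x + (3 * (η * x) + σ * x + (2 * (η * x) * Lm + 6 * (η * x))) * C + ε * x / 8
        = (η + 9 * (C * η) + C * σ + 2 * (C * η * Lm) + ε / 8) * x := by ring
      _ ≤ ε * x := by gcongr; linarith
  · calc 2 * (η * x) + 2 * (η * x) * Lm = (2 * η + 2 * (η * Lm)) * x := by ring
      _ ≤ ε * x := by gcongr; linarith
  · calc η * x + ε * x = (η + ε) * x := by ring
      _ ≤ 1 * x := by gcongr; linarith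
      _ = x := one_mul x

/-- the constants `Q = (C K)^(L+1)`, `R = C K (L'+1)^2`, `K₁ = 4 Q R K` -/
theorem k6a3_hub_QR (C K t Lm : ℝ) (L L' : ℕ) (hC : 1 ≤ C) (hCt : C ≤ (2 : ℝ) ^ t) (hK1 : 1 ≤ K) (hK : K ≤ (2 : ℝ) ^ t)
    (ht : 0 ≤ t) (h4 : 4 ≤ (2 : ℝ) ^ t) (hLt : Lm ≤ (2 : ℝ) ^ t) (hL : (L : ℝ) + 1 ≤ Lm) (hL' : (L' : ℝ) + 1 ≤ Lm) :
    1 ≤ (C * K) ^ (L + 1) ∧ (C * K) ^ (L + 1) ≤ (2 : ℝ) ^ (2 * t * Lm) ∧
      1 ≤ 4 * (C * K) ^ (L + 1) * (C * K * ((L' : ℝ) + 1) ^ 2) * K ∧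
      4 * (C * K) ^ (L + 1) * (C * K * ((L' : ℝ) + 1) ^ 2) * K ≤ (2 : ℝ) ^ (2 * t * Lm + 6 * t) := by
  have hCK1 : 1 ≤ C * K := one_le_mul_of_one_le_of_one_le hC hK1
  have hCK : C * K ≤ (2 : ℝ) ^ (t + t) := by rw [Real.rpow_add two_pos]; gcongr
  have hQ1 : 1 ≤ (C * K) ^ (L + 1) := one_le_pow₀ hCK1
  have hQle : (C * K) ^ (L + 1) ≤ (2 : ℝ) ^ (2 * t * Lm) := by
    calc (C * K) ^ (L + 1) ≤ ((2 : ℝ) ^ (t + t)) ^ (L + 1) := pow_le_pow_left₀ (by positivity) hCK _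
      _ = (2 : ℝ) ^ ((t + t) * ((L : ℝ) + 1)) := by
          rw [← Real.rpow_natCast, ← Real.rpow_mul two_pos.le]; push_cast; rfl
      _ ≤ _ := Real.rpow_le_rpow_of_exponent_le one_le_two (by nlinarith)
  have hgl0 : (0 : ℝ) ≤ (L' : ℝ) := Nat.cast_nonneg _
  have h1 : (1 : ℝ) ≤ (L' : ℝ) + 1 := by linarith
  have hR1 : 1 ≤ C * K * ((L' : ℝ) + 1) ^ 2 := one_le_mul_of_one_le_of_one_le hCK1 (one_le_pow₀ h1)
  have hRle : C * K * ((L' : ℝ) + 1) ^ 2 ≤ (2 : ℝ) ^ (4 * t) := by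
    calc C * K * ((L' : ℝ) + 1) ^ 2 ≤ (2 : ℝ) ^ (t + t) * ((2 : ℝ) ^ t) ^ 2 := by
          gcongr
          exact hL'.trans hLt
      _ = (2 : ℝ) ^ (4 * t) := by
          rw [← Real.rpow_natCast, ← Real.rpow_mul two_pos.le, ← Real.rpow_add two_pos]; congr 1; push_cast; ring
  refine ⟨hQ1, hQle, ?_, ?_⟩
  · have h1 := one_le_mul_of_one_le_of_one_le hQ1 hR1
    have h2 := one_le_mul_of_one_le_of_one_le h1 hK1
    linarith
  · calc 4 * (C * K) ^ (L + 1) * (C * K * ((L' : ℝ) + 1) ^ 2) * K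
        ≤ (2 : ℝ) ^ t * (2 : ℝ) ^ (2 * t * Lm) * (2 : ℝ) ^ (4 * t) * (2 : ℝ) ^ t := by gcongr
      _ = _ := by
        rw [← Real.rpow_add two_pos, ← Real.rpow_add two_pos, ← Real.rpow_add two_pos]; congr 1; ring

/-- the arithmetic of BR9 -/
theorem k6a3_hub_arith (hG : k6a3_br_grid_stmt) (κ Rm ε C : ℝ) (hκ1 : κ ≤ 1) (hRm : 0 < Rm)
    (hε : 0 < ε) (hε4 : ε ≤ 1 / 4) (hC : 1 ≤ C) :
    ∃ (η : ℝ) (k0 : ℕ), 0 < η ∧ ∀ (K w e : ℝ) (kh nz nr nb n0 : ℕ), k0 ≤ kh → 1 ≤ K → K ≤ (2 : ℝ) ^ (η * kh) →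
      nz + kh ≤ nr → ((nr + nz + kh : ℕ) : ℝ) ≤ κ * nb → nb ≤ n0 → (n0 : ℝ) ≤ Rm * kh →
      0 < w → 1 ≤ K * w → 1 ≤ K * e →
      ∃ (sp : ℕ) (K₁ : ℝ), 1 ≤ sp ∧ 1 ≤ K₁ ∧ nr ≤ nb ∧ k6aW nb ^ κ ≤ k6aW nr ∧
        C * (K * 2 ^ sp) ^ C * (k6aW nb ^ κ + k6aW nr + k6aW n0 / k6aW nr) ≤ k6aW nz ∧
        4 * (C * K) ^ (k6a3_gl nr sp + 1) * (C * K * ((k6a3_gl nz sp : ℝ) + 1) ^ 2) ≤ e * K₁ ∧
        C * (K * 2 ^ sp * K₁ / w) ^ C * k6aW nz ^ (-(ε / (8 * Rm))) ≤ (2 : ℝ) ^ (ε * kh) ∧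
        4 * (C * K) ^ (k6a3_gl nr sp + 1) ≤ e * (2 : ℝ) ^ (ε * kh) ∧
        ∀ j : ℕ, j ≤ 2 → k6a4_Sc j ((2 : ℝ) ^ (ε * kh)) (k6aW nz) (k6aW nr) (k6aW n0) (k6aW nb ^ κ) := by
  obtain ⟨σ, Lm, η, hσ0, hLm2, hLmσ, hη0, c1, c3, c4, c5⟩ := k6a3_hub_coef Rm ε C hRm hε hε4 hC
  obtain ⟨k1, hk1⟩ := k6a3_hub_big (C + Lm + 10) η hη0
  refine ⟨η, max k1 1, hη0, ?_⟩
  intro K w e kh nz nr nb n0 hk hK1 hK hzr hκnb hb0 hn0 hw0 hKw hKe
  have hkh1 : 1 ≤ kh := le_trans (le_max_right _ _) hk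
  have hM : C + Lm + 10 ≤ (2 : ℝ) ^ (η * kh) := hk1 kh (le_trans (le_max_left _ _) hk)
  obtain ⟨x, hx⟩ : ∃ x : ℝ, x = (kh : ℝ) := ⟨_, rfl⟩
  rw [← hx] at hM hK hn0 ⊢
  have hx1 : 1 ≤ x := by rw [hx]; exact_mod_cast hkh1
  have hx0 : 0 < x := by linarith
  have hK0 : 0 < K := by linarith
  have he0 : 0 < e := by
    by_contra h
    have : K * e ≤ 0 := mul_nonpos_of_nonneg_of_nonpos hK0.le (not_lt.1 h)
    linarith
  specialize c1 x hx0.le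
  specialize c3 x hx0.le
  specialize c4 x hx0.le
  specialize c5 x hx0.le
  obtain ⟨t, ht⟩ : ∃ t : ℝ, t = η * x := ⟨_, rfl⟩
  rw [← ht] at hM hK c1 c3 c4 c5
  have ht0 : 0 < t := by rw [ht]; positivity
  have hCt : C ≤ (2 : ℝ) ^ t := by linarith
  have hLt : Lm ≤ (2 : ℝ) ^ t := by linarith
  have h10 : (10 : ℝ) ≤ (2 : ℝ) ^ t := by linarith
  clear hM hk1 hk
  -- the step
  have hσx : 0 < σ * x := by positivity
  have hsp1 : 1 ≤ ⌈σ * x⌉₊ := Nat.ceil_pos.2 hσx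
  have hsplo : σ * x ≤ (⌈σ * x⌉₊ : ℝ) := Nat.le_ceil _
  have hsphi : (⌈σ * x⌉₊ : ℝ) ≤ σ * x + 1 := (Nat.ceil_lt_add_one hσx.le).le
  obtain ⟨sp, hsp⟩ : ∃ sp : ℕ, sp = ⌈σ * x⌉₊ := ⟨_, rfl⟩
  rw [← hsp] at hsp1 hsplo hsphi
  have h2sp : (2 : ℝ) ^ sp ≤ (2 : ℝ) ^ (σ * x + t) := by
    rw [← Real.rpow_natCast]
    calc (2 : ℝ) ^ (sp : ℝ) ≤ (2 : ℝ) ^ (σ * x + 1) := Real.rpow_le_rpow_of_exponent_le one_le_two hsphi
      _ = (2 : ℝ) ^ (σ * x) * 2 := by rw [Real.rpow_add two_pos, Real.rpow_one]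
      _ ≤ (2 : ℝ) ^ (σ * x) * (2 : ℝ) ^ t := by gcongr; linarith
      _ = _ := (Real.rpow_add two_pos _ _).symm
  -- levels
  have hcast : (nr : ℝ) + nz + x ≤ κ * nb := by rw [hx]; exact_mod_cast hκnb
  have hnb0 : (0 : ℝ) ≤ nb := Nat.cast_nonneg _
  have hκnb' : κ * nb ≤ nb := mul_le_of_le_one_left hnb0 hκ1
  have hnz0 : (0 : ℝ) ≤ nz := Nat.cast_nonneg _
  have hnr0 : (0 : ℝ) ≤ nr := Nat.cast_nonneg _
  have hrb : nr ≤ nb := by
    have : (nr : ℝ) ≤ nb := by linarith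
    exact_mod_cast this
  have hb0' : (nb : ℝ) ≤ n0 := by exact_mod_cast hb0
  have hzr' : (nz : ℝ) + x ≤ nr := by rw [hx]; exact_mod_cast hzr
  -- the numbers of steps
  have hdiv : ∀ n : ℕ, (n : ℝ) ≤ n0 → (k6a3_gl n sp : ℝ) + 1 ≤ Lm := by
    intro n hn
    obtain ⟨-, hL, -⟩ := hG n sp hsp1
    have h1 : (n : ℝ) / sp ≤ Rm * x / (σ * x) := div_le_div₀ (by positivity) (hn.trans hn0) hσx hsplo
    rw [mul_div_mul_right _ _ hx0.ne'] at h1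
    linarith
  have hL1 : (k6a3_gl nr sp : ℝ) + 1 ≤ Lm := hdiv nr (by linarith)
  have hL2 : (k6a3_gl nz sp : ℝ) + 1 ≤ Lm := hdiv nz (by linarith)
  obtain ⟨hQ1, hQle, hK₁1, hK₁le⟩ := k6a3_hub_QR C K t Lm (k6a3_gl nr sp) (k6a3_gl nz sp) hC hCt hK1 hK ht0.le
    (by linarith) hLt hL1 hL2
  -- small quantities
  have Pmono : ∀ {a b : ℝ}, a ≤ b → (2 : ℝ) ^ a ≤ (2 : ℝ) ^ b := fun h =>
    Real.rpow_le_rpow_of_exponent_le one_le_two h
  have hηZ : k6aW nb ^ κ ≤ (2 : ℝ) ^ (-((nr : ℝ) + nz + x)) := by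
    rw [k6a3_hub_W, ← Real.rpow_mul two_pos.le]
    exact Pmono (by linarith)
  have hbZ : k6aW n0 ≤ (2 : ℝ) ^ (-((nr : ℝ) + nz + x)) := by
    rw [k6a3_hub_W]
    exact Pmono (by linarith)
  have hρρZ : k6aW nr ^ 2 ≤ (2 : ℝ) ^ (-((nr : ℝ) + nz + x)) := by
    rw [k6a3_hub_W, ← Real.rpow_natCast, ← Real.rpow_mul two_pos.le]
    exact Pmono (by push_cast; linarith)
  have hκr : k6aW nb ^ κ ≤ k6aW nr := by
    refine hηZ.trans ?_
    rw [k6a3_hub_W]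
    exact Pmono (by linarith)
  have hZfin : (2 : ℝ) ^ t * (2 : ℝ) ^ (ε * x) * (2 : ℝ) ^ (-((nr : ℝ) + nz + x)) ≤ k6aW nr * k6aW nz := by
    rw [k6a3_hub_W, k6a3_hub_W, ← Real.rpow_add two_pos, ← Real.rpow_add two_pos, ← Real.rpow_add two_pos]
    exact Pmono (by linarith)
  have hη'0 : 0 ≤ k6aW nb ^ κ := Real.rpow_nonneg (k6a3_br_grid_W_pos nb).le _
  refine ⟨sp, _, hsp1, hK₁1, hrb, hκr, ?_, ?_, ?_, ?_, ?_⟩
  · -- S1
    rw [k6a3_hub_W nz]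
    refine k6a3_hub_S1 C K (2 ^ sp) t (σ * x) x nz _ _ _ hC hCt hK0 hK (by positivity) h2sp (by linarith)
      (hηZ.trans (Pmono (by linarith))) ?_ ?_ ?_ c1
    · rw [k6a3_hub_W]; exact Pmono (by linarith)
    · rw [k6a3_hub_W, k6a3_hub_W, ← Real.rpow_sub two_pos]; exact Pmono (by linarith)
    · have h1 := k6a3_br_grid_W_pos nr
      have h2 := k6a3_br_grid_W_pos n0
      positivity
  · -- S2
    calc 4 * (C * K) ^ (k6a3_gl nr sp + 1) * (C * K * ((k6a3_gl nz sp : ℝ) + 1) ^ 2)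
        = 1 * (4 * (C * K) ^ (k6a3_gl nr sp + 1) * (C * K * ((k6a3_gl nz sp : ℝ) + 1) ^ 2)) := (one_mul _).symm
      _ ≤ (K * e) * (4 * (C * K) ^ (k6a3_gl nr sp + 1) * (C * K * ((k6a3_gl nz sp : ℝ) + 1) ^ 2)) := by
          gcongr
      _ = _ := by ring
  · -- S3
    refine k6a3_hub_S3 C K (2 ^ sp) _ w _ t (σ * x) (2 * t * Lm + 6 * t) (ε * x) hC hCt hK0 hK (by positivity) h2sp
      (by linarith) hK₁le hw0 hKw (Real.rpow_nonneg (k6a3_br_grid_W_pos nz).le _) ?_ c3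
    rw [k6a3_hub_W, ← Real.rpow_mul two_pos.le]
    refine Pmono ?_
    have h1 : (nz : ℝ) ≤ Rm * x := by linarith
    calc -(nz : ℝ) * -(ε / (8 * Rm)) = nz * (ε / (8 * Rm)) := by ring
      _ ≤ Rm * x * (ε / (8 * Rm)) := by gcongr
      _ = ε * x / 8 := by field_simp
  · -- S4
    exact k6a3_hub_S4 K _ e t (2 * t * Lm) (ε * x) hK0 hK (by linarith) (by linarith) hQle he0 hKe c4
  · -- Sc
    intro j hj
    exact k6a3_hub_Sc j hj _ _ _ _ _ ((2 : ℝ) ^ t) ((2 : ℝ) ^ (-((nr : ℝ) + nz + x)))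
      (Real.one_le_rpow one_le_two (by positivity)) (k6a3_br_grid_W_pos nr)
      (k6a3_br_grid_W_anti (by omega)) (by simpa [k6aW] using k6a3_br_grid_W_anti (Nat.zero_le nz))
      (k6a3_br_grid_W_pos n0).le hη'0 h10 (Real.rpow_nonneg two_pos.le _) hbZ hηZ hρρZ hZfin

/-- BR9 -/
theorem k6a3_hub (hG : k6a3_br_grid_stmt) (h8 : k6a3_hub1_stmt) : k6a3_hub_stmt := by
  intro j d κ Rm hj hd0 hd1 hκ0 hκ1 hRm ε hε hε4
  have hj1 : 1 ≤ j := by rcases hj with rfl | rfl <;> norm_num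
  have hj2 : j ≤ 2 := by rcases hj with rfl | rfl <;> norm_num
  obtain ⟨C, hC, hub⟩ := h8 j (ε / (8 * Rm)) hj1 (by positivity)
  obtain ⟨η, k0, hη0, har⟩ := k6a3_hub_arith hG κ Rm ε C hκ1 hRm hε hε4 hC
  refine ⟨η, k0, hη0, ?_⟩
  intro D K δ w e kh nz nr nb n0 E U Lc m0 g hk hK1 hK hzr hκnb hb0 hrz hn0 hWF hPh hGr hw0 hKw hBrd hδ0 hδe hKe
    hUm hUE heU
  have hw'0 : 0 < min w 1 := lt_min hw0 one_pos
  have hKw' : 1 ≤ K * min w 1 := by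
    rcases le_total w 1 with h | h
    · rwa [min_eq_left h]
    · rw [min_eq_right h]; linarith
  obtain ⟨sp, K₁, hsp, hK₁, hrb, hκr, S1, S2, S3, S4, hSc⟩ :=
    har K (min w 1) e kh nz nr nb n0 hk hK1 hK hzr hκnb hb0 hn0 hw'0 hKw' hKe
  obtain ⟨E', Ws, F, hE'U, hIn, hmass⟩ := hub D d K ((2 : ℝ) ^ (ε * kh)) K₁ δ (min w 1) e κ nz nr nb n0 sp E U Lc m0 g
    hd0 hd1.le hK1 hK₁ hsp hrb hb0 hrz hκr hWF hPh hGr hw'0 (min_le_right _ _)
    (k6a3_hub_brd_mono D E _ _ w _ δ (min_le_left _ _) hBrd) hδ0 (by linarith) hUm hUE heU S1 S2 S3 S4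
  exact ⟨E', Ws, F, hE'U, hIn, hSc j hj2, hmass⟩

/-! ### ALL HYPOTHESES DISCHARGED (helper117): the unit S6a3 is closed -/

/-- the one-world exit, without hypotheses -/
theorem k6a3_exit_all : k6a3_exit_stmt :=
  k6a3_exit (k6a3_field_lip k6a3_list_shift) k6a3_cube_row
    (k6a3_stages (k6a3_stage k6a3_pairs_count k6a3_prune k6a3_fill k6a3_strip_count))
    k6a3_block_dist k6a3_zoom_row
    (k6a3_zoom_supp k6a3_count_interp (k6a3_zoom_supp_grid k6a3_zm_alg k6a3_block_dist k6a3_count_transfer))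

/-- **EXIT OF S6a3**, without hypotheses -/
theorem k6a3_hub_all : k6a3_hub_stmt :=
  k6a3_hub k6a3_br_grid
    (k6a3_hub1 k6a3_br_prior (k6a3_br_in0 k6a3_br_alg k6a3_br_bin k6a3_br_prior k6a3_br_grid) k6a3_exit_all
      (k6a3_br_in4 k6a3_br_alg k6a3_br_bin k6a3_br_prior (k6a3_br_cap k6a3_br_alg k6a3_br_bin)))

end Claimed.Agent.R252
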