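import Claimed.Agent.R252.S6a.StripContract

/-!
# ROW 252, unit S6a3, leaf L-252-S6a3-STRIPCOUNT: `k6a3_strip_count : k6a3_strip_count_stmt`   (helper268)

Double counting: pairs (occupied strip, filled base cell) `↦` the physical `p`-cell of a witness.
-/

set_option autoImplicit false

namespace Claimed.Agent.R252

open scoped BigOperators

/-! ### integers in an interval -/

theorem k6a3_strip_count_floor_mem {a L x : ℝ} (h : |x - a| ≤ L) : ⌊x⌋ ∈ Finset.Icc ⌊a - L⌋ ⌊a + L⌋ := by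
  rw [abs_le] at h
  exact Finset.mem_Icc.2 ⟨Int.floor_mono (by linarith), Int.floor_mono (by linarith)⟩

theorem k6a3_strip_count_card (a L : ℝ) (hL : 0 ≤ L) : ((Finset.Icc ⌊a - L⌋ ⌊a + L⌋).card : ℝ) ≤ 2 * L + 2 := by
  have h1 : ⌊a - L⌋ ≤ ⌊a + L⌋ := Int.floor_mono (by linarith)
  rw [Int.card_Icc]
  have h2 : (((⌊a + L⌋ + 1 - ⌊a - L⌋).toNat : ℤ) : ℝ) = ((⌊a + L⌋ + 1 - ⌊a - L⌋ : ℤ) : ℝ) := by
    rw [Int.toNat_of_nonneg (by omega)]
  have h3 : (((⌊a + L⌋ + 1 - ⌊a - L⌋).toNat : ℕ) : ℝ) = (((⌊a + L⌋ + 1 - ⌊a - L⌋).toNat : ℤ) : ℝ) :=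
    (Int.cast_natCast _).symm
  rw [h3, h2]
  push_cast
  have h4 := Int.floor_le (a + L)
  have h5 := Int.lt_floor_add_one (a - L)
  linarith

/-! ### the normal coordinate -/

theorem k6a3_strip_count_dot {m : ℕ} (g v : Fin m → ℝ) {K δ : ℝ} (hg : ‖g‖ ≤ K) (hv : ∀ k, |v k| ≤ δ) :
    |g ⬝ᵥ v| ≤ m * K * δ := by
  have hK : 0 ≤ K := (norm_nonneg g).trans hg
  calc |g ⬝ᵥ v| ≤ ∑ k, |g k * v k| := Finset.abs_sum_le_sum_abs _ _
    _ ≤ ∑ _k : Fin m, K * δ := Finset.sum_le_sum fun k _ => by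
        rw [abs_mul]
        exact mul_le_mul ((norm_le_pi_norm g k).trans hg) (hv k) (abs_nonneg _) hK
    _ = m * K * δ := by simp [mul_assoc]

theorem k6a3_strip_count_nrm {m : ℕ} (g : Fin m → ℝ) (u : Fin (m + 1) → ℝ) {K δ : ℝ} (hg : ‖g‖ ≤ K) (hu : ∀ k, |u k| ≤ δ) :
    |k6a3_nrm g u| ≤ (1 + m * K) * δ := by
  have h1 := k6a3_strip_count_dot g (Fin.tail u) hg fun k => hu k.succ
  unfold k6a3_nrm
  calc |u 0 - g ⬝ᵥ Fin.tail u| ≤ |u 0| + |g ⬝ᵥ Fin.tail u| := abs_sub _ _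
    _ ≤ δ + m * K * δ := add_le_add (hu 0) h1
    _ = (1 + m * K) * δ := by ring

theorem k6a3_strip_count_lin {m : ℕ} (g : Fin m → ℝ) (P cc : Fin (m + 1) → ℝ) (p : ℝ) :
    k6a3_nrm g P / p - k6a3_nrm g cc = k6a3_nrm g fun k => P k / p - cc k := by
  simp only [k6a3_nrm, dotProduct, Fin.tail, mul_sub, Finset.sum_sub_distrib, sub_div, Finset.sum_div, mul_div_assoc]
  ring

/-! ### geometry of one witness -/

theorem k6a3_strip_count_coord {w z b p : ℝ} (hp : 0 < p) (hb : b ≤ p) (h : |w - z| ≤ b) :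
    z / p ≤ w / p + 1 ∧ w / p - 1 ≤ z / p := by
  rw [abs_le] at h
  have e : w / p + 1 = (w + p) / p := by field_simp
  have e' : w / p - 1 = (w - p) / p := by field_simp
  rw [e, e']
  exact ⟨div_le_div_of_nonneg_right (by linarith) hp.le, div_le_div_of_nonneg_right (by linarith) hp.le⟩

/-- multiplicity: the strip and the base cell of `Z` are determined by the `p`-cell of `W` up to few choices -/
theorem k6a3_strip_count_mult {m : ℕ} (g : Fin m → ℝ) (W Z : Fin (m + 1) → ℝ) {K b p : ℝ} (hp : 0 < p) (hb : b ≤ p)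
    (hg : ‖g‖ ≤ K) (hWZ : ‖W - Z‖ ≤ b) :
    ⌊k6a3_nrm g Z / p⌋ ∈ Finset.Icc
        ⌊k6a3_nrm g (fun k => (k6a_cell p W k : ℝ) + 1 / 2) - (1 + m * K) * (3 / 2)⌋
        ⌊k6a3_nrm g (fun k => (k6a_cell p W k : ℝ) + 1 / 2) + (1 + m * K) * (3 / 2)⌋ ∧
      k6a_cell p (Fin.tail Z) ∈ Fintype.piFinset fun k : Fin m =>
        Finset.Icc (k6a_cell p W k.succ - 1) (k6a_cell p W k.succ + 1) := by
  have hc : ∀ k, Z k / p ≤ W k / p + 1 ∧ W k / p - 1 ≤ Z k / p := fun k =>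
    k6a3_strip_count_coord hp hb ((norm_le_pi_norm (W - Z) k).trans hWZ)
  constructor
  · apply k6a3_strip_count_floor_mem
    rw [k6a3_strip_count_lin]
    refine k6a3_strip_count_nrm g _ hg fun k => ?_
    have h1 := Int.floor_le (W k / p)
    have h2 := Int.lt_floor_add_one (W k / p)
    obtain ⟨h3, h4⟩ := hc k
    simp only [k6a_cell]
    rw [abs_le]
    constructor <;> linarith
  · rw [Fintype.mem_piFinset]
    intro k
    obtain ⟨h3, h4⟩ := hc k.succ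
    rw [Finset.mem_Icc]
    simp only [k6a_cell, Fin.tail]
    constructor
    · rw [← Int.floor_sub_one]
      exact Int.floor_mono h4
    · rw [← Int.floor_add_one]
      exact Int.floor_mono h3

/-- range: the `r`-cell of `W` -/
theorem k6a3_strip_count_range {m : ℕ} (g : Fin m → ℝ) (W Z z₀ : Fin (m + 1) → ℝ) {K b p r ρ x₀ : ℝ} (hp : 0 < p) (hb : b ≤ p)
    (hpr : p ≤ r) (hrρ : r ≤ ρ) (hg : ‖g‖ ≤ K) (hWZ : ‖W - Z‖ ≤ b) (hZ : ‖Z - z₀‖ ≤ ρ)
    (hx : |k6a3_nrm g Z - (x₀ + r / 2)| ≤ r / 2 + p) :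
    Fin.tail (k6a_cell r W) ∈ Fintype.piFinset (fun k : Fin m =>
        Finset.Icc ⌊z₀ k.succ / r - 2 * (ρ / r)⌋ ⌊z₀ k.succ / r + 2 * (ρ / r)⌋) ∧
      k6a_cell r W 0 ∈ Finset.Icc
        ⌊(x₀ / r + 1 / 2 + g ⬝ᵥ fun k : Fin m => (Fin.tail (k6a_cell r W) k : ℝ) + 1 / 2) - (5 / 2 + 3 / 2 * (m * K))⌋
        ⌊(x₀ / r + 1 / 2 + g ⬝ᵥ fun k : Fin m => (Fin.tail (k6a_cell r W) k : ℝ) + 1 / 2) + (5 / 2 + 3 / 2 * (m * K))⌋ := by
  have hr : 0 < r := hp.trans_le hpr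
  have hK : 0 ≤ K := (norm_nonneg g).trans hg
  have hb0 : 0 ≤ b := (norm_nonneg _).trans hWZ
  constructor
  · rw [Fintype.mem_piFinset]
    intro k
    simp only [k6a_cell, Fin.tail]
    apply k6a3_strip_count_floor_mem
    have h1 : |W k.succ - Z k.succ| ≤ b := (norm_le_pi_norm (W - Z) k.succ).trans hWZ
    have h2 : |Z k.succ - z₀ k.succ| ≤ ρ := (norm_le_pi_norm (Z - z₀) k.succ).trans hZ
    have h3 : |W k.succ - z₀ k.succ| ≤ 2 * ρ := by
      rw [abs_le] at h1 h2 ⊢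
      constructor <;> linarith
    rw [← sub_div, abs_div, abs_of_pos hr, ← mul_div_assoc]
    exact div_le_div_of_nonneg_right h3 hr.le
  · simp only [k6a_cell]
    apply k6a3_strip_count_floor_mem
    have e : W 0 / r - (x₀ / r + 1 / 2 + g ⬝ᵥ fun k : Fin m => (Fin.tail (k6a_cell r W) k : ℝ) + 1 / 2)
        = (k6a3_nrm g W - (x₀ + r / 2)) / r + g ⬝ᵥ fun k : Fin m => W k.succ / r - ((⌊W k.succ / r⌋ : ℝ) + 1 / 2) := by
      simp only [k6a3_nrm, k6a_cell, dotProduct, Fin.tail, mul_sub, Finset.sum_sub_distrib]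
      have : (∑ x : Fin m, g x * W x.succ) / r = ∑ x : Fin m, g x * (W x.succ / r) := by
        rw [Finset.sum_div]
        exact Finset.sum_congr rfl fun x _ => mul_div_assoc _ _ _
      field_simp at this ⊢
      linarith
    rw [e]
    have h1 : |k6a3_nrm g W - k6a3_nrm g Z| ≤ (1 + m * K) * b := by
      have h := k6a3_strip_count_lin g W Z 1
      rw [div_one] at h
      rw [h]
      refine k6a3_strip_count_nrm g _ hg fun k => ?_
      rw [div_one]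
      exact (norm_le_pi_norm (W - Z) k).trans hWZ
    have hmK : 0 ≤ (m : ℝ) * K := by positivity
    have h2 : |k6a3_nrm g W - (x₀ + r / 2)| ≤ (5 / 2 + m * K) * r := by
      have hbr : (1 + m * K) * b ≤ (1 + m * K) * r := mul_le_mul_of_nonneg_left (hb.trans hpr) (by linarith)
      rw [abs_le] at h1 hx ⊢
      constructor <;> nlinarith
    have h3 : |(k6a3_nrm g W - (x₀ + r / 2)) / r| ≤ 5 / 2 + m * K := by
      rw [abs_div, abs_of_pos hr, div_le_iff₀ hr]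
      exact h2
    have h4 : |g ⬝ᵥ fun k : Fin m => W k.succ / r - ((⌊W k.succ / r⌋ : ℝ) + 1 / 2)| ≤ m * K * (1 / 2) := by
      refine k6a3_strip_count_dot g _ hg fun k => ?_
      have h5 := Int.floor_le (W k.succ / r)
      have h6 := Int.lt_floor_add_one (W k.succ / r)
      rw [abs_le]
      constructor <;> linarith
    calc |(k6a3_nrm g W - (x₀ + r / 2)) / r + g ⬝ᵥ fun k : Fin m => W k.succ / r - ((⌊W k.succ / r⌋ : ℝ) + 1 / 2)|
        ≤ |(k6a3_nrm g W - (x₀ + r / 2)) / r| + |g ⬝ᵥ fun k : Fin m => W k.succ / r - ((⌊W k.succ / r⌋ : ℝ) + 1 / 2)| :=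
          abs_add_le _ _
      _ ≤ (5 / 2 + m * K) + m * K * (1 / 2) := add_le_add h3 h4
      _ = 5 / 2 + 3 / 2 * (m * K) := by ring

/-! ### the count -/

theorem k6a3_strip_count_three (c : ℤ) : (Finset.Icc (c - 1) (c + 1)).card = 3 := by
  rw [Int.card_Icc]
  have : c + 1 + 1 - (c - 1) = 3 := by ring
  rw [this]
  rfl

theorem k6a3_strip_count : k6a3_strip_count_stmt := by
  intro m
  refine ⟨18 ^ m * ((5 + 3 * m) * (7 + 3 * m)), by positivity, ?_⟩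
  intro I S W Z g K Ks F b p r ρ hK hF hb hp hpr hrρ hg hWZ hdiam hfill hsupp x₀
  classical
  have hr : 0 < r := hp.trans_le hpr
  have hρ : 0 < ρ := hr.trans_le hrρ
  have hK0 : 0 ≤ K := by linarith
  have hmK : 0 ≤ (m : ℝ) * K := by positivity
  have hKs : 0 ≤ Ks := by
    obtain ⟨T, hT, -⟩ := hsupp 0
    exact (Nat.cast_nonneg _).trans hT
  set T : Finset ℤ := (Finset.Icc ⌊x₀ / p⌋ ⌊(x₀ + r) / p⌋).filter fun σ => ∃ i ∈ S, ⌊k6a3_nrm g (Z i) / p⌋ = σ with hT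
  refine ⟨T, ?_, fun i hi h1 h2 => Finset.mem_filter.2 ⟨Finset.mem_Icc.2
    ⟨Int.floor_mono (div_le_div_of_nonneg_right h1 hp.le), Int.floor_mono (div_le_div_of_nonneg_right h2 hp.le)⟩,
    i, hi, rfl⟩⟩
  rcases S.eq_empty_or_nonempty with hS | ⟨i₀, hi₀⟩
  · have hTe : T = ∅ := by
      apply Finset.filter_eq_empty_iff.2
      rintro σ - ⟨i, hi, -⟩
      rw [hS] at hi
      exact hi
    rw [hTe]
    simp only [Finset.card_empty, Nat.cast_zero, zero_mul]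
    positivity
  have hIne : Nonempty I := ⟨i₀⟩
  -- choices
  have hσ : ∀ σ ∈ T, ∃ i, i ∈ S ∧ ⌊k6a3_nrm g (Z i) / p⌋ = σ := fun σ h => by
    obtain ⟨i, hi, e⟩ := (Finset.mem_filter.1 h).2
    exact ⟨i, hi, e⟩
  choose! ι hιS hιe using hσ
  choose! TF hTF1 hTF2 using hfill
  set P : Finset (Σ _ : ℤ, (Fin m → ℤ)) := T.sigma fun σ => TF (ι σ) with hP
  have hwit : ∀ q ∈ P, ∃ i', i' ∈ S ∧ ⌊k6a3_nrm g (Z i') / p⌋ = q.1 ∧ k6a_cell p (Fin.tail (Z i')) = q.2 := by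
    intro q hq
    obtain ⟨h1, h2⟩ := Finset.mem_sigma.1 hq
    obtain ⟨i', hi', e1, e2⟩ := hTF2 (ι q.1) (hιS _ h1) q.2 h2
    exact ⟨i', hi', e1.trans (hιe _ h1), e2⟩
  choose! wit hwS hw1 hw2 using hwit
  set Φ : (Σ _ : ℤ, (Fin m → ℤ)) → (Fin (m + 1) → ℤ) := fun q => k6a_cell p (W (wit q)) with hΦ
  -- lower bound
  have hPlow : (T.card : ℝ) * F ≤ P.card := by
    rw [hP, Finset.card_sigma]
    push_cast
    calc (T.card : ℝ) * F = ∑ _σ ∈ T, F := by simp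
      _ ≤ ∑ σ ∈ T, ((TF (ι σ)).card : ℝ) := Finset.sum_le_sum fun σ h => hTF1 _ (hιS _ h)
  -- multiplicity
  set n1 : ℕ := ⌊(5 + 3 * (m * K)) * 3 ^ m⌋₊ with hn1
  have hmult : ∀ c ∈ P.image Φ, (P.filter fun q => Φ q = c).card ≤ n1 := by
    intro c _
    apply Nat.le_floor
    set A : Finset ℤ := Finset.Icc
        ⌊k6a3_nrm g (fun k => (c k : ℝ) + 1 / 2) - (1 + m * K) * (3 / 2)⌋
        ⌊k6a3_nrm g (fun k => (c k : ℝ) + 1 / 2) + (1 + m * K) * (3 / 2)⌋ with hA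
    set Bx : Finset (Fin m → ℤ) := Fintype.piFinset fun k : Fin m => Finset.Icc (c k.succ - 1) (c k.succ + 1) with hBx
    have hsub : (P.filter fun q => Φ q = c).card ≤ (A ×ˢ Bx).card := by
      apply Finset.card_le_card_of_injOn (fun q => (q.1, q.2))
      · intro q hq
        obtain ⟨hqP, hqc⟩ := Finset.mem_filter.1 (Finset.mem_coe.1 hq)
        have h := k6a3_strip_count_mult g (W (wit q)) (Z (wit q)) hp hb hg (hWZ _ (hwS q hqP))
        rw [hw1 q hqP, hw2 q hqP, show k6a_cell p (W (wit q)) = c from hqc] at h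
        exact Finset.mem_coe.2 (Finset.mem_product.2 h)
      · rintro ⟨q1, q2⟩ - ⟨q1', q2'⟩ - h
        simp only [Prod.mk.injEq] at h
        obtain ⟨rfl, rfl⟩ := h
        rfl
    have hA1 : (A.card : ℝ) ≤ 5 + 3 * (m * K) := by
      have := k6a3_strip_count_card (k6a3_nrm g (fun k => (c k : ℝ) + 1 / 2)) ((1 + m * K) * (3 / 2)) (by positivity)
      linarith
    have hB1 : Bx.card = 3 ^ m := by
      rw [hBx, Fintype.card_piFinset]
      simp only [k6a3_strip_count_three, Finset.prod_const, Finset.card_univ, Fintype.card_fin]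
    calc ((P.filter fun q => Φ q = c).card : ℝ) ≤ ((A ×ˢ Bx).card : ℝ) := by exact_mod_cast hsub
      _ = (A.card : ℝ) * 3 ^ m := by rw [Finset.card_product, hB1]; push_cast; ring
      _ ≤ (5 + 3 * (m * K)) * 3 ^ m := mul_le_mul_of_nonneg_right hA1 (by positivity)
  have hP1 : P.card ≤ n1 * (P.image Φ).card := Finset.card_le_mul_card_image P n1 hmult
  -- the range
  choose TS hTS1 hTS2 using hsupp
  set Rt : Finset (Fin m → ℤ) := Fintype.piFinset (fun k : Fin m =>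
        Finset.Icc ⌊Z i₀ k.succ / r - 2 * (ρ / r)⌋ ⌊Z i₀ k.succ / r + 2 * (ρ / r)⌋) with hRt
  set R0 : (Fin m → ℤ) → Finset ℤ := fun n' => Finset.Icc
        ⌊(x₀ / r + 1 / 2 + g ⬝ᵥ fun k : Fin m => (n' k : ℝ) + 1 / 2) - (5 / 2 + 3 / 2 * (m * K))⌋
        ⌊(x₀ / r + 1 / 2 + g ⬝ᵥ fun k : Fin m => (n' k : ℝ) + 1 / 2) + (5 / 2 + 3 / 2 * (m * K))⌋ with hR0
  set Nc : Finset (Fin (m + 1) → ℤ) := Rt.biUnion fun n' => (R0 n').image fun n0 => (Fin.cons n0 n' : Fin (m + 1) → ℤ) with hNc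
  have hImg : P.image Φ ⊆ Nc.biUnion TS := by
    intro c hc
    obtain ⟨q, hqP, rfl⟩ := Finset.mem_image.1 hc
    have hqT : q.1 ∈ T := (Finset.mem_sigma.1 hqP).1
    obtain ⟨hlo, hhi⟩ := Finset.mem_Icc.1 (Finset.mem_filter.1 hqT).1
    have hx : |k6a3_nrm g (Z (wit q)) - (x₀ + r / 2)| ≤ r / 2 + p := by
      rw [← hw1 q hqP] at hlo hhi
      have a1 := Int.floor_le (k6a3_nrm g (Z (wit q)) / p)
      have a2 := Int.lt_floor_add_one (k6a3_nrm g (Z (wit q)) / p)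
      have a3 := Int.lt_floor_add_one (x₀ / p)
      have a4 := Int.floor_le ((x₀ + r) / p)
      have b1 : ((⌊x₀ / p⌋ : ℤ) : ℝ) ≤ ⌊k6a3_nrm g (Z (wit q)) / p⌋ := by exact_mod_cast hlo
      have b2 : ((⌊k6a3_nrm g (Z (wit q)) / p⌋ : ℤ) : ℝ) ≤ ⌊(x₀ + r) / p⌋ := by exact_mod_cast hhi
      have c1 : x₀ / p - 1 < k6a3_nrm g (Z (wit q)) / p := by linarith
      have c2 : k6a3_nrm g (Z (wit q)) / p < (x₀ + r) / p + 1 := by linarith
      have d1 : x₀ - p < k6a3_nrm g (Z (wit q)) := by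
        have := mul_lt_mul_of_pos_right c1 hp
        rw [div_mul_cancel₀ _ hp.ne', sub_mul, div_mul_cancel₀ _ hp.ne', one_mul] at this
        exact this
      have d2 : k6a3_nrm g (Z (wit q)) < x₀ + r + p := by
        have := mul_lt_mul_of_pos_right c2 hp
        rw [div_mul_cancel₀ _ hp.ne', add_mul, div_mul_cancel₀ _ hp.ne', one_mul] at this
        exact this
      rw [abs_le]
      constructor <;> linarith
    obtain ⟨r1, r2⟩ := k6a3_strip_count_range g (W (wit q)) (Z (wit q)) (Z i₀) hp hb hpr hrρ hg (hWZ _ (hwS q hqP))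
      (hdiam _ (hwS q hqP) _ hi₀) hx
    refine Finset.mem_biUnion.2 ⟨k6a_cell r (W (wit q)), ?_, hTS2 _ _ (hwS q hqP) rfl⟩
    refine Finset.mem_biUnion.2 ⟨Fin.tail (k6a_cell r (W (wit q))), r1, Finset.mem_image.2 ⟨k6a_cell r (W (wit q)) 0, r2, ?_⟩⟩
    exact Fin.cons_self_tail _
  have hRt1 : (Rt.card : ℝ) ≤ (6 * (ρ / r)) ^ m := by
    rw [hRt, Fintype.card_piFinset]
    push_cast
    have h1 : 1 ≤ ρ / r := (one_le_div hr).2 hrρ
    calc ∏ k : Fin m, ((Finset.Icc ⌊Z i₀ k.succ / r - 2 * (ρ / r)⌋ ⌊Z i₀ k.succ / r + 2 * (ρ / r)⌋).card : ℝ)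
        ≤ ∏ _k : Fin m, (6 * (ρ / r)) := Finset.prod_le_prod (fun _ _ => Nat.cast_nonneg _) fun k _ => by
          have := k6a3_strip_count_card (Z i₀ k.succ / r) (2 * (ρ / r)) (by positivity)
          linarith
      _ = (6 * (ρ / r)) ^ m := by simp
  have hNc1 : (Nc.card : ℝ) ≤ (6 * (ρ / r)) ^ m * (7 + 3 * (m * K)) := by
    have h1 : Nc.card ≤ ∑ n' ∈ Rt, (R0 n').card :=
      Finset.card_biUnion_le.trans (Finset.sum_le_sum fun n' _ => Finset.card_image_le)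
    calc (Nc.card : ℝ) ≤ ∑ n' ∈ Rt, ((R0 n').card : ℝ) := by exact_mod_cast h1
      _ ≤ ∑ _n' ∈ Rt, (7 + 3 * (m * K)) := Finset.sum_le_sum fun n' _ => by
          have := k6a3_strip_count_card (x₀ / r + 1 / 2 + g ⬝ᵥ fun k : Fin m => (n' k : ℝ) + 1 / 2)
            (5 / 2 + 3 / 2 * (m * K)) (by positivity)
          linarith
      _ = (Rt.card : ℝ) * (7 + 3 * (m * K)) := by rw [Finset.sum_const, nsmul_eq_mul]
      _ ≤ (6 * (ρ / r)) ^ m * (7 + 3 * (m * K)) := mul_le_mul_of_nonneg_right hRt1 (by positivity)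
  have hImg1 : ((P.image Φ).card : ℝ) ≤ (6 * (ρ / r)) ^ m * (7 + 3 * (m * K)) * Ks := by
    have h1 : (P.image Φ).card ≤ ∑ n ∈ Nc, (TS n).card := (Finset.card_le_card hImg).trans Finset.card_biUnion_le
    calc ((P.image Φ).card : ℝ) ≤ ∑ n ∈ Nc, ((TS n).card : ℝ) := by exact_mod_cast h1
      _ ≤ ∑ _n ∈ Nc, Ks := Finset.sum_le_sum fun n _ => hTS1 n
      _ = (Nc.card : ℝ) * Ks := by simp
      _ ≤ (6 * (ρ / r)) ^ m * (7 + 3 * (m * K)) * Ks := mul_le_mul_of_nonneg_right hNc1 hKs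
  have hn1' : (n1 : ℝ) ≤ (5 + 3 * (m * K)) * 3 ^ m := Nat.floor_le (by positivity)
  have e5 : 5 + 3 * (m * K) ≤ (5 + 3 * m) * K := by nlinarith
  have e7 : 7 + 3 * (m * K) ≤ (7 + 3 * m) * K := by nlinarith
  have hq : 0 ≤ ρ / r := by positivity
  calc (T.card : ℝ) * F ≤ P.card := hPlow
    _ ≤ (n1 : ℝ) * (P.image Φ).card := by exact_mod_cast hP1
    _ ≤ ((5 + 3 * (m * K)) * 3 ^ m) * ((6 * (ρ / r)) ^ m * (7 + 3 * (m * K)) * Ks) :=
        mul_le_mul hn1' hImg1 (Nat.cast_nonneg _) (by positivity)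
    _ ≤ (((5 + 3 * m) * K) * 3 ^ m) * ((6 * (ρ / r)) ^ m * ((7 + 3 * m) * K) * Ks) := by
        apply mul_le_mul
        · exact mul_le_mul_of_nonneg_right e5 (by positivity)
        · exact mul_le_mul_of_nonneg_right (mul_le_mul_of_nonneg_left e7 (by positivity)) hKs
        · positivity
        · positivity
    _ = 18 ^ m * ((5 + 3 * m) * (7 + 3 * m)) * K ^ 2 * Ks * (ρ / r) ^ m := by
        rw [mul_pow, show (18 : ℝ) = 3 * 6 by norm_num, mul_pow]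
        ring

end Claimed.Agent.R252
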