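/-
Leaf L-252-S6a-POWER (row252, unit S6a, architect helper234): PROVED (helper215).

p = n/(n-1) >= 1, p - 1 = 1/(n-1). (a*m^n)^(1/(n-1)) = a^(1/(n-1)) * m^p (Real.mul_rpow,
rpow_natCast, rpow_mul). Real.rpow_sum_le_const_mul_sum_rpow gives (sum m)^p <= card^(p-1) * sum
m^p. Conclude a^(1/(n-1)) (sum m)^p <= (R*card)^(1/(n-1)), raise to the power n-1.
-/
import Claimed.Agent.R252.S6a.Contract

namespace Claimed.Agent.R252

open MeasureTheory
open scoped ENNReal Classical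

theorem k6a_power_mean_count : k6a_power_mean_count_stmt := by
  intro α cells mass n a R hn ha hR hm h
  have hn1 : (0 : ℝ) < (n : ℝ) - 1 := by
    have : (2 : ℝ) ≤ n := by exact_mod_cast hn
    linarith
  set q : ℝ := (1 : ℝ) / ((n : ℝ) - 1) with hq
  have hq0 : 0 < q := by positivity
  set p : ℝ := (n : ℝ) * q with hp
  have hpq : p - 1 = q := by
    rw [hp, hq]
    field_simp
    ring
  have hp1 : 1 ≤ p := by linarith
  have hS0 : 0 ≤ ∑ E ∈ cells, mass E := Finset.sum_nonneg hm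
  -- the terms
  have key : ∀ x : ℝ, 0 ≤ x → (a * x ^ n) ^ q = a ^ q * x ^ p := by
    intro x hx
    rw [Real.mul_rpow ha (pow_nonneg hx n), ← Real.rpow_natCast x n, ← Real.rpow_mul hx]
  have h1 : ∑ E ∈ cells, (a * mass E ^ n) ^ q = a ^ q * ∑ E ∈ cells, mass E ^ p := by
    rw [Finset.mul_sum]
    exact Finset.sum_congr rfl fun E hE => key _ (hm E hE)
  have h2 : (∑ E ∈ cells, mass E) ^ p ≤ (cells.card : ℝ) ^ (p - 1) * ∑ E ∈ cells, mass E ^ p :=
    Real.rpow_sum_le_const_mul_sum_rpow_of_nonneg cells hp1 hm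
  rw [hpq] at h2
  have hc0 : (0 : ℝ) ≤ (cells.card : ℝ) ^ q := by positivity
  have ha0 : 0 ≤ a ^ q := Real.rpow_nonneg ha q
  have h3 : (a * (∑ E ∈ cells, mass E) ^ n) ^ q ≤ (R * cells.card) ^ q := by
    rw [key _ hS0, Real.mul_rpow hR (Nat.cast_nonneg _)]
    calc a ^ q * (∑ E ∈ cells, mass E) ^ p
        ≤ a ^ q * ((cells.card : ℝ) ^ q * ∑ E ∈ cells, mass E ^ p) := mul_le_mul_of_nonneg_left h2 ha0
      _ = (a ^ q * ∑ E ∈ cells, mass E ^ p) * (cells.card : ℝ) ^ q := by ring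
      _ ≤ R ^ q * (cells.card : ℝ) ^ q := by
          rw [← h1]
          exact mul_le_mul_of_nonneg_right h hc0
  exact (Real.rpow_le_rpow_iff (mul_nonneg ha (pow_nonneg hS0 n)) (mul_nonneg hR (Nat.cast_nonneg _)) hq0).1 h3

end Claimed.Agent.R252
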