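/-
Leaf L-252-S6a-KCELLS (row252, unit S6a, architect helper234).
PROVED (helper251); uses `k6a_power_mean_count` of S6a/Power.lean.
Helpers: prefix `k6a_kc_`.  Never edit Contract.lean; a false or awkward statement = one line to
helper234.  Statements of other leaves may be used as hypotheses `(h : k6a_xxx_stmt)` in helper
lemmas until their files are on main; the final theorem must have exactly the type given here.

PLAN.
Uses k6a_power_mean_count (hypothesis `k6a_power_mean_count_stmt ->` if not on main). Put m_E =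
sum_l nu l * d l E, Q_E = the inner sum of k6a_MLK with w = nu, r = b, R = w0. Q_E >= c*m_E^n/(K
b)^n: in sum over tau with det >= theta of prod (nu*d), terms with some d = 0 vanish, the others
satisfy the nearness filter and prod(nu*d) <= (K b)^n prod nu. MLK => sum_E (c/(K b)^n *
m_E^n)^(1/(n-1)) <= Gam*(sum nu)^(n/(n-1)) = (Gam^(n-1)*(sum nu)^n)^(1/(n-1)). Power mean => c/(K
b)^n (sum m_E)^n <= Gam^(n-1) (sum nu)^n card; insert sum m_E >= M/K, sum nu <= K M/w0, cancel
M^n. ~200 lines.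
-/
import Claimed.Agent.R252.S6a.Contract
import Claimed.Agent.R252.S6a.Power

namespace Claimed.Agent.R252

open MeasureTheory
open scoped ENNReal Classical

/-- tuples with a vanishing duration do not count, the others are near the cell -/
theorem k6a_kc_tuple {n : ℕ} {ι : Type} [Fintype ι] (ν dE : ι → ℝ) (B : ℝ) (hν : ∀ l, 0 ≤ ν l) (hd0 : ∀ l, 0 ≤ dE l)
    (hdB : ∀ l, dE l ≤ B) (near : ι → Prop) (hnear : ∀ l, 0 < dE l → near l) (det : (Fin n → ι) → Prop) :
    ∑ τ ∈ (Finset.univ : Finset (Fin n → ι)).filter det, ∏ i, (ν (τ i) * dE (τ i))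
      ≤ B ^ n * ∑ τ ∈ (Finset.univ : Finset (Fin n → ι)).filter (fun τ => (∀ i, near (τ i)) ∧ det τ), ∏ i, ν (τ i) := by
  rw [Finset.mul_sum, Finset.sum_filter, Finset.sum_filter]
  refine Finset.sum_le_sum fun τ _ => ?_
  by_cases h1 : det τ
  · by_cases h2 : ∀ i, near (τ i)
    · rw [if_pos h1, if_pos ⟨h2, h1⟩]
      calc ∏ i, (ν (τ i) * dE (τ i)) ≤ ∏ i, (ν (τ i) * B) :=
            Finset.prod_le_prod (fun i _ => mul_nonneg (hν _) (hd0 _))
              (fun i _ => mul_le_mul_of_nonneg_left (hdB _) (hν _))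
        _ = B ^ n * ∏ i, ν (τ i) := by
            rw [Finset.prod_mul_distrib, Finset.prod_const, Finset.card_univ, Fintype.card_fin, mul_comm]
    · rw [if_pos h1, if_neg (fun h => h2 h.1)]
      push Not at h2
      obtain ⟨i, hi⟩ := h2
      have h0 : dE (τ i) = 0 := le_antisymm (not_lt.1 fun h => hi (hnear _ h)) (hd0 _)
      exact le_of_eq (Finset.prod_eq_zero (Finset.mem_univ i) (by rw [h0, mul_zero]))
  · rw [if_neg h1, if_neg (fun h => h1 h.2)]

theorem k6a_kakeya_cells : k6a_kakeya_cells_stmt := by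
  intro n ε C hn hMLK hC ι _ a e ν d b w0 θ lam K c M cells hb hbw hθ hθ1 hlam hK hc hM he hν hcells hd0 hdK hnear hdet
    hMass hνsum
  have hw0 : 0 < w0 := lt_of_lt_of_le hb hbw
  have hlam0 : 0 < lam := lt_of_lt_of_le one_pos hlam
  have hK0 : 0 < K := lt_of_lt_of_le one_pos hK
  obtain ⟨Gam, hGam⟩ : ∃ Gam : ℝ, Gam = C * lam ^ C * θ ^ (-C) * (w0 / b) ^ ε := ⟨_, rfl⟩
  have hGam0 : 0 ≤ Gam := by rw [hGam]; positivity
  rw [← hGam]
  obtain ⟨S, hS⟩ : ∃ S : ℝ, S = ∑ l, ν l := ⟨_, rfl⟩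
  have hS0 : 0 ≤ S := by rw [hS]; exact Finset.sum_nonneg fun l _ => hν l
  have hn1 : (0 : ℝ) < (n : ℝ) - 1 := by
    have : (2 : ℝ) ≤ n := by exact_mod_cast hn
    linarith
  have hcast : ((n - 1 : ℕ) : ℝ) = (n : ℝ) - 1 := by
    rw [Nat.cast_sub (by omega)]; simp
  have hmass0 : ∀ E, 0 ≤ ∑ l, ν l * d l E := fun E => Finset.sum_nonneg fun l _ => mul_nonneg (hν l) (hd0 l E)
  have hKb : 0 < K * b := mul_pos hK0 hb
  have hmlk := hMLK ι a e ν b w0 θ lam cells hb hbw hθ hθ1 hlam he hν hcells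
  rw [← hGam, ← hS] at hmlk
  -- the right side as one power
  have hR : (Gam ^ (n - 1) * S ^ n) ^ ((1 : ℝ) / ((n : ℝ) - 1)) = Gam * S ^ ((n : ℝ) / ((n : ℝ) - 1)) := by
    rw [Real.mul_rpow (by positivity) (by positivity), ← Real.rpow_natCast Gam, ← Real.rpow_mul hGam0, hcast,
      mul_one_div_cancel hn1.ne', Real.rpow_one, ← Real.rpow_natCast S, ← Real.rpow_mul hS0, mul_one_div]
  have key := k6a_power_mean_count cells (fun E => ∑ l, ν l * d l E) n (c / (K * b) ^ n) (Gam ^ (n - 1) * S ^ n) hn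
    (by positivity) (by positivity) (fun E _ => hmass0 E) (by
      rw [hR]
      refine le_trans (Finset.sum_le_sum fun E hE => ?_) hmlk
      refine Real.rpow_le_rpow (by have := hmass0 E; positivity) ?_ (by positivity)
      rw [div_mul_eq_mul_div, div_le_iff₀ (by positivity), mul_comm _ ((K * b) ^ n)]
      refine (hdet E hE).trans ?_
      exact k6a_kc_tuple ν (fun l => d l E) (K * b) hν (fun l => hd0 l E) (fun l => hdK l E hE)
        (fun l => ∃ t : ℝ, ∀ k, |((E k : ℝ) + 1 / 2) * b - (a l k + t * e l k)| ≤ lam * b) (fun l => hnear l E hE)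
        (fun τ => θ ≤ |Matrix.det (Matrix.of fun i => e (τ i))|))
  obtain ⟨T, hT⟩ : ∃ T : ℝ, T = ∑ E ∈ cells, ∑ l, ν l * d l E := ⟨_, rfl⟩
  rw [← hT] at key hMass
  rw [← hS] at hνsum
  have hT1 : M / K ≤ T := by rw [div_le_iff₀ hK0]; linarith
  have h1 : c / (K * b) ^ n * (M / K) ^ n ≤ Gam ^ (n - 1) * (K * M / w0) ^ n * cells.card := by
    calc c / (K * b) ^ n * (M / K) ^ n ≤ c / (K * b) ^ n * T ^ n :=
          mul_le_mul_of_nonneg_left (pow_le_pow_left₀ (by positivity) hT1 n) (by positivity)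
      _ ≤ Gam ^ (n - 1) * S ^ n * cells.card := key
      _ ≤ Gam ^ (n - 1) * (K * M / w0) ^ n * cells.card := by
          refine mul_le_mul_of_nonneg_right ?_ (Nat.cast_nonneg _)
          exact mul_le_mul_of_nonneg_left (pow_le_pow_left₀ hS0 hνsum n) (by positivity)
  have hF : 0 < (K ^ 2 * w0 / M) ^ n := by positivity
  have h2 := mul_le_mul_of_nonneg_right h1 hF.le
  have e1 : c / (K * b) ^ n * (M / K) ^ n * (K ^ 2 * w0 / M) ^ n = c * (w0 / b) ^ n := by
    rw [div_eq_mul_inv, ← inv_pow, mul_assoc, mul_assoc, ← mul_pow, ← mul_pow]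
    congr 2
    field_simp
  have e2 : Gam ^ (n - 1) * (K * M / w0) ^ n * cells.card * (K ^ 2 * w0 / M) ^ n = Gam ^ (n - 1) * K ^ (3 * n) * cells.card := by
    rw [pow_mul, mul_right_comm _ (cells.card : ℝ), mul_assoc (Gam ^ (n - 1)), ← mul_pow]
    congr 3
    field_simp
  rw [e1, e2] at h2
  exact h2

end Claimed.Agent.R252
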