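/-
Leaf L-252-S6a-TENSOR (row252, unit S6a, architect helper234; proved by helper67).
Helpers: prefix `k6a_ti_`.

PROOF.
Lam = (2/gap)^M bounds |k6a_lag x i y| for |y| <= 1, nodes in [-1,1] with gaps >= gap. One-
variable exactness: p natDegree <= M => p(y) = sum_i p(x i) * k6a_lag x i y (Lagrange.eq_interpolate;
k6a_lag = eval of Lagrange.basis).  Abstract induction on the number of axes (`k6a_ti_abs`, Fin.cons)
for a function `G` of the hybrid index `Fin m -> Option I`.
-/
import Claimed.Agent.R252.S6a.Contract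

namespace Claimed.Agent.R252

open MeasureTheory
open scoped ENNReal Classical

/-- `k6a_lag` is the value of the Lagrange basis polynomial -/
theorem k6a_ti_lag_eq {M : ℕ} (x : Fin (M + 1) → ℝ) (i : Fin (M + 1)) (y : ℝ) :
    k6a_lag x i y = (Lagrange.basis Finset.univ x i).eval y := by
  unfold k6a_lag Lagrange.basis
  rw [Polynomial.eval_prod]
  refine Finset.prod_congr rfl fun j _ => ?_
  simp [Lagrange.basisDivisor, div_eq_inv_mul]

/-- one-variable exactness -/
theorem k6a_ti_exact {M : ℕ} (x : Fin (M + 1) → ℝ) (hx : Function.Injective x) (p : Polynomial ℝ)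
    (hp : p.natDegree ≤ M) (y : ℝ) : p.eval y = ∑ i, p.eval (x i) * k6a_lag x i y := by
  have h1 : p = Lagrange.interpolate Finset.univ x (fun i => p.eval (x i)) := by
    refine Lagrange.eq_interpolate hx.injOn ?_
    rw [Finset.card_univ, Fintype.card_fin]
    exact lt_of_le_of_lt Polynomial.degree_le_natDegree (by exact_mod_cast Nat.lt_succ_of_le hp)
  conv_lhs => rw [h1]
  rw [Lagrange.interpolate_apply, Polynomial.eval_finsetSum]
  refine Finset.sum_congr rfl fun i _ => ?_
  rw [Polynomial.eval_mul, Polynomial.eval_C, k6a_ti_lag_eq]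

/-- the Lebesgue constant -/
theorem k6a_ti_lag_le {M : ℕ} (x : Fin (M + 1) → ℝ) {gap : ℝ} (hgap : 0 < gap) (hx1 : ∀ i, |x i| ≤ 1)
    (hx : ∀ i j, i ≠ j → gap ≤ |x i - x j|) (i : Fin (M + 1)) {y : ℝ} (hy : |y| ≤ 1) :
    |k6a_lag x i y| ≤ (2 / gap) ^ M := by
  unfold k6a_lag
  rw [Finset.abs_prod]
  have hc : (Finset.univ.erase i).card = M := by
    rw [Finset.card_erase_of_mem (Finset.mem_univ _), Finset.card_univ, Fintype.card_fin]
    rfl
  calc ∏ j ∈ Finset.univ.erase i, |(y - x j) / (x i - x j)|
      ≤ ∏ _j ∈ Finset.univ.erase i, (2 / gap) := by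
        refine Finset.prod_le_prod (fun j _ => abs_nonneg _) fun j hj => ?_
        have hne : i ≠ j := (Finset.ne_of_mem_erase hj).symm
        rw [abs_div]
        have h1 : |y - x j| ≤ 2 := by
          have := abs_sub y (x j)
          linarith [hx1 j]
        exact div_le_div₀ (by norm_num) h1 hgap (hx i j hne)
    _ = (2 / gap) ^ M := by rw [Finset.prod_const, hc]

/-- the abstract induction on the number of axes -/
theorem k6a_ti_abs {I : Type} [Fintype I] (Λ ε : ℝ) (hΛ : 0 ≤ Λ) (hε : 0 ≤ ε) :
    ∀ (m : ℕ) (G : (Fin m → Option I) → ℝ) (ℓ : Fin m → I → ℝ), (∀ a, ∑ i, |ℓ a i| ≤ Λ) →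
      (∀ a f, |G (Function.update f a none) - ∑ i, G (Function.update f a (some i)) * ℓ a i|
        ≤ (Λ + 1) * ε) →
      |G (fun _ => none) - ∑ f : Fin m → I, G (fun a => some (f a)) * ∏ a, ℓ a (f a)|
        ≤ m * (Λ + 1) ^ m * ε := by
  intro m
  induction m with
  | zero =>
    intro G ℓ _ _
    have h1 : ∀ f : Fin 0 → I, (fun a => some (f a)) = (fun _ : Fin 0 => (none : Option I)) :=
      fun f => funext fun a => a.elim0
    simp [h1]
  | succ m ih =>
    intro G ℓ hℓ hG
    have hsum : ∑ f : Fin (m + 1) → I, G (fun a => some (f a)) * ∏ a, ℓ a (f a)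
        = ∑ i, ℓ 0 i * ∑ f : Fin m → I, G (Fin.cons (some i) fun a => some (f a)) *
            ∏ a : Fin m, ℓ a.succ (f a) := by
      rw [← (Fin.consEquiv (fun _ => I)).sum_comp, Fintype.sum_prod_type]
      refine Finset.sum_congr rfl fun i _ => ?_
      rw [Finset.mul_sum]
      refine Finset.sum_congr rfl fun f _ => ?_
      have h1 : (fun a => some ((Fin.consEquiv (fun _ => I)) (i, f) a))
          = (Fin.cons (some i) fun a => some (f a) : Fin (m + 1) → Option I) := by
        funext a
        refine Fin.cases ?_ (fun a => ?_) a <;> simp [Fin.consEquiv]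
      rw [h1, Fin.prod_univ_succ]
      simp only [Fin.consEquiv, Equiv.coe_fn_mk, Fin.cons_zero, Fin.cons_succ]
      ring
    have hstep0 := hG 0 (fun _ => none)
    have hu0 : Function.update (fun _ => none : Fin (m + 1) → Option I) 0 none = fun _ => none := by
      simp
    have hui : ∀ i, Function.update (fun _ => none : Fin (m + 1) → Option I) 0 (some i)
        = Fin.cons (some i) (fun _ => none) := by
      intro i
      funext a
      refine Fin.cases ?_ (fun a => ?_) a <;> simp
    have hih : ∀ i, |G (Fin.cons (some i) fun _ => none)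
        - ∑ f : Fin m → I, G (Fin.cons (some i) fun a => some (f a)) * ∏ a : Fin m, ℓ a.succ (f a)|
          ≤ m * (Λ + 1) ^ m * ε := by
      intro i
      refine ih (fun f => G (Fin.cons (some i) f)) (fun a => ℓ a.succ) (fun a => hℓ a.succ) fun a f => ?_
      have := hG a.succ (Fin.cons (some i) f)
      simp only [Fin.cons_update]
      exact this
    rw [hsum]
    have e1 : G (fun _ => none) - ∑ i, ℓ 0 i * ∑ f : Fin m → I, G (Fin.cons (some i) fun a => some (f a)) *
            ∏ a : Fin m, ℓ a.succ (f a)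
        = (G (fun _ => none) - ∑ i, G (Fin.cons (some i) fun _ => none) * ℓ 0 i)
          + ∑ i, ℓ 0 i * (G (Fin.cons (some i) fun _ => none)
            - ∑ f : Fin m → I, G (Fin.cons (some i) fun a => some (f a)) * ∏ a : Fin m, ℓ a.succ (f a)) := by
      simp only [mul_sub, Finset.sum_sub_distrib]
      have : ∑ i, G (Fin.cons (some i) fun _ => none) * ℓ 0 i
          = ∑ i, ℓ 0 i * G (Fin.cons (some i) fun _ => none) :=
        Finset.sum_congr rfl fun i _ => mul_comm _ _
      rw [this]
      ring
    rw [e1]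
    refine (abs_add_le _ _).trans ?_
    have b1 : |G (fun _ => none) - ∑ i, G (Fin.cons (some i) fun _ => none) * ℓ 0 i| ≤ (Λ + 1) * ε := by
      simpa only [hu0, hui] using hstep0
    have hP0 : (0 : ℝ) ≤ (Λ + 1) ^ m := by positivity
    have b2 : |∑ i, ℓ 0 i * (G (Fin.cons (some i) fun _ => none)
            - ∑ f : Fin m → I, G (Fin.cons (some i) fun a => some (f a)) * ∏ a : Fin m, ℓ a.succ (f a))|
        ≤ Λ * (m * (Λ + 1) ^ m * ε) := by
      calc _ ≤ ∑ i, |ℓ 0 i * (G (Fin.cons (some i) fun _ => none)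
            - ∑ f : Fin m → I, G (Fin.cons (some i) fun a => some (f a)) * ∏ a : Fin m, ℓ a.succ (f a))| :=
            Finset.abs_sum_le_sum_abs _ _
        _ ≤ ∑ i, |ℓ 0 i| * (m * (Λ + 1) ^ m * ε) := Finset.sum_le_sum fun i _ => by
            rw [abs_mul]
            exact mul_le_mul_of_nonneg_left (hih i) (abs_nonneg _)
        _ = (∑ i, |ℓ 0 i|) * (m * (Λ + 1) ^ m * ε) := (Finset.sum_mul _ _ _).symm
        _ ≤ Λ * (m * (Λ + 1) ^ m * ε) := mul_le_mul_of_nonneg_right (hℓ 0) (by positivity)
    have h1 : (1 : ℝ) ≤ (Λ + 1) ^ m := one_le_pow₀ (by linarith)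
    have a1 : (Λ + 1) * ε ≤ (Λ + 1) * (Λ + 1) ^ m * ε := by
      have h2 : (Λ + 1) * 1 ≤ (Λ + 1) * (Λ + 1) ^ m := mul_le_mul_of_nonneg_left h1 (by linarith)
      have := mul_le_mul_of_nonneg_right h2 hε
      linarith
    have a2 : Λ * (m * (Λ + 1) ^ m * ε) ≤ (Λ + 1) * (m * (Λ + 1) ^ m * ε) :=
      mul_le_mul_of_nonneg_right (by linarith) (by positivity)
    calc _ ≤ (Λ + 1) * (Λ + 1) ^ m * ε + (Λ + 1) * (m * (Λ + 1) ^ m * ε) := by linarith
      _ = ((m + 1 : ℕ) : ℝ) * (Λ + 1) ^ (m + 1) * ε := by
        push_cast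
        ring

theorem k6a_tensor_interp : k6a_tensor_interp_stmt := by
  intro m M X pos S gval ε gap hε hgap hpos hfib α hα τ hτ
  obtain ⟨Λ, hΛdef⟩ : ∃ Λ : ℝ, Λ = ((M : ℝ) + 1) * (2 / gap) ^ M := ⟨_, rfl⟩
  rw [← hΛdef]
  have hΛ : 0 ≤ Λ := by
    rw [hΛdef]
    positivity
  have hℓ1 : ∀ a i, |k6a_lag (fun i => pos (α a i)) i (pos (τ a))| ≤ (2 / gap) ^ M := fun a i =>
    k6a_ti_lag_le _ hgap (fun i => hpos _) (hα a) i (hpos _)
  have hℓ : ∀ a, ∑ i, |k6a_lag (fun i => pos (α a i)) i (pos (τ a))| ≤ Λ := by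
    intro a
    calc ∑ i, |k6a_lag (fun i => pos (α a i)) i (pos (τ a))|
        ≤ ∑ _i : Fin (M + 1), (2 / gap) ^ M := Finset.sum_le_sum fun i _ => hℓ1 a i
      _ = Λ := by
        rw [hΛdef, Finset.sum_const, Finset.card_univ, Fintype.card_fin, nsmul_eq_mul]
        push_cast
        ring
  have hinj : ∀ a, Function.Injective fun i => pos (α a i) := by
    intro a i j hij
    by_contra hne
    have h1 := hα a i j hne
    have h2 : pos (α a i) = pos (α a j) := hij
    rw [h2, sub_self, abs_zero] at h1
    linarith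
  have hax : ∀ (a : Fin m) (f : Fin m → Option (Fin (M + 1))),
      |gval (fun b => (Function.update f a none b).elim (τ b) (α b))
        - ∑ i, gval (fun b => (Function.update f a (some i) b).elim (τ b) (α b)) *
            k6a_lag (fun i => pos (α a i)) i (pos (τ a))| ≤ (Λ + 1) * ε := by
    intro a f
    obtain ⟨p, hp, hpS⟩ := hfib a (fun b => (f b).elim (τ b) (α b))
    have hv : ∀ o : Option (Fin (M + 1)), (fun b => (Function.update f a o b).elim (τ b) (α b))
        = Function.update (fun b => (f b).elim (τ b) (α b)) a (o.elim (τ a) (α a)) := by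
      intro o
      funext b
      by_cases hb : b = a
      · subst hb
        simp
      · simp [Function.update_of_ne hb]
    have h0 : |gval (fun b => (Function.update f a none b).elim (τ b) (α b)) - p.eval (pos (τ a))| ≤ ε := by
      have h1 := hpS (τ a) (by
        have h2 := hτ (Function.update f a none)
        rw [hv none] at h2
        exact h2)
      rw [hv none]
      exact h1
    have hi : ∀ i, |gval (fun b => (Function.update f a (some i) b).elim (τ b) (α b))
        - p.eval (pos (α a i))| ≤ ε := by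
      intro i
      have h1 := hpS (α a i) (by
        have h2 := hτ (Function.update f a (some i))
        rw [hv (some i)] at h2
        exact h2)
      rw [hv (some i)]
      exact h1
    have hex := k6a_ti_exact (fun i => pos (α a i)) (hinj a) p hp (pos (τ a))
    have e1 : gval (fun b => (Function.update f a none b).elim (τ b) (α b))
        - ∑ i, gval (fun b => (Function.update f a (some i) b).elim (τ b) (α b)) *
            k6a_lag (fun i => pos (α a i)) i (pos (τ a))
        = (gval (fun b => (Function.update f a none b).elim (τ b) (α b)) - p.eval (pos (τ a)))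
          - ∑ i, (gval (fun b => (Function.update f a (some i) b).elim (τ b) (α b)) - p.eval (pos (α a i))) *
            k6a_lag (fun i => pos (α a i)) i (pos (τ a)) := by
      rw [hex]
      simp only [sub_mul, Finset.sum_sub_distrib]
      ring
    rw [e1]
    refine (abs_sub _ _).trans ?_
    have b2 : |∑ i, (gval (fun b => (Function.update f a (some i) b).elim (τ b) (α b)) - p.eval (pos (α a i))) *
            k6a_lag (fun i => pos (α a i)) i (pos (τ a))| ≤ Λ * ε := by
      calc _ ≤ ∑ i, |(gval (fun b => (Function.update f a (some i) b).elim (τ b) (α b))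
              - p.eval (pos (α a i))) * k6a_lag (fun i => pos (α a i)) i (pos (τ a))| :=
            Finset.abs_sum_le_sum_abs _ _
        _ ≤ ∑ i, ε * |k6a_lag (fun i => pos (α a i)) i (pos (τ a))| := Finset.sum_le_sum fun i _ => by
            rw [abs_mul]
            exact mul_le_mul_of_nonneg_right (hi i) (abs_nonneg _)
        _ = ε * ∑ i, |k6a_lag (fun i => pos (α a i)) i (pos (τ a))| := (Finset.mul_sum _ _ _).symm
        _ ≤ ε * Λ := mul_le_mul_of_nonneg_left (hℓ a) hε
        _ = Λ * ε := mul_comm _ _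
    linarith
  exact k6a_ti_abs Λ ε hΛ hε m (fun f => gval (fun b => (f b).elim (τ b) (α b)))
    (fun a i => k6a_lag (fun i => pos (α a i)) i (pos (τ a))) hℓ hax

end Claimed.Agent.R252
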