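import Claimed.Agent.R252.S6a.L5Defs
import Claimed.Agent.R252.S6a.Span
import Claimed.Agent.R252.S6a.Fibre
import Claimed.Agent.R252.S6a.Anchor
import Claimed.Agent.R252.S6a.Tensor
import Claimed.Agent.R252.S6b.Form

/-!
# CONTRACT (row252, unit S6a, layer 5, sub-architect helper274): the GENERAL leaves of the Cartesian interpolation.
Statements + plans: docstrings of the `def ..._stmt` in `S6a/L5Defs.lean` (never edit that file; false/awkward = one line to helper274).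
SHARED FILE: prove YOUR theorem IN PLACE (replace its `sorry`; helper lemmas directly above it, prefix `k6a5_<leaf>_`); `git pull` first, splice only your block, land.
-/

set_option autoImplicit false

namespace Claimed.Agent.R252

open MeasureTheory
open scoped ENNReal BigOperators Classical

/-! ### L-252-S6a5-TUPLE -/

/-- a unit vector has a coordinate `≥ 1/m` -/
theorem k6a5_tuple_coord (m : ℕ) (hm : 1 ≤ m) (u : Fin m → ℝ) (hu : u ⬝ᵥ u = 1) :
    ∃ i, 1 ≤ |(m : ℝ) * u i| := by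
  by_contra hcon
  push Not at hcon
  have hm0 : (0 : ℝ) < m := by exact_mod_cast hm
  have hm1 : (1 : ℝ) ≤ m := by exact_mod_cast hm
  have : Nonempty (Fin m) := ⟨⟨0, hm⟩⟩
  have h1 : ∀ i, u i * u i < 1 / (m : ℝ) := by
    intro i
    have h2 := hcon i
    rw [abs_mul, abs_of_pos hm0] at h2
    have h3 : |u i| < 1 / (m : ℝ) := by
      rw [lt_div_iff₀ hm0]
      linarith
    have h4 : u i * u i = |u i| * |u i| := (abs_mul_abs_self _).symm
    have h5 : 1 / (m : ℝ) ≤ 1 := by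
      rw [div_le_one hm0]
      exact hm1
    rw [h4]
    nlinarith [abs_nonneg (u i)]
  have h2 : u ⬝ᵥ u < ∑ _i : Fin m, 1 / (m : ℝ) :=
    Finset.sum_lt_sum_of_nonempty Finset.univ_nonempty fun i _ => h1 i
  rw [hu, Finset.sum_const, Finset.card_univ, Fintype.card_fin, nsmul_eq_mul,
    mul_one_div_cancel hm0.ne'] at h2
  exact lt_irrefl _ h2

/-- **one state** -/
theorem k6a5_tuple_state (m : ℕ) {Ω St Bn : Type} [MeasurableSpace Ω] [Fintype Bn] (P : Measure Ω)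
    [IsProbabilityMeasure P] (st : Ω → St) (bin : Ω → Bn) (vel : Ω → Fin m → ℝ) (Bad : Set Ω)
    (pal : Bn → ℝ≥0∞) (s : St) (K c0 η : ℝ≥0∞) (w : ℝ) (hm : 1 ≤ m)
    (hst : MeasurableSet (st ⁻¹' {s})) (hvel : Measurable vel) (hBad : MeasurableSet Bad) (hw : 0 < w)
    (h1 : ∀ a : Fin m → ℝ, (∃ i, 1 ≤ |a i|) → P {e | |a ⬝ᵥ vel e| ≤ w} ≤ c0)
    (h2 : P Bad ≤ η) (h3 : ∀ J, P (bin ⁻¹' {J}) ≤ K * pal J) (h4 : P (st ⁻¹' {s})ᶜ = 0)
    (hsm : (m : ℝ≥0∞) * (c0 + η) ≤ 1 / 2) :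
    1 / 2 ≤ K ^ m * ∑ J : Fin m → Bn,
      if k6a5_Wit st bin vel Bad ((w / m) ^ m / (m.factorial : ℝ)) J s then ∏ i, pal (J i) else 0 := by
  have hm0 : (0 : ℝ) < m := by exact_mod_cast hm
  have hm1 : (1 : ℝ≥0∞) ≤ m := by exact_mod_cast hm
  have hc0 : c0 ≤ 1 / 2 :=
    calc c0 ≤ c0 + η := le_self_add
      _ = 1 * (c0 + η) := (one_mul _).symm
      _ ≤ (m : ℝ≥0∞) * (c0 + η) := mul_le_mul_left hm1 _
      _ ≤ 1 / 2 := hsm
  have hc0t : c0 ≠ ∞ := ne_top_of_le_ne_top (by simp) hc0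
  set c0r := c0.toReal with hc0r
  have hc0e : ENNReal.ofReal c0r = c0 := ENNReal.ofReal_toReal hc0t
  have hc0r0 : 0 ≤ c0r := ENNReal.toReal_nonneg
  have hc0r1 : c0r ≤ 1 / 2 := by
    have := ENNReal.toReal_mono (by simp) hc0
    simpa using this
  -- the hypothesis of the spanning lemma
  have H : ∀ u : Fin m → ℝ, u ⬝ᵥ u = 1 →
      ENNReal.ofReal (1 - c0r) ≤ P {ω | w / m ≤ |u ⬝ᵥ vel ω|} := by
    intro u hu
    have hS : MeasurableSet {ω | w / m ≤ |u ⬝ᵥ vel ω|} :=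
      measurableSet_le measurable_const (k6a_span_dot_meas m vel hvel u).abs
    have hsub : {ω | w / m ≤ |u ⬝ᵥ vel ω|}ᶜ ⊆ {e | |(fun i => (m : ℝ) * u i) ⬝ᵥ vel e| ≤ w} := by
      intro ω hω
      have h5 : |u ⬝ᵥ vel ω| < w / m := not_le.1 hω
      have h6 : (fun i => (m : ℝ) * u i) ⬝ᵥ vel ω = (m : ℝ) * (u ⬝ᵥ vel ω) := by
        simp only [dotProduct, Finset.mul_sum, mul_assoc]
      show |(fun i => (m : ℝ) * u i) ⬝ᵥ vel ω| ≤ w
      rw [h6, abs_mul, abs_of_pos hm0]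
      rw [lt_div_iff₀ hm0] at h5
      linarith
    have h7 : P {ω | w / m ≤ |u ⬝ᵥ vel ω|}ᶜ ≤ c0 :=
      (measure_mono hsub).trans (h1 _ (k6a5_tuple_coord m hm u hu))
    have h8 : (1 : ℝ≥0∞) ≤ P {ω | w / m ≤ |u ⬝ᵥ vel ω|} + c0 := by
      rw [← measure_univ (μ := P), ← measure_add_measure_compl hS]
      exact add_le_add le_rfl h7
    rw [ENNReal.ofReal_sub _ hc0r0, ENNReal.ofReal_one, hc0e]
    exact tsub_le_iff_right.2 h8
  have hspan := k6a_span_prob P m vel hvel (w / m) (1 - c0r) (by positivity) (by linarith) H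
  set Pm : Measure (Fin m → Ω) := Measure.pi fun _ : Fin m => P with hPm
  set D : Set (Fin m → Ω) :=
    {ω | (w / m) ^ m ≤ (m.factorial : ℝ) * |Matrix.det (Matrix.of fun i => vel (ω i))|} with hD
  -- the exceptional events
  have hB1 : Pm (⋃ i : Fin m, Function.eval i ⁻¹' Bad) ≤ m * η :=
    calc Pm (⋃ i : Fin m, Function.eval i ⁻¹' Bad) ≤ ∑ i : Fin m, Pm (Function.eval i ⁻¹' Bad) :=
          measure_iUnion_fintype_le _ _
      _ = ∑ _i : Fin m, P Bad := Finset.sum_congr rfl fun i _ =>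
          (measurePreserving_eval (fun _ : Fin m => P) i).measure_preimage hBad.nullMeasurableSet
      _ ≤ ∑ _i : Fin m, η := Finset.sum_le_sum fun _ _ => h2
      _ = m * η := by rw [Finset.sum_const, Finset.card_univ, Fintype.card_fin, nsmul_eq_mul]
  have hB2 : Pm (⋃ i : Fin m, Function.eval i ⁻¹' (st ⁻¹' {s})ᶜ) = 0 := by
    refine measure_iUnion_null fun i => ?_
    rw [(measurePreserving_eval (fun _ : Fin m => P) i).measure_preimage hst.compl.nullMeasurableSet]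
    exact h4
  -- the covering
  set 𝒥 : Finset (Fin m → Bn) := Finset.univ.filter fun J =>
    k6a5_Wit st bin vel Bad ((w / m) ^ m / (m.factorial : ℝ)) J s with h𝒥
  have hcov : D ⊆ (⋃ J ∈ 𝒥, Set.pi Set.univ fun i => bin ⁻¹' {J i}) ∪
      ((⋃ i : Fin m, Function.eval i ⁻¹' Bad) ∪ ⋃ i : Fin m, Function.eval i ⁻¹' (st ⁻¹' {s})ᶜ) := by
    intro ω hω
    by_cases hb1 : ω ∈ ⋃ i : Fin m, Function.eval i ⁻¹' Bad
    · exact Or.inr (Or.inl hb1)
    by_cases hb2 : ω ∈ ⋃ i : Fin m, Function.eval i ⁻¹' (st ⁻¹' {s})ᶜ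
    · exact Or.inr (Or.inr hb2)
    left
    simp only [Set.mem_iUnion, Set.mem_preimage, Function.eval, not_exists, Set.mem_compl_iff,
      Set.mem_singleton_iff, not_not] at hb1 hb2
    refine Set.mem_biUnion (x := fun i => bin (ω i)) ?_ ?_
    · rw [h𝒥, Finset.coe_filter]
      refine ⟨Finset.mem_univ _, ω, fun i => ⟨hb2 i, rfl, hb1 i⟩, ?_⟩
      rw [div_le_iff₀' (by positivity)]
      exact hω
    · intro i _
      rfl
  have hbox : ∀ J : Fin m → Bn, Pm (Set.pi Set.univ fun i => bin ⁻¹' {J i}) ≤ K ^ m * ∏ i, pal (J i) := by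
    intro J
    rw [hPm, Measure.pi_pi]
    calc ∏ i, P (bin ⁻¹' {J i}) ≤ ∏ i, (K * pal (J i)) := Finset.prod_le_prod' fun i _ => h3 _
      _ = K ^ m * ∏ i, pal (J i) := by
          rw [Finset.prod_mul_distrib, Finset.prod_const, Finset.card_univ, Fintype.card_fin]
  set X : ℝ≥0∞ := K ^ m * ∑ J : Fin m → Bn,
    if k6a5_Wit st bin vel Bad ((w / m) ^ m / (m.factorial : ℝ)) J s then ∏ i, pal (J i) else 0 with hX
  have hDle : Pm D ≤ X + m * η :=
    calc Pm D ≤ Pm (⋃ J ∈ 𝒥, Set.pi Set.univ fun i => bin ⁻¹' {J i}) +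
          (Pm (⋃ i : Fin m, Function.eval i ⁻¹' Bad)
            + Pm (⋃ i : Fin m, Function.eval i ⁻¹' (st ⁻¹' {s})ᶜ)) :=
          (measure_mono hcov).trans ((measure_union_le _ _).trans
            (add_le_add le_rfl (measure_union_le _ _)))
      _ ≤ (∑ J ∈ 𝒥, K ^ m * ∏ i, pal (J i)) + (m * η + 0) := by
          refine add_le_add ?_ (add_le_add hB1 hB2.le)
          exact (measure_biUnion_finset_le _ _).trans (Finset.sum_le_sum fun J _ => hbox J)
      _ = X + m * η := by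
          rw [add_zero, hX, h𝒥, Finset.sum_filter, Finset.mul_sum]
          congr 1
          refine Finset.sum_congr rfl fun J _ => ?_
          split_ifs <;> simp
  -- arithmetic
  have hbern : 1 - (m : ℝ) * c0r ≤ (1 - c0r) ^ m := by
    have := one_add_mul_le_pow (a := -c0r) (by linarith) m
    have e : (1 : ℝ) + -c0r = 1 - c0r := by ring
    rw [e] at this
    linarith
  have h9 : (1 : ℝ≥0∞) ≤ ENNReal.ofReal ((1 - c0r) ^ m) + m * c0 := by
    have e : (m : ℝ≥0∞) * c0 = ENNReal.ofReal ((m : ℝ) * c0r) := by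
      rw [ENNReal.ofReal_mul hm0.le, hc0e, ENNReal.ofReal_natCast]
    rw [e, ← ENNReal.ofReal_add (by have : 0 ≤ 1 - c0r := by linarith
                                    positivity) (by positivity), ← ENNReal.ofReal_one]
    exact ENNReal.ofReal_le_ofReal (by linarith)
  have h10 : (1 / 2 : ℝ≥0∞) + 1 / 2 ≤ X + 1 / 2 :=
    calc (1 / 2 : ℝ≥0∞) + 1 / 2 = 1 := ENNReal.add_halves 1
      _ ≤ ENNReal.ofReal ((1 - c0r) ^ m) + m * c0 := h9
      _ ≤ (X + m * η) + m * c0 := add_le_add (hspan.trans hDle) le_rfl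
      _ = X + m * (c0 + η) := by ring
      _ ≤ X + 1 / 2 := add_le_add le_rfl hsm
  exact (ENNReal.add_le_add_iff_right (by simp)).1 h10

/-- Lagrange basis polynomial of the nodes `x` in the variable `b` -/
noncomputable def k6a5_grid_ell {m M : ℕ} (x : Fin (M + 1) → ℝ) (b : Fin m) (k : Fin (M + 1)) : MvPolynomial (Fin m) ℝ :=
  ∏ k' ∈ Finset.univ.erase k, ((MvPolynomial.X b + MvPolynomial.C (-(x k'))) * MvPolynomial.C ((x k - x k')⁻¹))

/-- tensor Lagrange polynomial with the values `v` at the product nodes -/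
noncomputable def k6a5_grid_pol {m M : ℕ} (x : Fin m → Fin (M + 1) → ℝ) (v : (Fin m → Fin (M + 1)) → ℝ) : MvPolynomial (Fin m) ℝ :=
  ∑ f : Fin m → Fin (M + 1), MvPolynomial.C (v f) * ∏ b, k6a5_grid_ell (x b) b (f b)

theorem k6a5_grid_eqns_cite : True := by
  have := @k6a5_grid_ell.eq_1
  have := @k6a5_grid_pol.eq_1
  trivial

theorem k6a5_grid_ell_eval {m M : ℕ} (x : Fin (M + 1) → ℝ) (b : Fin m) (k : Fin (M + 1)) (y : Fin m → ℝ) :
    MvPolynomial.eval y (k6a5_grid_ell x b k) = k6a_lag x k (y b) := by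
  unfold k6a5_grid_ell k6a_lag
  rw [map_prod]
  refine Finset.prod_congr rfl fun j _ => ?_
  simp [div_eq_mul_inv, sub_eq_add_neg]

theorem k6a5_grid_card_erase {M : ℕ} (k : Fin (M + 1)) : (Finset.univ.erase k).card = M := by
  rw [Finset.card_erase_of_mem (Finset.mem_univ _), Finset.card_univ, Fintype.card_fin]
  rfl

theorem k6a5_grid_ell_nm {m M : ℕ} (x : Fin (M + 1) → ℝ) (b : Fin m) (k : Fin (M + 1)) {gap : ℝ} (hgap : 0 < gap)
    (hx1 : ∀ i, |x i| ≤ 1) (hx : ∀ i j, i ≠ j → gap ≤ |x i - x j|) :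
    rmzNm (k6a5_grid_ell x b k) ≤ (2 / gap) ^ M := by
  unfold k6a5_grid_ell
  refine (k6b_nm_prod _ _).trans ?_
  calc ∏ k' ∈ Finset.univ.erase k, rmzNm ((MvPolynomial.X b + MvPolynomial.C (-(x k'))) * MvPolynomial.C ((x k - x k')⁻¹))
      ≤ ∏ _k' ∈ Finset.univ.erase k, (2 / gap) := by
        refine Finset.prod_le_prod (fun j _ => rmz_Nm_nonneg _) fun j hj => ?_
        have hne : k ≠ j := (Finset.ne_of_mem_erase hj).symm
        refine (k6b_nm_mul _ _).trans ?_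
        have h1 : rmzNm (MvPolynomial.X b + MvPolynomial.C (-(x j)) : MvPolynomial (Fin m) ℝ) ≤ 2 := by
          refine (k6b_nm_add _ _).trans ?_
          rw [k6b_nm_X, k6b_nm_C, abs_neg]
          linarith [hx1 j]
        have h2 : rmzNm (MvPolynomial.C ((x k - x j)⁻¹) : MvPolynomial (Fin m) ℝ) ≤ 1 / gap := by
          rw [k6b_nm_C, abs_inv, ← one_div]
          exact one_div_le_one_div_of_le hgap (hx k j hne)
        calc _ ≤ 2 * (1 / gap) := mul_le_mul h1 h2 (rmz_Nm_nonneg _) (by norm_num)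
          _ = 2 / gap := by ring
    _ = (2 / gap) ^ M := by rw [Finset.prod_const, k6a5_grid_card_erase]

theorem k6a5_grid_ell_deg {m M : ℕ} (x : Fin (M + 1) → ℝ) (b : Fin m) (k : Fin (M + 1)) (j : Fin m) :
    (k6a5_grid_ell x b k).degreeOf j ≤ if j = b then M else 0 := by
  unfold k6a5_grid_ell
  refine (MvPolynomial.degreeOf_prod_le _ _ _).trans ?_
  have h : ∀ k' ∈ Finset.univ.erase k,
      ((MvPolynomial.X b + MvPolynomial.C (-(x k'))) * MvPolynomial.C ((x k - x k')⁻¹) : MvPolynomial (Fin m) ℝ).degreeOf j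
        ≤ if j = b then 1 else 0 := by
    intro k' _
    refine (MvPolynomial.degreeOf_mul_C_le _ _ _).trans ((MvPolynomial.degreeOf_add_le _ _ _).trans ?_)
    rw [MvPolynomial.degreeOf_C, MvPolynomial.degreeOf_X]
    simp
  refine (Finset.sum_le_sum h).trans ?_
  rw [Finset.sum_const, k6a5_grid_card_erase, smul_eq_mul]
  split_ifs <;> simp

theorem k6a5_grid_pol_eval {m M : ℕ} (x : Fin m → Fin (M + 1) → ℝ) (v : (Fin m → Fin (M + 1)) → ℝ) (y : Fin m → ℝ) :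
    MvPolynomial.eval y (k6a5_grid_pol x v) = ∑ f : Fin m → Fin (M + 1), v f * ∏ b, k6a_lag (x b) (f b) (y b) := by
  unfold k6a5_grid_pol
  rw [map_sum]
  refine Finset.sum_congr rfl fun f _ => ?_
  rw [map_mul, MvPolynomial.eval_C, map_prod]
  congr 1
  exact Finset.prod_congr rfl fun b _ => k6a5_grid_ell_eval _ _ _ _

theorem k6a5_grid_pol_nm {m M : ℕ} (x : Fin m → Fin (M + 1) → ℝ) (v : (Fin m → Fin (M + 1)) → ℝ) {gap K : ℝ} (hgap : 0 < gap)
    (hx1 : ∀ b i, |x b i| ≤ 1) (hx : ∀ b i j, i ≠ j → gap ≤ |x b i - x b j|) (hv : ∀ f, |v f| ≤ K) :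
    rmzNm (k6a5_grid_pol x v) ≤ ((M : ℝ) + 1) ^ m * (K * ((2 / gap) ^ M) ^ m) := by
  unfold k6a5_grid_pol
  refine (k6b_nm_sum _ _).trans ?_
  have hK : 0 ≤ K := (abs_nonneg _).trans (hv fun _ => 0)
  have h : ∀ f ∈ (Finset.univ : Finset (Fin m → Fin (M + 1))),
      rmzNm (MvPolynomial.C (v f) * ∏ b, k6a5_grid_ell (x b) b (f b)) ≤ K * ((2 / gap) ^ M) ^ m := by
    intro f _
    refine (k6b_nm_mul _ _).trans ?_
    rw [k6b_nm_C]
    refine mul_le_mul (hv f) ?_ (rmz_Nm_nonneg _) hK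
    refine (k6b_nm_prod _ _).trans ?_
    calc ∏ b, rmzNm (k6a5_grid_ell (x b) b (f b)) ≤ ∏ _b : Fin m, (2 / gap) ^ M :=
          Finset.prod_le_prod (fun b _ => rmz_Nm_nonneg _) fun b _ => k6a5_grid_ell_nm _ _ _ hgap (hx1 b) (hx b)
      _ = ((2 / gap) ^ M) ^ m := by rw [Finset.prod_const, Finset.card_univ, Fintype.card_fin]
  refine (Finset.sum_le_sum h).trans (le_of_eq ?_)
  rw [Finset.sum_const, Finset.card_univ, Fintype.card_fun, Fintype.card_fin, Fintype.card_fin, nsmul_eq_mul]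
  push_cast
  ring

theorem k6a5_grid_pol_deg {m M : ℕ} (x : Fin m → Fin (M + 1) → ℝ) (v : (Fin m → Fin (M + 1)) → ℝ) (j : Fin m) :
    (k6a5_grid_pol x v).degreeOf j ≤ M := by
  unfold k6a5_grid_pol
  refine (MvPolynomial.degreeOf_sum_le _ _ _).trans (Finset.sup_le fun f _ => ?_)
  refine (MvPolynomial.degreeOf_C_mul_le _ _ _).trans ((MvPolynomial.degreeOf_prod_le _ _ _).trans ?_)
  refine (Finset.sum_le_sum fun b _ => k6a5_grid_ell_deg (x b) b (f b) j).trans ?_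
  rw [Finset.sum_ite_eq]
  simp

theorem k6a5_grid_le (a : ℝ) (b c : ℕ) (K : ℝ) (hK : 1 ≤ K) (ha : a ≤ c) (hb : b ≤ c) : a * K ^ b ≤ c * K ^ c := by
  have h1 : K ^ b ≤ K ^ c := pow_le_pow_right₀ hK hb
  have h0 : 0 ≤ K ^ b := by positivity
  calc a * K ^ b ≤ c * K ^ b := mul_le_mul_of_nonneg_right ha h0
    _ ≤ c * K ^ c := mul_le_mul_of_nonneg_left h1 (Nat.cast_nonneg c)

theorem k6a5_grid_gp_abs (N0 : ℕ) (hN : 0 < N0) (x : Fin (2 * N0)) : |k6a5_gp N0 x| ≤ 1 := by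
  unfold k6a5_gp
  have hN' : (0 : ℝ) < N0 := by exact_mod_cast hN
  rw [abs_div, abs_of_pos hN', div_le_one hN', abs_le]
  have h1 : ((x : ℕ) : ℝ) < 2 * N0 := by exact_mod_cast x.isLt
  have h0 : (0 : ℝ) ≤ ((x : ℕ) : ℝ) := Nat.cast_nonneg _
  constructor <;> linarith

theorem k6a5_grid_gp_sub (N0 : ℕ) (x y : Fin (2 * N0)) :
    k6a5_gp N0 x - k6a5_gp N0 y = (((x : ℕ) : ℝ) - ((y : ℕ) : ℝ)) / N0 := by
  unfold k6a5_gp
  ring

/-- leaf **TUPLE**. -/
theorem k6a5_tuple : k6a5_tuple_stmt := by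
  intro m Ω St Bn _ _ μ _ st bin vel Bad pal Gd K c0 η w hm hst hbin hvel hBad hw hstrip hbad hpal
    hsum hsm hne
  set δ : ℝ := (w / m) ^ m / (m.factorial : ℝ) with hδ
  set ms : St → ℝ≥0∞ := fun s => μ (st ⁻¹' {s}) with hms
  set ρ : (Fin m → Bn) → ℝ≥0∞ := fun J => ∏ i, pal (J i) with hρ
  -- one state
  have hstate : ∀ s ∈ Gd, ms s ≤ 2 * K ^ m *
      ∑ J : Fin m → Bn, (if k6a5_Wit st bin vel Bad δ J s then ρ J * ms s else 0) := by
    intro s hs
    by_cases h0 : ms s = 0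
    · rw [h0]
      exact zero_le
    have ht : ms s ≠ ∞ := measure_ne_top _ _
    set P : Measure Ω := (ms s)⁻¹ • μ.restrict (st ⁻¹' {s}) with hP
    have hPa : ∀ A : Set Ω, P A = (ms s)⁻¹ * μ (st ⁻¹' {s} ∩ A) := by
      intro A
      rw [hP, Measure.smul_apply, smul_eq_mul, Measure.restrict_apply' (hst s), Set.inter_comm]
    have hprob : IsProbabilityMeasure P := ⟨by
      rw [hPa, Set.inter_univ]
      exact ENNReal.inv_mul_cancel h0 ht⟩
    have hle : ∀ (A : Set Ω) (c : ℝ≥0∞), μ (st ⁻¹' {s} ∩ A) ≤ c * ms s → P A ≤ c := by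
      intro A c hA
      rw [hPa]
      calc (ms s)⁻¹ * μ (st ⁻¹' {s} ∩ A) ≤ (ms s)⁻¹ * (c * ms s) := mul_le_mul_right hA _
        _ = c * ((ms s)⁻¹ * ms s) := by ring
        _ = c := by rw [ENNReal.inv_mul_cancel h0 ht, mul_one]
    have key := k6a5_tuple_state m P st bin vel Bad pal s K c0 η w hm (hst s) hvel hBad hw
      (fun a ha => hle _ _ (hstrip s hs a ha)) (hle _ _ (hbad s hs)) (fun J => hle _ _ (hpal s hs J))
      (by rw [hPa, Set.inter_compl_self, measure_empty, mul_zero]) hsm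
    calc ms s = 2 * (1 / 2) * ms s := by
          rw [one_div, ENNReal.mul_inv_cancel (by simp) (by simp), one_mul]
      _ ≤ 2 * (K ^ m * ∑ J : Fin m → Bn,
            if k6a5_Wit st bin vel Bad δ J s then ∏ i, pal (J i) else 0) * ms s :=
          mul_le_mul_left (mul_le_mul_right key _) _
      _ = 2 * K ^ m * ∑ J : Fin m → Bn, (if k6a5_Wit st bin vel Bad δ J s then ρ J * ms s else 0) := by
          rw [mul_assoc, mul_assoc, mul_assoc, Finset.sum_mul]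
          congr 2
          refine Finset.sum_congr rfl fun J _ => ?_
          split_ifs <;> simp [hρ]
  -- a tuple exists
  have hBn : Nonempty (Fin m → Bn) := by
    by_contra hcon
    refine hne (Finset.sum_eq_zero fun s _ => ?_)
    have hΩ : IsEmpty Ω := ⟨fun ω => hcon ⟨fun _ => bin ω⟩⟩
    rw [Measure.eq_zero_of_isEmpty μ]
    rfl
  set W : (Fin m → Bn) → ℝ≥0∞ := fun J => ∑ s ∈ Gd.filter (k6a5_Wit st bin vel Bad δ J), ms s with hW
  obtain ⟨J₀⟩ := hBn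
  obtain ⟨J, -, hJ⟩ := Finset.exists_max_image Finset.univ W ⟨J₀, Finset.mem_univ _⟩
  refine ⟨J, ?_⟩
  have hρsum : ∑ J : Fin m → Bn, ρ J ≤ K ^ m := by
    have e : ∑ J : Fin m → Bn, ρ J = ∏ _i : Fin m, ∑ b, pal b := by
      rw [Finset.prod_univ_sum, Fintype.piFinset_univ]
    rw [e, Finset.prod_const, Finset.card_univ, Fintype.card_fin]
    exact pow_le_pow_left₀ zero_le hsum m
  calc ∑ s ∈ Gd, ms s
      ≤ ∑ s ∈ Gd, 2 * K ^ m *
          ∑ J : Fin m → Bn, (if k6a5_Wit st bin vel Bad δ J s then ρ J * ms s else 0) :=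
        Finset.sum_le_sum hstate
    _ = 2 * K ^ m * ∑ J : Fin m → Bn, ρ J * W J := by
        rw [← Finset.mul_sum, Finset.sum_comm]
        congr 1
        refine Finset.sum_congr rfl fun J _ => ?_
        rw [hW, Finset.mul_sum, Finset.sum_filter]
    _ ≤ 2 * K ^ m * ∑ J' : Fin m → Bn, ρ J' * W J :=
        mul_le_mul_right (Finset.sum_le_sum fun J' _ => mul_le_mul_right (hJ J' (Finset.mem_univ _)) _) _
    _ = 2 * K ^ m * ((∑ J' : Fin m → Bn, ρ J') * W J) := by rw [Finset.sum_mul]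
    _ ≤ 2 * K ^ m * (K ^ m * W J) := mul_le_mul_right (mul_le_mul_left hρsum _) _
    _ = 2 * K ^ (2 * m) * W J := by
        rw [two_mul m, pow_add]
        ring

/-! ### L-252-S6a5-NET -/

theorem k6a5_net : k6a5_net_stmt := by
  intro M ι p Wt κ ε g Φ K0 hdeg hWm hW01 hκ hWκ hΦ hfol hg hgκ
  by_cases hι : Nonempty ι
  swap
  · refine ⟨∅, ?_, fun i => absurd ⟨i⟩ hι⟩
    simp only [Finset.card_empty, Nat.cast_zero, zero_mul]
    positivity
  obtain ⟨i₀⟩ := hι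
  obtain ⟨sep, hsep⟩ : ∃ sep : ℝ, sep = ((M : ℝ) + 1) * (2 / g) ^ M * (2 * ε) := ⟨_, rfl⟩
  rw [← hsep]
  have hsep0 : 0 ≤ sep := by
    have hne : (Wt i₀).Nonempty := by
      by_contra h
      rw [Set.not_nonempty_iff_eq_empty] at h
      have := hWκ i₀
      rw [h] at this
      simp at this
      linarith
    obtain ⟨t, ht⟩ := hne
    obtain ⟨φ, -, h1⟩ := hfol i₀ t ht
    have h2 : 0 ≤ ε := (abs_nonneg _).trans h1
    rw [hsep]
    positivity
  -- separated families are small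
  have hsmall : ∀ N : Finset ι, (∀ i ∈ N, ∀ j ∈ N, i ≠ j → ∃ k, sep < |(p i).coeff k - (p j).coeff k|) →
      (N.card : ℝ) * (κ ^ (M + 1) / 2) ≤ (K0 : ℝ) ^ (M + 1) := by
    intro N hN
    have hinj : Set.InjOn p N := by
      intro i hi j hj hij
      by_contra hne
      obtain ⟨k, hk⟩ := hN i hi j hj hne
      rw [hij, sub_self, abs_zero] at hk
      exact absurd hsep0 (not_le.2 hk)
    have hpre : ∀ q : Polynomial ℝ, ∃ i : ι, q ∈ N.image p → i ∈ N ∧ p i = q := by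
      intro q
      by_cases hq : q ∈ N.image p
      · obtain ⟨i, hi, hiq⟩ := Finset.mem_image.1 hq
        exact ⟨i, fun _ => ⟨hi, hiq⟩⟩
      · exact ⟨i₀, fun h => absurd h hq⟩
    choose pre hpre' using hpre
    have h := k6a_fibre_list M (N.image p)
      (fun q hq => by rw [← (hpre' q hq).2]; exact hdeg _) (fun q => Wt (pre q)) (fun q _ => hWm _) (fun q _ => hW01 _) κ hκ
      (fun q _ => hWκ _) Φ K0 hΦ ε
      (fun q hq t ht => by
        have := hfol (pre q) t ht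
        rwa [(hpre' q hq).2] at this) g hg hgκ
      (fun q hq q' hq' hne => by
        have h1 := hpre' q hq
        have h2 := hpre' q' hq'
        have hne' : pre q ≠ pre q' := fun h => hne (by rw [← h1.2, ← h2.2, h])
        obtain ⟨k, hk⟩ := hN _ h1.1 _ h2.1 hne'
        rw [h1.2, h2.2, hsep] at hk
        exact ⟨k, hk⟩)
    rwa [Finset.card_image_of_injOn hinj] at h
  -- a separated family of maximal cardinality
  have hκM : 0 < κ ^ (M + 1) / 2 := by positivity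
  obtain ⟨b, hb⟩ : ∃ b : ℕ, (K0 : ℝ) ^ (M + 1) / (κ ^ (M + 1) / 2) ≤ b := exists_nat_ge _
  have hcard : ∀ N : Finset ι, (∀ i ∈ N, ∀ j ∈ N, i ≠ j → ∃ k, sep < |(p i).coeff k - (p j).coeff k|) → N.card ≤ b := by
    intro N hN
    have h1 := hsmall N hN
    rw [← le_div_iff₀ hκM] at h1
    exact_mod_cast h1.trans hb
  obtain ⟨P, hP⟩ : ∃ P : ℕ → Prop, P = fun n =>
      ∃ N : Finset ι, (∀ i ∈ N, ∀ j ∈ N, i ≠ j → ∃ k, sep < |(p i).coeff k - (p j).coeff k|) ∧ N.card = n := ⟨_, rfl⟩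
  have hPiff : ∀ n, P n ↔
      ∃ N : Finset ι, (∀ i ∈ N, ∀ j ∈ N, i ≠ j → ∃ k, sep < |(p i).coeff k - (p j).coeff k|) ∧ N.card = n := by
    intro n
    rw [hP]
  have hP0 : P 0 := (hPiff 0).2 ⟨∅, fun i hi => absurd hi (Finset.notMem_empty i), rfl⟩
  have hspec : P (Nat.findGreatest P b) := Nat.findGreatest_spec (Nat.zero_le b) hP0
  obtain ⟨N, hN, hNc⟩ := (hPiff _).1 hspec
  refine ⟨N, hsmall N hN, fun i => ?_⟩
  by_contra hcon
  push Not at hcon
  have hiN : i ∉ N := by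
    intro hi
    obtain ⟨k, hk⟩ := hcon i hi
    rw [sub_self, abs_zero] at hk
    exact absurd hsep0 (not_le.2 hk)
  have hins : ∀ a ∈ insert i N, ∀ c ∈ insert i N, a ≠ c → ∃ k, sep < |(p a).coeff k - (p c).coeff k| := by
    intro a ha c hc hac
    rw [Finset.mem_insert] at ha hc
    rcases ha with rfl | ha <;> rcases hc with rfl | hc
    · exact absurd rfl hac
    · exact hcon c hc
    · obtain ⟨k, hk⟩ := hcon a ha
      exact ⟨k, by rwa [abs_sub_comm]⟩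
    · exact hN a ha c hc hac
  have hc1 : (insert i N).card = Nat.findGreatest P b + 1 := by rw [Finset.card_insert_of_notMem hiN, hNc]
  have hle : Nat.findGreatest P b + 1 ≤ b := hc1 ▸ hcard _ hins
  exact Nat.findGreatest_is_greatest (Nat.lt_succ_self _) hle ((hPiff _).2 ⟨insert i N, hins, hc1⟩)

/-! ### L-252-S6a5-PIGEON -/

theorem k6a5_pigeon_one {S L : Type} [Nonempty L] (T : Finset S) (wt : S → ℝ) (lb : S → L) (k : ℕ) (hwt : ∀ s ∈ T, 0 ≤ wt s)
    (hk : (T.image lb).card ≤ k) : ∃ l : L, ∑ s ∈ T, wt s ≤ k * ∑ s ∈ T.filter (fun s => lb s = l), wt s := by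
  by_cases hne : (T.image lb).Nonempty
  · obtain ⟨l, -, hmax⟩ := Finset.exists_max_image (T.image lb) (fun l => ∑ s ∈ T.filter (fun s => lb s = l), wt s) hne
    refine ⟨l, ?_⟩
    have hnn : 0 ≤ ∑ s ∈ T.filter (fun s => lb s = l), wt s :=
      Finset.sum_nonneg fun s hs => hwt s (Finset.mem_filter.1 hs).1
    rw [← Finset.sum_fiberwise_of_maps_to (g := lb) (t := T.image lb) (fun s hs => Finset.mem_image_of_mem lb hs)]
    calc ∑ l' ∈ T.image lb, ∑ s ∈ T with lb s = l', wt s ≤ ∑ _l' ∈ T.image lb, ∑ s ∈ T.filter (fun s => lb s = l), wt s :=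
          Finset.sum_le_sum hmax
      _ = ((T.image lb).card : ℝ) * ∑ s ∈ T.filter (fun s => lb s = l), wt s := by rw [Finset.sum_const, nsmul_eq_mul]
      _ ≤ _ := mul_le_mul_of_nonneg_right (by exact_mod_cast hk) hnn
  · rw [Finset.image_nonempty, Finset.not_nonempty_iff_eq_empty] at hne
    subst hne
    exact ⟨Classical.arbitrary L, by simp⟩

theorem k6a5_pigeon : k6a5_pigeon_stmt := by
  intro S C L _ T wt cl lb k hwt hk
  have h1 : ∀ c : C, ∃ l : L, ∑ s ∈ T.filter (fun s => cl s = c), wt s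
      ≤ k * ∑ s ∈ (T.filter fun s => cl s = c).filter (fun s => lb s = l), wt s := fun c =>
    k6a5_pigeon_one _ wt lb k (fun s hs => hwt s (Finset.mem_filter.1 hs).1) (hk c)
  choose ch hch using h1
  refine ⟨ch, ?_⟩
  rw [← Finset.sum_fiberwise_of_maps_to (g := cl) (t := T.image cl) (fun s hs => Finset.mem_image_of_mem cl hs),
    ← Finset.sum_fiberwise_of_maps_to (s := T.filter (fun s => lb s = ch (cl s))) (g := cl) (t := T.image cl)
      (fun s hs => Finset.mem_image_of_mem cl (Finset.mem_filter.1 hs).1), Finset.mul_sum]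
  refine Finset.sum_le_sum fun c _ => (hch c).trans (le_of_eq ?_)
  congr 2
  ext s
  simp only [Finset.mem_filter]
  constructor
  · rintro ⟨⟨h1, h2⟩, h3⟩
    exact ⟨⟨h1, by rw [h2]; exact h3⟩, h2⟩
  · rintro ⟨⟨h1, h2⟩, h3⟩
    exact ⟨⟨h1, h3⟩, by rw [← h3]; exact h2⟩

theorem k6a5_selc : k6a5_selc_stmt := by
  intro St Ce _ T1 wt gi v hwt hv
  obtain ⟨W, hW⟩ : ∃ W : ℝ, W = ∑ s ∈ T1, wt s := ⟨_, rfl⟩
  rw [← hW]
  have hW0 : 0 ≤ W := hW ▸ Finset.sum_nonneg hwt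
  obtain ⟨S, hS⟩ : ∃ S : Finset Ce, S = Finset.univ.filter
      (fun c => W / (2 * Fintype.card Ce) ≤ ∑ s ∈ T1.filter (fun s => gi s = c), wt s) := ⟨_, rfl⟩
  have hfib : ∑ c, ∑ s ∈ T1.filter (fun s => gi s = c), wt s = W := by
    rw [hW]
    exact Finset.sum_fiberwise T1 gi wt
  have hsplit := Finset.sum_filter_add_sum_filter_not Finset.univ
    (fun c => W / (2 * Fintype.card Ce) ≤ ∑ s ∈ T1.filter (fun s => gi s = c), wt s)
    (fun c => ∑ s ∈ T1.filter (fun s => gi s = c), wt s)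
  rw [hfib, ← hS] at hsplit
  have hlight : ∑ c ∈ Finset.univ.filter (fun c => ¬ W / (2 * Fintype.card Ce) ≤ ∑ s ∈ T1.filter (fun s => gi s = c), wt s),
      ∑ s ∈ T1.filter (fun s => gi s = c), wt s ≤ W / 2 := by
    calc _ ≤ ∑ _c ∈ Finset.univ.filter (fun c => ¬ W / (2 * Fintype.card Ce) ≤ ∑ s ∈ T1.filter (fun s => gi s = c), wt s),
          W / (2 * Fintype.card Ce) := Finset.sum_le_sum fun c hc => (not_le.1 (Finset.mem_filter.1 hc).2).le
      _ = ((Finset.univ.filter (fun c => ¬ W / (2 * Fintype.card Ce) ≤ ∑ s ∈ T1.filter (fun s => gi s = c), wt s)).card : ℝ)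
          * (W / (2 * Fintype.card Ce)) := by rw [Finset.sum_const, nsmul_eq_mul]
      _ ≤ (Fintype.card Ce : ℝ) * (W / (2 * Fintype.card Ce)) := by
          refine mul_le_mul_of_nonneg_right ?_ (by positivity)
          exact_mod_cast Finset.card_le_univ _
      _ ≤ W / 2 := by
          rcases Nat.eq_zero_or_pos (Fintype.card Ce) with h0 | h0
          · rw [h0]
            simp only [Nat.cast_zero, zero_mul]
            positivity
          · have : (0 : ℝ) < Fintype.card Ce := by exact_mod_cast h0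
            refine le_of_eq ?_
            field_simp
  have hheavy : W / 2 ≤ ∑ c ∈ S, ∑ s ∈ T1.filter (fun s => gi s = c), wt s := by linarith
  refine ⟨S, fun c hc => ?_, hheavy.trans ?_, hheavy.trans (le_of_eq ?_)⟩
  · rw [hS] at hc
    exact (Finset.mem_filter.1 hc).2
  · calc _ ≤ ∑ _c ∈ S, v := Finset.sum_le_sum fun c _ => hv c
      _ = _ := by rw [Finset.sum_const, nsmul_eq_mul]
  · rw [← Finset.sum_fiberwise_of_maps_to (s := T1.filter (fun s => gi s ∈ S)) (g := gi) (t := S)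
      (fun s hs => (Finset.mem_filter.1 hs).2)]
    refine Finset.sum_congr rfl fun c hc => ?_
    congr 1
    ext s
    simp only [Finset.mem_filter]
    constructor
    · rintro ⟨h1, h2⟩
      exact ⟨⟨h1, h2 ▸ hc⟩, h2⟩
    · rintro ⟨⟨h1, -⟩, h2⟩
      exact ⟨h1, h2⟩

/-! ### L-252-S6a5-POLY -/

theorem k6a5_poly_lin_norm {m : ℕ} (L : Matrix (Fin m) (Fin m) ℝ) (Λ : ℝ) (hL : ∀ i j, |L i j| ≤ Λ) (i : Fin m) :
    rmzNm (∑ j, MvPolynomial.C (L i j) * MvPolynomial.X j : MvPolynomial (Fin m) ℝ) ≤ m * Λ := by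
  refine (k6b_nm_sum _ _).trans ?_
  calc ∑ j, rmzNm (MvPolynomial.C (L i j) * MvPolynomial.X j : MvPolynomial (Fin m) ℝ) ≤ ∑ _j : Fin m, Λ := by
        refine Finset.sum_le_sum fun j _ => ?_
        rw [rmz_Nm_C_mul, k6b_nm_X, mul_one]
        exact hL i j
    _ = m * Λ := by simp

theorem k6a5_poly_lin_deg {m : ℕ} (L : Matrix (Fin m) (Fin m) ℝ) (i : Fin m) :
    (∑ j, MvPolynomial.C (L i j) * MvPolynomial.X j : MvPolynomial (Fin m) ℝ).totalDegree ≤ 1 := by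
  refine MvPolynomial.totalDegree_finsetSum_le fun j _ => ?_
  refine (MvPolynomial.totalDegree_mul _ _).trans ?_
  rw [MvPolynomial.totalDegree_C, MvPolynomial.totalDegree_X]

theorem k6a5_linsub : k6a5_linsub_stmt := by
  intro m D P L Λ hm hP hΛ hL
  have hmR : (1 : ℝ) ≤ m := by exact_mod_cast hm
  have hmΛ : (1 : ℝ) ≤ (m : ℝ) * Λ := by nlinarith
  have hsupp : ∀ μ ∈ P.support, ∑ i, μ i ≤ D := by
    intro μ hμ
    have := (MvPolynomial.le_totalDegree hμ).trans hP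
    rwa [Finsupp.sum_fintype _ _ (fun _ => rfl)] at this
  have e : ∀ μ : Fin m →₀ ℕ, ∏ i ∈ μ.support, (∑ j, MvPolynomial.C (L i j) * MvPolynomial.X j : MvPolynomial (Fin m) ℝ) ^ μ i
      = ∏ i, (∑ j, MvPolynomial.C (L i j) * MvPolynomial.X j : MvPolynomial (Fin m) ℝ) ^ μ i := fun μ =>
    Finset.prod_subset (Finset.subset_univ _) fun i _ hi => by rw [Finsupp.notMem_support_iff.1 hi, pow_zero]
  refine ⟨MvPolynomial.bind₁ (fun i => ∑ j, MvPolynomial.C (L i j) * MvPolynomial.X j) P, ?_, ?_, ?_⟩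
  · conv_lhs => rw [P.as_sum, map_sum]
    refine MvPolynomial.totalDegree_finsetSum_le fun μ hμ => ?_
    rw [MvPolynomial.bind₁_monomial, e]
    refine (MvPolynomial.totalDegree_mul _ _).trans ?_
    rw [MvPolynomial.totalDegree_C, zero_add]
    refine (MvPolynomial.totalDegree_finsetProd _ _).trans (le_trans (Finset.sum_le_sum fun i _ => ?_) (hsupp μ hμ))
    refine (MvPolynomial.totalDegree_pow _ _).trans ?_
    calc μ i * _ ≤ μ i * 1 := Nat.mul_le_mul_left _ (k6a5_poly_lin_deg L i)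
      _ = μ i := mul_one _
  · conv_lhs => rw [P.as_sum, map_sum]
    refine (k6b_nm_sum _ _).trans ?_
    unfold rmzNm
    rw [Finset.sum_mul]
    refine Finset.sum_le_sum fun μ hμ => ?_
    show rmzNm (MvPolynomial.bind₁ _ (MvPolynomial.monomial μ (MvPolynomial.coeff μ P))) ≤ _
    rw [MvPolynomial.bind₁_monomial, rmz_Nm_C_mul, e]
    refine mul_le_mul_of_nonneg_left ?_ (abs_nonneg _)
    refine (k6b_nm_prod _ _).trans ?_
    calc ∏ i, rmzNm ((∑ j, MvPolynomial.C (L i j) * MvPolynomial.X j : MvPolynomial (Fin m) ℝ) ^ μ i) ≤ ∏ i, ((m : ℝ) * Λ) ^ μ i := by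
          refine Finset.prod_le_prod (fun i _ => rmz_Nm_nonneg _) fun i _ => (k6b_nm_pow _ _).trans ?_
          exact pow_le_pow_left₀ (rmz_Nm_nonneg _) (k6a5_poly_lin_norm L Λ hL i) _
      _ = ((m : ℝ) * Λ) ^ (∑ i, μ i) := by rw [Finset.prod_pow_eq_pow_sum]
      _ ≤ _ := pow_le_pow_right₀ hmΛ (hsupp μ hμ)
  · intro u
    rw [← MvPolynomial.aeval_eq_eval, ← MvPolynomial.aeval_eq_eval, MvPolynomial.aeval_bind₁]
    congr 2
    funext i
    simp [Matrix.mulVec, dotProduct]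

theorem k6a5_poly_pow_lip (L : ℝ) (hL : 1 ≤ L) (a b : ℝ) (ha : |a| ≤ L) (hb : |b| ≤ L) (k : ℕ) :
    |a ^ k - b ^ k| ≤ k * L ^ k * |a - b| := by
  induction k with
  | zero => simp
  | succ k ih =>
    have e : a ^ (k + 1) - b ^ (k + 1) = a * (a ^ k - b ^ k) + (a - b) * b ^ k := by ring
    have h1 : |a * (a ^ k - b ^ k)| ≤ L * (k * L ^ k * |a - b|) := by
      rw [abs_mul]
      exact mul_le_mul ha ih (abs_nonneg _) (by linarith)
    have h2 : |(a - b) * b ^ k| ≤ |a - b| * L ^ k := by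
      rw [abs_mul, abs_pow]
      exact mul_le_mul_of_nonneg_left (pow_le_pow_left₀ (abs_nonneg _) hb k) (abs_nonneg _)
    have h3 : L ^ k ≤ L ^ (k + 1) := pow_le_pow_right₀ hL (Nat.le_succ k)
    have h4 : |a - b| * L ^ k ≤ |a - b| * L ^ (k + 1) := mul_le_mul_of_nonneg_left h3 (abs_nonneg _)
    rw [e]
    calc _ ≤ _ := abs_add_le _ _
      _ ≤ L * (k * L ^ k * |a - b|) + |a - b| * L ^ (k + 1) := add_le_add h1 (h2.trans h4)
      _ = _ := by
          push_cast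
          ring

theorem k6a5_poly_mon_lip {n : ℕ} (L : ℝ) (hL : 1 ≤ L) (x y : Fin n → ℝ) (hx : ∀ i, |x i| ≤ L) (hy : ∀ i, |y i| ≤ L) (δ : ℝ)
    (hδ : ∀ i, |x i - y i| ≤ δ) (μ : Fin n → ℕ) (s : Finset (Fin n)) :
    |∏ i ∈ s, x i ^ μ i - ∏ i ∈ s, y i ^ μ i| ≤ ((∑ i ∈ s, μ i : ℕ) : ℝ) * L ^ (∑ i ∈ s, μ i) * δ := by
  have hL0 : 0 ≤ L := by linarith
  induction s using Finset.induction_on with
  | empty => simp
  | insert a s ha ih =>
    rw [Finset.prod_insert ha, Finset.prod_insert ha, Finset.sum_insert ha]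
    have hδ0 : 0 ≤ δ := (abs_nonneg _).trans (hδ a)
    have e : x a ^ μ a * ∏ i ∈ s, x i ^ μ i - y a ^ μ a * ∏ i ∈ s, y i ^ μ i
        = x a ^ μ a * (∏ i ∈ s, x i ^ μ i - ∏ i ∈ s, y i ^ μ i) + (x a ^ μ a - y a ^ μ a) * ∏ i ∈ s, y i ^ μ i := by ring
    have h1 : |x a ^ μ a * (∏ i ∈ s, x i ^ μ i - ∏ i ∈ s, y i ^ μ i)|
        ≤ L ^ μ a * (((∑ i ∈ s, μ i : ℕ) : ℝ) * L ^ (∑ i ∈ s, μ i) * δ) := by
      rw [abs_mul, abs_pow]
      exact mul_le_mul (pow_le_pow_left₀ (abs_nonneg _) (hx a) _) ih (abs_nonneg _) (by positivity)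
    have h2 : |∏ i ∈ s, y i ^ μ i| ≤ L ^ (∑ i ∈ s, μ i) := by
      rw [Finset.abs_prod, ← Finset.prod_pow_eq_pow_sum]
      refine Finset.prod_le_prod (fun i _ => abs_nonneg _) fun i _ => ?_
      rw [abs_pow]
      exact pow_le_pow_left₀ (abs_nonneg _) (hy i) _
    have h3 : |(x a ^ μ a - y a ^ μ a) * ∏ i ∈ s, y i ^ μ i| ≤ (μ a * L ^ μ a * δ) * L ^ (∑ i ∈ s, μ i) := by
      rw [abs_mul]
      refine mul_le_mul ((k6a5_poly_pow_lip L hL _ _ (hx a) (hy a) _).trans ?_) h2 (abs_nonneg _) (by positivity)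
      exact mul_le_mul_of_nonneg_left (hδ a) (by positivity)
    rw [e]
    calc _ ≤ _ := abs_add_le _ _
      _ ≤ _ := add_le_add h1 h3
      _ = _ := by
          push_cast
          rw [pow_add]
          ring

theorem k6a5_lip : k6a5_lip_stmt := by
  intro n d P hP L hL x y hx hy
  have hL0 : 0 ≤ L := by linarith
  rw [MvPolynomial.eval_eq', MvPolynomial.eval_eq', ← Finset.sum_sub_distrib]
  unfold rmzNm
  rw [Finset.sum_mul, Finset.sum_mul, Finset.sum_mul]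
  refine (Finset.abs_sum_le_sum_abs _ _).trans (Finset.sum_le_sum fun μ hμ => ?_)
  rw [← mul_sub, abs_mul, mul_assoc, mul_assoc]
  refine mul_le_mul_of_nonneg_left ?_ (abs_nonneg _)
  have hsum : ∑ i, μ i ≤ n * d := by
    calc ∑ i, μ i ≤ ∑ _i : Fin n, d := Finset.sum_le_sum fun i _ => (MvPolynomial.monomial_le_degreeOf i hμ).trans (hP i)
      _ = n * d := by simp
  have h1 := k6a5_poly_mon_lip L hL x y hx hy ‖x - y‖ (fun i => norm_le_pi_norm (x - y) i) μ Finset.univ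
  refine h1.trans ?_
  rw [← mul_assoc]
  refine mul_le_mul_of_nonneg_right ?_ (norm_nonneg _)
  refine mul_le_mul ?_ (pow_le_pow_right₀ hL hsum) (by positivity) (by positivity)
  exact_mod_cast hsum

/-! ### L-252-S6a5-GRID -/

theorem k6a5_grid : k6a5_grid_stmt := by
  intro m M q hm
  obtain ⟨E, hE⟩ : ∃ E : ℕ, E = (M + 2) ^ m := ⟨_, rfl⟩
  obtain ⟨D, hD⟩ : ∃ D : ℕ, D = 4 * m * (M + 1) ^ 2 := ⟨_, rfl⟩
  obtain ⟨A1, hA1⟩ : ∃ A1 : ℕ, A1 = (M + 1) ^ m * (2 * D) ^ (M * m) := ⟨_, rfl⟩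
  obtain ⟨A2, hA2⟩ : ∃ A2 : ℕ, A2 = m * ((M + 1) * (2 * D) ^ M + 1) ^ m := ⟨_, rfl⟩
  obtain ⟨B, hB⟩ : ∃ B : ℕ, B = E * M * m := ⟨_, rfl⟩
  obtain ⟨c, hc⟩ : ∃ c : ℕ, c = 2 + D + A1 + A2 + (1 + B) + E := ⟨_, rfl⟩
  refine ⟨c, ?_⟩
  intro N0 S gval K ε hK hε hS hval hfib hN
  have hK0 : 0 < K := by linarith
  have hD1 : 1 ≤ D := by
    rw [hD]
    exact Nat.succ_le_of_lt (by positivity)
  have hD0 : (0 : ℝ) < D := by exact_mod_cast hD1
  have hDr : (D : ℝ) = 4 * m * ((M : ℝ) + 1) ^ 2 := by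
    rw [hD]
    push_cast
    ring
  have hKE : 0 < K ^ E := by positivity
  have hN1 : (D : ℝ) * K ^ E ≤ N0 :=
    (k6a5_grid_le D E c K hK (by exact_mod_cast (by omega : D ≤ c)) (by omega)).trans hN
  have hN0 : (0 : ℝ) < N0 := lt_of_lt_of_le (by positivity) hN1
  have hN0' : 0 < N0 := by exact_mod_cast hN0
  obtain ⟨x, hx⟩ : ∃ x : ℝ, x = (N0 : ℝ) / (D * K ^ E) := ⟨_, rfl⟩
  have hx1 : 1 ≤ x := by
    rw [hx, le_div_iff₀ (by positivity)]
    linarith
  have hx0 : 0 ≤ x := by linarith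
  obtain ⟨g, hg⟩ : ∃ g : ℕ, g = ⌊x⌋₊ := ⟨_, rfl⟩
  have hg1 : (g : ℝ) ≤ x := by
    rw [hg]
    exact Nat.floor_le hx0
  have hg2 : x < g + 1 := by
    rw [hg]
    exact Nat.lt_floor_add_one x
  have hη : (1 / K) ^ ((M + 2) ^ m) = 1 / K ^ E := by rw [hE, one_div_pow]
  have hcast : ((2 * N0 : ℕ) : ℝ) = 2 * (N0 : ℝ) := by push_cast; ring
  obtain ⟨α, hα, hcard⟩ := k6a_anchor_selection m M (2 * N0) g S (1 / K) (by positivity)
    (by
      rw [hcast, div_mul_eq_mul_div, one_mul, div_le_iff₀ hK0]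
      linarith)
    (by
      rw [hη, hcast]
      have e : 1 / K ^ E * (2 * (N0 : ℝ)) = 2 * D * x := by
        rw [hx]
        field_simp
      rw [e]
      have e2 : 2 * (m : ℝ) * ((M : ℝ) + 1) ^ 2 * (2 * g + 1) = D * g + D / 2 := by
        rw [hDr]
        ring
      rw [e2]
      nlinarith)
  rw [hη, hcast] at hcard
  obtain ⟨Tg, hTgmem, hTgcard⟩ : ∃ Tg : Finset (Fin m → Fin (2 * N0)),
      (∀ τ ∈ Tg, ∀ f : Fin m → Option (Fin (M + 1)), (fun a => (f a).elim (τ a) (α a)) ∈ S) ∧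
      1 / K ^ E / 2 * (2 * (N0 : ℝ)) ^ m ≤ Tg.card := ⟨_, fun τ hτ => (Finset.mem_filter.1 hτ).2, hcard⟩
  obtain ⟨gap, hgapdef⟩ : ∃ gap : ℝ, gap = 1 / (D * K ^ E) := ⟨_, rfl⟩
  have hgap0 : 0 < gap := by
    rw [hgapdef]
    positivity
  have h2gap : 2 / gap = 2 * D * K ^ E := by
    rw [hgapdef]
    field_simp
  have hXgap : ∀ b i j, i ≠ j → gap ≤ |k6a5_gp N0 (α b i) - k6a5_gp N0 (α b j)| := by
    intro b i j hij
    rw [k6a5_grid_gp_sub, abs_div, abs_of_pos hN0, le_div_iff₀ hN0]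
    have h1 : (g : ℤ) + 1 ≤ |((α b i : ℕ) : ℤ) - ((α b j : ℕ) : ℤ)| := hα b i j hij
    have h2 : (g : ℝ) + 1 ≤ |((α b i : ℕ) : ℝ) - ((α b j : ℕ) : ℝ)| := by exact_mod_cast h1
    have h3 : gap * N0 = x := by
      rw [hgapdef, hx]
      ring
    linarith
  have hTne : Tg.Nonempty := by
    rw [Finset.nonempty_iff_ne_empty]
    intro h0
    rw [h0, Finset.card_empty, Nat.cast_zero] at hTgcard
    have : 0 < 1 / K ^ E / 2 * (2 * (N0 : ℝ)) ^ m := by positivity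
    linarith
  obtain ⟨τ0, hτ0⟩ := hTne
  have hvert : ∀ f : Fin m → Fin (M + 1), (fun b => α b (f b)) ∈ S := fun f => hTgmem τ0 hτ0 (fun a => some (f a))
  refine ⟨fun a => k6a5_grid_pol (fun b i => k6a5_gp N0 (α b i)) (fun f => gval (fun b => α b (f b)) a), Tg, ?_, ?_, ?_, ?_, ?_⟩
  · intro τ hτ
    exact hTgmem τ hτ (fun _ => none)
  · exact fun a i => k6a5_grid_pol_deg _ _ i
  · intro a
    refine (k6a5_grid_pol_nm _ _ hgap0 (fun b i => k6a5_grid_gp_abs N0 hN0' _) hXgap (fun f => hval _ (hvert f) a)).trans ?_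
    rw [h2gap]
    have e : ((M : ℝ) + 1) ^ m * (K * ((2 * D * K ^ E) ^ M) ^ m) = (A1 : ℝ) * K ^ (1 + B) := by
      rw [hA1, hB]
      push_cast
      rw [mul_pow, mul_pow, ← pow_mul, ← pow_mul, ← pow_mul, pow_add, pow_one]
      ring
    rw [e]
    exact k6a5_grid_le A1 (1 + B) c K hK (by exact_mod_cast (by omega : A1 ≤ c)) (by omega)
  · have h1 : (2 * (N0 : ℝ)) ^ m ≤ 2 * K ^ E * Tg.card := by
      have e : 1 / K ^ E / 2 * (2 * (N0 : ℝ)) ^ m = (2 * (N0 : ℝ)) ^ m / (2 * K ^ E) := by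
        field_simp
      rw [e, div_le_iff₀ (by positivity)] at hTgcard
      linarith
    refine h1.trans (mul_le_mul_of_nonneg_right ?_ (Nat.cast_nonneg _))
    exact k6a5_grid_le 2 E c K hK (by exact_mod_cast (by omega : 2 ≤ c)) (by omega)
  · intro n hn a
    have key := k6a_tensor_interp m M (k6a5_gp N0) (↑S : Set (Fin m → Fin (2 * N0))) (fun n => gval n a) ε gap hε hgap0
      (fun x => k6a5_grid_gp_abs N0 hN0' x) (fun i n => hfib a i n) α hXgap n (hTgmem n hn)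
    rw [k6a5_grid_pol_eval]
    refine key.trans (mul_le_mul_of_nonneg_right ?_ hε)
    rw [h2gap]
    have hKEM : 1 ≤ K ^ (E * M) := one_le_pow₀ hK
    have h1 : ((M : ℝ) + 1) * (2 * D * K ^ E) ^ M + 1 ≤ (((M : ℝ) + 1) * (2 * D) ^ M + 1) * K ^ (E * M) := by
      rw [mul_pow, ← pow_mul]
      nlinarith
    have h2 : (((M : ℝ) + 1) * (2 * D * K ^ E) ^ M + 1) ^ m ≤ ((((M : ℝ) + 1) * (2 * D) ^ M + 1) * K ^ (E * M)) ^ m :=
      pow_le_pow_left₀ (by positivity) h1 m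
    have e : (m : ℝ) * ((((M : ℝ) + 1) * (2 * D) ^ M + 1) * K ^ (E * M)) ^ m = (A2 : ℝ) * K ^ B := by
      rw [hA2, hB]
      push_cast
      rw [mul_pow, ← pow_mul]
      ring
    calc (m : ℝ) * (((M : ℝ) + 1) * (2 * D * K ^ E) ^ M + 1) ^ m
        ≤ (m : ℝ) * ((((M : ℝ) + 1) * (2 * D) ^ M + 1) * K ^ (E * M)) ^ m := mul_le_mul_of_nonneg_left h2 (Nat.cast_nonneg _)
      _ = (A2 : ℝ) * K ^ B := e
      _ ≤ c * K ^ c := k6a5_grid_le A2 B c K hK (by exact_mod_cast (by omega : A2 ≤ c)) (by omega)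

end Claimed.Agent.R252
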