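import Claimed.Agent.R252.S6a.L5Defs

/-!
# Row252, unit S6a, layer 5: leaf L-252-S6a5-SELECT (helper64).   `k6a5_select_of` : FLAB, SELA, SELB, SELC ⟹ `k6a5_select_stmt`.      PAPER-FREE.
Helpers `k6a5_s_*`.
-/

set_option autoImplicit false

namespace Claimed.Agent.R252

open MeasureTheory
open scoped ENNReal BigOperators Classical

noncomputable section

/-! ## constants -/

theorem k6a5_s_cK {K X : ℝ} {p c : ℕ} (hK : 1 ≤ K) (hX : X ≤ c) (hp : p ≤ c) : X * K ^ p ≤ c * K ^ c := by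
  have h1 : K ^ p ≤ K ^ c := pow_le_pow_right₀ hK hp
  have h2 : 0 < K ^ p := by positivity
  calc X * K ^ p ≤ c * K ^ p := mul_le_mul_of_nonneg_right hX h2.le
    _ ≤ c * K ^ c := mul_le_mul_of_nonneg_left h1 (Nat.cast_nonneg c)

theorem k6a5_s_par_mono {c c' : ℕ} {K β pv ξ r0 εq εT : ℝ} {K0 : ℕ} (h : k6a5_Fd.Par c K β pv ξ r0 εq εT K0) (hc : c' ≤ c) :
    k6a5_Fd.Par c' K β pv ξ r0 εq εT K0 := by
  have h1 : (c' : ℝ) * K ^ c' ≤ c * K ^ c := k6a5_s_cK h.K_one (by exact_mod_cast hc) hc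
  refine ⟨h.K_one, h.K0_le, h.β_nonneg, h.pv_nonneg, h.ξ_pos, h.fine, h.εq_nonneg, h.εq_le, h.εT_pos, h.εT_le, ?_, ?_⟩
  · exact (mul_le_mul_of_nonneg_right h1 h.ξ_pos.le).trans h.ξ_r0
  · exact (mul_le_mul_of_nonneg_right h1 h.ξ_pos.le).trans h.ξ_εT

/-- `X ξ ≤ εT` for every `X ≤ c K^c` -/
theorem k6a5_s_par_xi {c : ℕ} {K β pv ξ r0 εq εT X : ℝ} {K0 : ℕ} (h : k6a5_Fd.Par c K β pv ξ r0 εq εT K0) (hX : X ≤ c * K ^ c) :
    X * ξ ≤ εT := (mul_le_mul_of_nonneg_right hX h.ξ_pos.le).trans h.ξ_εT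

/-! ## geometry of the product grid -/

section geo

variable {m : ℕ} (F : k6a5_Fd m) {M : ℕ} {K β pv r0 εq εT : ℝ} {K0 : ℕ}

theorem k6a5_s_yc_bd (hK : 1 ≤ K) (hOk : F.Ok M K β pv r0 εq εT K0) (s : F.St) (hs : s ∈ F.T) (j : Fin m) : |F.yc s j| ≤ m * K ^ 2 := by
  unfold k6a5_Fd.yc Matrix.mulVec dotProduct
  calc |∑ a, F.Bi j a * F.cs s a| ≤ ∑ a, |F.Bi j a * F.cs s a| := Finset.abs_sum_le_sum_abs _ _
    _ ≤ ∑ _a : Fin m, K * K := by
        refine Finset.sum_le_sum fun a _ => ?_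
        rw [abs_mul]
        have h1 : |F.cs s a| ≤ K := (norm_le_pi_norm (F.cs s) a).trans (hOk.cs_bd s hs)
        exact mul_le_mul (hOk.B_bd j a) h1 (abs_nonneg _) (by linarith)
    _ = m * K ^ 2 := by
        rw [Finset.sum_const, Finset.card_univ, Fintype.card_fin, nsmul_eq_mul]
        ring

theorem k6a5_s_cs_eq (hOk : F.Ok M K β pv r0 εq εT K0) (s : F.St) : F.A0.mulVec (F.yc s) = F.cs s := by
  unfold k6a5_Fd.yc
  rw [Matrix.mulVec_mulVec, hOk.inv, Matrix.one_mulVec]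

theorem k6a5_s_cell_close {ξ : ℝ} (hξ : 0 < ξ) (s : F.St) (j : Fin m) :
    0 ≤ F.yc s j - ξ * (F.cell ξ s j : ℝ) ∧ F.yc s j - ξ * (F.cell ξ s j : ℝ) < ξ := by
  have h1 : ((F.cell ξ s j : ℤ) : ℝ) ≤ F.yc s j / ξ := Int.floor_le _
  have h2 : F.yc s j / ξ < (F.cell ξ s j : ℝ) + 1 := Int.lt_floor_add_one _
  rw [le_div_iff₀ hξ] at h1
  rw [div_lt_iff₀ hξ] at h2
  constructor <;> nlinarith

theorem k6a5_s_cs_near {ξ : ℝ} (hK : 1 ≤ K) (hξ : 0 < ξ) (hOk : F.Ok M K β pv r0 εq εT K0) (s : F.St) :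
    ‖F.cs s - F.A0.mulVec (fun j => ξ * (F.cell ξ s j : ℝ))‖ ≤ m * K * ξ := by
  rw [← k6a5_s_cs_eq F hOk s, ← Matrix.mulVec_sub]
  refine (pi_norm_le_iff_of_nonneg (by positivity)).2 fun a => ?_
  rw [Real.norm_eq_abs]
  unfold Matrix.mulVec dotProduct
  calc |∑ j, F.A0 a j * (F.yc s - fun j => ξ * (F.cell ξ s j : ℝ)) j| ≤ ∑ j, |F.A0 a j * (F.yc s - fun j => ξ * (F.cell ξ s j : ℝ)) j| :=
        Finset.abs_sum_le_sum_abs _ _
    _ ≤ ∑ _j : Fin m, K * ξ := by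
        refine Finset.sum_le_sum fun j _ => ?_
        rw [abs_mul]
        have h1 := k6a5_s_cell_close F hξ s j
        have h2 : |(F.yc s - fun j => ξ * (F.cell ξ s j : ℝ)) j| ≤ ξ := by
          rw [Pi.sub_apply, abs_of_nonneg h1.1]
          exact h1.2.le
        exact mul_le_mul (hOk.A_bd a j) h2 (abs_nonneg _) (by linarith)
    _ = m * K * ξ := by
        rw [Finset.sum_const, Finset.card_univ, Fintype.card_fin, nsmul_eq_mul]
        ring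

end geo

/-! ## the index shift -/

/-- index of the integer `z ∈ [-N0, N0)` in `Fin (2 N0)` -/
def k6a5_sIdx (N0 : ℕ) (h : 0 < N0) (z : ℤ) : Fin (2 * N0) := ⟨(z + N0).toNat % (2 * N0), Nat.mod_lt _ (by omega)⟩

theorem k6a5_s_idx (N0 : ℕ) (h : 0 < N0) (z : ℤ) (h1 : -(N0 : ℤ) ≤ z) (h2 : z < N0) : (((k6a5_sIdx N0 h z : Fin (2 * N0)) : ℕ) : ℤ) = z + N0 := by
  unfold k6a5_sIdx
  simp only
  rw [Nat.mod_eq_of_lt (by omega)]
  omega

/-! ## the assembly -/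

set_option maxHeartbeats 1600000 in
theorem k6a5_s_core (hselb : k6a5_selb_stmt) (hselc : k6a5_selc_stmt) (m M c1 c2 c : ℕ) (hm : 1 ≤ m)
    (hc1 : c1 ≤ c) (hc2 : c2 ≤ c) (hcA : (M + 1) ^ 2 * 2 ^ M * (m + 1) ≤ c) (hcB : 3 + (M + 1) * c1 ≤ c)
    (hcC : 2 * (2 * (m + 2)) ^ m * (m + 1) ^ m * c1 ^ m ≤ c) (hcD : 3 * m + 3 + c1 * m ≤ c) (hcE : m + 2 ≤ c)
    (h1 : ∀ (F : k6a5_Fd m) (K β pv ξ r0 εq εT : ℝ) (K0 : ℕ),
      k6a5_Fd.Par c1 K β pv ξ r0 εq εT K0 → F.Ok M K β pv r0 εq εT K0 →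
      ∃ lb : Fin m → F.St → Fin m → F.St,
        (∀ i, ∀ s ∈ F.T, ∀ a, lb i s a ∈ F.T ∧
          ∀ k, |(F.fit s i a).coeff k - (F.fit (lb i s a) i a).coeff k| ≤ c1 * K ^ c1 * εT) ∧
        ∀ (i : Fin m) (n : Fin m → ℤ),
          (((F.T.filter fun s => ∀ j, j ≠ i → F.cell ξ s j = n j).image (lb i)).card : ℝ) ≤ c1 * K ^ c1)
    (h2 : ∀ (F : k6a5_Fd m) (K β pv ξ r0 εq εT : ℝ) (K0 kl : ℕ),
      k6a5_Fd.Par c2 K β pv ξ r0 εq εT K0 → F.Ok M K β pv r0 εq εT K0 →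
      ∀ lb : Fin m → F.St → Fin m → F.St,
        (∀ (i : Fin m) (n : Fin m → ℤ), ((F.T.filter fun s => ∀ j, j ≠ i → F.cell ξ s j = n j).image (lb i)).card ≤ kl) →
      ∃ (T1 : Finset F.St) (bn : (Fin m → ℤ) → Fin m → ℤ) (ch : Fin m → (Fin m → ℤ) → Fin m → F.St), T1 ⊆ F.T ∧
        (∀ s ∈ T1, k6a_cell εT (F.G s) = bn (F.cell ξ s) ∧ ∀ i, lb i s = ch i (Function.update (F.cell ξ s) i 0)) ∧
        ∑ s ∈ F.T, F.wt s ≤ (K0 : ℝ) * (kl : ℝ) ^ m * ∑ s ∈ T1, F.wt s)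
    (F : k6a5_Fd m) (K β pv ξ r0 εq εT : ℝ) (K0 : ℕ)
    (hPar : k6a5_Fd.Par c K β pv ξ r0 εq εT K0) (hOk : F.Ok M K β pv r0 εq εT K0) :
    ∃ (N0 : ℕ) (gi : F.St → Fin m → Fin (2 * N0)) (T2 : Finset F.St) (S : Finset (Fin m → Fin (2 * N0)))
      (gval : (Fin m → Fin (2 * N0)) → Fin m → ℝ) (θ : ℝ),
      1 ≤ ξ * N0 ∧ ξ * N0 ≤ c * K ^ c ∧ T2 ⊆ F.T ∧
      (∀ s ∈ F.T, ∀ j, (((gi s j : ℕ) : ℤ)) = F.cell ξ s j + (N0 : ℤ)) ∧
      (∀ s ∈ T2, gi s ∈ S ∧ ∀ a, |F.G s a - gval (gi s) a| ≤ εT) ∧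
      (∀ n ∈ S, ∀ a, |gval n a| ≤ 2 * K) ∧ k6a5_FibP M N0 S gval (c * K ^ c * εT) ∧
      1 ≤ c * K ^ c * θ ∧ (∀ n ∈ S, θ * ξ ^ m ≤ ∑ s ∈ T2.filter (fun s => gi s = n), F.wt s) ∧
      (2 * (N0 : ℝ)) ^ m ≤ c * K ^ c * S.card := by
  have hK := hPar.K_one
  have hK0 : 0 < K := by linarith
  have hξ := hPar.ξ_pos
  have hεT := hPar.εT_pos
  have hm0 : (1 : ℝ) ≤ m := by exact_mod_cast hm
  have hcK : ∀ (X : ℝ) (p : ℕ), X ≤ c → p ≤ c → X * K ^ p ≤ c * K ^ c := fun X p hX hp => k6a5_s_cK hK hX hp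
  have hξ1 : ξ ≤ 1 := by
    have h3 := k6a5_s_par_xi hPar (X := 1) (by
      have := hcK 1 0 (by
        have : (1 : ℕ) ≤ c := by omega
        exact_mod_cast this) (Nat.zero_le _)
      simpa using this)
    linarith [hPar.εT_le]
  have hβξ : β ≤ ξ := by linarith [hPar.fine, hPar.pv_nonneg]
  -- FLAB, SELA
  obtain ⟨lb, hlb1, hlb2⟩ := h1 F K β pv ξ r0 εq εT K0 (k6a5_s_par_mono hPar hc1) hOk
  set kl : ℕ := ⌊(c1 : ℝ) * K ^ c1⌋₊ with hkl
  have hkl1 : (kl : ℝ) ≤ c1 * K ^ c1 := Nat.floor_le (by positivity)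
  obtain ⟨T1, bn, ch, hT1, hsel, hW⟩ := h2 F K β pv ξ r0 εq εT K0 kl (k6a5_s_par_mono hPar hc2) hOk lb
    (fun i n => Nat.le_floor (hlb2 i n))
  set W1 : ℝ := ∑ s ∈ T1, F.wt s with hW1def
  have hW1nn : 0 ≤ W1 := Finset.sum_nonneg fun s _ => hOk.wt_nonneg s
  set Q : ℝ := K * K * ((c1 : ℝ) * K ^ c1) ^ m with hQ
  have hQ0 : 0 ≤ Q := by positivity
  have hQW : 1 ≤ Q * W1 := by
    calc (1 : ℝ) ≤ K * ∑ s ∈ F.T, F.wt s := hOk.mass
      _ ≤ K * ((K0 : ℝ) * (kl : ℝ) ^ m * W1) := mul_le_mul_of_nonneg_left hW hK0.le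
      _ ≤ K * (K * ((c1 : ℝ) * K ^ c1) ^ m * W1) := by
          have h3 : (kl : ℝ) ^ m ≤ ((c1 : ℝ) * K ^ c1) ^ m := pow_le_pow_left₀ (Nat.cast_nonneg _) hkl1 m
          have h4 := hPar.K0_le
          gcongr
      _ = Q * W1 := by rw [hQ]; ring
  have hW1pos : 0 < W1 := by
    by_contra hcon
    have : W1 = 0 := le_antisymm (not_lt.1 hcon) hW1nn
    rw [this, mul_zero] at hQW
    linarith
  -- the grid
  set N0 : ℕ := ⌈(m : ℝ) * K ^ 2 / ξ⌉₊ + 1 with hN0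
  have hN0pos : 0 < N0 := by omega
  have hN0lo : (m : ℝ) * K ^ 2 / ξ + 1 ≤ N0 := by
    rw [hN0]
    push_cast
    linarith [Nat.le_ceil ((m : ℝ) * K ^ 2 / ξ)]
  have hN0hi : (N0 : ℝ) ≤ (m : ℝ) * K ^ 2 / ξ + 2 := by
    rw [hN0]
    push_cast
    linarith [(Nat.ceil_lt_add_one (show 0 ≤ (m : ℝ) * K ^ 2 / ξ by positivity)).le]
  have hξN1 : (m : ℝ) * K ^ 2 ≤ ξ * N0 := by
    have h3 : ξ * ((m : ℝ) * K ^ 2 / ξ + 1) ≤ ξ * N0 := mul_le_mul_of_nonneg_left hN0lo hξ.le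
    have h4 : ξ * ((m : ℝ) * K ^ 2 / ξ + 1) = (m : ℝ) * K ^ 2 + ξ := by field_simp
    linarith
  have hK2 : 1 ≤ K ^ 2 := one_le_pow₀ hK
  have hξN2 : ξ * N0 ≤ ((m : ℝ) + 2) * K ^ 2 := by
    have h3 : ξ * N0 ≤ ξ * ((m : ℝ) * K ^ 2 / ξ + 2) := mul_le_mul_of_nonneg_left hN0hi hξ.le
    have h4 : ξ * ((m : ℝ) * K ^ 2 / ξ + 2) = (m : ℝ) * K ^ 2 + 2 * ξ := by field_simp
    nlinarith
  have hcell : ∀ s ∈ F.T, ∀ j, -(N0 : ℤ) ≤ F.cell ξ s j ∧ F.cell ξ s j < N0 := by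
    intro s hs j
    have h3 := abs_le.1 (k6a5_s_yc_bd F hK hOk s hs j)
    have h4 : ((F.cell ξ s j : ℤ) : ℝ) ≤ F.yc s j / ξ := Int.floor_le _
    have h5 : F.yc s j / ξ < (F.cell ξ s j : ℝ) + 1 := Int.lt_floor_add_one _
    have h6 : F.yc s j / ξ ≤ (m : ℝ) * K ^ 2 / ξ := div_le_div_of_nonneg_right h3.2 hξ.le
    have h7 : -((m : ℝ) * K ^ 2 / ξ) ≤ F.yc s j / ξ := by
      rw [← neg_div]
      exact div_le_div_of_nonneg_right h3.1 hξ.le
    constructor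
    · have : (-(N0 : ℤ) : ℝ) ≤ ((F.cell ξ s j : ℤ) : ℝ) := by
        push_cast
        linarith
      exact_mod_cast this
    · have : ((F.cell ξ s j : ℤ) : ℝ) < ((N0 : ℤ) : ℝ) := by
        push_cast
        linarith
      exact_mod_cast this
  set gi : F.St → Fin m → Fin (2 * N0) := fun s j => k6a5_sIdx N0 hN0pos (F.cell ξ s j) with hgidef
  have hgi : ∀ s ∈ F.T, ∀ j, (((gi s j : ℕ) : ℤ)) = F.cell ξ s j + (N0 : ℤ) := fun s hs j =>
    k6a5_s_idx N0 hN0pos _ (hcell s hs j).1 (hcell s hs j).2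
  set nn : (Fin m → Fin (2 * N0)) → Fin m → ℤ := fun n j => ((n j : ℕ) : ℤ) - N0 with hnndef
  have hnn : ∀ s ∈ F.T, nn (gi s) = F.cell ξ s := by
    intro s hs
    funext j
    show (((gi s j : ℕ) : ℤ)) - N0 = _
    rw [hgi s hs j]
    ring
  set gval : (Fin m → Fin (2 * N0)) → Fin m → ℝ := fun n a => εT * (bn (nn n) a : ℝ) with hgval
  have hGg : ∀ s ∈ T1, ∀ a, |F.G s a - gval (gi s) a| ≤ εT := by
    intro s hs a
    show |F.G s a - εT * (bn (nn (gi s)) a : ℝ)| ≤ εT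
    rw [hnn s (hT1 hs), ← (hsel s hs).1]
    have h3 : ((k6a_cell εT (F.G s) a : ℤ) : ℝ) ≤ F.G s a / εT := Int.floor_le _
    have h4 : F.G s a / εT < (k6a_cell εT (F.G s) a : ℝ) + 1 := Int.lt_floor_add_one _
    rw [le_div_iff₀ hεT] at h3
    rw [div_lt_iff₀ hεT] at h4
    rw [abs_le]
    constructor <;> nlinarith
  -- the ceiling of a cell
  set v : ℝ := K * (((m : ℝ) * K + 1) * ξ) ^ m with hv
  have hceil : ∀ n, ∑ s ∈ T1.filter (fun s => gi s = n), F.wt s ≤ v := by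
    intro n
    have h3 := hOk.ceil (F.A0.mulVec fun j => ξ * (nn n j : ℝ)) ((m : ℝ) * K * ξ) (by positivity)
    have h4 : ∑ s ∈ T1.filter (fun s => gi s = n), F.wt s ≤
        ∑ s ∈ F.T.filter (fun s => ‖F.cs s - F.A0.mulVec fun j => ξ * (nn n j : ℝ)‖ ≤ (m : ℝ) * K * ξ), F.wt s := by
      refine Finset.sum_le_sum_of_subset_of_nonneg ?_ fun s _ _ => hOk.wt_nonneg s
      intro s hs
      obtain ⟨hs1, hs2⟩ := Finset.mem_filter.1 hs
      refine Finset.mem_filter.2 ⟨hT1 hs1, ?_⟩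
      rw [← hs2, hnn s (hT1 hs1)]
      exact k6a5_s_cs_near F hK hξ hOk s
    refine h4.trans (h3.trans ?_)
    rw [hv]
    have h5 : (m : ℝ) * K * ξ + β ≤ ((m : ℝ) * K + 1) * ξ := by nlinarith
    have h6 : 0 ≤ (m : ℝ) * K * ξ + β := by
      have := hPar.β_nonneg
      positivity
    exact mul_le_mul_of_nonneg_left (pow_le_pow_left₀ h6 h5 m) hK0.le
  -- SELC
  obtain ⟨S, hS1, hS2, hS3⟩ : ∃ S : Finset (Fin m → Fin (2 * N0)),
      (∀ n ∈ S, W1 / (2 * Fintype.card (Fin m → Fin (2 * N0))) ≤ ∑ s ∈ T1.filter (fun s => gi s = n), F.wt s) ∧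
      W1 / 2 ≤ S.card * v ∧ W1 / 2 ≤ ∑ s ∈ T1.filter (fun s => gi s ∈ S), F.wt s := by
    obtain ⟨S, a1, a2, a3⟩ := hselc (Ce := Fin m → Fin (2 * N0)) T1 F.wt gi v (fun s _ => hOk.wt_nonneg s)
      (fun n => by convert hceil n)
    exact ⟨S, fun n hn => by convert a1 n hn, a2, by convert a3⟩
  have hcard : ((Fintype.card (Fin m → Fin (2 * N0)) : ℕ) : ℝ) = (2 * (N0 : ℝ)) ^ m := by
    rw [Fintype.card_fun, Fintype.card_fin, Fintype.card_fin]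
    push_cast
    ring
  rw [hcard] at hS1
  have hN0r : (0 : ℝ) < N0 := by exact_mod_cast hN0pos
  have hex : ∀ n ∈ S, ∃ s ∈ T1, gi s = n := by
    intro n hn
    by_contra hcon
    push Not at hcon
    have h3 : T1.filter (fun s => gi s = n) = ∅ := by
      rw [Finset.filter_eq_empty_iff]
      exact hcon
    have h4 := hS1 n hn
    rw [h3, Finset.sum_empty] at h4
    have h5 : 0 < W1 / (2 * (2 * (N0 : ℝ)) ^ m) := by positivity
    linarith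
  -- the fibre property
  have hβm : β + m * ξ ≤ ((m : ℝ) + 1) * ξ := by nlinarith
  have hβm1 : β + m * ξ ≤ 1 := by
    have h3 := k6a5_s_par_xi hPar (X := (m : ℝ) + 1) (by
      have := hcK ((m : ℝ) + 1) 0 (by
        have : m + 1 ≤ c := by omega
        exact_mod_cast this) (Nat.zero_le _)
      simpa using this)
    linarith [hPar.εT_le]
  have hfib : k6a5_FibP M N0 S gval (c * K ^ c * εT) := by
    intro a i n
    by_cases hx : ∃ x, Function.update n i x ∈ S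
    swap
    · exact ⟨0, by simp, fun x hxS => absurd ⟨x, hxS⟩ hx⟩
    obtain ⟨x0, hx0⟩ := hx
    set r : F.St := ch i (Function.update (nn n) i 0) a with hr
    have key : ∀ x, Function.update n i x ∈ S → ∃ s ∈ T1, gi s = Function.update n i x ∧ lb i s a = r := by
      intro x hxS
      obtain ⟨s, hs, hgs⟩ := hex _ hxS
      refine ⟨s, hs, hgs, ?_⟩
      rw [(hsel s hs).2 i, hr]
      have e : Function.update (F.cell ξ s) i 0 = Function.update (nn n) i 0 := by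
        rw [← hnn s (hT1 hs), hgs]
        funext j
        by_cases hj : j = i
        · subst hj
          simp
        · simp only [Function.update_of_ne hj, hnndef]
      rw [e]
    obtain ⟨s0, hs0, -, hl0⟩ := key x0 hx0
    have hrT : r ∈ F.T := hl0 ▸ (hlb1 i s0 (hT1 hs0) a).1
    set tφ : ℝ := ∑ j ∈ Finset.univ.erase i, ξ * (nn n j : ℝ) with htφ
    refine ⟨(F.fit r i a).comp (Polynomial.C (ξ * N0) * Polynomial.X + Polynomial.C tφ), ?_, ?_⟩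
    · refine Polynomial.natDegree_comp_le.trans ?_
      calc (F.fit r i a).natDegree * (Polynomial.C (ξ * N0) * Polynomial.X + Polynomial.C tφ).natDegree
          ≤ M * 1 := Nat.mul_le_mul (hOk.fit_deg r hrT i a) (Polynomial.natDegree_linear_le)
        _ = M := mul_one _
    · intro x hxS
      obtain ⟨s, hs, hgs, hl⟩ := key x hxS
      have hb := hselb m M F K β pv ξ r0 εq εT ((c1 : ℝ) * K ^ c1 * εT) K0 hK hPar.β_nonneg hξ hβm1 (by positivity) hOk s (hT1 hs)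
        r hrT i a (by
          rw [← hl]
          exact (hlb1 i s (hT1 hs) a).2)
      have he : ((F.fit r i a).comp (Polynomial.C (ξ * N0) * Polynomial.X + Polynomial.C tφ)).eval (k6a5_gp N0 x)
          = (F.fit r i a).eval (∑ j, ξ * (F.cell ξ s j : ℝ)) := by
        rw [Polynomial.eval_comp]
        congr 1
        simp only [Polynomial.eval_add, Polynomial.eval_mul, Polynomial.eval_C, Polynomial.eval_X]
        rw [← Finset.add_sum_erase Finset.univ _ (Finset.mem_univ i), ← hnn s (hT1 hs), hgs, htφ]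
        congr 1
        · simp only [hnndef, Function.update_self, k6a5_gp]
          push_cast
          field_simp
        · refine Finset.sum_congr rfl fun j hj => ?_
          have hj' : j ≠ i := Finset.ne_of_mem_erase hj
          simp only [hnndef, Function.update_of_ne hj']
      rw [he, ← hgs]
      have h3 := hGg s hs a
      have h4 : K * ((M : ℝ) + 1) ^ 2 * 2 ^ M * (β + m * ξ) ≤ εT := by
        have h5 := k6a5_s_par_xi hPar (X := ((M : ℝ) + 1) ^ 2 * 2 ^ M * ((m : ℝ) + 1) * K ^ 1) (hcK _ 1 (by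
          exact_mod_cast hcA) (by omega))
        have h6 : 0 ≤ K * ((M : ℝ) + 1) ^ 2 * 2 ^ M := by positivity
        calc K * ((M : ℝ) + 1) ^ 2 * 2 ^ M * (β + m * ξ) ≤ K * ((M : ℝ) + 1) ^ 2 * 2 ^ M * (((m : ℝ) + 1) * ξ) :=
              mul_le_mul_of_nonneg_left hβm h6
          _ = ((M : ℝ) + 1) ^ 2 * 2 ^ M * ((m : ℝ) + 1) * K ^ 1 * ξ := by ring
          _ ≤ εT := h5
      have h7 : (3 + ((M : ℝ) + 1) * c1) * K ^ c1 ≤ c * K ^ c := hcK _ c1 (by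
        exact_mod_cast hcB) hc1
      have h8 : 1 ≤ K ^ c1 := one_le_pow₀ hK
      have h9 : |gval (gi s) a - (F.fit r i a).eval (∑ j, ξ * (F.cell ξ s j : ℝ))| ≤
          |F.G s a - gval (gi s) a| + |F.G s a - (F.fit r i a).eval (∑ j, ξ * (F.cell ξ s j : ℝ))| := by
        have e : gval (gi s) a - (F.fit r i a).eval (∑ j, ξ * (F.cell ξ s j : ℝ))
            = -(F.G s a - gval (gi s) a) + (F.G s a - (F.fit r i a).eval (∑ j, ξ * (F.cell ξ s j : ℝ))) := by ring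
        rw [e]
        refine (abs_add_le _ _).trans ?_
        rw [abs_neg]
      have h10 : (3 + ((M : ℝ) + 1) * c1) * K ^ c1 * εT ≤ c * K ^ c * εT := mul_le_mul_of_nonneg_right h7 hεT.le
      have h11 : 3 * εT ≤ 3 * K ^ c1 * εT := by nlinarith
      nlinarith [hPar.εq_le]
  -- the constants
  set Z : ℝ := (2 * (N0 : ℝ)) ^ m with hZ
  have hZpos : 0 < Z := by positivity
  have hξm : 0 < ξ ^ m := by positivity
  have hZξ : Z * ξ ^ m = (2 * (ξ * N0)) ^ m := by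
    rw [hZ, ← mul_pow]
    ring
  have hZξle : Z * ξ ^ m ≤ (2 * ((m : ℝ) + 2)) ^ m * K ^ (2 * m) := by
    rw [hZξ]
    calc (2 * (ξ * N0)) ^ m ≤ (2 * (((m : ℝ) + 2) * K ^ 2)) ^ m := pow_le_pow_left₀ (by positivity) (by linarith) m
      _ = (2 * ((m : ℝ) + 2)) ^ m * K ^ (2 * m) := by
          rw [pow_mul, ← mul_pow]
          ring
  have hmK : ((m : ℝ) * K + 1) ^ m ≤ ((m : ℝ) + 1) ^ m * K ^ m := by
    rw [← mul_pow]
    exact pow_le_pow_left₀ (by positivity) (by nlinarith) m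
  have hB : 2 * Q * (K * ((m : ℝ) * K + 1) ^ m) * (Z * ξ ^ m) ≤ c * K ^ c := by
    calc 2 * Q * (K * ((m : ℝ) * K + 1) ^ m) * (Z * ξ ^ m)
        ≤ 2 * Q * (K * (((m : ℝ) + 1) ^ m * K ^ m)) * ((2 * ((m : ℝ) + 2)) ^ m * K ^ (2 * m)) := by gcongr
      _ = (2 * (2 * ((m : ℝ) + 2)) ^ m * ((m : ℝ) + 1) ^ m * (c1 : ℝ) ^ m) * K ^ (3 * m + 3 + c1 * m) := by
          rw [hQ, mul_pow, ← pow_mul]
          ring
      _ ≤ c * K ^ c := hcK _ _ (by exact_mod_cast hcC) hcD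
  have hone : 1 ≤ K * ((m : ℝ) * K + 1) ^ m := by
    have : 1 ≤ ((m : ℝ) * K + 1) ^ m := one_le_pow₀ (by nlinarith)
    nlinarith
  have hA : 2 * Q * (Z * ξ ^ m) ≤ c * K ^ c := by
    refine le_trans ?_ hB
    have h3 : 0 ≤ 2 * Q * (Z * ξ ^ m) := by positivity
    nlinarith [mul_le_mul_of_nonneg_left hone h3]
  set θ : ℝ := W1 / (2 * Z * ξ ^ m) with hθdef
  have hθ : θ * (2 * (Z * ξ ^ m)) = W1 := by
    rw [hθdef]
    field_simp
  have hθ0 : 0 ≤ θ := by positivity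
  refine ⟨N0, gi, T1.filter (fun s => gi s ∈ S), S, gval, θ, ?_, ?_, ?_, hgi, ?_, ?_, hfib, ?_, ?_, ?_⟩
  · refine le_trans ?_ hξN1
    nlinarith
  · refine hξN2.trans (hcK _ 2 (by exact_mod_cast hcE) (by omega))
  · exact (Finset.filter_subset _ _).trans hT1
  · intro s hs
    obtain ⟨hs1, hs2⟩ := Finset.mem_filter.1 hs
    exact ⟨hs2, hGg s hs1⟩
  · intro n hn a
    obtain ⟨s, hs, rfl⟩ := hex n hn
    have h3 := hGg s hs a
    have h4 : |F.G s a| ≤ K := (norm_le_pi_norm (F.G s) a).trans (hOk.G_bd s (hT1 hs))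
    have h5 := hPar.εT_le
    rw [abs_le] at h3 h4 ⊢
    constructor <;> linarith [h3.1, h3.2, h4.1, h4.2]
  · calc (1 : ℝ) ≤ Q * W1 := hQW
      _ = 2 * Q * (Z * ξ ^ m) * θ := by
          rw [← hθ]
          ring
      _ ≤ c * K ^ c * θ := mul_le_mul_of_nonneg_right hA hθ0
  · intro n hn
    have h3 : θ * ξ ^ m = W1 / (2 * Z) := by
      rw [hθdef]
      field_simp
    have h4 : (T1.filter (fun s => gi s ∈ S)).filter (fun s => gi s = n) = T1.filter (fun s => gi s = n) := by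
      rw [Finset.filter_filter]
      refine Finset.filter_congr fun s _ => ⟨fun h => h.2, fun h => ⟨h ▸ hn, h⟩⟩
    rw [h3, h4]
    exact hS1 n hn
  · calc Z = Z * 1 := (mul_one _).symm
      _ ≤ Z * (Q * W1) := mul_le_mul_of_nonneg_left hQW hZpos.le
      _ ≤ Z * (Q * (2 * (S.card * v))) := by
          have : W1 ≤ 2 * (S.card * v) := by linarith
          gcongr
      _ = 2 * Q * (K * ((m : ℝ) * K + 1) ^ m) * (Z * ξ ^ m) * S.card := by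
          rw [hv, mul_pow]
          ring
      _ ≤ c * K ^ c * S.card := mul_le_mul_of_nonneg_right hB (Nat.cast_nonneg _)

theorem k6a5_select_of (hflab : k6a5_fibre_labels_stmt) (hsela : k6a5_sela_stmt) (hselb : k6a5_selb_stmt)
    (hselc : k6a5_selc_stmt) : k6a5_select_stmt := by
  intro m M hm
  obtain ⟨c1, h1⟩ := hflab m M hm
  obtain ⟨c2, h2⟩ := hsela m M hm
  obtain ⟨x1, hx1⟩ : ∃ x : ℕ, x = (M + 1) ^ 2 * 2 ^ M * (m + 1) := ⟨_, rfl⟩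
  obtain ⟨x2, hx2⟩ : ∃ x : ℕ, x = 3 + (M + 1) * c1 := ⟨_, rfl⟩
  obtain ⟨x3, hx3⟩ : ∃ x : ℕ, x = 2 * (2 * (m + 2)) ^ m * (m + 1) ^ m * c1 ^ m := ⟨_, rfl⟩
  obtain ⟨x4, hx4⟩ : ∃ x : ℕ, x = 3 * m + 3 + c1 * m := ⟨_, rfl⟩
  refine ⟨c1 + c2 + x1 + x2 + x3 + x4 + (m + 2), fun F K β pv ξ r0 εq εT K0 hPar hOk => ?_⟩
  exact k6a5_s_core hselb hselc m M c1 c2 _ hm (by omega) (by omega) (hx1 ▸ by omega) (hx2 ▸ by omega) (hx3 ▸ by omega)
    (hx4 ▸ by omega) (by omega) h1 h2 F K β pv ξ r0 εq εT K0 hPar hOk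

end

end Claimed.Agent.R252
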