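import Claimed.Agent.R252.S6a.L5CoreA
import Claimed.Agent.R252.S6a.L5Select

/-!
# CONTRACT (row252, unit S6a, layer 5, sub-architect helper274): the FINITE CORE of the Cartesian interpolation (record `k6a5_Fd`).
Statements + plans: docstrings of the `def ..._stmt` in `S6a/L5Defs.lean` (never edit that file; false/awkward = one line to helper274).
SHARED FILE: prove YOUR theorem IN PLACE (replace its `sorry`; helper lemmas directly above it, prefix `k6a5_<leaf>_`); `git pull` first, splice only your block, land.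
Earlier theorems of this file and of `L5CoreA.lean` may be used although they are still `sorry`.
-/

set_option autoImplicit false

namespace Claimed.Agent.R252

open MeasureTheory
open scoped ENNReal BigOperators Classical

/-! ### L-252-S6a5-FGEO -/

theorem k6a5_fgeo_mv {m : ℕ} (A : Matrix (Fin m) (Fin m) ℝ) (x : Fin m → ℝ) {K r : ℝ} (hA : ∀ a j, |A a j| ≤ K)
    (hx : ∀ j, |x j| ≤ r) (hK : 0 ≤ K) (a : Fin m) : |A.mulVec x a| ≤ m * K * r := by
  have h1 : A.mulVec x a = ∑ j, A a j * x j := rfl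
  rw [h1]
  refine (Finset.abs_sum_le_sum_abs _ _).trans ?_
  have h2 : ∀ j ∈ (Finset.univ : Finset (Fin m)), |A a j * x j| ≤ K * r := by
    intro j _
    rw [abs_mul]
    exact mul_le_mul (hA a j) (hx j) (abs_nonneg _) hK
  refine (Finset.sum_le_sum h2).trans ?_
  rw [Finset.sum_const, Finset.card_univ, Fintype.card_fin, nsmul_eq_mul, mul_assoc]

theorem k6a5_fgeo_floor {ξ : ℝ} (hξ : 0 < ξ) (x : ℝ) : |x - ξ * (⌊x / ξ⌋ : ℝ)| ≤ ξ := by
  have h1 := Int.floor_le (x / ξ)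
  have h2 := Int.lt_floor_add_one (x / ξ)
  rw [le_div_iff₀ hξ] at h1
  rw [div_lt_iff₀ hξ] at h2
  rw [abs_le]
  constructor <;> nlinarith

theorem k6a5_fgeo_row {m M : ℕ} {F : k6a5_Fd m} {K β pv r0 εq εT : ℝ} {K0 : ℕ} (h : F.Ok M K β pv r0 εq εT K0) (x : Fin m → ℝ) :
    F.A0.mulVec x F.i0 = ∑ j, x j := by
  have h1 : F.A0.mulVec x F.i0 = ∑ j, F.A0 F.i0 j * x j := rfl
  rw [h1]
  refine Finset.sum_congr rfl fun j _ => ?_
  rw [h.A_time, one_mul]

theorem k6a5_fgeo_AB {m M : ℕ} {F : k6a5_Fd m} {K β pv r0 εq εT : ℝ} {K0 : ℕ} (h : F.Ok M K β pv r0 εq εT K0) (x : Fin m → ℝ) :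
    F.A0.mulVec (F.Bi.mulVec x) = x := by
  rw [Matrix.mulVec_mulVec, h.inv, Matrix.one_mulVec]

theorem k6a5_fgeo_cell {m : ℕ} (F : k6a5_Fd m) {ξ : ℝ} (hξ : 0 < ξ) (s : F.St) (j : Fin m) : |F.yc s j - ξ * (F.cell ξ s j : ℝ)| ≤ ξ :=
  k6a5_fgeo_floor hξ _

theorem k6a5_fgeo_pow {L x y : ℝ} (hL : 1 ≤ L) (hx : |x| ≤ L) (hy : |y| ≤ L) (k : ℕ) : |x ^ k - y ^ k| ≤ k * L ^ k * |x - y| := by
  induction k with
  | zero => simp
  | succ k ih =>
    have h1 : x ^ (k + 1) - y ^ (k + 1) = x ^ k * (x - y) + (x ^ k - y ^ k) * y := by ring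
    have h2 : |x ^ k| ≤ L ^ k := by
      rw [abs_pow]
      exact pow_le_pow_left₀ (abs_nonneg _) hx k
    have hLk : 0 ≤ L ^ k := by positivity
    have hd : 0 ≤ |x - y| := abs_nonneg _
    rw [h1]
    refine (abs_add_le _ _).trans ?_
    rw [abs_mul, abs_mul]
    have h3 : |x ^ k| * |x - y| ≤ L ^ (k + 1) * |x - y| := by
      refine mul_le_mul_of_nonneg_right (h2.trans ?_) hd
      rw [pow_succ]
      nlinarith
    have h4 : |x ^ k - y ^ k| * |y| ≤ (k * L ^ k * |x - y|) * L :=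
      mul_le_mul ih hy (abs_nonneg _) (by positivity)
    push_cast
    rw [pow_succ] at h3 ⊢
    nlinarith

theorem k6a5_fibre_geom : k6a5_fibre_geom_stmt := by
  intro m M F K β pv ξ r0 εq εT K0 hK hβ hpv hξ h s hs i τ hτ
  have hK0 : 0 ≤ K := by linarith
  have hm1 : (1 : ℝ) ≤ m := by
    have h0 : 1 ≤ m := Nat.succ_le_of_lt (Fin.pos i)
    exact_mod_cast h0
  have htw01 : F.tw s i ∈ Set.Icc (0 : ℝ) 1 := h.Wt_sub s hs i (h.tw_mem s hs i)
  have hBA : F.Bi * F.A0 = 1 := mul_eq_one_comm.1 h.inv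
  obtain ⟨y, hy⟩ : ∃ y, y = F.Bi.mulVec (F.ln s i τ) := ⟨_, rfl⟩
  obtain ⟨E1, hE1⟩ : ∃ E1, E1 = F.Bi.mulVec (F.ln s i (F.tw s i) - F.cs s) := ⟨_, rfl⟩
  obtain ⟨E2, hE2⟩ : ∃ E2, E2 = F.Bi.mulVec (fun a => F.vel s i a - F.A0 a i) := ⟨_, rfl⟩
  obtain ⟨e, he⟩ : ∃ e : ℝ, e = ξ + m * K * β + m * K * pv := ⟨_, rfl⟩
  have hb1 : ∀ j, |E1 j| ≤ m * K * β := by
    intro j
    rw [hE1]
    refine k6a5_fgeo_mv _ _ h.B_bd (fun a => ?_) hK0 j
    exact (norm_le_pi_norm (F.ln s i (F.tw s i) - F.cs s) a).trans (h.ln_at s hs i)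
  have hb2 : ∀ j, |E2 j| ≤ m * K * pv := by
    intro j
    rw [hE2]
    exact k6a5_fgeo_mv _ _ h.B_bd (fun a => h.ln_vel s hs i a) hK0 j
  have hdec : ∀ j, y j = F.yc s j + E1 j + (τ - F.tw s i) * ((if j = i then 1 else 0) + E2 j) := by
    intro j
    have h1 : F.ln s i τ = F.cs s + (F.ln s i (F.tw s i) - F.cs s)
        + (τ - F.tw s i) • ((fun a => F.A0 a i) + fun a => F.vel s i a - F.A0 a i) := by
      ext a
      simp only [k6a5_Fd.ln, Pi.add_apply, Pi.sub_apply, Pi.smul_apply, smul_eq_mul]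
      ring
    have h2 : F.Bi.mulVec (fun a => F.A0 a i) j = if j = i then 1 else 0 := by
      have h3 : F.Bi.mulVec (fun a => F.A0 a i) j = (F.Bi * F.A0) j i := by
        rw [Matrix.mul_apply]
        rfl
      rw [h3, hBA, Matrix.one_apply]
    rw [hy, h1, Matrix.mulVec_add, Matrix.mulVec_add, Matrix.mulVec_smul, Matrix.mulVec_add]
    simp only [Pi.add_apply, Pi.smul_apply, smul_eq_mul, h2, ← hE1, ← hE2]
    rfl
  have hdt : |τ - F.tw s i| ≤ 1 := by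
    rw [abs_le]
    constructor <;> linarith [hτ.1, hτ.2, htw01.1, htw01.2]
  have hoff : ∀ j, j ≠ i → |y j - ξ * (F.cell ξ s j : ℝ)| ≤ e := by
    intro j hj
    rw [hdec j, if_neg hj, zero_add]
    have h1 := k6a5_fgeo_cell F hξ s j
    have h2 : |(τ - F.tw s i) * E2 j| ≤ m * K * pv := by
      rw [abs_mul]
      calc |τ - F.tw s i| * |E2 j| ≤ 1 * (m * K * pv) := mul_le_mul hdt (hb2 j) (abs_nonneg _) zero_le_one
        _ = _ := one_mul _
    have h3 : F.yc s j + E1 j + (τ - F.tw s i) * E2 j - ξ * (F.cell ξ s j : ℝ)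
        = (F.yc s j - ξ * (F.cell ξ s j : ℝ)) + E1 j + (τ - F.tw s i) * E2 j := by ring
    rw [h3, he]
    refine (abs_add_le _ _).trans (add_le_add ((abs_add_le _ _).trans (add_le_add h1 (hb1 j))) h2)
  have he0 : 0 ≤ e := by
    rw [he]
    positivity
  have hAy : F.A0.mulVec y = F.ln s i τ := by rw [hy, k6a5_fgeo_AB h]
  have hsum : ∑ j, y j = τ := by
    rw [← k6a5_fgeo_row h y, hAy]
    simp only [k6a5_Fd.ln, Pi.add_apply, Pi.smul_apply, smul_eq_mul, (h.ln_time s hs i).1, (h.ln_time s hs i).2]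
    ring
  have hyi : y i = τ - ∑ k ∈ Finset.univ.erase i, y k := by
    rw [← hsum, ← Finset.add_sum_erase _ _ (Finset.mem_univ i)]
    ring
  have hall : ∀ j, |(y - fun j => if j = i then τ - ∑ k ∈ Finset.univ.erase i, ξ * (F.cell ξ s k : ℝ) else ξ * (F.cell ξ s j : ℝ)) j| ≤ m * e := by
    intro j
    simp only [Pi.sub_apply]
    by_cases hj : j = i
    · subst hj
      rw [if_pos rfl, hyi]
      have h1 : τ - ∑ k ∈ Finset.univ.erase j, y k - (τ - ∑ k ∈ Finset.univ.erase j, ξ * (F.cell ξ s k : ℝ))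
          = - ∑ k ∈ Finset.univ.erase j, (y k - ξ * (F.cell ξ s k : ℝ)) := by
        rw [Finset.sum_sub_distrib]
        ring
      rw [h1, abs_neg]
      refine (Finset.abs_sum_le_sum_abs _ _).trans ?_
      refine (Finset.sum_le_sum fun k hk => hoff k (Finset.ne_of_mem_erase hk)).trans ?_
      rw [Finset.sum_const, nsmul_eq_mul]
      refine mul_le_mul_of_nonneg_right ?_ he0
      have h2 : (Finset.univ.erase j).card ≤ m := by
        refine (Finset.card_le_univ _).trans ?_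
        rw [Fintype.card_fin]
      exact_mod_cast h2
    · rw [if_neg hj]
      refine (hoff j hj).trans ?_
      nlinarith
  have hdiff : F.ln s i τ - F.fib ξ i (F.cell ξ s) τ
      = F.A0.mulVec (y - fun j => if j = i then τ - ∑ k ∈ Finset.univ.erase i, ξ * (F.cell ξ s k : ℝ) else ξ * (F.cell ξ s j : ℝ)) := by
    rw [Matrix.mulVec_sub, hAy]
    rfl
  have hS : 0 ≤ ξ + β + pv := by positivity
  have hfin : (m : ℝ) * K * (m * e) ≤ (m : ℝ) ^ 3 * K ^ 2 * (ξ + β + pv) := by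
    have h1 : e ≤ m * K * (ξ + β + pv) := by
      rw [he]
      have h2 : 1 ≤ (m : ℝ) * K := by nlinarith
      nlinarith
    have h3 : (0 : ℝ) ≤ m * K * m := by positivity
    calc (m : ℝ) * K * (m * e) = m * K * m * e := by ring
      _ ≤ m * K * m * (m * K * (ξ + β + pv)) := mul_le_mul_of_nonneg_left h1 h3
      _ = _ := by ring
  rw [hdiff, pi_norm_le_iff_of_nonneg (by positivity)]
  intro a
  rw [Real.norm_eq_abs]
  exact (k6a5_fgeo_mv _ _ h.A_bd hall hK0 a).trans hfin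

theorem k6a5_fgeo_time {m M : ℕ} {F : k6a5_Fd m} {K β pv ξ r0 εq εT : ℝ} {K0 : ℕ} (hξ : 0 < ξ) (h : F.Ok M K β pv r0 εq εT K0)
    {s : F.St} (hs : s ∈ F.T) (i : Fin m) : |F.tw s i - ∑ j, ξ * (F.cell ξ s j : ℝ)| ≤ β + m * ξ := by
  have h1 : F.ln s i (F.tw s i) F.i0 = F.tw s i := by
    simp only [k6a5_Fd.ln, Pi.add_apply, Pi.smul_apply, smul_eq_mul, (h.ln_time s hs i).1, (h.ln_time s hs i).2]
    ring
  have h2 : |F.ln s i (F.tw s i) F.i0 - F.cs s F.i0| ≤ β :=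
    (norm_le_pi_norm (F.ln s i (F.tw s i) - F.cs s) F.i0).trans (h.ln_at s hs i)
  have h3 : F.cs s F.i0 = ∑ j, F.yc s j := by
    rw [← k6a5_fgeo_row h (F.yc s)]
    unfold k6a5_Fd.yc
    rw [k6a5_fgeo_AB h]
  have h4 : |∑ j, F.yc s j - ∑ j, ξ * (F.cell ξ s j : ℝ)| ≤ m * ξ := by
    rw [← Finset.sum_sub_distrib]
    refine (Finset.abs_sum_le_sum_abs _ _).trans ?_
    refine (Finset.sum_le_sum fun j _ => k6a5_fgeo_cell F hξ s j).trans ?_
    rw [Finset.sum_const, Finset.card_univ, Fintype.card_fin, nsmul_eq_mul]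
  rw [h1, h3] at h2
  have h5 : F.tw s i - ∑ j, ξ * (F.cell ξ s j : ℝ) = (F.tw s i - ∑ j, F.yc s j) + (∑ j, F.yc s j - ∑ j, ξ * (F.cell ξ s j : ℝ)) := by ring
  rw [h5]
  exact (abs_add_le _ _).trans (add_le_add h2 h4)

theorem k6a5_fgeo_evalc {M : ℕ} {p q : Polynomial ℝ} (hp : p.natDegree ≤ M) (hq : q.natDegree ≤ M) {Ec t : ℝ} (ht : |t| ≤ 1)
    (hc : ∀ k, |p.coeff k - q.coeff k| ≤ Ec) : |p.eval t - q.eval t| ≤ ((M : ℝ) + 1) * Ec := by
  rw [Polynomial.eval_eq_sum_range' (Nat.lt_succ_of_le hp), Polynomial.eval_eq_sum_range' (Nat.lt_succ_of_le hq), ← Finset.sum_sub_distrib]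
  refine (Finset.abs_sum_le_sum_abs _ _).trans ?_
  have h1 : ∀ k ∈ Finset.range (M + 1), |p.coeff k * t ^ k - q.coeff k * t ^ k| ≤ Ec := by
    intro k _
    rw [← sub_mul, abs_mul, abs_pow]
    have h2 : |t| ^ k ≤ 1 := pow_le_one₀ (abs_nonneg _) ht
    calc |p.coeff k - q.coeff k| * |t| ^ k ≤ |p.coeff k - q.coeff k| * 1 := mul_le_mul_of_nonneg_left h2 (abs_nonneg _)
      _ ≤ Ec := by rw [mul_one]; exact hc k
  refine (Finset.sum_le_sum h1).trans ?_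
  rw [Finset.sum_const, Finset.card_range, nsmul_eq_mul]
  push_cast
  exact le_rfl

theorem k6a5_fgeo_evalt {M : ℕ} {q : Polynomial ℝ} (hq : q.natDegree ≤ M) {K t t' : ℝ} (hK : 0 ≤ K) (ht : |t| ≤ 2) (ht' : |t'| ≤ 2)
    (hc : ∀ k, |q.coeff k| ≤ K) : |q.eval t - q.eval t'| ≤ K * ((M : ℝ) + 1) ^ 2 * 2 ^ M * |t - t'| := by
  rw [Polynomial.eval_eq_sum_range' (Nat.lt_succ_of_le hq), Polynomial.eval_eq_sum_range' (Nat.lt_succ_of_le hq), ← Finset.sum_sub_distrib]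
  refine (Finset.abs_sum_le_sum_abs _ _).trans ?_
  have h1 : ∀ k ∈ Finset.range (M + 1), |q.coeff k * t ^ k - q.coeff k * t' ^ k| ≤ K * (((M : ℝ) + 1) * 2 ^ M * |t - t'|) := by
    intro k hk
    have hkM : k ≤ M := Nat.lt_succ_iff.1 (Finset.mem_range.1 hk)
    rw [← mul_sub, abs_mul]
    refine mul_le_mul (hc k) ?_ (abs_nonneg _) hK
    refine (k6a5_fgeo_pow one_le_two ht ht' k).trans ?_
    refine mul_le_mul_of_nonneg_right ?_ (abs_nonneg _)
    have h2 : (k : ℝ) ≤ (M : ℝ) + 1 := by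
      have : (k : ℝ) ≤ M := by exact_mod_cast hkM
      linarith
    have h3 : (2 : ℝ) ^ k ≤ 2 ^ M := pow_le_pow_right₀ one_le_two hkM
    exact mul_le_mul h2 h3 (by positivity) (by positivity)
  refine (Finset.sum_le_sum h1).trans ?_
  rw [Finset.sum_const, Finset.card_range, nsmul_eq_mul]
  push_cast
  exact le_of_eq (by ring)

theorem k6a5_selb : k6a5_selb_stmt := by
  intro m M F K β pv ξ r0 εq εT Ec K0 hK hβ hξ hsm hEc h s hs r hr i a hc
  have hK0 : 0 ≤ K := by linarith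
  have htw01 : F.tw s i ∈ Set.Icc (0 : ℝ) 1 := h.Wt_sub s hs i (h.tw_mem s hs i)
  have htw1 : |F.tw s i| ≤ 1 := by
    rw [abs_le]
    constructor <;> linarith [htw01.1, htw01.2]
  have hdt := k6a5_fgeo_time hξ h hs i
  have h1 : |F.G s a - (F.fit s i a).eval (F.tw s i)| ≤ εq := by
    have h0 := h.fit_err s hs i _ (h.tw_mem s hs i) a
    rwa [h.Gt_tw s hs i] at h0
  have h2 := k6a5_fgeo_evalc (h.fit_deg s hs i a) (h.fit_deg r hr i a) htw1 hc
  have ht' : |∑ j, ξ * (F.cell ξ s j : ℝ)| ≤ 2 := by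
    have h0 : ∑ j, ξ * (F.cell ξ s j : ℝ) = F.tw s i - (F.tw s i - ∑ j, ξ * (F.cell ξ s j : ℝ)) := by ring
    rw [h0]
    refine (abs_sub _ _).trans ?_
    linarith
  have h3 := k6a5_fgeo_evalt (h.fit_deg r hr i a) hK0 (htw1.trans one_le_two) ht' (h.fit_bd r hr i a)
  have h4 : K * ((M : ℝ) + 1) ^ 2 * 2 ^ M * |F.tw s i - ∑ j, ξ * (F.cell ξ s j : ℝ)| ≤ K * ((M : ℝ) + 1) ^ 2 * 2 ^ M * (β + m * ξ) :=
    mul_le_mul_of_nonneg_left hdt (by positivity)
  have h5 : F.G s a - (F.fit r i a).eval (∑ j, ξ * (F.cell ξ s j : ℝ))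
      = (F.G s a - (F.fit s i a).eval (F.tw s i)) + ((F.fit s i a).eval (F.tw s i) - (F.fit r i a).eval (F.tw s i))
        + ((F.fit r i a).eval (F.tw s i) - (F.fit r i a).eval (∑ j, ξ * (F.cell ξ s j : ℝ))) := by ring
  rw [h5]
  exact (abs_add_le _ _).trans (add_le_add ((abs_add_le _ _).trans (add_le_add h1 h2)) (h3.trans h4))

/-! ### L-252-S6a5-FLAB -/

theorem k6a5_flab_cK {K X : ℝ} {p c : ℕ} (hK : 1 ≤ K) (hX : X ≤ c) (hp : p ≤ c) : X * K ^ p ≤ c * K ^ c :=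
  mul_le_mul hX (pow_le_pow_right₀ hK hp) (by positivity) (by positivity)

theorem k6a5_flab_fib_congr {m : ℕ} (F : k6a5_Fd m) (ξ : ℝ) (i : Fin m) (n n' : Fin m → ℤ) (h : ∀ j, j ≠ i → n j = n' j) (τ : ℝ) :
    F.fib ξ i n τ = F.fib ξ i n' τ := by
  unfold k6a5_Fd.fib
  congr 1
  funext j
  by_cases hj : j = i
  · rw [if_pos hj, if_pos hj]
    congr 1
    refine Finset.sum_congr rfl fun k hk => ?_
    rw [h k (Finset.ne_of_mem_erase hk)]
  · rw [if_neg hj, if_neg hj, h j hj]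

theorem k6a5_flab_floor {x e : ℝ} (he : 0 < e) : |x - e * (⌊x / e⌋ : ℝ)| ≤ e := by
  have h1 : (⌊x / e⌋ : ℝ) ≤ x / e := Int.floor_le _
  have h2 : x / e < (⌊x / e⌋ : ℝ) + 1 := Int.lt_floor_add_one _
  rw [le_div_iff₀ he] at h1
  rw [div_lt_iff₀ he] at h2
  rw [abs_le]
  constructor <;> nlinarith

/-- the net of one fibre, one direction, one component -/
theorem k6a5_flab_net (m M : ℕ) (F : k6a5_Fd m) (K β pv ξ r0 εq εT : ℝ) (K0 : ℕ) (hK : 1 ≤ K) (hK0 : (K0 : ℝ) ≤ K) (hβ : 0 ≤ β)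
    (hpv : 0 ≤ pv) (hξ : 0 < ξ) (hεq : εq ≤ εT) (hεT : 0 < εT) (hr0 : (m : ℝ) ^ 3 * K ^ 2 * (ξ + β + pv) ≤ r0)
    (hOk : F.Ok M K β pv r0 εq εT K0) (i a : Fin m) (n : Fin m → ℤ) :
    ∃ N : Finset F.St, N ⊆ F.T ∧ (N.card : ℝ) ≤ 2 * K ^ (2 * (M + 1)) ∧
      ∀ s ∈ F.T, (∀ j, j ≠ i → F.cell ξ s j = n j) → ∃ r ∈ N, ∀ k,
        |(F.fit s i a).coeff k - (F.fit r i a).coeff k| ≤ 4 * ((M : ℝ) + 1) * (4 * ((M : ℝ) + 1) ^ 2) ^ M * K ^ ((M + 1) * M) * εT := by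
  have hK0' : (0 : ℝ) < K := by linarith
  choose L hLcard hL using hOk.lists
  set κ : ℝ := 1 / K with hκ
  have hκ0 : 0 < κ := by positivity
  set g : ℝ := κ ^ (M + 1) / (2 * ((M : ℝ) + 1) ^ 2) with hg
  have hg0 : 0 < g := by positivity
  have hnet := k6a5_net M (ι := {s : F.St // s ∈ F.T ∧ ∀ j, j ≠ i → F.cell ξ s j = n j}) (fun s => F.fit s.1 i a) (fun s => F.Wt s.1 i)
    κ (2 * εT) g (fun τ => (L (F.fib ξ i n τ)).image fun z => εT * (z a : ℝ)) K0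
    (fun s => hOk.fit_deg s.1 s.2.1 i a) (fun s => hOk.Wt_meas s.1 s.2.1 i) (fun s => hOk.Wt_sub s.1 s.2.1 i) hκ0
    (fun s => by
      have h1 := hOk.Wt_vol s.1 s.2.1 i
      rw [hκ, div_le_iff₀ hK0']
      linarith)
    (fun t => Finset.card_image_le.trans (hLcard _))
    (fun s t ht => by
      have ht01 := hOk.Wt_sub s.1 s.2.1 i ht
      have hgeo := k6a5_fibre_geom m M F K β pv ξ r0 εq εT K0 hK hβ hpv hξ hOk s.1 s.2.1 i t ht01
      rw [k6a5_flab_fib_congr F ξ i _ n s.2.2 t] at hgeo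
      have hmem := hL (F.fib ξ i n t) s.1 s.2.1 i t ht (hgeo.trans hr0)
      refine ⟨_, Finset.mem_image_of_mem _ hmem, ?_⟩
      have h1 := hOk.fit_err s.1 s.2.1 i t ht a
      have h2 : |F.Gt s.1 i t a - εT * ((k6a_cell εT (F.Gt s.1 i t) a : ℤ) : ℝ)| ≤ εT := k6a5_flab_floor hεT
      have h3 : (F.fit s.1 i a).eval t - εT * ((k6a_cell εT (F.Gt s.1 i t) a : ℤ) : ℝ)
          = -(F.Gt s.1 i t a - (F.fit s.1 i a).eval t) + (F.Gt s.1 i t a - εT * ((k6a_cell εT (F.Gt s.1 i t) a : ℤ) : ℝ)) := by ring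
      rw [h3]
      refine (abs_add_le _ _).trans ?_
      rw [abs_neg]
      linarith)
    hg0 (by
      rw [hg]
      have : ((M : ℝ) + 1) ^ 2 ≠ 0 := by positivity
      field_simp
      exact le_rfl)
  obtain ⟨N, hNcard, hN⟩ := hnet
  refine ⟨N.image Subtype.val, ?_, ?_, ?_⟩
  · intro r hr
    obtain ⟨r', -, rfl⟩ := Finset.mem_image.1 hr
    exact r'.2.1
  · have h1 : ((N.image Subtype.val).card : ℝ) ≤ N.card := by exact_mod_cast Finset.card_image_le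
    have h2 : κ ^ (M + 1) = 1 / K ^ (M + 1) := by rw [hκ, div_pow, one_pow]
    have h3 : (K0 : ℝ) ^ (M + 1) ≤ K ^ (M + 1) := pow_le_pow_left₀ (by positivity) hK0 _
    have h4 : (0 : ℝ) < K ^ (M + 1) := by positivity
    rw [h2] at hNcard
    have h5 : (N.card : ℝ) ≤ 2 * K ^ (M + 1) * K ^ (M + 1) := by
      have h6 : (N.card : ℝ) * (1 / K ^ (M + 1) / 2) = N.card / (2 * K ^ (M + 1)) := by
        field_simp
      rw [h6, div_le_iff₀ (by positivity)] at hNcard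
      nlinarith
    refine h1.trans (h5.trans (le_of_eq ?_))
    rw [two_mul (M + 1), pow_add]
    ring
  · intro s hs hfib
    obtain ⟨r, hr, hclose⟩ := hN ⟨s, hs, hfib⟩
    refine ⟨r.1, Finset.mem_image_of_mem _ hr, fun k => (hclose k).trans (le_of_eq ?_)⟩
    have h2 : 2 / g = 4 * ((M : ℝ) + 1) ^ 2 * K ^ (M + 1) := by
      rw [hg, hκ, div_pow, one_pow]
      field_simp
      ring
    rw [h2, mul_pow, ← pow_mul]
    ring

theorem k6a5_fibre_labels : k6a5_fibre_labels_stmt := by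
  intro m M hm
  refine ⟨2 * m ^ 3 + 2 + 4 * (M + 1) * (4 * (M + 1) ^ 2) ^ M + (M + 1) * M + 2 ^ m + 2 * (M + 1) * m, ?_⟩
  set c : ℕ := 2 * m ^ 3 + 2 + 4 * (M + 1) * (4 * (M + 1) ^ 2) ^ M + (M + 1) * M + 2 ^ m + 2 * (M + 1) * m with hc
  have hcc : 2 * m ^ 3 ≤ c ∧ 2 ≤ c ∧ 4 * (M + 1) * (4 * (M + 1) ^ 2) ^ M ≤ c ∧ (M + 1) * M ≤ c ∧ 2 ^ m ≤ c ∧ 2 * (M + 1) * m ≤ c := by
    rw [hc]
    generalize 2 * m ^ 3 = x1
    generalize 4 * (M + 1) * (4 * (M + 1) ^ 2) ^ M = x2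
    generalize (M + 1) * M = x3
    generalize 2 ^ m = x4
    generalize 2 * (M + 1) * m = x5
    omega
  intro F K β pv ξ r0 εq εT K0 hP hOk
  have hK := hP.K_one
  have hr0 : (m : ℝ) ^ 3 * K ^ 2 * (ξ + β + pv) ≤ r0 := by
    have h1 : (2 * (m : ℝ) ^ 3) * K ^ 2 ≤ c * K ^ c := by
      refine k6a5_flab_cK hK ?_ ?_
      · exact_mod_cast hcc.1
      · exact hcc.2.1
    have h2 := hP.fine
    have h3 := hP.ξ_r0
    have h4 : (m : ℝ) ^ 3 * K ^ 2 * (ξ + β + pv) ≤ (m : ℝ) ^ 3 * K ^ 2 * (2 * ξ) :=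
      mul_le_mul_of_nonneg_left (by linarith) (by positivity)
    have h5 : (2 * (m : ℝ) ^ 3) * K ^ 2 * ξ ≤ c * K ^ c * ξ := mul_le_mul_of_nonneg_right h1 hP.ξ_pos.le
    linarith
  have hnet := fun (i a : Fin m) (n : Fin m → ℤ) => k6a5_flab_net m M F K β pv ξ r0 εq εT K0 hK hP.K0_le hP.β_nonneg hP.pv_nonneg hP.ξ_pos
    hP.εq_le hP.εT_pos hr0 hOk i a n
  choose N hNsub hNcard hN using hnet
  -- the canonical representative of the fibre of a state
  have hfib : ∀ (i : Fin m) (s : F.St), ∀ j, j ≠ i → F.cell ξ s j = Function.update (F.cell ξ s) i 0 j :=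
    fun i s j hj => (Function.update_of_ne hj _ _).symm
  have hex : ∀ (i : Fin m) (s : F.St) (a : Fin m), ∃ r : F.St, s ∈ F.T → (r ∈ N i a (Function.update (F.cell ξ s) i 0) ∧ ∀ k,
      |(F.fit s i a).coeff k - (F.fit r i a).coeff k| ≤ 4 * ((M : ℝ) + 1) * (4 * ((M : ℝ) + 1) ^ 2) ^ M * K ^ ((M + 1) * M) * εT) := by
    intro i s a
    by_cases hs : s ∈ F.T
    · obtain ⟨r, hr, hcl⟩ := hN i a _ s hs (hfib i s)
      exact ⟨r, fun _ => ⟨hr, hcl⟩⟩
    · exact ⟨s, fun h => absurd h hs⟩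
  choose lb hlb using hex
  refine ⟨lb, fun i s hs a => ⟨hNsub _ _ _ (hlb i s a hs).1, fun k => ((hlb i s a hs).2 k).trans ?_⟩, fun i n => ?_⟩
  · refine mul_le_mul_of_nonneg_right ?_ hP.εT_pos.le
    refine k6a5_flab_cK hK ?_ ?_
    · exact_mod_cast hcc.2.2.1
    · exact hcc.2.2.2.1
  · have hsub : (F.T.filter fun s => ∀ j, j ≠ i → F.cell ξ s j = n j).image (lb i)
        ⊆ Fintype.piFinset fun a => N i a (Function.update n i 0) := by
      intro f hf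
      obtain ⟨s, hs, rfl⟩ := Finset.mem_image.1 hf
      rw [Finset.mem_filter] at hs
      rw [Fintype.mem_piFinset]
      intro a
      have e : Function.update (F.cell ξ s) i 0 = Function.update n i 0 := by
        funext j
        by_cases hj : j = i
        · subst hj
          simp
        · rw [Function.update_of_ne hj, Function.update_of_ne hj, hs.2 j hj]
      rw [← e]
      exact (hlb i s a hs.1).1
    have h1 : (((F.T.filter fun s => ∀ j, j ≠ i → F.cell ξ s j = n j).image (lb i)).card : ℝ)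
        ≤ ∏ a : Fin m, ((N i a (Function.update n i 0)).card : ℝ) := by
      have := Finset.card_le_card hsub
      rw [Fintype.card_piFinset] at this
      exact_mod_cast this
    have h2 : ∏ a : Fin m, ((N i a (Function.update n i 0)).card : ℝ) ≤ ∏ _a : Fin m, (2 * K ^ (2 * (M + 1))) :=
      Finset.prod_le_prod (fun _ _ => by positivity) fun a _ => hNcard _ _ _
    rw [Finset.prod_const, Finset.card_univ, Fintype.card_fin, mul_pow, ← pow_mul] at h2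
    refine h1.trans (h2.trans ?_)
    refine k6a5_flab_cK hK ?_ ?_
    · exact_mod_cast hcc.2.2.2.2.1
    · exact hcc.2.2.2.2.2

/-! ### L-252-S6a5-SELA -/

theorem k6a5_sela_iter {S C L ι : Type} [Nonempty L] (wt : S → ℝ) (cl : ι → S → C) (lb : ι → S → L) (k : ℕ)
    (T : Finset S) (hwt : ∀ s ∈ T, 0 ≤ wt s)
    (hk : ∀ i c, ((T.filter fun s => cl i s = c).image (lb i)).card ≤ k) (I : Finset ι) :
    ∃ (T1 : Finset S) (ch : ι → C → L), T1 ⊆ T ∧ (∀ s ∈ T1, ∀ i ∈ I, lb i s = ch i (cl i s)) ∧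
      ∑ s ∈ T, wt s ≤ (k : ℝ) ^ I.card * ∑ s ∈ T1, wt s := by
  induction I using Finset.induction_on with
  | empty => exact ⟨T, fun _ _ => Classical.arbitrary L, subset_rfl, by simp, by simp⟩
  | insert a I ha ih =>
    obtain ⟨T1, ch, hsub, hlab, hsum⟩ := ih
    obtain ⟨ch', hch'⟩ := k6a5_pigeon T1 wt (cl a) (lb a) k (fun s hs => hwt s (hsub hs)) (fun c =>
      le_trans (Finset.card_le_card (Finset.image_subset_image (Finset.filter_subset_filter _ hsub))) (hk a c))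
    refine ⟨T1.filter (fun s => lb a s = ch' (cl a s)), Function.update ch a ch',
      (Finset.filter_subset _ _).trans hsub, ?_, ?_⟩
    · intro s hs i hi
      rw [Finset.mem_filter] at hs
      by_cases hia : i = a
      · subst hia
        rw [Function.update_self]
        exact hs.2
      · rw [Function.update_of_ne hia]
        exact hlab s hs.1 i ((Finset.mem_insert.mp hi).resolve_left hia)
    · rw [Finset.card_insert_of_notMem ha, pow_succ, mul_assoc]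
      exact hsum.trans (mul_le_mul_of_nonneg_left hch' (by positivity))

theorem k6a5_sela_near {m : ℕ} (M : ℕ) (F : k6a5_Fd m) (K β pv ξ r0 εq εT : ℝ) (K0 : ℕ)
    (hK : 1 ≤ K) (hξ : 0 < ξ) (hOk : F.Ok M K β pv r0 εq εT K0) (s : F.St) (hs : s ∈ F.T) (i : Fin m) :
    ‖F.ln s i (F.tw s i) - F.A0.mulVec (fun j => ξ * (F.cell ξ s j : ℝ))‖ ≤ β + m * K * ξ := by
  have h1 := hOk.ln_at s hs i
  have h2 : F.cs s = F.A0.mulVec (F.yc s) := by
    unfold k6a5_Fd.yc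
    rw [Matrix.mulVec_mulVec, hOk.inv, Matrix.one_mulVec]
  have h3 : ‖F.cs s - F.A0.mulVec (fun j => ξ * (F.cell ξ s j : ℝ))‖ ≤ m * K * ξ := by
    rw [h2, ← Matrix.mulVec_sub, pi_norm_le_iff_of_nonneg (by positivity)]
    intro a
    rw [Real.norm_eq_abs]
    calc |(F.A0.mulVec (F.yc s - fun j => ξ * (F.cell ξ s j : ℝ))) a|
        = |∑ j, F.A0 a j * (F.yc s j - ξ * (F.cell ξ s j : ℝ))| := rfl
      _ ≤ ∑ j, |F.A0 a j * (F.yc s j - ξ * (F.cell ξ s j : ℝ))| := Finset.abs_sum_le_sum_abs _ _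
      _ ≤ ∑ _j : Fin m, K * ξ := by
          apply Finset.sum_le_sum
          intro j _
          rw [abs_mul]
          refine mul_le_mul (hOk.A_bd a j) ?_ (abs_nonneg _) (by linarith)
          have e : (F.cell ξ s j : ℝ) = ((⌊F.yc s j / ξ⌋ : ℤ) : ℝ) := rfl
          rw [e]
          have f1 := Int.floor_le (F.yc s j / ξ)
          have f2 := Int.lt_floor_add_one (F.yc s j / ξ)
          have e2 : F.yc s j = ξ * (F.yc s j / ξ) := by field_simp
          rw [abs_le]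
          constructor
          · nlinarith
          · nlinarith
      _ = m * K * ξ := by simp [mul_assoc]
  calc ‖F.ln s i (F.tw s i) - F.A0.mulVec (fun j => ξ * (F.cell ξ s j : ℝ))‖
      = ‖(F.ln s i (F.tw s i) - F.cs s) + (F.cs s - F.A0.mulVec (fun j => ξ * (F.cell ξ s j : ℝ)))‖ := by
        rw [sub_add_sub_cancel]
    _ ≤ β + m * K * ξ := (norm_add_le _ _).trans (add_le_add h1 h3)

theorem k6a5_sela : k6a5_sela_stmt := by
  intro m M hm
  refine ⟨m + 1, ?_⟩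
  intro F K β pv ξ r0 εq εT K0 kl hPar hOk lb hlb
  have hK := hPar.K_one
  have hξ := hPar.ξ_pos
  have hne : F.T.Nonempty := by
    by_contra h
    rw [Finset.not_nonempty_iff_eq_empty] at h
    have h1 := hOk.mass
    rw [h, Finset.sum_empty, mul_zero] at h1
    linarith
  obtain ⟨s0, hs0⟩ := hne
  have hNe : Nonempty (Fin m → F.St) := ⟨fun _ => s0⟩
  have hr0 : β + m * K * ξ ≤ r0 := by
    have h1 : β ≤ ξ := by linarith [hPar.fine, hPar.pv_nonneg]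
    have h2 := hPar.ξ_r0
    have h3 : K ≤ K ^ (m + 1) := by
      calc K = K ^ 1 := (pow_one K).symm
        _ ≤ K ^ (m + 1) := pow_le_pow_right₀ hK (by omega)
    have h4 : ((m : ℝ) + 1) * K * ξ ≤ ((m + 1 : ℕ) : ℝ) * K ^ (m + 1) * ξ := by
      push_cast
      apply mul_le_mul_of_nonneg_right _ hξ.le
      exact mul_le_mul_of_nonneg_left h3 (by positivity)
    have h5 : ξ ≤ K * ξ := by nlinarith
    nlinarith
  obtain ⟨bn, hbn⟩ := k6a5_pigeon F.T F.wt (F.cell ξ) (fun s => k6a_cell εT (F.G s)) K0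
    (fun s _ => hOk.wt_nonneg s) (by
    intro n
    obtain ⟨L, hLc, hL⟩ := hOk.lists (F.A0.mulVec (fun j => ξ * (n j : ℝ)))
    refine le_trans (Finset.card_le_card ?_) hLc
    intro x hx
    simp only [Finset.mem_image, Finset.mem_filter] at hx
    obtain ⟨s, ⟨hs, hcell⟩, rfl⟩ := hx
    have h6 := hL s hs F.i0 (F.tw s F.i0) (hOk.tw_mem s hs F.i0) (by
      rw [← hcell]
      exact (k6a5_sela_near M F K β pv ξ r0 εq εT K0 hK hξ hOk s hs F.i0).trans hr0)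
    rwa [hOk.Gt_tw s hs F.i0] at h6)
  obtain ⟨T1, ch, hsub, hlab, hsum⟩ := k6a5_sela_iter F.wt (fun i s => Function.update (F.cell ξ s) i 0) lb kl
    (F.T.filter (fun s => k6a_cell εT (F.G s) = bn (F.cell ξ s))) (fun s _ => hOk.wt_nonneg s) (by
      intro i c
      refine le_trans (Finset.card_le_card ?_) (hlb i c)
      intro x hx
      simp only [Finset.mem_image, Finset.mem_filter] at hx ⊢
      obtain ⟨s, ⟨⟨hs, _⟩, hc⟩, rfl⟩ := hx
      refine ⟨s, ⟨hs, fun j hj => ?_⟩, rfl⟩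
      have h7 := congrFun hc j
      rwa [Function.update_of_ne hj] at h7) Finset.univ
  refine ⟨T1, bn, ch, hsub.trans (Finset.filter_subset _ _), ?_, ?_⟩
  · intro s hs
    exact ⟨(Finset.mem_filter.mp (hsub hs)).2, fun i => hlab s hs i (Finset.mem_univ i)⟩
  · rw [Finset.card_univ, Fintype.card_fin] at hsum
    rw [mul_assoc]
    refine hbn.trans (mul_le_mul_of_nonneg_left (le_trans (le_of_eq ?_) hsum) (by positivity))
    refine Finset.sum_congr ?_ (fun _ _ => rfl)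
    ext x
    simp only [Finset.mem_filter]

/-! ### L-252-S6a5-SELECT -/

theorem k6a5_select : k6a5_select_stmt := k6a5_select_of k6a5_fibre_labels k6a5_sela k6a5_selb k6a5_selc

/-! ### L-252-S6a5-FIN -/

theorem k6a5_fin_bd (a b c : ℕ) (ha : a ≤ c) (hb : b ≤ c) (K : ℝ) (hK : 1 ≤ K) : (a : ℝ) * K ^ b ≤ c * K ^ c :=
  mul_le_mul (by exact_mod_cast ha) (pow_le_pow_right₀ hK hb) (by positivity) (by positivity)

theorem k6a5_fin_par {c c' : ℕ} (h : c' ≤ c) {K β pv ξ r0 εq εT : ℝ} {K0 : ℕ} (hp : k6a5_Fd.Par c K β pv ξ r0 εq εT K0) :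
    k6a5_Fd.Par c' K β pv ξ r0 εq εT K0 :=
  { hp with
    ξ_r0 := (mul_le_mul_of_nonneg_right (k6a5_fin_bd c' c' c h h K hp.K_one) hp.ξ_pos.le).trans hp.ξ_r0
    ξ_εT := (mul_le_mul_of_nonneg_right (k6a5_fin_bd c' c' c h h K hp.K_one) hp.ξ_pos.le).trans hp.ξ_εT }

theorem k6a5_fin_tdeg {m : ℕ} (P : MvPolynomial (Fin m) ℝ) (M : ℕ) (h : ∀ i, P.degreeOf i ≤ M) : P.totalDegree ≤ m * M := by
  unfold MvPolynomial.totalDegree
  refine Finset.sup_le fun μ hμ => ?_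
  rw [Finsupp.sum_fintype _ _ (fun _ => rfl)]
  calc ∑ i, μ i ≤ ∑ _i : Fin m, M := Finset.sum_le_sum fun i _ => (MvPolynomial.monomial_le_degreeOf i hμ).trans (h i)
    _ = m * M := by simp

theorem k6a5_fin : k6a5_fin_stmt := by
  intro m M hm
  obtain ⟨c1, h1⟩ := k6a5_select m M hm
  obtain ⟨c2, h2⟩ := k6a5_grid m M m hm
  obtain ⟨z, hz⟩ : ∃ z : ℕ, z = c2 * (c1 + 2) ^ c2 := ⟨_, rfl⟩
  obtain ⟨e, he⟩ : ∃ e : ℕ, e = (c1 + 1) * c2 := ⟨_, rfl⟩
  obtain ⟨c, hc⟩ : ∃ c : ℕ, c = 1 + c1 + z + z * m ^ (m * M) + c1 * z + z * (c1 + m * M * 2 ^ (m * M)) + e + c1 + m * M := ⟨_, rfl⟩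
  refine ⟨c, ?_⟩
  intro F K β pv ξ r0 εq εT K0 hpar hok
  have hK := hpar.K_one
  have hK0 : 0 < K := by linarith
  have hξ := hpar.ξ_pos
  have hεT := hpar.εT_pos
  obtain ⟨N0, gi, T2, S, gval, θ, ha, hb, hcT, hd, he', hf, hg, hh, hi, hj⟩ :=
    h1 F K β pv ξ r0 εq εT K0 (k6a5_fin_par (by omega) hpar) hok
  obtain ⟨X, hX⟩ : ∃ X : ℝ, X = (c : ℝ) * K ^ c := ⟨_, rfl⟩
  rw [← hX]
  obtain ⟨K', hK'⟩ : ∃ K' : ℝ, K' = ((c1 : ℝ) + 2) * K ^ (c1 + 1) := ⟨_, rfl⟩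
  obtain ⟨Z, hZ⟩ : ∃ Z : ℝ, Z = (c2 : ℝ) * K' ^ c2 := ⟨_, rfl⟩
  have hZ' : Z = (z : ℝ) * K ^ e := by
    rw [hZ, hK', hz, he, mul_pow, ← pow_mul]
    push_cast
    ring
  have hZ0 : 0 ≤ Z := by rw [hZ']; positivity
  have hKp : ∀ n : ℕ, 1 ≤ K ^ n := fun n => one_le_pow₀ hK
  have hc1K : (c1 : ℝ) * K ^ c1 ≤ K' := by
    rw [hK']
    refine mul_le_mul (by linarith) (pow_le_pow_right₀ hK (Nat.le_succ _)) (by positivity) (by positivity)
  have h2K : 2 * K ≤ K' := by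
    rw [hK']
    have h0 : (0 : ℝ) ≤ c1 := Nat.cast_nonneg _
    refine mul_le_mul (by linarith) ?_ hK0.le (by positivity)
    calc K = K ^ 1 := (pow_one K).symm
      _ ≤ K ^ (c1 + 1) := pow_le_pow_right₀ hK (by omega)
  have hK'1 : 1 ≤ K' := by linarith
  -- the five bounds
  have b1 : Z ≤ X := by
    rw [hZ', hX]
    exact k6a5_fin_bd z e c (by omega) (by omega) K hK
  have b2 : Z * ((m : ℝ) * K) ^ (m * M) ≤ X := by
    have : Z * ((m : ℝ) * K) ^ (m * M) = ((z * m ^ (m * M) : ℕ) : ℝ) * K ^ (e + m * M) := by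
      rw [hZ', mul_pow, pow_add]
      push_cast
      ring
    rw [this, hX]
    exact k6a5_fin_bd _ _ c (by omega) (by omega) K hK
  have b3 : (c1 : ℝ) * K ^ c1 * Z ≤ X := by
    have : (c1 : ℝ) * K ^ c1 * Z = ((c1 * z : ℕ) : ℝ) * K ^ (c1 + e) := by
      rw [hZ', pow_add]
      push_cast
      ring
    rw [this, hX]
    exact k6a5_fin_bd _ _ c (by omega) (by omega) K hK
  have b4 : 1 + Z * ((c1 : ℝ) * K ^ c1 + (m : ℝ) * M * 2 ^ (m * M)) ≤ X := by
    have h3 : 1 + Z * ((c1 : ℝ) * K ^ c1 + (m : ℝ) * M * 2 ^ (m * M))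
        ≤ ((1 + z * (c1 + m * M * 2 ^ (m * M)) : ℕ) : ℝ) * K ^ (e + c1) := by
      rw [hZ', pow_add]
      push_cast
      have q1 := hKp e
      have q2 := hKp c1
      have q3 : (1 : ℝ) ≤ K ^ e * K ^ c1 := by nlinarith
      have q4 : (z : ℝ) * K ^ e * ((m : ℝ) * M * 2 ^ (m * M)) ≤ (z : ℝ) * K ^ e * ((m : ℝ) * M * 2 ^ (m * M)) * K ^ c1 :=
        le_mul_of_one_le_right (by positivity) q2
      nlinarith
    refine h3.trans ?_
    rw [hX]
    exact k6a5_fin_bd _ _ c (by omega) (by omega) K hK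
  have hX1 : 1 ≤ X := by
    refine le_trans ?_ b4
    have : 0 ≤ Z * ((c1 : ℝ) * K ^ c1 + (m : ℝ) * M * 2 ^ (m * M)) := by positivity
    linarith
  have hXξ : X * ξ ≤ εT := by rw [hX]; exact hpar.ξ_εT
  have hξεT : ξ ≤ εT := le_trans (le_mul_of_one_le_left hξ.le hX1) hXξ
  have hξ1 : ξ ≤ 1 := hξεT.trans hpar.εT_le
  have hN0 : (0 : ℝ) < N0 := by
    by_contra h
    have h0 : (N0 : ℝ) = 0 := le_antisymm (not_lt.1 h) (Nat.cast_nonneg _)
    rw [h0, mul_zero] at ha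
    linarith
  have hξN : 0 < ξ * N0 := by positivity
  -- the grid
  have hlarge : (c2 : ℝ) * K' ^ c2 ≤ N0 := by
    rw [← hZ]
    calc Z ≤ X := b1
      _ = X * 1 := (mul_one X).symm
      _ ≤ X * (ξ * N0) := mul_le_mul_of_nonneg_left ha (by linarith)
      _ = (X * ξ) * N0 := by ring
      _ ≤ 1 * N0 := mul_le_mul_of_nonneg_right (hXξ.trans hpar.εT_le) hN0.le
      _ = N0 := one_mul _
  obtain ⟨P', Tg, hTgS, hdeg, hnm, hTgc, herr⟩ := h2 N0 S gval K' ((c1 : ℝ) * K ^ c1 * εT) hK'1 (by positivity)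
    (hj.trans (mul_le_mul_of_nonneg_right hc1K (Nat.cast_nonneg _))) (fun n hn a => (hf n hn a).trans h2K) hg hlarge
  rw [← hZ] at hnm hTgc herr
  -- the substitution
  have hL : ∀ i j, |((ξ * N0)⁻¹ • F.Bi) i j| ≤ K := by
    intro i j
    rw [Matrix.smul_apply, smul_eq_mul, abs_mul, abs_of_pos (inv_pos.2 hξN)]
    calc (ξ * N0)⁻¹ * |F.Bi i j| ≤ 1 * K := mul_le_mul (inv_le_one_of_one_le₀ ha) (hok.B_bd i j) (abs_nonneg _) zero_le_one
      _ = K := one_mul _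
  have hQ := fun a => k6a5_linsub m (m * M) (P' a) ((ξ * N0)⁻¹ • F.Bi) K hm (k6a5_fin_tdeg _ M (hdeg a)) hK hL
  choose Q hQd hQn hQe using hQ
  refine ⟨Q, T2.filter (fun s => gi s ∈ Tg), fun s hs => hcT (Finset.mem_filter.1 hs).1, hQd, fun a => ?_, ?_, ?_⟩
  · refine (hQn a).trans (le_trans ?_ b2)
    exact mul_le_mul_of_nonneg_right (hnm a) (by positivity)
  · -- the weight
    have w1 : (Tg.card : ℝ) * (θ * ξ ^ m) ≤ ∑ s ∈ T2.filter (fun s => gi s ∈ Tg), F.wt s := by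
      rw [← Finset.sum_fiberwise_of_maps_to (s := T2.filter (fun s => gi s ∈ Tg)) (g := gi) (t := Tg)
        (fun s hs => (Finset.mem_filter.1 hs).2), ← nsmul_eq_mul, ← Finset.sum_const]
      refine Finset.sum_le_sum fun n hn => (hi n (hTgS hn)).trans (le_of_eq ?_)
      congr 1
      ext s
      simp only [Finset.mem_filter]
      constructor
      · rintro ⟨q1, q2⟩
        exact ⟨⟨q1, q2 ▸ hn⟩, q2⟩
      · rintro ⟨⟨q1, -⟩, q2⟩
        exact ⟨q1, q2⟩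
    have hθ0 : 0 ≤ θ := by
      by_contra h
      have h0 : θ < 0 := not_le.1 h
      have : (c1 : ℝ) * K ^ c1 * θ ≤ 0 := mul_nonpos_of_nonneg_of_nonpos (by positivity) h0.le
      linarith
    have w2 : 1 ≤ Z * (Tg.card * ξ ^ m) := by
      have q1 : (1 : ℝ) ≤ (2 * (N0 : ℝ)) ^ m * ξ ^ m := by
        rw [← mul_pow]
        refine one_le_pow₀ ?_
        nlinarith
      calc (1 : ℝ) ≤ (2 * (N0 : ℝ)) ^ m * ξ ^ m := q1
        _ ≤ (Z * Tg.card) * ξ ^ m := mul_le_mul_of_nonneg_right hTgc (by positivity)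
        _ = _ := by ring
    have w3 : 1 ≤ ((c1 : ℝ) * K ^ c1 * Z) * ((Tg.card : ℝ) * (θ * ξ ^ m)) := by
      calc (1 : ℝ) = 1 * 1 := (one_mul 1).symm
        _ ≤ ((c1 : ℝ) * K ^ c1 * θ) * (Z * (Tg.card * ξ ^ m)) := mul_le_mul hh w2 zero_le_one (by positivity)
        _ = _ := by ring
    have w4 : 0 ≤ (Tg.card : ℝ) * (θ * ξ ^ m) := by positivity
    calc (1 : ℝ) ≤ _ := w3
      _ ≤ X * ((Tg.card : ℝ) * (θ * ξ ^ m)) := mul_le_mul_of_nonneg_right b3 w4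
      _ ≤ _ := mul_le_mul_of_nonneg_left w1 (by linarith)
  · -- the error
    intro s hs a
    rw [Finset.mem_filter] at hs
    obtain ⟨hs2, hsg⟩ := hs
    have hsT := hcT hs2
    rw [hQe a]
    obtain ⟨v, hv⟩ : ∃ v : Fin m → ℝ, v = ((ξ * N0)⁻¹ • F.Bi).mulVec (F.cs s) := ⟨_, rfl⟩
    rw [← hv]
    have hvj : ∀ j, v j = F.yc s j / (ξ * N0) := by
      intro j
      rw [hv, Matrix.smul_mulVec, Pi.smul_apply, smul_eq_mul, k6a5_Fd.yc]
      field_simp
    have hgp : ∀ j, k6a5_gp N0 (gi s j) = (⌊F.yc s j / ξ⌋ : ℝ) / N0 := by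
      intro j
      have q := hd s hsT j
      have q' : (((gi s j : ℕ) : ℤ) : ℝ) = ((F.cell ξ s j + (N0 : ℤ) : ℤ) : ℝ) := by rw [q]
      push_cast at q'
      unfold k6a5_gp
      rw [q']
      simp [k6a5_Fd.cell, k6a_cell]
    have hdiff : ∀ j, |v j - k6a5_gp N0 (gi s j)| ≤ ξ := by
      intro j
      rw [hvj, hgp]
      have q1 : (⌊F.yc s j / ξ⌋ : ℝ) ≤ F.yc s j / ξ := Int.floor_le _
      have q2 : F.yc s j / ξ < (⌊F.yc s j / ξ⌋ : ℝ) + 1 := Int.lt_floor_add_one _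
      have q3 : F.yc s j / (ξ * N0) - (⌊F.yc s j / ξ⌋ : ℝ) / N0 = (F.yc s j / ξ - (⌊F.yc s j / ξ⌋ : ℝ)) / N0 := by
        field_simp
      rw [q3, abs_div, abs_of_pos hN0, div_le_iff₀ hN0]
      rw [abs_of_nonneg (by linarith)]
      linarith
    have hgp1 : ∀ j, |k6a5_gp N0 (gi s j)| ≤ 2 := by
      intro j
      unfold k6a5_gp
      have q1 : (((gi s j : ℕ)) : ℝ) < 2 * N0 := by exact_mod_cast (gi s j).2
      have q2 : (0 : ℝ) ≤ ((gi s j : ℕ) : ℝ) := Nat.cast_nonneg _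
      rw [abs_div, abs_of_pos hN0, div_le_iff₀ hN0, abs_le]
      constructor <;> linarith
    have hgp1' : ∀ j, |k6a5_gp N0 (gi s j)| ≤ 1 := by
      intro j
      unfold k6a5_gp
      have q1 : (((gi s j : ℕ)) : ℝ) < 2 * N0 := by exact_mod_cast (gi s j).2
      have q2 : (0 : ℝ) ≤ ((gi s j : ℕ) : ℝ) := Nat.cast_nonneg _
      rw [abs_div, abs_of_pos hN0, div_le_iff₀ hN0, abs_le]
      constructor <;> linarith
    have hv2 : ∀ j, |v j| ≤ 2 := by
      intro j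
      have q : v j = (v j - k6a5_gp N0 (gi s j)) + k6a5_gp N0 (gi s j) := by ring
      rw [q]
      refine (abs_add_le _ _).trans ?_
      linarith [hdiff j, hgp1' j]
    have hnorm : ‖v - fun j => k6a5_gp N0 (gi s j)‖ ≤ ξ := (pi_norm_le_iff_of_nonneg hξ.le).2 fun j => hdiff j
    have e1 := (he' s hs2).2 a
    have e2 := herr (gi s) hsg a
    have e3 := k6a5_lip m M (P' a) (hdeg a) 2 (by norm_num) v (fun j => k6a5_gp N0 (gi s j)) hv2 hgp1
    have e4 : |MvPolynomial.eval v (P' a) - MvPolynomial.eval (fun j => k6a5_gp N0 (gi s j)) (P' a)|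
        ≤ Z * ((m : ℝ) * M) * 2 ^ (m * M) * εT := by
      refine e3.trans ?_
      refine mul_le_mul ?_ (hnorm.trans hξεT) (norm_nonneg _) (by positivity)
      refine mul_le_mul_of_nonneg_right ?_ (by positivity)
      exact mul_le_mul_of_nonneg_right (hnm a) (by positivity)
    have e5 : F.G s a - MvPolynomial.eval v (P' a) = (F.G s a - gval (gi s) a)
        + (gval (gi s) a - MvPolynomial.eval (fun j => k6a5_gp N0 (gi s j)) (P' a))
        - (MvPolynomial.eval v (P' a) - MvPolynomial.eval (fun j => k6a5_gp N0 (gi s j)) (P' a)) := by ring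
    rw [e5]
    calc _ ≤ |(F.G s a - gval (gi s) a) + (gval (gi s) a - MvPolynomial.eval (fun j => k6a5_gp N0 (gi s j)) (P' a))|
          + |MvPolynomial.eval v (P' a) - MvPolynomial.eval (fun j => k6a5_gp N0 (gi s j)) (P' a)| := abs_sub _ _
      _ ≤ (|F.G s a - gval (gi s) a| + |gval (gi s) a - MvPolynomial.eval (fun j => k6a5_gp N0 (gi s j)) (P' a)|)
          + |MvPolynomial.eval v (P' a) - MvPolynomial.eval (fun j => k6a5_gp N0 (gi s j)) (P' a)| :=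
          add_le_add (abs_add_le _ _) le_rfl
      _ ≤ (εT + Z * ((c1 : ℝ) * K ^ c1 * εT)) + Z * ((m : ℝ) * M) * 2 ^ (m * M) * εT := add_le_add (add_le_add e1 e2) e4
      _ = (1 + Z * ((c1 : ℝ) * K ^ c1 + (m : ℝ) * M * 2 ^ (m * M))) * εT := by ring
      _ ≤ X * εT := mul_le_mul_of_nonneg_right b4 hεT.le

end Claimed.Agent.R252
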