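import Claimed.Agent.R252.S6a.Contract
import Claimed.Agent.R252.S6b.SwitchDefs

/-!
# Row252, unit S6a, layer 5 (post BP-252-S6a5, sub-architect helper274; prefix `k6a5_`).
# CARTESIAN INTERPOLATION OF THE PHYSICAL FIELD.   DEFINITIONS AND STATEMENTS
(every statement is a `def ..._stmt : Prop`; no `sorry`; a leaf proves `theorem k6a5_<name> : k6a5_<name>_stmt` in ITS OWN file `R252/S6a/L5<Name>.lean`).

Paper: 06-isotropic.tex l.880-1112.   ONE packet `Q = Q_s`, ONE block, ONE scale, explicit slack `K ≥ 1`, conclusions `c * K ^ c` with `c = c(m, M)`.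

NORMALISED UNITS (the same as in `S6b/SwitchDefs.lean`).  Block time `τ ∈ [0,1]`; base `u = (z - z_c)/h ∈ ℝ^m`, `m = 1 + j`; the coordinate `i0` of `u` IS the time `τ`;
a line moves as `pos (l,τ) = u0 l + τ • vel l`, `vel l = (1, V)`; signal `x = X/h = xc 0 + xc 1 τ + xc 2 τ²`; prior `nu = ν / ν_Q` on the lines of `Q`;
states `𝒟 = W_b`-cells inside `Q` (`St`), row `G : St → ℝ^m`, base centre `cs : St → ℝ^m`;  `β = K b/h`, `pv` = width of the (very fine) velocity bins, `ξ` = step of the product grid,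
`εq = h^M` (error of the qualification), `εT = h^{p_*-1+α}`.     `Prep ⊆ Ref` = the incidence sets of `Λ_prep ≤ Λ_ref` in `Q`, `Un` = the unqualified incidences `U_N`.

THE CHAIN OF THE LAYER
  `k6a5_tuple` (product sampling + palette: one tuple of velocity bins with qualified spanning witnesses in states of mass `≥ 1/K`)
  → `k6a5_fin` (FINITE core: states with weights + one witness line with its polynomial fit per state and direction ⟹ polynomial row `P`, (6.27))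
       = `k6a5_fibre_geom` + `k6a5_net` → `k6a5_fibre_labels`;  + `k6a5_pigeon` → `k6a5_select`;  `k6a5_grid` (anchors + tensor Lagrange);  `k6a5_linsub`, `k6a5_lip` (transfer)
  → `k6a5_interp` = (6.27) in the packet model;   `k6a5_line` = (6.28);   `k6a5_cells` + `k6a5_desc` = (6.29);   `k6a5_sw` = the switching system of S6b part C with all its hypotheses.
SIMPLIFICATIONS w.r.t. the paper: (1) coefficient BINS are replaced by NETS (a maximal separated family of actual fits, `k6a5_net`);  (2) the random choice of bins is replaced by `m + 1` successive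
pigeonholes (`k6a5_pigeon`): first the field bin in every grid cell, then for `i = 1..m` the net member on every fibre of direction `i`.
-/

set_option autoImplicit false

namespace Claimed.Agent.R252

open MeasureTheory
open scoped ENNReal BigOperators Classical

noncomputable section

/-! ## 0. General leaves -/

/-- the tuple `J` of bins has a spanning witness outside `Bad` in the state `s` -/
def k6a5_Wit {m : ℕ} {Ω St Bn : Type} (st : Ω → St) (bin : Ω → Bn) (vel : Ω → Fin m → ℝ) (Bad : Set Ω) (δ : ℝ)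
    (J : Fin m → Bn) (s : St) : Prop :=
  ∃ e : Fin m → Ω, (∀ i, st (e i) = s ∧ bin (e i) = J i ∧ e i ∉ Bad) ∧ δ ≤ |Matrix.det (Matrix.of fun i => vel (e i))|

/-- **TUPLE** (l.952-960).  States `s ∈ Gd` in which (i) every strip `{|a · vel| ≤ w}`, `|a|_∞ ≥ 1`, has conditional probability `≤ c0`, (ii) `Bad` has conditional probability `≤ η`,
(iii) the conditional law of the bin is `≤ K pal`.  Then ONE tuple of bins has spanning witnesses outside `Bad` in states that carry `≥ 1/(2 K^{2m})` of the mass.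
PLAN.  Fix `s` with `μ_s = μ (st⁻¹ s) ≠ 0`, `P_s = μ_s⁻¹ • μ.restrict (st⁻¹ s)`.  `k6a_span_prob` (`S6a/Span.lean`) with `e = vel`, `η = w/m`, `c = 1 - c0`: a unit vector `u` has a coordinate `≥ 1/m`, so
`a = m • u` is admissible and `{|u·vel| < w/m} ⊆ {|a·vel| ≤ w}`.  So `Measure.pi P_s {det ≥ (w/m)^m/m!} ≥ (1-c0)^m ≥ 1 - m c0`; union bound: `{∃ i, e i ∈ Bad}` has measure `≤ m η`.  The remaining event `A_s`
(measure `≥ 1/2`) is covered by the boxes `∏ {bin = J i}` over the tuples `J` witnessed at `s`; `Measure.pi_pi`: each box has measure `≤ K^m ∏ pal (J i)`.  So `μ_s / 2 ≤ K^m ∑_J [J witnessed at s] ∏ pal (J i) μ_s`.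
Sum over `s ∈ Gd`, exchange the sums, `∑_J ∏ pal (J i) = (∑ pal)^m ≤ K^m` (`Finset.prod_univ_sum`), take the best `J` (`Finset.exists_max_image`; `Fin m → Bn` is nonempty because the mass is `≠ 0`). -/
def k6a5_tuple_stmt : Prop :=
  ∀ (m : ℕ) {Ω St Bn : Type} [MeasurableSpace Ω] [Fintype Bn] (μ : Measure Ω) [IsFiniteMeasure μ]
    (st : Ω → St) (bin : Ω → Bn) (vel : Ω → Fin m → ℝ) (Bad : Set Ω) (pal : Bn → ℝ≥0∞) (Gd : Finset St)
    (K c0 η : ℝ≥0∞) (w : ℝ), 1 ≤ m →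
    (∀ s, MeasurableSet (st ⁻¹' {s})) → (∀ J, MeasurableSet (bin ⁻¹' {J})) → Measurable vel → MeasurableSet Bad → 0 < w →
    (∀ s ∈ Gd, ∀ a : Fin m → ℝ, (∃ i, 1 ≤ |a i|) → μ (st ⁻¹' {s} ∩ {e | |a ⬝ᵥ vel e| ≤ w}) ≤ c0 * μ (st ⁻¹' {s})) →
    (∀ s ∈ Gd, μ (st ⁻¹' {s} ∩ Bad) ≤ η * μ (st ⁻¹' {s})) →
    (∀ s ∈ Gd, ∀ J, μ (st ⁻¹' {s} ∩ bin ⁻¹' {J}) ≤ K * pal J * μ (st ⁻¹' {s})) →
    ∑ J, pal J ≤ K → (m : ℝ≥0∞) * (c0 + η) ≤ 1 / 2 → ∑ s ∈ Gd, μ (st ⁻¹' {s}) ≠ 0 →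
    ∃ J : Fin m → Bn, ∑ s ∈ Gd, μ (st ⁻¹' {s}) ≤
      2 * K ^ (2 * m) * ∑ s ∈ Gd.filter (k6a5_Wit st bin vel Bad ((w / m) ^ m / (m.factorial : ℝ)) J), μ (st ⁻¹' {s})

/-- **NET** (l.975-995).  Polynomials which follow a time-only list of `≤ K0` values on witness sets of measure `≥ κ` have a net of `≤ 2 K0^{M+1}/κ^{M+1}` members.
PLAN.  Call a finset `N ⊆ ι` separated if for `i ≠ j ∈ N` some coefficient of `p i - p j` exceeds `sep = (M+1)(2/g)^M (2ε)`.  Then `p` is injective on `N` and `k6a_fibre_list` (`S6a/Fibre.lean`) applied to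
`polys = N.image p`, `Wt' q = Wt (a preimage of q in N)` bounds `N.card`.  Take a separated `N` of maximal cardinality (`Nat.findGreatest`, or strong induction on the bound minus the cardinality);
if some `i` were `sep`-far from all members, `insert i N` would be separated. -/
def k6a5_net_stmt : Prop :=
  ∀ (M : ℕ) {ι : Type} (p : ι → Polynomial ℝ) (Wt : ι → Set ℝ) (κ ε g : ℝ) (Φ : ℝ → Finset ℝ) (K0 : ℕ),
    (∀ i, (p i).natDegree ≤ M) → (∀ i, MeasurableSet (Wt i)) → (∀ i, Wt i ⊆ Set.Icc 0 1) → 0 < κ →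
    (∀ i, κ ≤ (volume (Wt i)).toReal) → (∀ t, (Φ t).card ≤ K0) →
    (∀ i, ∀ t ∈ Wt i, ∃ φ ∈ Φ t, |(p i).eval t - φ| ≤ ε) → 0 < g → ((M : ℝ) + 1) ^ 2 * g ≤ κ ^ (M + 1) / 2 →
    ∃ N : Finset ι, (N.card : ℝ) * (κ ^ (M + 1) / 2) ≤ (K0 : ℝ) ^ (M + 1) ∧
      ∀ i, ∃ j ∈ N, ∀ k, |(p i).coeff k - (p j).coeff k| ≤ ((M : ℝ) + 1) * (2 / g) ^ M * (2 * ε)

/-- **PIGEON** (replaces the random choice l.997-1005).  In every class at most `k` labels occur: one label per class can be chosen so that `1/k` of the weight survives.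
PLAN.  `ch c` = a label of maximal weight among the labels occurring in the class `c` (default label if the class is empty); `Finset.sum_fiberwise` twice. -/
def k6a5_pigeon_stmt : Prop :=
  ∀ {S C L : Type} [Nonempty L] (T : Finset S) (wt : S → ℝ) (cl : S → C) (lb : S → L) (k : ℕ), (∀ s ∈ T, 0 ≤ wt s) →
    (∀ c, ((T.filter fun s => cl s = c).image lb).card ≤ k) →
    ∃ ch : C → L, ∑ s ∈ T, wt s ≤ k * ∑ s ∈ T.filter (fun s => lb s = ch (cl s)), wt s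

/-- **LINSUB** linear substitution in a polynomial.   PLAN: `Q = bind₁ (fun i => ∑ j, C (L i j) * X j) P`; `k6b_nm_*` of `S6b/Form.lean` (`k6b_sub_norm` is the case `m = 3`, homogeneous). -/
def k6a5_linsub_stmt : Prop :=
  ∀ (m D : ℕ) (P : MvPolynomial (Fin m) ℝ) (L : Matrix (Fin m) (Fin m) ℝ) (Λ : ℝ), 1 ≤ m → P.totalDegree ≤ D → 1 ≤ Λ →
    (∀ i j, |L i j| ≤ Λ) →
    ∃ Q : MvPolynomial (Fin m) ℝ, Q.totalDegree ≤ D ∧ rmzNm Q ≤ rmzNm P * ((m : ℝ) * Λ) ^ D ∧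
      ∀ u, MvPolynomial.eval u Q = MvPolynomial.eval (L.mulVec u) P

/-- **LIP** a polynomial is Lipschitz on a box.   PLAN: monomial by monomial, `|∏ x_i^{k_i} - ∏ y_i^{k_i}| ≤ (∑ k_i) L^{∑ k_i} ‖x - y‖` (telescoping; induction on the finset of variables). -/
def k6a5_lip_stmt : Prop :=
  ∀ (n d : ℕ) (P : MvPolynomial (Fin n) ℝ), (∀ i, P.degreeOf i ≤ d) → ∀ (L : ℝ), 1 ≤ L → ∀ x y : Fin n → ℝ,
    (∀ i, |x i| ≤ L) → (∀ i, |y i| ≤ L) →
    |MvPolynomial.eval x P - MvPolynomial.eval y P| ≤ rmzNm P * ((n : ℝ) * d) * L ^ (n * d) * ‖x - y‖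

/-! ## 1. The finite core -/

/-- **finite data of the interpolation problem**: states `s ∈ T` with weights, base centres and rows; the directions = the COLUMNS of `A0` (`Bi` = its inverse);
for every state and direction `i` a witness line `τ ↦ u0 s i + τ • vel s i`, its witness time `tw`, its polynomial fit (component `a` of the row: `fit s i a`), the fit times `Wt s i`,
and the row `Gt s i τ` of the state which the witness line visits at the time `τ`. -/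
structure k6a5_Fd (m : ℕ) where
  St : Type
  T : Finset St
  wt : St → ℝ
  cs : St → Fin m → ℝ
  G : St → Fin m → ℝ
  A0 : Matrix (Fin m) (Fin m) ℝ
  Bi : Matrix (Fin m) (Fin m) ℝ
  i0 : Fin m
  u0 : St → Fin m → Fin m → ℝ
  vel : St → Fin m → Fin m → ℝ
  tw : St → Fin m → ℝ
  fit : St → Fin m → Fin m → Polynomial ℝ
  Wt : St → Fin m → Set ℝ
  Gt : St → Fin m → ℝ → Fin m → ℝ

namespace k6a5_Fd

variable {m : ℕ} (F : k6a5_Fd m)

/-- the witness line -/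
def ln (s : F.St) (i : Fin m) (τ : ℝ) : Fin m → ℝ := F.u0 s i + τ • F.vel s i

/-- product-grid coordinates of a state -/
def yc (s : F.St) : Fin m → ℝ := F.Bi.mulVec (F.cs s)

/-- the cell of the product grid of step `ξ` -/
def cell (ξ : ℝ) (s : F.St) : Fin m → ℤ := k6a_cell ξ (F.yc s)

/-- the point at time `τ` of the grid fibre of direction `i` through the corner of the cell `n` -/
def fib (ξ : ℝ) (i : Fin m) (n : Fin m → ℤ) (τ : ℝ) : Fin m → ℝ :=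
  F.A0.mulVec fun j => if j = i then τ - ∑ k ∈ Finset.univ.erase i, ξ * (n k : ℝ) else ξ * (n j : ℝ)

/-- the hypotheses of the finite core -/
structure Ok (M : ℕ) (K β pv r0 εq εT : ℝ) (K0 : ℕ) : Prop where
  wt_nonneg : ∀ s, 0 ≤ F.wt s
  inv : F.A0 * F.Bi = 1
  A_bd : ∀ a i, |F.A0 a i| ≤ K
  B_bd : ∀ i a, |F.Bi i a| ≤ K
  A_time : ∀ i, F.A0 F.i0 i = 1
  cs_bd : ∀ s ∈ F.T, ‖F.cs s‖ ≤ K
  G_bd : ∀ s ∈ F.T, ‖F.G s‖ ≤ K
  ln_time : ∀ s ∈ F.T, ∀ i, F.u0 s i F.i0 = 0 ∧ F.vel s i F.i0 = 1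
  ln_vel : ∀ s ∈ F.T, ∀ i a, |F.vel s i a - F.A0 a i| ≤ pv
  ln_at : ∀ s ∈ F.T, ∀ i, ‖F.ln s i (F.tw s i) - F.cs s‖ ≤ β
  tw_mem : ∀ s ∈ F.T, ∀ i, F.tw s i ∈ F.Wt s i
  Gt_tw : ∀ s ∈ F.T, ∀ i, F.Gt s i (F.tw s i) = F.G s
  Wt_meas : ∀ s ∈ F.T, ∀ i, MeasurableSet (F.Wt s i)
  Wt_sub : ∀ s ∈ F.T, ∀ i, F.Wt s i ⊆ Set.Icc 0 1
  Wt_vol : ∀ s ∈ F.T, ∀ i, 1 ≤ K * (volume (F.Wt s i)).toReal
  fit_deg : ∀ s ∈ F.T, ∀ i a, (F.fit s i a).natDegree ≤ M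
  fit_bd : ∀ s ∈ F.T, ∀ i a k, |(F.fit s i a).coeff k| ≤ K
  fit_err : ∀ s ∈ F.T, ∀ i, ∀ τ ∈ F.Wt s i, ∀ a, |F.Gt s i τ a - (F.fit s i a).eval τ| ≤ εq
  /-- base-only field lists, radius `r0`, width `εT` -/
  lists : ∀ c : Fin m → ℝ, ∃ L : Finset (Fin m → ℤ), L.card ≤ K0 ∧
    ∀ s ∈ F.T, ∀ i, ∀ τ ∈ F.Wt s i, ‖F.ln s i τ - c‖ ≤ r0 → k6a_cell εT (F.Gt s i τ) ∈ L
  /-- base ceiling -/
  ceil : ∀ (c : Fin m → ℝ) (r : ℝ), 0 ≤ r → ∑ s ∈ F.T.filter (fun s => ‖F.cs s - c‖ ≤ r), F.wt s ≤ K * (r + β) ^ m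
  mass : 1 ≤ K * ∑ s ∈ F.T, F.wt s

/-- the standing inequalities between the parameters (`cc` = the constant of the statement at hand) -/
structure Par (cc : ℕ) (K β pv ξ r0 εq εT : ℝ) (K0 : ℕ) : Prop where
  K_one : 1 ≤ K
  K0_le : (K0 : ℝ) ≤ K
  β_nonneg : 0 ≤ β
  pv_nonneg : 0 ≤ pv
  ξ_pos : 0 < ξ
  fine : β + pv ≤ ξ
  εq_nonneg : 0 ≤ εq
  εq_le : εq ≤ εT
  εT_pos : 0 < εT
  εT_le : εT ≤ 1
  ξ_r0 : (cc : ℝ) * K ^ cc * ξ ≤ r0
  ξ_εT : (cc : ℝ) * K ^ cc * ξ ≤ εT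

end k6a5_Fd

theorem k6a5_defs_cite1 : True := by
  have := @k6a5_Wit.eq_1
  have := @k6a5_Fd.ln.eq_1
  have := @k6a5_Fd.yc.eq_1
  have := @k6a5_Fd.cell.eq_1
  have := @k6a5_Fd.fib.eq_1
  trivial

/-- normalised coordinate in `[-1,1)` of the index `x` of a grid with `2 N0` points per axis -/
def k6a5_gp (N0 : ℕ) (x : Fin (2 * N0)) : ℝ := (((x : ℕ) : ℝ) - N0) / N0

/-- **FGEO** (l.980-984) a witness line stays near the grid fibre of its state during the whole block.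
PLAN.  `y(τ) = Bi (ln τ)`, `ln τ = ln tw + (τ - tw) vel`.  `Bi * A0 = 1` (`Matrix.mul_eq_one_comm`).  `Bi vel = e_i + Bi (vel - A0 e_i)`, error `≤ m K pv` per coordinate; `Bi (ln tw) = yc s + O(m K β)`;
`0 ≤ yc s j - ξ n_j < ξ` (`Int.floor`).  So for `j ≠ i`: `|y_j(τ) - ξ n_j| ≤ e := ξ + m K (β + pv)`.  The row `i0` of `A0` is `1`, so `∑_j y_j(τ) = (A0 y(τ))_{i0} = (ln τ)_{i0} = τ`, hence the `i`-th coordinates differ
by `≤ (m-1) e`.  Apply `A0`: `≤ m K * m e`. -/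
def k6a5_fibre_geom_stmt : Prop :=
  ∀ (m M : ℕ) (F : k6a5_Fd m) (K β pv ξ r0 εq εT : ℝ) (K0 : ℕ), 1 ≤ K → 0 ≤ β → 0 ≤ pv → 0 < ξ →
    F.Ok M K β pv r0 εq εT K0 → ∀ s ∈ F.T, ∀ i, ∀ τ ∈ Set.Icc (0 : ℝ) 1,
      ‖F.ln s i τ - F.fib ξ i (F.cell ξ s) τ‖ ≤ (m : ℝ) ^ 3 * K ^ 2 * (ξ + β + pv)

/-- **FLAB** (l.975-995) fibre lists: every state gets, for each direction `i` and component `a`, a label `lb i s a` = a state of the same fibre whose fit is coefficientwise `c K^c εT`-close;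
on one fibre only `c K^c` labels occur.
PLAN.  Fix `i`, `a` and a fibre (= the values `n j`, `j ≠ i`); `ι` = the states of `T` on it.  By FGEO and `Par.ξ_r0` the witness line at `τ ∈ Wt` is within `r0` of `fib ξ i n τ`, which depends only on the fibre and `τ`
(`fib` does not read `n i`).  `Φ τ` = image of the list `L (fib .. τ)` of `Ok.lists` under `n ↦ εT * n a`; `|Gt a - εT ⌊Gt a/εT⌋| ≤ εT`.  `k6a5_net` with `κ = 1/K`, `ε = 2 εT`, `g = κ^{M+1}/(2 (M+1)²)`.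
The label of `s` = a net member near `fit s i a` (choice).  Labels per fibre `≤ (2 K0^{M+1} K^{M+1})^m`. -/
def k6a5_fibre_labels_stmt : Prop :=
  ∀ (m M : ℕ), 1 ≤ m → ∃ c : ℕ, ∀ (F : k6a5_Fd m) (K β pv ξ r0 εq εT : ℝ) (K0 : ℕ),
    k6a5_Fd.Par c K β pv ξ r0 εq εT K0 → F.Ok M K β pv r0 εq εT K0 →
    ∃ lb : Fin m → F.St → Fin m → F.St,
      (∀ i, ∀ s ∈ F.T, ∀ a, lb i s a ∈ F.T ∧
        ∀ k, |(F.fit s i a).coeff k - (F.fit (lb i s a) i a).coeff k| ≤ c * K ^ c * εT) ∧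
      ∀ (i : Fin m) (n : Fin m → ℤ),
        (((F.T.filter fun s => ∀ j, j ≠ i → F.cell ξ s j = n j).image (lb i)).card : ℝ) ≤ c * K ^ c

/-- the fibre property of a grid field: on every grid fibre the values on `S` follow one polynomial of degree `≤ M` within `ε` -/
def k6a5_FibP {m q : ℕ} (M N0 : ℕ) (S : Finset (Fin m → Fin (2 * N0))) (gval : (Fin m → Fin (2 * N0)) → Fin q → ℝ) (ε : ℝ) : Prop :=
  ∀ (a : Fin q) (i : Fin m) (n : Fin m → Fin (2 * N0)), ∃ p : Polynomial ℝ, p.natDegree ≤ M ∧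
    ∀ x, Function.update n i x ∈ S → |gval (Function.update n i x) a - p.eval (k6a5_gp N0 x)| ≤ ε

/-- **SELA** (l.997-1005) the `m + 1` successive pigeonholes.  `lb` = any labelling with few labels per fibre (FLAB).  Output: retained states `T1`, the chosen field bin `bn n` of every cell, the chosen label
`ch i n` of the fibre of direction `i` through `n` (read at `Function.update n i 0`).
PLAN.  (1) `k6a5_pigeon` on `T`, class = `cell ξ s`, label = `k6a_cell εT (G s)`; at most `K0` labels per class: `Ok.lists` with centre `A0.mulVec (fun j => ξ * n j)`, at `τ = tw s i0` (`Gt_tw`, `ln_at`; `cs s = A0 (yc s)` by `Ok.inv`,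
`|yc s j - ξ n j| ≤ ξ`, so `‖ln .. - centre‖ ≤ m K ξ + β ≤ r0`).  (2) induction over `Finset.univ.toList` of the directions (or over `k ≤ m` with `Fin` casts): `k6a5_pigeon` on the current set, class = `Function.update (cell ξ s) i 0`,
label = `lb i s`. -/
def k6a5_sela_stmt : Prop :=
  ∀ (m M : ℕ), 1 ≤ m → ∃ c : ℕ, ∀ (F : k6a5_Fd m) (K β pv ξ r0 εq εT : ℝ) (K0 kl : ℕ),
    k6a5_Fd.Par c K β pv ξ r0 εq εT K0 → F.Ok M K β pv r0 εq εT K0 →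
    ∀ lb : Fin m → F.St → Fin m → F.St,
      (∀ (i : Fin m) (n : Fin m → ℤ), ((F.T.filter fun s => ∀ j, j ≠ i → F.cell ξ s j = n j).image (lb i)).card ≤ kl) →
    ∃ (T1 : Finset F.St) (bn : (Fin m → ℤ) → Fin m → ℤ) (ch : Fin m → (Fin m → ℤ) → Fin m → F.St), T1 ⊆ F.T ∧
      (∀ s ∈ T1, k6a_cell εT (F.G s) = bn (F.cell ξ s) ∧ ∀ i, lb i s = ch i (Function.update (F.cell ξ s) i 0)) ∧
      ∑ s ∈ F.T, F.wt s ≤ (K0 : ℝ) * (kl : ℝ) ^ m * ∑ s ∈ T1, F.wt s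

/-- **SELB** (l.1006-1011) the row of a state is the value, at the grid time `∑_j ξ n_j` of its cell, of any polynomial which is coefficientwise close to its own fit.
PLAN.  `|G s a - (fit s i a)(tw)| ≤ εq` (`Gt_tw`, `fit_err`, `tw_mem`); `|(fit s i a - fit r i a)(tw)| ≤ (M+1) Ec` (`|tw| ≤ 1`, `Polynomial.eval_eq_sum_range'`); `tw = (ln s i tw)_{i0}` (`ln_time`), within `β` of `(cs s)_{i0} = ∑_j yc s j`
(`A_time`, `inv`), `|yc s j - ξ n_j| ≤ ξ`; so `|tw - ∑ ξ n_j| ≤ β + m ξ ≤ 1`; `|t^k - t'^k| ≤ k 2^k |t - t'|` on `[-2,2]`. -/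
def k6a5_selb_stmt : Prop :=
  ∀ (m M : ℕ) (F : k6a5_Fd m) (K β pv ξ r0 εq εT Ec : ℝ) (K0 : ℕ), 1 ≤ K → 0 ≤ β → 0 < ξ → β + m * ξ ≤ 1 → 0 ≤ Ec →
    F.Ok M K β pv r0 εq εT K0 → ∀ s ∈ F.T, ∀ r ∈ F.T, ∀ i a,
      (∀ k, |(F.fit s i a).coeff k - (F.fit r i a).coeff k| ≤ Ec) →
      |F.G s a - (F.fit r i a).eval (∑ j, ξ * (F.cell ξ s j : ℝ))| ≤
        εq + ((M : ℝ) + 1) * Ec + K * ((M : ℝ) + 1) ^ 2 * 2 ^ M * (β + m * ξ)

/-- **SELC** (l.1012-1016) deletion of the light cells; the remaining cells are a dense part of the grid.   `v` = ceiling of the weight of a cell, `W` = total weight, `n` cells in all.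
PLAN.  `S` = the cells of weight `≥ W/(2 n)`.  The other cells carry `≤ n * W/(2n)`.  So `W/2 ≤ ∑_{c ∈ S} weight ≤ S.card * v`. -/
def k6a5_selc_stmt : Prop :=
  ∀ {St Ce : Type} [Fintype Ce] (T1 : Finset St) (wt : St → ℝ) (gi : St → Ce) (v : ℝ), (∀ s ∈ T1, 0 ≤ wt s) →
    (∀ c, ∑ s ∈ T1.filter (fun s => gi s = c), wt s ≤ v) →
    ∃ S : Finset Ce, (∀ c ∈ S, (∑ s ∈ T1, wt s) / (2 * Fintype.card Ce) ≤ ∑ s ∈ T1.filter (fun s => gi s = c), wt s) ∧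
      (∑ s ∈ T1, wt s) / 2 ≤ S.card * v ∧
      (∑ s ∈ T1, wt s) / 2 ≤ ∑ s ∈ T1.filter (fun s => gi s ∈ S), wt s

/-- **SELECT** (l.997-1016) the grid field.   ASSEMBLY of FLAB, SELA, SELB, SELC.   Output: grid size `2 N0` per axis (`1 ≤ ξ N0 ≤ c K^c`), index map `gi` (= cell + `N0`), retained states `T2`, retained cells `S`, cell values `gval`.
PLAN.  `R = m K²` bounds `|yc s j|`; `N0 = ⌈R/ξ⌉₊ + 1`.   (1) `k6a5_pigeon`, classes = cells, label = `k6a_cell εT (G s)`: `≤ K0` labels per cell by `Ok.lists` at `τ = tw s i` (`Gt_tw`, `ln_at`; all states of a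
cell have `cs` within `m K ξ` of `A0 (ξ n)`).  (2) for `i = 1..m` (induction over a list of the directions): `k6a5_pigeon`, classes = fibres of direction `i`, label = `lb i s` of FLAB.  Weight left `≥ 1/(c K^c)`.
(3) `gval n = εT * (chosen bin)`.  (4) fibre property: for a retained `s` in the cell `n`, with `q = fit (chosen label a) i a`: `|G s a - (fit s i a)(tw)| ≤ εq`, `|(fit s i a - q)(tw)| ≤ (M+1) c K^c εT`,
`tw = (ln tw)_{i0}`, `|tw - ∑_j ξ n_j| ≤ β + m ξ` (`A_time`), `q` is Lipschitz `K M (M+1) 2^M` on `[-2,2]`; `p = q.comp (C t_φ + C (ξ N0) * X)`, `t_φ = ∑_{j≠i} ξ n_j`.  (5) delete the cells of weight `< θ ξ^m`,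
`θ = W/(2 (2 ξ N0)^m)`: loses `≤ W/2`.  (6) `Ok.ceil` with `c = A0 (ξ n)`, `r = m K ξ`: every cell weighs `≤ K ((m K + 1) ξ)^m`, so `S.card ≥ (W/2)/(K ((mK+1) ξ)^m)`. -/
def k6a5_select_stmt : Prop :=
  ∀ (m M : ℕ), 1 ≤ m → ∃ c : ℕ, ∀ (F : k6a5_Fd m) (K β pv ξ r0 εq εT : ℝ) (K0 : ℕ),
    k6a5_Fd.Par c K β pv ξ r0 εq εT K0 → F.Ok M K β pv r0 εq εT K0 →
    ∃ (N0 : ℕ) (gi : F.St → Fin m → Fin (2 * N0)) (T2 : Finset F.St) (S : Finset (Fin m → Fin (2 * N0)))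
      (gval : (Fin m → Fin (2 * N0)) → Fin m → ℝ) (θ : ℝ),
      1 ≤ ξ * N0 ∧ ξ * N0 ≤ c * K ^ c ∧ T2 ⊆ F.T ∧
      (∀ s ∈ F.T, ∀ j, (((gi s j : ℕ) : ℤ)) = F.cell ξ s j + (N0 : ℤ)) ∧
      (∀ s ∈ T2, gi s ∈ S ∧ ∀ a, |F.G s a - gval (gi s) a| ≤ εT) ∧
      (∀ n ∈ S, ∀ a, |gval n a| ≤ 2 * K) ∧ k6a5_FibP M N0 S gval (c * K ^ c * εT) ∧
      1 ≤ c * K ^ c * θ ∧ (∀ n ∈ S, θ * ξ ^ m ≤ ∑ s ∈ T2.filter (fun s => gi s = n), F.wt s) ∧
      (2 * (N0 : ℝ)) ^ m ≤ c * K ^ c * S.card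

/-- **GRID** (l.1017-1048) anchors and tensor Lagrange interpolation on a dense subset of a fine product grid.
PLAN.  `η = 1/K`, `E = (M+2)^m`, `N = 2 N0`, `g = ⌊η^E N/(8 m (M+1)²)⌋₊`; `k6a_anchor_selection` (`S6a/Anchor.lean`) gives anchors `α` with index gaps `> g` and `≥ η^E/2 * N^m` targets; `Tg` = the targets (`f = none` shows
`Tg ⊆ S`).  In the coordinates `k6a5_gp` the gaps are `≥ gap = η^E/(4 m (M+1)²)`.  `P a = ∑_f C (gval (α∘f) a) * ∏_j ℓ_{j, f j}(X j)`, where `ℓ_{j,k} = ∏_{k' ≠ k} (X j - C x_{k'}) * C (x_k - x_{k'})⁻¹`;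
`eval` of it is the expression of `k6a_tensor_interp` (`S6a/Tensor.lean`, `k6a_lag`), which gives the error `m ((M+1)(2/gap)^M + 1)^m ε`;  `rmzNm ≤ K (M+1)^m (2/gap)^{m M}` by `k6b_nm_sum/prod/mul` (`S6b/Form.lean`);
`degreeOf j ≤ M` (`MvPolynomial.degreeOf_sum_le`, `degreeOf_prod_le`, `degreeOf_mul_le`). -/
def k6a5_grid_stmt : Prop :=
  ∀ (m M q : ℕ), 1 ≤ m → ∃ c : ℕ, ∀ (N0 : ℕ) (S : Finset (Fin m → Fin (2 * N0))) (gval : (Fin m → Fin (2 * N0)) → Fin q → ℝ)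
    (K ε : ℝ), 1 ≤ K → 0 ≤ ε → (2 * (N0 : ℝ)) ^ m ≤ K * S.card → (∀ n ∈ S, ∀ a, |gval n a| ≤ K) →
    k6a5_FibP M N0 S gval ε → (c : ℝ) * K ^ c ≤ N0 →
    ∃ (P : Fin q → MvPolynomial (Fin m) ℝ) (Tg : Finset (Fin m → Fin (2 * N0))), Tg ⊆ S ∧
      (∀ a i, (P a).degreeOf i ≤ M) ∧ (∀ a, rmzNm (P a) ≤ c * K ^ c) ∧ (2 * (N0 : ℝ)) ^ m ≤ c * K ^ c * Tg.card ∧
      ∀ n ∈ Tg, ∀ a, |gval n a - MvPolynomial.eval (fun j => k6a5_gp N0 (n j)) (P a)| ≤ c * K ^ c * ε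

/-- **FIN = (6.27) for finite data.**
PLAN.  SELECT, then GRID with slack `max (2K) (c K^c)` (its largeness hypothesis follows from `1 ≤ ξ N0` and `Par.ξ_εT`, `εT ≤ 1`), `P'` in the coordinates `k6a5_gp`.   `P a = P' a ∘ ((ξ N0)⁻¹ • Bi)` by LINSUB
(`totalDegree ≤ m M` from `degreeOf ≤ M`).   `Sel = T2.filter (gi s ∈ Tg)`.   Weight: `∑_{Sel} wt ≥ Tg.card θ ξ^m ≥ θ (2 N0 ξ)^m/(c K^c) ≥ θ 2^m/(c K^c)`.   Error: `|G s - gval| ≤ εT`, GRID, and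
`|yc s j/(ξ N0) - gp (gi s j)| ≤ ξ/(ξ N0) ≤ ξ` with LIP on `[-2,2]^m`, `Par.ξ_εT`. -/
def k6a5_fin_stmt : Prop :=
  ∀ (m M : ℕ), 1 ≤ m → ∃ c : ℕ, ∀ (F : k6a5_Fd m) (K β pv ξ r0 εq εT : ℝ) (K0 : ℕ),
    k6a5_Fd.Par c K β pv ξ r0 εq εT K0 → F.Ok M K β pv r0 εq εT K0 →
    ∃ (P : Fin m → MvPolynomial (Fin m) ℝ) (Sel : Finset F.St), Sel ⊆ F.T ∧
      (∀ a, (P a).totalDegree ≤ m * M) ∧ (∀ a, rmzNm (P a) ≤ c * K ^ c) ∧
      1 ≤ c * K ^ c * ∑ s ∈ Sel, F.wt s ∧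
      ∀ s ∈ Sel, ∀ a, |F.G s a - MvPolynomial.eval (F.cs s) (P a)| ≤ c * K ^ c * εT

theorem k6a5_defs_cite2 : True := by
  have := @k6a5_gp.eq_1
  have := @k6a5_FibP.eq_1
  trivial

end

end Claimed.Agent.R252
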