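import Claimed.Agent.R252.S6a.L5Defs
import Claimed.Agent.R252.S6a.Hubs

/-!
# Row252, unit S6a, layer 5 (post BP-252-S6a5, sub-architect helper274; prefix `k6a5_`).
# FROM THE RECORD `K6aDat` (S6a/Layers.lean) TO THE FINITE CORE (S6a/L5Defs.lean) AND BACK.   DEFINITIONS AND STATEMENTS
(every statement is a `def ..._stmt : Prop`; no `sorry`; a leaf proves `theorem k6a5_<name> : k6a5_<name>_stmt` in ITS OWN file `R252/S6a/L5<Name>.lean`).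

TARGET: `k6a_hub_field_stmt` (S6a/Hubs.lean).      Paper: 06-isotropic.tex l.880-1112.
CHAIN.  1. PREP  (l.905-945): delete WHOLE states `𝒟 = (Q_s, W_b)` (`k6a5_st`) of the reference family `E` : the narrow ones (`k6a5_prep_narrow`), the ones with a light denominator (`k6a5_prep_pal`), the ones
           with a fraction `> η0` of unqualified incidences (`k6a5_prep_markov`).   `Ep` = the rest: `k6a5_Prep`.      (So ALL states of `Ep` are good states; nothing else of `Λ_prep` is used later.)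
        2. PICK  (l.946-950): a packet `q` with `prior (Ep ∩ inc q) ≥ (e/4) H ν_Q`.
        3. BUILD (l.951-975): `k6a5_tuple` fixes the tuple of velocity bins; witnesses + their qualification polynomials are chosen; `k6a5_mk` = the finite data; `k6a5_build` : `(k6a5_mk ..).Ok`.
        4. `k6a5_fin` gives `P`, `Sel`;  `Es = Ep ∩ inc q ∩ {wc nb ∈ Sel}`;   `k6a5_line` = (6.28), `k6a5_support` = (6.29), `k6a5_scales` + `k6a5_slack` = the arithmetic of the scales.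
UNITS.  `H = Pk.H`, `tq` = left end of the block, `τ = (t - tq)/H`, `u = k6aU H zc (t, y)`, `zc = (tq, yc0 + tq yc1)`; coordinate `0` of `u` is `τ`.
-/

set_option autoImplicit false

namespace Claimed.Agent.R252

open MeasureTheory
open scoped ENNReal BigOperators Classical

noncomputable section

variable {j : ℕ}

/-! ## 0. Definitions -/

/-- the state `𝒟 = (Q_s, W_b)` of an incidence -/
def k6a5_st {D : K6aDat j} (Pk : K6aPk D) (nb : ℕ) (e : D.L × ℝ) : Pk.Q × K6aWc j := (Pk.ofLab (D.lab e), D.wc nb e)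

/-- left end point of the block of a packet -/
def k6a5_tq {D : K6aDat j} (Pk : K6aPk D) (q : Pk.Q) : ℝ := (Pk.iv q : ℝ) * Pk.H

/-- the origin of the block-normalised coordinates -/
def k6a5_zc {D : K6aDat j} (Pk : K6aPk D) (q : Pk.Q) : ℝ × (Fin j → ℝ) :=
  (k6a5_tq Pk q, Pk.yc0 q + k6a5_tq Pk q • Pk.yc1 q)

/-- block-normalised coordinates in the packet `q` -/
def k6a5_u {D : K6aDat j} (Pk : K6aPk D) (q : Pk.Q) (z : ℝ × (Fin j → ℝ)) : Fin (j + 1) → ℝ := k6aU Pk.H (k6a5_zc Pk q) z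

/-- a row (or a lifted velocity) as a vector of `ℝ^(j+1)` -/
def k6a5_vec (g : K6aRow j) : Fin (j + 1) → ℝ := Fin.cons g.1 g.2

/-- the corner of the base cell of a physical cell of level `nb` -/
def k6a5_corner (nb : ℕ) (c : K6aWc j) : ℝ × (Fin j → ℝ) := ((c.1.1 : ℝ) * k6aW nb, fun a => (c.1.2 a : ℝ) * k6aW nb)

/-- the corner of a velocity bin of level `nv`, lifted -/
def k6a5_vcen (nv : ℕ) (J : Fin j → ℤ) : Fin (j + 1) → ℝ := Fin.cons 1 fun a => (J a : ℝ) * k6aW nv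

/-- **the prepared family** : whole states of `E`, each of them broad (not `κp`-narrow), with palette domination `Kd`, and with a fraction `≤ η0` of unqualified incidences -/
structure k6a5_Prep (D : K6aDat j) (Pk : K6aPk D) (nb nv : ℕ) (Kd κp w η0 : ℝ) (E U Ep : Set (D.L × ℝ)) : Prop where
  meas : MeasurableSet Ep
  sub : Ep ⊆ E
  whole : ∀ x ∈ Ep, ∀ x' ∈ E, k6a5_st Pk nb x' = k6a5_st Pk nb x → x' ∈ Ep
  broad : ∀ x ∈ Ep, ¬ K6aNarrow D E (k6a5_st Pk nb) κp w (k6a5_st Pk nb x)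
  dom : ∀ x ∈ Ep, ∀ J : Fin j → ℤ,
    D.prior (E ∩ k6a5_st Pk nb ⁻¹' {k6a5_st Pk nb x} ∩ {e | D.vb nv e.1 = J})
      ≤ ENNReal.ofReal Kd * D.pal (k6aCube nv J) * D.prior (E ∩ k6a5_st Pk nb ⁻¹' {k6a5_st Pk nb x})
  good : ∀ x ∈ Ep, D.prior (U ∩ k6a5_st Pk nb ⁻¹' {k6a5_st Pk nb x})
      ≤ ENNReal.ofReal η0 * D.prior (E ∩ k6a5_st Pk nb ⁻¹' {k6a5_st Pk nb x})

/-- the fit times (normalised) of the line `l` for the polynomial row `a` -/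
def k6a5_Wt (D : K6aDat j) (Pk : K6aPk D) (q : Pk.Q) (nb M : ℕ) (η : ℝ) (E : Set (D.L × ℝ)) (g : K6aWc j → K6aRow j)
    (l : D.L) (a : Fin (M + 1) → K6aRow j) : Set ℝ :=
  {τ | τ ∈ Set.Ico (0 : ℝ) 1 ∧ (l, k6a5_tq Pk q + Pk.H * τ) ∈ E ∧
    ‖g (D.wc nb (l, k6a5_tq Pk q + Pk.H * τ)) - k6aPoly a (k6a5_tq Pk q + Pk.H * τ)‖ ≤ η}

/-- the component `b` of the polynomial row `a`, in the normalised time -/
def k6a5_fitP {D : K6aDat j} (Pk : K6aPk D) (q : Pk.Q) {M : ℕ} (a : Fin (M + 1) → K6aRow j) (b : Fin (j + 1)) : Polynomial ℝ :=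
  ∑ r : Fin (M + 1), Polynomial.C (k6a5_vec (a r) b) * (Polynomial.C (k6a5_tq Pk q) + Polynomial.C Pk.H * Polynomial.X) ^ (r : ℕ)

/-- **the finite data** built from a packet, a finite set `T` of cells `W_b`, the matrix of the directions and its inverse, and the chosen witnesses: line `wl c i`, normalised time `wτ c i`, polynomial row `cf c i` -/
def k6a5_mk (D : K6aDat j) (Pk : K6aPk D) (q : Pk.Q) (nb M : ℕ) (η : ℝ) (E Ep : Set (D.L × ℝ)) (g : K6aWc j → K6aRow j)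
    (T : Finset (K6aWc j)) (A0 Bi : Matrix (Fin (j + 1)) (Fin (j + 1)) ℝ) (wl : K6aWc j → Fin (j + 1) → D.L)
    (wτ : K6aWc j → Fin (j + 1) → ℝ) (cf : K6aWc j → Fin (j + 1) → Fin (M + 1) → K6aRow j) : k6a5_Fd (j + 1) where
  St := K6aWc j
  T := T
  wt := fun c => (D.prior (Ep ∩ Pk.inc q ∩ D.wc nb ⁻¹' {c})).toReal / (Pk.H * (Pk.νQ q).toReal)
  cs := fun c => k6a5_u Pk q (k6a5_corner nb c)
  G := fun c => k6a5_vec (g c)
  A0 := A0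
  Bi := Bi
  i0 := 0
  u0 := fun c i => k6a5_u Pk q (k6a5_tq Pk q, D.y (wl c i) (k6a5_tq Pk q))
  vel := fun c i => k6a5_vec (1, D.V (wl c i))
  tw := wτ
  fit := fun c i b => k6a5_fitP Pk q (cf c i) b
  Wt := fun c i => k6a5_Wt D Pk q nb M η E g (wl c i) (cf c i)
  Gt := fun c i τ => k6a5_vec (g (D.wc nb (wl c i, k6a5_tq Pk q + Pk.H * τ)))

theorem k6a5_glue_cite : True := by
  have := @k6a5_st.eq_1
  have := @k6a5_tq.eq_1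
  have := @k6a5_zc.eq_1
  have := @k6a5_u.eq_1
  have := @k6a5_vec.eq_1
  have := @k6a5_corner.eq_1
  have := @k6a5_vcen.eq_1
  have := @k6a5_Wt.eq_1
  have := @k6a5_fitP.eq_1
  have := @k6a5_mk.eq_1
  trivial

/-! ## 1. PREP -/

/-- **PREPN** the `2 κb`-narrow states `(Q_s, W_b)` of `E` carry mass `≤ δ/κb`.
PLAN.  `k6a5_st Pk nb = f ∘ D.ms n0`, `f (a, c) = (Pk.ofLab a, coarsening of c)`: bins are nested, `⌊x 2^nb⌋ = ⌊x 2^n0⌋ / 2^(n0-nb)` (`Int.ediv`; `Int.floor_div_natCast` / `Int.le_ediv_iff_mul_le`).  `k6a_brd_coarse_stmt` with `κ = κb`,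
`κ' = 2 κb`, then the definition of `K6aBrd` with `E' = E`. -/
def k6a5_prep_narrow_stmt : Prop :=
  k6a_brd_coarse_stmt → ∀ (j : ℕ) (D : K6aDat j) (Pk : K6aPk D) (K κb w δ : ℝ) (n0 nb : ℕ) (E : Set (D.L × ℝ)),
    D.WF K → MeasurableSet E → nb ≤ n0 → 0 ≤ δ → 0 < κb → K6aBrd D E (D.ms n0) κb w δ →
    D.prior (E ∩ {e | K6aNarrow D E (k6a5_st Pk nb) (2 * κb) w (k6a5_st Pk nb e)}) ≤ ENNReal.ofReal (δ / κb)

/-- **PREPP** conditional palette domination after the deletion of the light states.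
PLAN.  `f` as in PREPN.  `m0' s = ∑' σ, if f σ = s then m0 σ else 0`; `∑' s, m0' s ≤ K` (`K6aPhys.m0_sum`, `ENNReal.tsum_le_of_sum_le`-type argument, `ENNReal.tsum_comm`).  `Lt = {s | Kc * prior (E ∩ st⁻¹ s) < m0' s}`.
Loss: `prior (E ∩ st⁻¹ Lt) = ∑'_{s ∈ Lt} prior (E ∩ st⁻¹ s) ≤ ∑' m0' s / Kc` (`measure_iUnion` over the countable type of states).  For `s ∉ Lt`: `prior (E ∩ st⁻¹ s ∩ J) = ∑'_{σ → s} prior (E ∩ ms⁻¹ σ ∩ J) ≤ K pal J m0' s`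
(`K6aPhys.joint` at the level `nv`). -/
def k6a5_prep_pal_stmt : Prop :=
  ∀ (j : ℕ) (D : K6aDat j) (Pk : K6aPk D) (d K Kc : ℝ) (n0 nb nv : ℕ) (E : Set (D.L × ℝ)) (Lc : Set D.L)
    (m0 : D.Lb × K6aWc j → ℝ≥0∞), D.WF K → K6aPhys D d K n0 E Lc m0 → nb ≤ n0 → nv ≤ n0 → 1 ≤ K → 0 < Kc →
    ∃ Lt : Set (Pk.Q × K6aWc j),
      D.prior (E ∩ {e | k6a5_st Pk nb e ∈ Lt}) ≤ ENNReal.ofReal (K / Kc) ∧
      ∀ s, s ∉ Lt → ∀ J : Fin j → ℤ, D.prior (E ∩ k6a5_st Pk nb ⁻¹' {s} ∩ {e | D.vb nv e.1 = J})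
        ≤ ENNReal.ofReal (K * Kc) * D.pal (k6aCube nv J) * D.prior (E ∩ k6a5_st Pk nb ⁻¹' {s})

/-- **PREPU** (6.25) Markov over the states.   PLAN: the set is the disjoint countable union of the bad states; on each `η μ(E ∩ s⁻¹ a) ≤ μ(U ∩ s⁻¹ a)`; sum. -/
def k6a5_prep_markov_stmt : Prop :=
  ∀ {Ω S : Type} [MeasurableSpace Ω] [Countable S] (μ : Measure Ω) (s : Ω → S) (E U : Set Ω) (η : ℝ≥0∞),
    (∀ a, MeasurableSet (s ⁻¹' {a})) → MeasurableSet E → MeasurableSet U →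
    η * μ (E ∩ {e | η * μ (E ∩ s ⁻¹' {s e}) < μ (U ∩ s ⁻¹' {s e})}) ≤ μ U

/-- **PREP** = assembly of PREPN, PREPP, PREPU.   `Ep = E \ {e | st e narrow, or in Lt, or η0 prior (E ∩ st) < prior (U ∩ st)}`; a set of the form `{e | st e ∈ B}` is measurable (countable union of measurable fibres:
`D.WF.m_lab`, measurability of `D.wc nb` from `m_y0, m_V, m_xc` and `Int.floor`). -/
def k6a5_prep_stmt : Prop :=
  k6a_brd_coarse_stmt → ∀ (j : ℕ) (D : K6aDat j) (Pk : K6aPk D) (d K Kc κb w δ eN η0 : ℝ) (n0 nb nv : ℕ) (E U : Set (D.L × ℝ))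
    (Lc : Set D.L) (m0 : D.Lb × K6aWc j → ℝ≥0∞), D.WF K → K6aPhys D d K n0 E Lc m0 → nb ≤ n0 → nv ≤ n0 → 1 ≤ K → 0 < Kc →
    0 ≤ δ → 0 < η0 → 0 ≤ eN → 0 < κb → K6aBrd D E (D.ms n0) κb w δ → MeasurableSet U → U ⊆ E →
    D.prior U ≤ ENNReal.ofReal eN * D.prior E →
    ∃ Ep : Set (D.L × ℝ), k6a5_Prep D Pk nb nv (K * Kc) (2 * κb) w η0 E U Ep ∧
      D.prior E ≤ D.prior Ep + ENNReal.ofReal (δ / κb + K / Kc) + ENNReal.ofReal (eN / η0) * D.prior E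

/-! ## 2. PICK -/

/-- **PICK** (l.946-950).
PLAN.  On `E`: `e ∈ inc q ↔ ofLab (lab e) = q` (`cov`, `disj`).  `R` = the packets with `0 ≤ iv q ≤ 2^lev`; for the others `prior (inc q) = 0` (time lives on `[0,1]`).  `prior Ep = ∑_{q ∈ R} prior (Ep ∩ inc q)`.
`∑_{q ∈ R} H ν_Q ≤ H (2^lev + 1) ≤ 2`: in one block the assignments are disjoint and `ν` is a probability.  `k6a_budget_stmt` (T3 of `S6a/Tools.lean`) with `bud q = H ν_Q / 2` on `R` (`0` outside), `tot = e'`. -/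
def k6a5_pick_stmt : Prop :=
  ∀ (j : ℕ) (D : K6aDat j) (Pk : K6aPk D) (d k K e' : ℝ) (E Ep : Set (D.L × ℝ)), D.WF K → Pk.Ok d k K E →
    MeasurableSet Ep → Ep ⊆ E → 0 < e' → ENNReal.ofReal e' ≤ D.prior Ep →
    ∃ q : Pk.Q, D.prior (Ep ∩ Pk.inc q) ≠ 0 ∧ ENNReal.ofReal (e' / 2) * (ENNReal.ofReal Pk.H * Pk.νQ q) ≤ D.prior (Ep ∩ Pk.inc q)

/-! ## 3. The pieces of BUILD -/

/-- **BGEO** block-normalised coordinates.
PLAN.  Unfold `k6aU`, `Fin.cons` (`Fin.cases` on the index); `t ∈ blk q ↔ tq ≤ t < tq + H` (`Int.floor_eq_iff`, `H = (1/2)^lev`).  (3): `‖y l t - (yc0 + t yc1)‖ ≤ K H` (`box`), `‖(t - tq) yc1‖ ≤ H K` (`cen`).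
(4): `0 ≤ x - ⌊x 2^nb⌋ (1/2)^nb < (1/2)^nb`. -/
def k6a5_bgeo_stmt : Prop :=
  ∀ (j : ℕ) (D : K6aDat j) (Pk : K6aPk D) (d k K : ℝ) (E : Set (D.L × ℝ)) (q : Pk.Q), 1 ≤ K → Pk.Ok d k K E →
    (∀ (l : D.L) (τ : ℝ), k6a5_u Pk q (k6a5_tq Pk q + Pk.H * τ, D.y l (k6a5_tq Pk q + Pk.H * τ))
        = k6a5_u Pk q (k6a5_tq Pk q, D.y l (k6a5_tq Pk q)) + τ • k6a5_vec (1, D.V l)) ∧
    (∀ l : D.L, k6a5_u Pk q (k6a5_tq Pk q, D.y l (k6a5_tq Pk q)) 0 = 0) ∧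
    (∀ t, t ∈ Pk.blk q ↔ ∃ τ ∈ Set.Ico (0 : ℝ) 1, t = k6a5_tq Pk q + Pk.H * τ) ∧
    (∀ l ∈ Pk.asg q, ∀ t ∈ Pk.blk q, ‖k6a5_u Pk q (t, D.y l t)‖ ≤ 2 * K) ∧
    (∀ (nb : ℕ) (e : D.L × ℝ), ‖k6a5_u Pk q (D.base e) - k6a5_u Pk q (k6a5_corner nb (D.wc nb e))‖ ≤ k6aW nb / Pk.H)

/-- **BLISTS** (l.951-958) base-only field lists: over a base ball of radius `r` the row has `≤ 2^(j+3) K²` bins of the level `iT`.
PLAN.  A ball of radius `r ≤ W/4` (`W = k6aW iT`) meets `≤ 2` bins per coordinate: `≤ 2^(j+1)` base cells.  `Ok.graphs`: two incidences of the ball with the same branch have `|X - X'| ≤ 2 K a + K * 2 r ≤ W`, so `≤ 2` bins of `X` per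
branch, `≤ 2 K` in all.  So the incidences lie in `≤ 2^(j+2) K` cells `D.wc iT`; `K6aGraph.lists` gives `≤ K` row bins in each. -/
def k6a5_blists_stmt : Prop :=
  ∀ (j : ℕ) (D : K6aDat j) (Pk : K6aPk D) (d k K ε r : ℝ) (nb iT : ℕ) (E : Set (D.L × ℝ)) (g : K6aWc j → K6aRow j) (q : Pk.Q),
    1 ≤ K → Pk.Ok d k K E → K6aGraph D K ε nb E g → iT ≤ nb → ε ≤ k6aW iT → 4 * K * Pk.a ≤ k6aW iT → 0 ≤ r →
    4 * K * r ≤ k6aW iT → ∀ z0 : ℝ × (Fin j → ℝ), ∃ F : Finset (K6aZc j), (F.card : ℝ) ≤ 2 ^ (j + 3) * K ^ 2 ∧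
      ∀ e ∈ E ∩ Pk.inc q, ‖D.base e - z0‖ ≤ r → k6aRowBin iT (g (D.wc nb e)) ∈ F

/-- **BQUAL** (Prop 6.3 in normalised time).  `a` = a qualification polynomial of the incidence `(l, tq + H τ0)`.
PLAN.  (1) measurability: `t ↦ (l,t)` is measurable, `E` is measurable, `t ↦ D.wc nb (l,t)` takes countably many values on measurable sets, on each of them the condition is `‖const - k6aPoly a t‖ ≤ η` (continuous in `t`).
(2) `τ ↦ tq + H τ` scales Lebesgue measure by `H` (`Real.volume_preimage_mul_left`, `measure_preimage_add`); `k6aBin lev t = iv q ↔ τ ∈ [0,1)`.  (3) binomial expansion is NOT needed: `rmz_N_mul`, `rmz_N_sum`, `rmzN (C tq + C H X) ≤ 2`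
(`|tq| ≤ 1`, `H ≤ 1`), `rmz_coeff_le_N` (`Remez/One.lean`).  (4) `Polynomial.eval_finset_sum`, `k6aPoly`, componentwise. -/
def k6a5_bqual_stmt : Prop :=
  ∀ (j M : ℕ) (D : K6aDat j) (Pk : K6aPk D) (K Kq η : ℝ) (nb : ℕ) (E : Set (D.L × ℝ)) (g : K6aWc j → K6aRow j) (q : Pk.Q)
    (l : D.L) (τ0 : ℝ) (a : Fin (M + 1) → K6aRow j), D.WF K → MeasurableSet E → 0 < Kq → |k6a5_tq Pk q| ≤ 1 →
    τ0 ∈ Set.Ico (0 : ℝ) 1 → (l, k6a5_tq Pk q + Pk.H * τ0) ∈ E → (∀ i, ‖a i‖ ≤ Kq) →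
    ‖g (D.wc nb (l, k6a5_tq Pk q + Pk.H * τ0)) - k6aPoly a (k6a5_tq Pk q + Pk.H * τ0)‖ ≤ η →
    k6aW Pk.lev / Kq ≤ volume.real {t | (l, t) ∈ E ∧ k6aBin Pk.lev t = k6aBin Pk.lev (k6a5_tq Pk q + Pk.H * τ0) ∧
      ‖g (D.wc nb (l, t)) - k6aPoly a t‖ ≤ η} →
    MeasurableSet (k6a5_Wt D Pk q nb M η E g l a) ∧ τ0 ∈ k6a5_Wt D Pk q nb M η E g l a ∧
      1 ≤ Kq * (volume (k6a5_Wt D Pk q nb M η E g l a)).toReal ∧
      (∀ b, (k6a5_fitP Pk q a b).natDegree ≤ M) ∧ (∀ b r, |(k6a5_fitP Pk q a b).coeff r| ≤ ((M : ℝ) + 1) * 2 ^ M * Kq) ∧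
      ∀ b τ, (k6a5_fitP Pk q a b).eval τ = k6a5_vec (k6aPoly a (k6a5_tq Pk q + Pk.H * τ)) b

/-- **BCEIL** the base ceiling for the states, from the packet base cap.
PLAN.  The sets `Ep ∩ inc q ∩ wc⁻¹ c` are disjoint; by BGEO (last item) those with `‖cs c - u0‖ ≤ r` lie in `base⁻¹ U`, `U = {z | ‖k6a5_u Pk q z - u0‖ ≤ r + β}`, `β = k6aW nb/H`; `U` is a box of side `2 (r+β) H`:
`volume U = (2 (r+β) H)^(j+1)` (`Measure.prod`, `Real.volume_Icc`, `Real.volume_pi_closedBall`, or `≤` by covering).  `Ok.capQ`.  All measures are finite (`prior univ ≤ 1`). -/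
def k6a5_bceil_stmt : Prop :=
  ∀ (j : ℕ) (D : K6aDat j) (Pk : K6aPk D) (d k K : ℝ) (nb : ℕ) (E Ep : Set (D.L × ℝ)) (q : Pk.Q) (T : Finset (K6aWc j)),
    1 ≤ K → D.WF K → Pk.Ok d k K E → MeasurableSet Ep → Ep ⊆ E → ∀ (u0 : Fin (j + 1) → ℝ) (r : ℝ), 0 ≤ r →
    ∑ c ∈ T.filter (fun c => ‖k6a5_u Pk q (k6a5_corner nb c) - u0‖ ≤ r),
        (D.prior (Ep ∩ Pk.inc q ∩ D.wc nb ⁻¹' {c})).toReal / (Pk.H * (Pk.νQ q).toReal)
      ≤ 2 ^ (j + 1) * K * (r + k6aW nb / Pk.H) ^ (j + 1)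

/-- **BSTRIP** a state which is not narrow gives small probability to every strip of the LIFTED velocity `(1, V)`.
PLAN.  `a = (a0, a')`.  If `∑ a'_i² < 1/(4 j K²)`-type smallness (`|a' · V| ≤ 1/2`): then `|a'_i| < 1` for all `i`, so `|a0| ≥ 1` and `|a · (1,V)| ≥ 1/2 > w'`: the set is empty.  Otherwise `n = a'/|a'|`, `c = -a0/|a'|`,
`{|a·(1,V)| ≤ w'} ⊆ {|n·V - c| ≤ w'/|a'|}` and `w'/|a'| ≤ w`.  `¬ K6aNarrow` gives `prior (strip) < κp prior (state)`.   SHORTER: `u = a/|a|_2` (`|a|_2 ≥ 1`) and `k6a_lift_strip_stmt` (T5 of `S6a/Tools.lean`). -/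
def k6a5_bstrip_stmt : Prop :=
  ∀ (j : ℕ) (D : K6aDat j) {S : Type} (E : Set (D.L × ℝ)) (s : D.L × ℝ → S) (K κp w : ℝ) (s0 : S), 1 ≤ j → 1 ≤ K → D.WF K → 0 < w → w ≤ 1 →
    ¬ K6aNarrow D E s κp w s0 → ∀ a : Fin (j + 1) → ℝ, (∃ i, 1 ≤ |a i|) →
    D.prior (E ∩ s ⁻¹' {s0} ∩ {e | |a ⬝ᵥ k6a5_vec (1, D.V e.1)| ≤ w / (4 * (j + 1) * K)}) ≤ ENNReal.ofReal κp * D.prior (E ∩ s ⁻¹' {s0})

/-- **BMAT** the matrix of the directions.   `V i` = lifted velocities of spanning witnesses, `A0` = the matrix whose COLUMNS are the lifted corners of their velocity bins.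
PLAN.  `det A0 = det A0ᵀ`; `k6a_det_perturb` (`S6a/Det.lean`) for the matrices divided by `2K`: `|det A0ᵀ - det (of V)| ≤ (j+1) (j+1)! (2K)^(j+1) pv/(2K) ≤ δ/2`; `Bi = A0⁻¹`, `k6a_inv_entry_bound`, `Matrix.mul_nonsing_inv`. -/
def k6a5_bmat_stmt : Prop :=
  ∀ (j : ℕ) (V : Fin (j + 1) → Fin (j + 1) → ℝ) (A0 : Matrix (Fin (j + 1)) (Fin (j + 1)) ℝ) (K δ pv : ℝ), 1 ≤ K → 0 < δ → 0 ≤ pv →
    pv ≤ 1 → (∀ i b, |V i b| ≤ K) → (∀ i b, |V i b - A0 b i| ≤ pv) → δ ≤ |Matrix.det (Matrix.of V)| →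
    2 * (((j : ℝ) + 1) * ((j + 1).factorial : ℝ) * (2 * K) ^ (j + 1)) * pv ≤ δ →
    ∃ Bi : Matrix (Fin (j + 1)) (Fin (j + 1)) ℝ, A0 * Bi = 1 ∧ (∀ b i, |A0 b i| ≤ 2 * K) ∧
      ∀ i b, |Bi i b| ≤ 2 * ((j + 1).factorial : ℝ) * (2 * K) ^ (j + 1) / δ

/-- **BUILD** (l.951-975): the finite data exist and satisfy the hypotheses of the finite core.   One slack `K` for all the inputs (use monotonicity in `K` before).
`iT` = level of the field bins (`k6aW iT ≈ ε_T`), `r0` = radius (in `u`) of the base-only lists.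
ASSEMBLY (helper274).  `μ = prior.restrict (Ep ∩ inc q)`, `st = D.wc nb`, `bin = D.vb nv` (into a finite box of bins, `WF.bd`), `vel = k6a5_vec (1, V)`, `Bad = U ∪ (Ep ∩ inc q)ᶜ`, `pal J = D.pal (k6aCube nv J)`,
`Gd` = the occupied cells (finite: `WF.bd`).  On `Ep ∩ inc q` the state `k6a5_st` is `(q, wc nb)` and `Ep ∩ inc q ∩ wc⁻¹ c = E ∩ st⁻¹ (q,c)` (`whole`).  `k6a5_tuple` with BSTRIP, `Prep.good`, `Prep.dom`.  Choose the witnesses, their polynomials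
(`K6aQual.qual`), BMAT, BQUAL, BGEO, BLISTS, BCEIL. -/
def k6a5_build_stmt : Prop :=
  ∀ (j M : ℕ), (j = 1 ∨ j = 2) → ∃ c : ℕ, ∀ (D : K6aDat j) (Pk : K6aPk D) (d k K κp ε w eN r0 : ℝ) (nb nv iT : ℕ) (E U Ep : Set (D.L × ℝ))
    (g : K6aWc j → K6aRow j) (q : Pk.Q), 1 ≤ K → D.WF K → Pk.Ok d k K E → K6aGraph D K ε nb E g →
    K6aQual D Pk.lev M K (k6aW Pk.lev ^ M) eN nb E U g → k6a5_Prep D Pk nb nv K κp w (1 / 64) E U Ep → 0 ≤ κp → κp ≤ 1 / 50 →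
    0 < w → w ≤ 1 → 1 ≤ K * w →
    E ⊆ Set.univ ×ˢ Set.Icc (0 : ℝ) 1 →
    D.prior (Ep ∩ Pk.inc q) ≠ 0 → ENNReal.ofReal Pk.H * Pk.νQ q ≤ ENNReal.ofReal K * D.prior (Ep ∩ Pk.inc q) →
    iT ≤ nb → ε ≤ k6aW iT → 4 * K * Pk.a ≤ k6aW iT → 0 ≤ r0 → 4 * K * (r0 * Pk.H) ≤ k6aW iT → (c : ℝ) * K ^ c * k6aW nv ≤ 1 →
    k6aW nb ≤ Pk.H →
    ∃ (T : Finset (K6aWc j)) (A0 Bi : Matrix (Fin (j + 1)) (Fin (j + 1)) ℝ) (wl : K6aWc j → Fin (j + 1) → D.L)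
      (wτ : K6aWc j → Fin (j + 1) → ℝ) (cf : K6aWc j → Fin (j + 1) → Fin (M + 1) → K6aRow j) (K0 : ℕ), (K0 : ℝ) ≤ c * K ^ c ∧
      (k6a5_mk D Pk q nb M (k6aW Pk.lev ^ M) E Ep g T A0 Bi wl wτ cf).Ok M (c * K ^ c) (k6aW nb / Pk.H) (k6aW nv) r0
        (k6aW Pk.lev ^ M) (k6aW iT) K0

/-! ## 4. (6.28), (6.29) -/

/-- **LINE** = (6.28).
PLAN.  `l ∈ asg q` (the fibre is not empty).  `p(τ) = Xd l (tq + H τ) - ∑_b T_b(u(τ)) (1,V)_b`, `u(τ) = u0 + τ (1,V)` (BGEO): a polynomial of degree `≤ Dg + 1` (`rmz_line`, `Remez/Mv.lean`).  On `A = {τ ∈ [0,1) | tq + H τ ∈ fib Es l}`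
(`volume A ≥ 1/K1`): `|p| ≤ ε + (1 + j K) ε`.   `rmz_one` (`Remez/One.lean`, any set `A`), `rmz_eval_le` with `L = 1`; `rmzC d θ = (d+1)(4(d+1)/θ)^d`. -/
def k6a5_line_stmt : Prop :=
  ∀ (j Dg : ℕ), ∃ c : ℕ, ∀ (D : K6aDat j) (Pk : K6aPk D) (d k K K1 ε : ℝ) (nb : ℕ) (E Es : Set (D.L × ℝ)) (g : K6aWc j → K6aRow j)
    (q : Pk.Q) (T : Fin (j + 1) → MvPolynomial (Fin (j + 1)) ℝ), 1 ≤ K → 1 ≤ K1 → 0 ≤ ε → D.WF K → Pk.Ok d k K E →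
    (∀ e ∈ E, |D.Xd e.1 e.2 - k6aAt (g (D.wc nb e)) (D.V e.1)| ≤ ε) → Es ⊆ E ∩ Pk.inc q → (∀ i, (T i).totalDegree ≤ Dg) →
    (∀ e ∈ Es, ‖g (D.wc nb e) - k6aFld T (k6a5_u Pk q (D.base e))‖ ≤ ε) →
    ∀ l, Pk.H / K1 ≤ volume.real (D.fib Es l) → ∀ t ∈ Pk.blk q,
      |D.Xd l t - k6aAt (k6aFld T (k6a5_u Pk q (t, D.y l t))) (D.V l)| ≤ c * K ^ c * K1 ^ (Dg + 1) * ε

/-- **CELLS** joint cells used by a family of events which lies in a base ball of radius `R` and on `≤ k` Lipschitz graphs up to `ρ`.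
PLAN.  `⌊pos_i/ξ⌋` takes `≤ 2R/ξ + 2 ≤ 4R/ξ` values; for a fixed base cell and branch `|x - x'| ≤ K (ξ + ρ) ≤ 2 K ρ`, so `⌊x/ρ⌋` takes `≤ 2K + 2 ≤ 6K` values (helper287: a closed interval of length `ℓ` meets up to `ℓ/ξ + 2` bins).  `S` = image of the events (a subset of a product of integer intervals,
hence finite); count by fibres. -/
def k6a5_cells_stmt : Prop :=
  ∀ (m k : ℕ) {Ω : Type} (Ev : Set Ω) (pos : Ω → Fin m → ℝ) (x : Ω → ℝ) (br : Ω → Fin k) (cD : Fin m → ℝ) (K R ξ ρ : ℝ),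
    1 ≤ K → 0 < ξ → ξ ≤ R → ξ ≤ ρ → (∀ e ∈ Ev, ‖pos e - cD‖ ≤ R) →
    (∀ e ∈ Ev, ∀ e' ∈ Ev, br e = br e' → |x e - x e'| ≤ K * (‖pos e - pos e'‖ + ρ)) →
    ∃ S : Finset ((Fin m → ℤ) × ℤ), (S.card : ℝ) ≤ k * (6 * K) * (4 * R / ξ) ^ m ∧
      ∀ e ∈ Ev, ((fun i => ⌊pos e i / ξ⌋), ⌊x e / ρ⌋) ∈ S

/-- **SUPPORT** = (6.29).   `Pk'` = the node of thickness `a_i` below `Pk`.
PLAN.  `𝒬` = the packets `q'` of `Pk'` which contain an incidence of `E ∩ inc q`.  For `q' ∈ 𝒬`: `asg q' ⊆ asg q`, `blk q' ⊆ blk q` (`Below.nest` + `Pk.Ok.disj`).  `blk q` contains `2^(lev'-lev) = H/H'` blocks of `Pk'`; in one block the `asg q'` are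
disjoint subsets of `asg q` of mass `≥ a'^d H'^j/K`: `𝒬.card ≤ (H/H') K ν_Q/(a'^d H'^j)`.  Every incidence of `E ∩ inc q` lies in `inc' q'`, `q' = Pk'.ofLab (lab e) ∈ 𝒬` (`cov`).  CELLS for `E ∩ inc q ∩ inc' q'` with `pos = k6a5_u Pk q ∘ base`, `x = X/H`,
`ρ = a'/H`, `ξ = k6aW nx`, `R = 3 K H'/H` (`box`, `cen` of `Pk'`), branches = `Ok.graphs` of `Pk'` (`|X - X'| ≤ 2 K a' + K ‖z - z'‖`, slack `2K`).  `⌊(X/H)/(a'/H)⌋ = ⌊X/a'⌋`, `⌊u/ξ⌋ = k6aBin nx u`.  Total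
`≤ (H/H') K ν_Q/(a'^d H'^j) * K * 6K * (9 K H'/(H ξ))^(j+1)`, and `ν_Q ≤ K a^d H^j`. -/
def k6a5_support_stmt : Prop :=
  ∀ (j : ℕ), ∃ c : ℕ, ∀ (D : K6aDat j) (Pk Pk' : K6aPk D) (d k K : ℝ) (nx : ℕ) (E : Set (D.L × ℝ)) (q : Pk.Q), 1 ≤ K → 0 ≤ d →
    D.WF K → Pk.Ok d k K E → Pk'.Ok d k K E → Pk.Below Pk' → k6aW nx * Pk.H ≤ Pk'.H → k6aW nx * Pk.H ≤ Pk'.a →
    ∃ F : Finset ((Fin (j + 1) → ℤ) × ℤ), (F.card : ℝ) ≤ c * K ^ c * ((2 : ℝ) ^ nx) ^ (j + 1) * (Pk.a / Pk'.a) ^ d ∧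
      ∀ e ∈ E ∩ Pk.inc q, (k6aVBin nx (k6a5_u Pk q (D.base e)), ⌊D.X e.1 e.2 / Pk'.a⌋) ∈ F

/-! ## 5. The arithmetic of the scales -/

/-- **SLACK** a fixed power of a subpower slack is below any fixed power of `1/h`.   PLAN: `η = σ/(2C)`, `k0` with `C ≤ 2^(σ k0/2)`; `Real.rpow_natCast`, `Real.rpow_mul`, `Real.rpow_add`. -/
def k6a5_slack_stmt : Prop :=
  ∀ (C : ℕ) (σ : ℝ), 0 < σ → ∃ (η : ℝ) (k0 : ℕ), 0 < η ∧ ∀ (K : ℝ) (kh : ℕ), k0 ≤ kh → 1 ≤ K → K ≤ (2 : ℝ) ^ (η * kh) →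
    (C : ℝ) * K ^ C ≤ (2 : ℝ) ^ (σ * kh)

/-- **SCALES** the relations between the scales of (6.24) that the layer uses, each with a margin `h^(1/4)`.   `h = k6aW kh`, `ξ = k6aW nx`, `pv = k6aW nv`, `b = k6aW nb`, `iT` = the level of `ε_T = h^(1/k-1+α)`.
PLAN.  `iT = ⌈(1/k - 1 + α) kh⌉₊`.  Everything is a comparison of exponents of `2`: write `k6aW i = 2^(-i)` (`Real.rpow`), `K ≤ 2^(kh/(16 (1 + 1/k)))`; `a ≤ (K h)^(1/k)`, `a1 ≤ K a h^(α/2)`; `ξ ≤ a1 ≤ K^(2+1/k) h^(1/k+α/2)`;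
`b ≤ b^κ ≤ pv h²` (`b_fine`), `b^κ ≤ h^(1/k+1)` (`b_eps`), `pv ≤ ξ h` (`v_fine`), `h^M ≤ h^(2/k+1)` (`M_big`). -/
def k6a5_scales_stmt : Prop :=
  ∀ (M : ℕ) (k α e2 κ Rm K : ℝ) (kh nb n0 nx nv : ℕ) (a a1 a2 : ℝ), 0 < k → k ≤ 1 → 0 < α → α < 1 / 2 → 0 < e2 → e2 < α / 2 →
    0 < κ → κ ≤ 1 → 16 ≤ kh → 1 ≤ K → K ^ (16 * (1 + 1 / k)) ≤ (2 : ℝ) ^ (kh : ℝ) → K6aLvF M k α e2 κ Rm K kh nb n0 nx nv a a1 a2 →
    0 < a → a ^ k ≤ K * k6aW kh →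
    ∃ iT : ℕ, iT ≤ nb ∧ k6aW nb ^ κ ≤ k6aW iT ∧ k6aW iT ≤ k6aW kh ^ (1 / k - 1 + α) ∧ k6aW kh ^ (1 / k - 1 + α) ≤ 2 * k6aW iT ∧
      k6aW nb / k6aW kh + k6aW nv ≤ k6aW nx ∧ k6aW kh ^ M ≤ k6aW iT ∧ k6aW nb ^ κ ≤ k6aW kh ^ (1 / 4 : ℝ) * k6aW iT ∧
      k6aW nx ≤ k6aW kh ^ (1 / 4 : ℝ) * k6aW iT ∧ a ≤ k6aW kh ^ (1 / 4 : ℝ) * k6aW iT

/-! ## 6. Monotonicity in the slack, the exit -/

/-- **MONO** all the input structures are monotone in the slack.   PLAN: field by field; `ENNReal.ofReal_le_ofReal`, `mul_le_mul_of_nonneg_right`, `div_le_div_of_nonneg_left`. -/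
def k6a5_mono_stmt : Prop :=
  ∀ (j : ℕ) (D : K6aDat j) (K K' : ℝ), 1 ≤ K → K ≤ K' →
    (D.WF K → D.WF K') ∧
    (∀ (Pk : K6aPk D) (d k : ℝ) (E : Set (D.L × ℝ)), Pk.Ok d k K E → Pk.Ok d k K' E) ∧
    (∀ (ε : ℝ) (nb : ℕ) (E : Set (D.L × ℝ)) (g : K6aWc j → K6aRow j), K6aGraph D K ε nb E g → K6aGraph D K' ε nb E g) ∧
    (∀ (kh M : ℕ) (η eN : ℝ) (nb : ℕ) (E U : Set (D.L × ℝ)) (g : K6aWc j → K6aRow j),
      K6aQual D kh M K η eN nb E U g → K6aQual D kh M K' η eN nb E U g) ∧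
    (∀ (Pk : K6aPk D) (nb nv : ℕ) (κp w η0 : ℝ) (E U Ep : Set (D.L × ℝ)),
      k6a5_Prep D Pk nb nv K κp w η0 E U Ep → k6a5_Prep D Pk nb nv K' κp w η0 E U Ep)

/-- **HUB = exit of S6a5** = `k6a_hub_field_stmt` (S6a/Hubs.lean), VERBATIM.
ASSEMBLY.  `cF = κb/100` (`≤ 1/6400`).  `K1 = 64 K³`.  PREP with `Kc = 16 K/e`, `η0 = 1/64`: loss `δ/κb + e/16 + 64 eN prior E ≤ e/100 + e/16 + prior E/100`, so `prior Ep ≥ e/2`.  PICK with `e' = e/2`.  MONO to `K1`.  SCALES: `iT`.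
`r0 = k6aW iT/(4 K1 H)`.  BUILD with `κp = 2 κb ≤ 1/50`.  `Par` from SCALES + SLACK.  FIN: `P`, `Sel`.   `Es = Ep ∩ inc q ∩ {e | wc nb e ∈ Sel}`, `zc = k6a5_zc Pk q`, `T = P`.  `pos`: `ν_lo` at a participating label.  `mass`: the states are
disjoint.  `field`: FIN at the corner + LIP + BGEO(5).  `line`: LINE.  `joint`: SUPPORT for `Pk1`, `Pk2`.  `broad`, `dom`: `Prep` and `Es ∩ wc⁻¹ c = E ∩ st⁻¹ (q,c)` for `c ∈ Sel` (`k6a5_build_state` in `L5GlueB.lean`), `= ∅` otherwise. -/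
def k6a5_hub_stmt : Prop := k6a_hub_field_stmt

/-! ## 7. API -/

/-! ### API of the record `K6aDat` (proved; helper274) -/

theorem k6a5_api_bin (i : ℕ) : Measurable (k6aBin i) := by
  unfold k6aBin
  exact Int.measurable_floor.comp (measurable_id.mul_const _)

theorem k6a5_api_vbin {n : ℕ} (i : ℕ) : Measurable (k6aVBin (n := n) i) := by
  unfold k6aVBin
  exact measurable_pi_lambda _ fun a => (k6a5_api_bin i).comp (measurable_pi_apply a)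

theorem k6a5_api_y {j : ℕ} {D : K6aDat j} {K : ℝ} (h : D.WF K) : Measurable fun e : D.L × ℝ => D.y e.1 e.2 := by
  unfold K6aDat.y
  exact (h.m_y0.comp measurable_fst).add (measurable_snd.smul (h.m_V.comp measurable_fst))

theorem k6a5_api_X {j : ℕ} {D : K6aDat j} {K : ℝ} (h : D.WF K) : Measurable fun e : D.L × ℝ => D.X e.1 e.2 := by
  unfold K6aDat.X
  have h0 : ∀ a : Fin 3, Measurable fun e : D.L × ℝ => D.xc e.1 a := fun a =>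
    (measurable_pi_apply a).comp (h.m_xc.comp measurable_fst)
  exact ((h0 0).add ((h0 1).mul measurable_snd)).add ((h0 2).mul (measurable_snd.pow_const 2))

theorem k6a5_api_base {j : ℕ} {D : K6aDat j} {K : ℝ} (h : D.WF K) : Measurable D.base := by
  unfold K6aDat.base
  exact measurable_snd.prodMk (k6a5_api_y h)

theorem k6a5_api_wc {j : ℕ} {D : K6aDat j} {K : ℝ} (h : D.WF K) (i : ℕ) : Measurable (D.wc i) := by
  unfold K6aDat.wc K6aDat.zc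
  exact (((k6a5_api_bin i).comp measurable_snd).prodMk ((k6a5_api_vbin i).comp (k6a5_api_y h))).prodMk
    ((k6a5_api_bin i).comp (k6a5_api_X h))

theorem k6a5_api_wc_fib {j : ℕ} {D : K6aDat j} {K : ℝ} (h : D.WF K) (i : ℕ) (c : K6aWc j) : MeasurableSet (D.wc i ⁻¹' {c}) :=
  k6a5_api_wc h i (measurableSet_singleton c)

theorem k6a5_api_vb {j : ℕ} {D : K6aDat j} {K : ℝ} (h : D.WF K) (i : ℕ) (J : Fin j → ℤ) :
    MeasurableSet {e : D.L × ℝ | D.vb i e.1 = J} := by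
  have : Measurable fun e : D.L × ℝ => D.vb i e.1 := by
    unfold K6aDat.vb
    exact (k6a5_api_vbin i).comp (h.m_V.comp measurable_fst)
  exact this (measurableSet_singleton J)

theorem k6a5_api_blk {j : ℕ} {D : K6aDat j} (Pk : K6aPk D) (q : Pk.Q) : MeasurableSet (Pk.blk q) := by
  unfold K6aPk.blk
  exact k6a5_api_bin Pk.lev (measurableSet_singleton (Pk.iv q))

theorem k6a5_api_inc {j : ℕ} {D : K6aDat j} {Pk : K6aPk D} {d k K : ℝ} {E : Set (D.L × ℝ)} (h : Pk.Ok d k K E) (q : Pk.Q) :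
    MeasurableSet (Pk.inc q) := by
  unfold K6aPk.inc
  exact (h.asg_meas q).prod (k6a5_api_blk Pk q)

theorem k6a5_api_st {j : ℕ} {D : K6aDat j} {K : ℝ} (h : D.WF K) (Pk : K6aPk D) (nb : ℕ) (s : Pk.Q × K6aWc j) :
    MeasurableSet (k6a5_st Pk nb ⁻¹' {s}) := by
  have e : k6a5_st Pk nb ⁻¹' {s} = (⋃ a ∈ {a : D.Lb | Pk.ofLab a = s.1}, D.lab ⁻¹' {a}) ∩ D.wc nb ⁻¹' {s.2} := by
    ext x
    simp only [k6a5_st, Set.mem_preimage, Set.mem_singleton_iff, Set.mem_inter_iff, Set.mem_iUnion, Set.mem_ofPred_eq,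
      exists_prop, exists_eq_right', Prod.ext_iff]
  rw [e]
  exact (MeasurableSet.biUnion (Set.to_countable _) fun a _ => h.m_lab a).inter (k6a5_api_wc_fib h nb s.2)

theorem k6a5_api_ms {j : ℕ} {D : K6aDat j} {K : ℝ} (h : D.WF K) (n0 : ℕ) (s : D.Lb × K6aWc j) :
    MeasurableSet (D.ms n0 ⁻¹' {s}) := by
  have e : D.ms n0 ⁻¹' {s} = D.lab ⁻¹' {s.1} ∩ D.wc n0 ⁻¹' {s.2} := by
    ext x
    simp only [K6aDat.ms, Set.mem_preimage, Set.mem_singleton_iff, Set.mem_inter_iff, Prod.ext_iff]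
  rw [e]
  exact (h.m_lab s.1).inter (k6a5_api_wc_fib h n0 s.2)

theorem k6a5_api_prior_univ {j : ℕ} {D : K6aDat j} {K : ℝ} (h : D.WF K) : D.prior Set.univ = 1 := by
  have := h.prob
  unfold K6aDat.prior
  rw [← Set.univ_prod_univ, Measure.prod_prod, measure_univ, one_mul, Measure.restrict_apply MeasurableSet.univ, Set.univ_inter,
    Real.volume_Icc]
  simp

theorem k6a5_api_prior_fin {j : ℕ} {D : K6aDat j} {K : ℝ} (h : D.WF K) : IsFiniteMeasure D.prior :=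
  ⟨by rw [k6a5_api_prior_univ h]; exact ENNReal.one_lt_top⟩

/-- the prior lives on `[0,1]` in time -/
theorem k6a5_api_prior_time {j : ℕ} {D : K6aDat j} {K : ℝ} (h : D.WF K) : D.prior {e | e.2 ∉ Set.Icc (0 : ℝ) 1} = 0 := by
  have := h.prob
  have e : {e : D.L × ℝ | e.2 ∉ Set.Icc (0 : ℝ) 1} = Set.univ ×ˢ (Set.Icc (0 : ℝ) 1)ᶜ := by
    ext x
    simp
  unfold K6aDat.prior
  rw [e, Measure.prod_prod, Measure.restrict_apply measurableSet_Icc.compl]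
  simp

theorem k6a5_api_W_pos (i : ℕ) : 0 < k6aW i := by
  unfold k6aW
  positivity

theorem k6a5_api_W_le_one (i : ℕ) : k6aW i ≤ 1 := by
  unfold k6aW
  exact pow_le_one₀ (by norm_num) (by norm_num)

theorem k6a5_api_W_mul (i : ℕ) : k6aW i * 2 ^ i = 1 := by
  unfold k6aW
  rw [← mul_pow]
  norm_num

/-- `x` lies in its bin: `0 ≤ x - bin * width < width` -/
theorem k6a5_api_bin_mem (i : ℕ) (x : ℝ) : (k6aBin i x : ℝ) * k6aW i ≤ x ∧ x < ((k6aBin i x : ℝ) + 1) * k6aW i := by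
  have hW := k6a5_api_W_pos i
  have h2 := k6a5_api_W_mul i
  have e : x = x * 2 ^ i * k6aW i := by rw [mul_assoc, mul_comm (2 ^ i : ℝ), h2, mul_one]
  unfold k6aBin
  constructor
  · calc ((⌊x * 2 ^ i⌋ : ℤ) : ℝ) * k6aW i ≤ x * 2 ^ i * k6aW i := mul_le_mul_of_nonneg_right (Int.floor_le _) hW.le
      _ = x := e.symm
  · calc x = x * 2 ^ i * k6aW i := e
      _ < (((⌊x * 2 ^ i⌋ : ℤ) : ℝ) + 1) * k6aW i := mul_lt_mul_of_pos_right (Int.lt_floor_add_one _) hW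

/-- the bin is characterised by the interval -/
theorem k6a5_api_bin_iff (i : ℕ) (x : ℝ) (n : ℤ) : k6aBin i x = n ↔ (n : ℝ) * k6aW i ≤ x ∧ x < ((n : ℝ) + 1) * k6aW i := by
  have hW := k6a5_api_W_pos i
  have h2 := k6a5_api_W_mul i
  have h3 : (2 : ℝ) ^ i = (k6aW i)⁻¹ := eq_inv_of_mul_eq_one_right h2
  unfold k6aBin
  rw [Int.floor_eq_iff, h3, ← div_eq_mul_inv, le_div_iff₀ hW, div_lt_iff₀ hW]

/-- `k6a_cell` at a dyadic width is the dyadic bin -/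
theorem k6a5_api_cell {n : ℕ} (i : ℕ) (x : Fin n → ℝ) : k6a_cell (k6aW i) x = k6aVBin i x := by
  have h2 := k6a5_api_W_mul i
  have h3 : (2 : ℝ) ^ i = (k6aW i)⁻¹ := eq_inv_of_mul_eq_one_right h2
  funext a
  unfold k6a_cell k6aVBin k6aBin
  rw [h3, div_eq_mul_inv]

end

end Claimed.Agent.R252
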