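/-
Leaf L-252-S6a-TFRAC (row252, unit S6a, chief helper234).  PROVED (helper5).  Helpers: prefix `k6a_tf_`.
Statement and PLAN: docstring of the `def ..._stmt` in `Tools.lean`.
-/
import Claimed.Agent.R252.S6a.Tools

namespace Claimed.Agent.R252

open MeasureTheory
open scoped ENNReal BigOperators

theorem k6a_frac_loss : k6a_frac_loss_stmt := by
  classical
  intro Ω S _ _ μ _ E E' s φ hE hE' hsub hs
  obtain ⟨Bad, hBad⟩ : ∃ Bad : Set S, Bad = {a | μ (E' ∩ s ⁻¹' {a}) + φ * μ (E ∩ s ⁻¹' {a}) < μ (E ∩ s ⁻¹' {a})} :=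
    ⟨_, rfl⟩
  have h1 : E ∩ {x | μ (E' ∩ s ⁻¹' {s x}) + φ * μ (E ∩ s ⁻¹' {s x}) < μ (E ∩ s ⁻¹' {s x})}
      ⊆ ⋃ a, (if a ∈ Bad then E ∩ s ⁻¹' {a} else ∅) := by
    rintro x ⟨hxE, hx⟩
    rw [Set.mem_iUnion]
    refine ⟨s x, ?_⟩
    have : s x ∈ Bad := by rw [hBad]; exact hx
    rw [if_pos this]
    exact ⟨hxE, rfl⟩
  have h2 : ∀ a, φ * μ (if a ∈ Bad then E ∩ s ⁻¹' {a} else ∅) ≤ μ ((E \ E') ∩ s ⁻¹' {a}) := by
    intro a
    by_cases ha : a ∈ Bad
    · rw [if_pos ha]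
      rw [hBad] at ha
      have h3 : μ (E ∩ s ⁻¹' {a}) = μ (E' ∩ s ⁻¹' {a}) + μ ((E \ E') ∩ s ⁻¹' {a}) := by
        rw [← measure_union ?_ ((hE.diff hE').inter (hs a))]
        · congr 1
          ext x
          simp only [Set.mem_inter_iff, Set.mem_union, Set.mem_sdiff]
          constructor
          · rintro ⟨hx, hx2⟩
            by_cases hx3 : x ∈ E'
            · exact Or.inl ⟨hx3, hx2⟩
            · exact Or.inr ⟨⟨hx, hx3⟩, hx2⟩
          · rintro (⟨hx, hx2⟩ | ⟨⟨hx, _⟩, hx2⟩)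
            · exact ⟨hsub hx, hx2⟩
            · exact ⟨hx, hx2⟩
        · rw [Set.disjoint_left]
          rintro x ⟨hx, _⟩ ⟨⟨_, hx2⟩, _⟩
          exact hx2 hx
      have h4 : μ (E' ∩ s ⁻¹' {a}) + φ * μ (E ∩ s ⁻¹' {a})
          < μ (E' ∩ s ⁻¹' {a}) + μ ((E \ E') ∩ s ⁻¹' {a}) := by
        rw [← h3]; exact ha
      exact (lt_of_add_lt_add_left h4).le
    · rw [if_neg ha]
      simp
  calc φ * μ (E ∩ {x | μ (E' ∩ s ⁻¹' {s x}) + φ * μ (E ∩ s ⁻¹' {s x}) < μ (E ∩ s ⁻¹' {s x})})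
      ≤ φ * ∑' a, μ (if a ∈ Bad then E ∩ s ⁻¹' {a} else ∅) :=
        mul_le_mul_right ((measure_mono h1).trans (measure_iUnion_le _)) _
    _ = ∑' a, φ * μ (if a ∈ Bad then E ∩ s ⁻¹' {a} else ∅) := ENNReal.tsum_mul_left.symm
    _ ≤ ∑' a, μ ((E \ E') ∩ s ⁻¹' {a}) := ENNReal.tsum_le_tsum h2
    _ = μ (⋃ a, (E \ E') ∩ s ⁻¹' {a}) := by
        rw [measure_iUnion ?_ (fun a => (hE.diff hE').inter (hs a))]
        intro a a' hne
        rw [Function.onFun, Set.disjoint_left]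
        rintro x ⟨_, hx⟩ ⟨_, hx'⟩
        exact hne (hx.symm.trans hx')
    _ ≤ μ (E \ E') := measure_mono (Set.iUnion_subset fun a => Set.inter_subset_left)

theorem k6a_budget : k6a_budget_stmt := by
  classical
  intro Q _ mass bud tot hbud htot htop hpos
  by_contra hcon
  push Not at hcon
  obtain ⟨P, hP⟩ : ∃ P : Finset Q, P = Finset.univ.filter (fun q => 0 < mass q) := ⟨_, rfl⟩
  have hsum : ∑ q, mass q = ∑ q ∈ P, mass q := by
    rw [hP, Finset.sum_filter]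
    refine Finset.sum_congr rfl fun q _ => ?_
    split_ifs with h
    · rfl
    · exact le_antisymm (not_lt.1 h) zero_le
  have hne : P.Nonempty := by
    by_contra h
    rw [Finset.not_nonempty_iff_eq_empty] at h
    rw [hsum, h, Finset.sum_empty] at htot
    exact absurd hpos (not_lt.2 htot)
  have hlt : ∑ q ∈ P, mass q < ∑ q ∈ P, tot * bud q := by
    refine ENNReal.sum_lt_sum_of_nonempty hne fun q hq => ?_
    rw [hP, Finset.mem_filter] at hq
    by_contra h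
    exact absurd hq.2 (not_lt.2 (hcon q (not_lt.1 h)))
  have h2 : ∑ q ∈ P, tot * bud q ≤ tot := by
    calc ∑ q ∈ P, tot * bud q ≤ ∑ q, tot * bud q := Finset.sum_le_sum_of_subset (Finset.subset_univ _)
      _ = tot * ∑ q, bud q := by rw [Finset.mul_sum]
      _ ≤ tot * 1 := mul_le_mul_right hbud _
      _ = tot := mul_one _
  rw [hsum] at htot
  exact absurd (htot.trans_lt hlt) (not_lt.2 h2)

end Claimed.Agent.R252
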