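import Claimed.Agent.R252.S6a.L5Glue
import Claimed.Agent.R252.S6a.L5CoreB
import Claimed.Agent.R252.S6a.BrdCoarse
import Claimed.Agent.R252.S6a.Tools
import Claimed.Agent.R252.S6a.Det
import Claimed.Agent.R252.S6a.Q4Bridge
import Claimed.Agent.R252.S6a.TFrac
import Claimed.Agent.R252.S6a.TLift

/-!
# (row252, unit S6a, layer 5, sub-architect helper274; CLOSED, 0 open leaves): from `K6aDat` to the finite core, the PIECES.
Statements + plans: docstrings of the `def ..._stmt` in `S6a/L5Glue.lean` (never edit that file; false/awkward = one line to helper274).   Interfaces: `S6a/Layers.lean`.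
SHARED FILE: prove YOUR theorem IN PLACE (replace its `sorry`; helper lemmas directly above it, prefix `k6a5_<leaf>_`); `git pull` first, splice only your block, land.
-/

set_option autoImplicit false

namespace Claimed.Agent.R252

open MeasureTheory
open scoped ENNReal BigOperators Classical

/-! ### L-252-S6a5-PREPN -/

theorem k6a5_prepn_st {j : ℕ} (D : K6aDat j) (Pk : K6aPk D) (n0 nb : ℕ) (h : nb ≤ n0) :
    k6a5_st Pk nb = (fun σ : D.Lb × K6aWc j => (Pk.ofLab σ.1, k6a4_cw (n0 - nb) σ.2)) ∘ D.ms n0 := by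
  funext e
  simp only [k6a5_st, Function.comp, K6aDat.ms]
  rw [k6a4_wc_coarse D nb n0 h e]

theorem k6a5_prep_narrow : k6a5_prep_narrow_stmt := by
  intro hco j D Pk K κb w δ n0 nb E hWF hE hn hδ hκ hB
  have h1 := hco j D (D.Lb × K6aWc j) (Pk.Q × K6aWc j) E (D.ms n0)
    (fun σ => (Pk.ofLab σ.1, k6a4_cw (n0 - nb) σ.2)) K κb (2 * κb) w δ hWF (k6a5_api_ms hWF n0)
    hκ.le (by linarith) hδ hB
  rw [← k6a5_prepn_st D Pk n0 nb hn] at h1
  have h2 := h1 E hE subset_rfl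
  refine h2.trans (ENNReal.ofReal_le_ofReal ?_)
  have h3 : (2 * κb - κb : ℝ) = κb := by ring
  rw [h3]

/-! ### L-252-S6a5-PREPP -/

theorem k6a5_prep_pal : k6a5_prep_pal_stmt := by
  intro j D Pk d K Kc n0 nb nv E Lc m0 hWF hPh hnb hnv hK hKc
  have hE := hPh.E_meas
  have hst := k6a5_api_st hWF Pk nb
  obtain ⟨f, hf⟩ : ∃ f : D.Lb × K6aWc j → Pk.Q × K6aWc j, f = fun σ => (Pk.ofLab σ.1, k6a4_cw (n0 - nb) σ.2) := ⟨_, rfl⟩
  have hfst : ∀ e, k6a5_st Pk nb e = f (D.ms n0 e) := by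
    intro e
    rw [k6a5_prepn_st D Pk n0 nb hnb, hf]
    rfl
  obtain ⟨m', hm'⟩ : ∃ m' : Pk.Q × K6aWc j → ℝ≥0∞,
      m' = fun s => ∑' σ, @ite _ (f σ = s) (Classical.propDecidable _) (m0 σ) 0 := ⟨_, rfl⟩
  have hsum : ∑' s, m' s ≤ ENNReal.ofReal K := by
    rw [hm']
    beta_reduce
    rw [k6a_bc_regroup f m0, ENNReal.tsum_eq_iSup_sum]
    exact iSup_le fun F => hPh.m0_sum F
  have hKc0 : ENNReal.ofReal Kc ≠ 0 := by
    rw [Ne, ENNReal.ofReal_eq_zero, not_le]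
    exact hKc
  refine ⟨{s | ENNReal.ofReal Kc * D.prior (E ∩ k6a5_st Pk nb ⁻¹' {s}) < m' s}, ?_, ?_⟩
  · have h1 := k6a_bc_tsum D.prior (k6a5_st Pk nb) hst E hE
      (fun s => ENNReal.ofReal Kc * D.prior (E ∩ k6a5_st Pk nb ⁻¹' {s}) < m' s)
    have h2 : E ∩ {e | k6a5_st Pk nb e ∈ {s | ENNReal.ofReal Kc * D.prior (E ∩ k6a5_st Pk nb ⁻¹' {s}) < m' s}}
        = E ∩ {x | ENNReal.ofReal Kc * D.prior (E ∩ k6a5_st Pk nb ⁻¹' {k6a5_st Pk nb x}) < m' (k6a5_st Pk nb x)} := rfl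
    rw [h2, h1]
    calc _ ≤ ∑' s, m' s / ENNReal.ofReal Kc := by
          refine ENNReal.tsum_le_tsum fun s => ?_
          split_ifs with h
          · rw [ENNReal.le_div_iff_mul_le (Or.inl hKc0) (Or.inl ENNReal.ofReal_ne_top), mul_comm]
            exact h.le
          · exact zero_le
      _ = (∑' s, m' s) / ENNReal.ofReal Kc := by
          simp only [div_eq_mul_inv]
          rw [ENNReal.tsum_mul_right]
      _ ≤ ENNReal.ofReal K / ENNReal.ofReal Kc := ENNReal.div_le_div_right hsum _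
      _ = ENNReal.ofReal (K / Kc) := (ENNReal.ofReal_div_of_pos hKc).symm
  · intro s hs J
    have hs' : m' s ≤ ENNReal.ofReal Kc * D.prior (E ∩ k6a5_st Pk nb ⁻¹' {s}) := not_lt.1 hs
    have hJ := k6a5_api_vb hWF nv J
    have e1 : E ∩ k6a5_st Pk nb ⁻¹' {s} ∩ {e | D.vb nv e.1 = J} = (E ∩ {e | D.vb nv e.1 = J}) ∩ {x | f (D.ms n0 x) = s} := by
      ext x
      simp only [Set.mem_inter_iff, Set.mem_preimage, Set.mem_singleton_iff, Set.mem_ofPred_eq, hfst]
      tauto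
    rw [e1, k6a_bc_tsum D.prior (D.ms n0) (k6a5_api_ms hWF n0) _ (hE.inter hJ) (fun σ => f σ = s)]
    calc _ ≤ ∑' σ, ENNReal.ofReal K * D.pal (k6aCube nv J) * (@ite _ (f σ = s) (Classical.propDecidable _) (m0 σ) 0) := by
          refine ENNReal.tsum_le_tsum fun σ => ?_
          split_ifs with h
          · refine (measure_mono ?_).trans (hPh.joint nv hnv σ J)
            rintro x ⟨⟨h1, h2⟩, h3⟩
            exact ⟨⟨h1, h3⟩, h2⟩
          · exact zero_le
      _ = ENNReal.ofReal K * D.pal (k6aCube nv J) * m' s := by rw [ENNReal.tsum_mul_left, hm']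
      _ ≤ ENNReal.ofReal K * D.pal (k6aCube nv J) * (ENNReal.ofReal Kc * D.prior (E ∩ k6a5_st Pk nb ⁻¹' {s})) := by
          gcongr
      _ = ENNReal.ofReal (K * Kc) * D.pal (k6aCube nv J) * D.prior (E ∩ k6a5_st Pk nb ⁻¹' {s}) := by
          rw [ENNReal.ofReal_mul (by linarith)]
          ring

/-! ### L-252-S6a5-PREP (with PREPU) -/

theorem k6a5_prep_markov : k6a5_prep_markov_stmt := by
  intro Ω S _ _ μ s E U η hs hE hU
  rw [k6a_bc_tsum μ s hs E hE (fun a => η * μ (E ∩ s ⁻¹' {a}) < μ (U ∩ s ⁻¹' {a})), ← ENNReal.tsum_mul_left]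
  have h1 := k6a_bc_tsum μ s hs U hU (fun _ => True)
  simp only [Set.ofPred_true, Set.inter_univ, if_true] at h1
  rw [h1]
  refine ENNReal.tsum_le_tsum fun a => ?_
  split_ifs with h
  · exact h.le
  · rw [mul_zero]
    exact zero_le

theorem k6a5_prep_meas {j : ℕ} {D : K6aDat j} {K : ℝ} (h : D.WF K) (Pk : K6aPk D) (nb : ℕ) (B : Set (Pk.Q × K6aWc j)) :
    MeasurableSet {e | k6a5_st Pk nb e ∈ B} := by
  have e : {e | k6a5_st Pk nb e ∈ B} = ⋃ s ∈ B, k6a5_st Pk nb ⁻¹' {s} := by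
    ext x
    simp
  rw [e]
  exact MeasurableSet.biUnion (Set.to_countable _) fun s _ => k6a5_api_st h Pk nb s

theorem k6a5_prep : k6a5_prep_stmt := by
  intro hco j D Pk d K Kc κb w δ eN η0 n0 nb nv E U Lc m0 hWF hPh hnb hnv hK hKc hδ hη0 heN hκ hB hU hUE hUs
  have hE := hPh.E_meas
  have hfin := k6a5_api_prior_fin hWF
  have hN := k6a5_prep_narrow hco j D Pk K κb w δ n0 nb E hWF hE hnb hδ hκ hB
  obtain ⟨Lt, hLt1, hLt2⟩ := k6a5_prep_pal j D Pk d K Kc n0 nb nv E Lc m0 hWF hPh hnb hnv hK hKc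
  have hM := k6a5_prep_markov D.prior (k6a5_st Pk nb) E U (ENNReal.ofReal η0) (k6a5_api_st hWF Pk nb) hE hU
  obtain ⟨Bd, hBd⟩ : ∃ Bd : Set (Pk.Q × K6aWc j), Bd = {s | K6aNarrow D E (k6a5_st Pk nb) (2 * κb) w s} ∪ Lt ∪
      {s | ENNReal.ofReal η0 * D.prior (E ∩ k6a5_st Pk nb ⁻¹' {s}) < D.prior (U ∩ k6a5_st Pk nb ⁻¹' {s})} := ⟨_, rfl⟩
  have hBm : MeasurableSet {e | k6a5_st Pk nb e ∈ Bd} := k6a5_prep_meas hWF Pk nb Bd
  have hη : ENNReal.ofReal η0 ≠ 0 := by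
    rw [Ne, ENNReal.ofReal_eq_zero, not_le]
    exact hη0
  refine ⟨E \ {e | k6a5_st Pk nb e ∈ Bd}, ⟨hE.diff hBm, Set.sdiff_subset, ?_, ?_, ?_, ?_⟩, ?_⟩
  · intro x hx x' hx' hst
    refine ⟨hx', fun h => hx.2 ?_⟩
    have h' : k6a5_st Pk nb x' ∈ Bd := h
    rw [hst] at h'
    exact h'
  · intro x hx hn
    apply hx.2
    show k6a5_st Pk nb x ∈ Bd
    rw [hBd]
    exact Or.inl (Or.inl hn)
  · intro x hx J
    refine hLt2 _ (fun h => hx.2 ?_) J
    show k6a5_st Pk nb x ∈ Bd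
    rw [hBd]
    exact Or.inl (Or.inr h)
  · intro x hx
    by_contra hcon
    rw [not_le] at hcon
    apply hx.2
    show k6a5_st Pk nb x ∈ Bd
    rw [hBd]
    exact Or.inr hcon
  · have hcov : E ⊆ (E \ {e | k6a5_st Pk nb e ∈ Bd})
        ∪ (E ∩ {e | K6aNarrow D E (k6a5_st Pk nb) (2 * κb) w (k6a5_st Pk nb e)})
        ∪ (E ∩ {e | k6a5_st Pk nb e ∈ Lt})
        ∪ (E ∩ {e | ENNReal.ofReal η0 * D.prior (E ∩ k6a5_st Pk nb ⁻¹' {k6a5_st Pk nb e})
            < D.prior (U ∩ k6a5_st Pk nb ⁻¹' {k6a5_st Pk nb e})}) := by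
      intro e he
      by_cases hb : k6a5_st Pk nb e ∈ Bd
      · rw [hBd] at hb
        rcases hb with (hb | hb) | hb
        · exact Or.inl (Or.inl (Or.inr ⟨he, hb⟩))
        · exact Or.inl (Or.inr ⟨he, hb⟩)
        · exact Or.inr ⟨he, hb⟩
      · exact Or.inl (Or.inl (Or.inl ⟨he, hb⟩))
    have h3 : D.prior (E ∩ {e | ENNReal.ofReal η0 * D.prior (E ∩ k6a5_st Pk nb ⁻¹' {k6a5_st Pk nb e})
        < D.prior (U ∩ k6a5_st Pk nb ⁻¹' {k6a5_st Pk nb e})}) ≤ ENNReal.ofReal (eN / η0) * D.prior E := by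
      have h4 := hM.trans hUs
      rw [ENNReal.ofReal_div_of_pos hη0, div_eq_mul_inv, mul_assoc, mul_comm (ENNReal.ofReal η0)⁻¹, ← mul_assoc,
        ← div_eq_mul_inv, ENNReal.le_div_iff_mul_le (Or.inl hη) (Or.inl ENNReal.ofReal_ne_top), mul_comm]
      exact h4
    have hK0 : 0 ≤ K / Kc := div_nonneg (by linarith) hKc.le
    calc D.prior E ≤ D.prior _ := measure_mono hcov
      _ ≤ D.prior (E \ {e | k6a5_st Pk nb e ∈ Bd}) + ENNReal.ofReal (δ / κb) + ENNReal.ofReal (K / Kc)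
          + ENNReal.ofReal (eN / η0) * D.prior E := by
          refine (measure_union_le _ _).trans (add_le_add ?_ h3)
          refine (measure_union_le _ _).trans (add_le_add ?_ hLt1)
          exact (measure_union_le _ _).trans (add_le_add le_rfl hN)
      _ = _ := by rw [add_assoc (D.prior _), ← ENNReal.ofReal_add (by positivity) hK0]

/-! ### L-252-S6a5-PICK -/

theorem k6a5_pick : k6a5_pick_stmt := by
  intro j D Pk d k K e' E Ep hWF hOk hEp hEpE he' hmass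
  have hprob := hWF.prob
  obtain ⟨R, hR⟩ : ∃ R : Finset Pk.Q, R = Finset.univ.filter (fun q => 0 ≤ Pk.iv q ∧ Pk.iv q ≤ 2 ^ Pk.lev) := ⟨_, rfl⟩
  have hout : ∀ q, q ∉ R → D.prior (Ep ∩ Pk.inc q) = 0 := by
    intro q hq
    refine measure_mono_null ?_ (k6a5_api_prior_time hWF)
    rintro e ⟨-, -, he⟩ ht
    apply hq
    have he2 : k6aBin Pk.lev e.2 = Pk.iv q := he
    have h5 : (0 : ℝ) < 2 ^ Pk.lev := by positivity
    rw [hR, Finset.mem_filter]
    refine ⟨Finset.mem_univ _, ?_, ?_⟩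
    · rw [← he2]
      unfold k6aBin
      exact Int.floor_nonneg.2 (mul_nonneg ht.1 h5.le)
    · rw [← he2]
      unfold k6aBin
      have h6 : e.2 * 2 ^ Pk.lev ≤ ((2 ^ Pk.lev : ℤ) : ℝ) := by
        push_cast
        nlinarith [ht.2]
      exact (Int.floor_le_floor h6).trans (Int.floor_intCast _).le
  have hblock : ∀ n : ℤ, ∑ q ∈ R.filter (fun q => Pk.iv q = n), Pk.νQ q ≤ 1 := by
    intro n
    unfold K6aPk.νQ
    rw [← measure_biUnion_finset ?_ (fun q _ => hOk.asg_meas q)]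
    · exact prob_le_one
    · intro q hq q' hq' hqq
      have h1 : Pk.iv q = n := (Finset.mem_filter.1 hq).2
      have h2 : Pk.iv q' = n := (Finset.mem_filter.1 hq').2
      exact hOk.disj q q' hqq (h1.trans h2.symm)
  have hsumν : ∑ q ∈ R, Pk.νQ q ≤ ((2 ^ Pk.lev + 1 : ℕ) : ℝ≥0∞) := by
    have hmaps : ∀ q ∈ R, Pk.iv q ∈ Finset.Icc (0 : ℤ) (2 ^ Pk.lev) := by
      intro q hq
      rw [hR, Finset.mem_filter] at hq
      exact Finset.mem_Icc.2 hq.2
    rw [← Finset.sum_fiberwise_of_maps_to hmaps]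
    calc ∑ n ∈ Finset.Icc (0 : ℤ) (2 ^ Pk.lev), ∑ q ∈ R.filter (fun q => Pk.iv q = n), Pk.νQ q
        ≤ ∑ _n ∈ Finset.Icc (0 : ℤ) (2 ^ Pk.lev), 1 := Finset.sum_le_sum fun n _ => hblock n
      _ = ((2 ^ Pk.lev + 1 : ℕ) : ℝ≥0∞) := by
          have h7 : (2 : ℤ) ^ Pk.lev + 1 - 0 = ((2 ^ Pk.lev + 1 : ℕ) : ℤ) := by
            push_cast
            ring
          rw [Finset.sum_const, Int.card_Icc, nsmul_eq_mul, mul_one, h7, Int.toNat_natCast]
  have hH0 : 0 < Pk.H := k6a5_api_W_pos _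
  have hH1 : Pk.H ≤ 1 := k6a5_api_W_le_one _
  have hsumH : ∑ q ∈ R, ENNReal.ofReal Pk.H * Pk.νQ q ≤ 2 := by
    rw [← Finset.mul_sum]
    calc ENNReal.ofReal Pk.H * ∑ q ∈ R, Pk.νQ q ≤ ENNReal.ofReal Pk.H * ((2 ^ Pk.lev + 1 : ℕ) : ℝ≥0∞) := by gcongr
      _ = ENNReal.ofReal (Pk.H * ((2 ^ Pk.lev + 1 : ℕ) : ℝ)) := by
          rw [ENNReal.ofReal_mul hH0.le, ENNReal.ofReal_natCast]
      _ ≤ ENNReal.ofReal 2 := by
          refine ENNReal.ofReal_le_ofReal ?_
          push_cast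
          have := k6a5_api_W_mul Pk.lev
          unfold K6aPk.H at hH1 ⊢
          linarith
      _ = 2 := by simp
  obtain ⟨q, hq1, hq2⟩ := k6a_budget Pk.Q (fun q => D.prior (Ep ∩ Pk.inc q))
    (fun q => if q ∈ R then ENNReal.ofReal Pk.H * Pk.νQ q / 2 else 0) (ENNReal.ofReal e')
    (by
      rw [← Finset.sum_filter, Finset.filter_mem_eq_inter, Finset.univ_inter]
      simp only [div_eq_mul_inv]
      rw [← Finset.sum_mul]
      calc (∑ q ∈ R, ENNReal.ofReal Pk.H * Pk.νQ q) * 2⁻¹ ≤ 2 * 2⁻¹ := by gcongr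
        _ = 1 := ENNReal.mul_inv_cancel (by norm_num) (by norm_num))
    (by
      refine hmass.trans ?_
      have hcov : Ep ⊆ ⋃ q ∈ (Finset.univ : Finset Pk.Q), Ep ∩ Pk.inc q := by
        intro e he
        simp only [Finset.mem_univ, Set.iUnion_true, Set.mem_iUnion]
        exact ⟨_, he, hOk.cov e (hEpE he)⟩
      exact (measure_mono hcov).trans (measure_biUnion_finset_le _ _))
    ENNReal.ofReal_ne_top (ENNReal.ofReal_pos.2 he')
  have hqR : q ∈ R := by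
    by_contra h
    rw [hout q h] at hq2
    exact lt_irrefl _ hq2
  refine ⟨q, hq2.ne', ?_⟩
  simp only [if_pos hqR] at hq1
  refine le_trans (le_of_eq ?_) hq1
  rw [ENNReal.ofReal_div_of_pos (by norm_num : (0 : ℝ) < 2)]
  simp only [ENNReal.ofReal_ofNat, div_eq_mul_inv]
  ring

/-! ### L-252-S6a5-BGEO -/

theorem k6a5_bgeo_H_pos {j : ℕ} {D : K6aDat j} (Pk : K6aPk D) : 0 < Pk.H := k6a5_api_W_pos _

theorem k6a5_bgeo_cons_norm {j : ℕ} (a : ℝ) (f : Fin j → ℝ) (r : ℝ) (hr : 0 ≤ r) (ha : |a| ≤ r) (hf : ∀ i, |f i| ≤ r) :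
    ‖(Fin.cons a f : Fin (j + 1) → ℝ)‖ ≤ r := by
  rw [pi_norm_le_iff_of_nonneg hr]
  intro i
  refine Fin.cases ?_ (fun b => ?_) i
  · simpa using ha
  · simpa using hf b

theorem k6a5_bgeo_u_sub {j : ℕ} {D : K6aDat j} (Pk : K6aPk D) (q : Pk.Q) (z z' : ℝ × (Fin j → ℝ)) :
    k6a5_u Pk q z - k6a5_u Pk q z' = Fin.cons ((z.1 - z'.1) / Pk.H) (fun a => (z.2 a - z'.2 a) / Pk.H) := by
  funext i
  unfold k6a5_u k6aU
  refine Fin.cases ?_ (fun b => ?_) i
  · simp only [Pi.sub_apply, Fin.cons_zero]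
    ring
  · simp only [Pi.sub_apply, Fin.cons_succ]
    ring

theorem k6a5_bgeo_blk {j : ℕ} {D : K6aDat j} (Pk : K6aPk D) (q : Pk.Q) (t : ℝ) :
    t ∈ Pk.blk q ↔ k6a5_tq Pk q ≤ t ∧ t < k6a5_tq Pk q + Pk.H := by
  unfold K6aPk.blk k6a5_tq K6aPk.H
  rw [Set.mem_ofPred_eq, k6a5_api_bin_iff, add_mul, one_mul]

theorem k6a5_bgeo : k6a5_bgeo_stmt := by
  intro j D Pk d k K E q hK hOk
  have hH := k6a5_bgeo_H_pos Pk
  refine ⟨?_, ?_, ?_, ?_, ?_⟩
  · intro l τ
    funext i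
    unfold k6a5_u k6aU k6a5_vec k6a5_zc K6aDat.y
    refine Fin.cases ?_ (fun b => ?_) i
    · simp only [Pi.add_apply, Pi.smul_apply, Fin.cons_zero, smul_eq_mul]
      field_simp
      ring
    · simp only [Pi.add_apply, Pi.smul_apply, Fin.cons_succ, smul_eq_mul]
      field_simp
      ring
  · intro l
    unfold k6a5_u k6aU k6a5_zc
    simp
  · intro t
    rw [k6a5_bgeo_blk]
    constructor
    · rintro ⟨h1, h2⟩
      refine ⟨(t - k6a5_tq Pk q) / Pk.H, ⟨div_nonneg (by linarith) hH.le, ?_⟩, ?_⟩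
      · rw [div_lt_one hH]
        linarith
      · field_simp
        ring
    · rintro ⟨τ, ⟨h0, h1⟩, rfl⟩
      constructor
      · nlinarith
      · nlinarith
  · intro l hl t ht
    have hb := (k6a5_bgeo_blk Pk q t).1 ht
    have hbox := hOk.box q l hl t ht
    have hcen := hOk.cen q ⟨l, hl⟩
    unfold k6a5_u k6aU k6a5_zc
    refine k6a5_bgeo_cons_norm _ _ _ (by linarith) ?_ ?_
    · simp only
      rw [abs_of_nonneg (div_nonneg (by linarith) hH.le), div_le_iff₀ hH]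
      nlinarith
    · intro a
      simp only [Pi.add_apply, Pi.smul_apply, smul_eq_mul]
      have h1 : |D.y l t a - (Pk.yc0 q a + t * Pk.yc1 q a)| ≤ K * Pk.H := by
        have := norm_le_pi_norm (D.y l t - (Pk.yc0 q + t • Pk.yc1 q)) a
        simp only [Pi.sub_apply, Pi.add_apply, Pi.smul_apply, smul_eq_mul, Real.norm_eq_abs] at this
        exact this.trans hbox
      have h2 : |Pk.yc1 q a| ≤ K := by
        have := norm_le_pi_norm (Pk.yc1 q) a
        rw [Real.norm_eq_abs] at this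
        exact this.trans hcen
      have h3 : |(t - k6a5_tq Pk q) * Pk.yc1 q a| ≤ Pk.H * K := by
        rw [abs_mul]
        refine mul_le_mul ?_ h2 (abs_nonneg _) hH.le
        rw [abs_of_nonneg (by linarith)]
        linarith
      rw [abs_div, abs_of_pos hH, div_le_iff₀ hH]
      have e : D.y l t a - (Pk.yc0 q a + k6a5_tq Pk q * Pk.yc1 q a)
          = (D.y l t a - (Pk.yc0 q a + t * Pk.yc1 q a)) + (t - k6a5_tq Pk q) * Pk.yc1 q a := by ring
      rw [e]
      refine (abs_add_le _ _).trans ?_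
      linarith
  · intro nb e
    have hW := k6a5_api_W_pos nb
    rw [k6a5_bgeo_u_sub]
    have key : ∀ x : ℝ, |(x - (k6aBin nb x : ℝ) * k6aW nb) / Pk.H| ≤ k6aW nb / Pk.H := by
      intro x
      obtain ⟨h1, h2⟩ := k6a5_api_bin_mem nb x
      rw [abs_div, abs_of_pos hH]
      refine div_le_div_of_nonneg_right ?_ hH.le
      rw [abs_of_nonneg (by linarith)]
      linarith
    refine k6a5_bgeo_cons_norm _ _ _ (div_nonneg hW.le hH.le) ?_ ?_
    · exact key _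
    · intro a
      exact key _

/-! ### L-252-S6a5-BLISTS -/

theorem k6a5_blists_bin_mono (i : ℕ) {x y : ℝ} (h : x ≤ y) : k6aBin i x ≤ k6aBin i y := by
  unfold k6aBin
  exact Int.floor_le_floor (mul_le_mul_of_nonneg_right h (by positivity))

theorem k6a5_blists_bin_add (i : ℕ) (x : ℝ) : k6aBin i (x + k6aW i) = k6aBin i x + 1 := by
  unfold k6aBin
  rw [add_mul, k6a5_api_W_mul, Int.floor_add_one]

theorem k6a5_blists_bin_sub (i : ℕ) (x : ℝ) : k6aBin i (x - k6aW i) = k6aBin i x - 1 := by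
  have := k6a5_blists_bin_add i (x - k6aW i)
  rw [sub_add_cancel] at this
  omega

theorem k6a5_blists_two (i : ℕ) (x z r : ℝ) (h : |x - z| ≤ r) (hr : 2 * r ≤ k6aW i) :
    k6aBin i x ∈ ({k6aBin i (z - r), k6aBin i (z - r) + 1} : Finset ℤ) := by
  obtain ⟨h1, h2⟩ := abs_le.1 h
  have a1 : k6aBin i (z - r) ≤ k6aBin i x := k6a5_blists_bin_mono i (by linarith)
  have a2 : k6aBin i x ≤ k6aBin i (z - r + k6aW i) := k6a5_blists_bin_mono i (by linarith)
  rw [k6a5_blists_bin_add] at a2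
  simp only [Finset.mem_insert, Finset.mem_singleton]
  omega

theorem k6a5_blists_three (i : ℕ) (x z : ℝ) (h : |x - z| ≤ k6aW i) :
    k6aBin i x ∈ ({k6aBin i z - 1, k6aBin i z, k6aBin i z + 1} : Finset ℤ) := by
  obtain ⟨h1, h2⟩ := abs_le.1 h
  have a1 : k6aBin i (z - k6aW i) ≤ k6aBin i x := k6a5_blists_bin_mono i (by linarith)
  have a2 : k6aBin i x ≤ k6aBin i (z + k6aW i) := k6a5_blists_bin_mono i (by linarith)
  rw [k6a5_blists_bin_add] at a2
  rw [k6a5_blists_bin_sub] at a1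
  simp only [Finset.mem_insert, Finset.mem_singleton]
  omega

theorem k6a5_blists : k6a5_blists_stmt := by
  intro j D Pk d k K ε r nb iT E g q hK hOk hG hiT hε ha hr hr4 z0
  have hW := k6a5_api_W_pos iT
  have hapos := hOk.a_pos
  obtain ⟨n, f, Dm, hn, hLip, hbr⟩ := hOk.graphs q
  choose Fl hFlc hFl using hG.lists iT hiT hε
  have hr2 : 2 * r ≤ k6aW iT := by nlinarith
  have hx : ∀ i : Fin n, ∃ x : ℤ, ∀ e ∈ E ∩ Pk.inc q, ‖D.base e - z0‖ ≤ r → D.base e ∈ Dm i →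
      |D.X e.1 e.2 - f i (D.base e)| ≤ K * Pk.a → k6aBin iT (D.X e.1 e.2) ∈ ({x - 1, x, x + 1} : Finset ℤ) := by
    intro i
    by_cases hne : ∃ e ∈ E ∩ Pk.inc q, ‖D.base e - z0‖ ≤ r ∧ D.base e ∈ Dm i ∧ |D.X e.1 e.2 - f i (D.base e)| ≤ K * Pk.a
    · obtain ⟨e0, he0, hb0, hd0, hx0⟩ := hne
      refine ⟨k6aBin iT (D.X e0.1 e0.2), fun e he hb hd hx => ?_⟩
      apply k6a5_blists_three
      have h1 : ‖D.base e - D.base e0‖ ≤ 2 * r := by
        have e1 : D.base e - D.base e0 = (D.base e - z0) - (D.base e0 - z0) := by abel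
        rw [e1]
        refine (norm_sub_le _ _).trans ?_
        linarith
      have h2 := hLip i _ hd _ hd0
      have h3 : K * ‖D.base e - D.base e0‖ ≤ K * (2 * r) := mul_le_mul_of_nonneg_left h1 (by linarith)
      have e2 : D.X e.1 e.2 - D.X e0.1 e0.2 = (D.X e.1 e.2 - f i (D.base e)) + (f i (D.base e) - f i (D.base e0))
          - (D.X e0.1 e0.2 - f i (D.base e0)) := by ring
      rw [e2]
      refine (abs_sub _ _).trans ?_
      refine (add_le_add_left (abs_add_le _ _) _).trans ?_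
      linarith
    · exact ⟨0, fun e he hb hd hx => absurd ⟨e, he, hb, hd, hx⟩ hne⟩
  choose x hx using hx
  obtain ⟨B, hB⟩ : ∃ B : Finset (K6aZc j), B = ({k6aBin iT (z0.1 - r), k6aBin iT (z0.1 - r) + 1} : Finset ℤ) ×ˢ
    Fintype.piFinset (fun a => ({k6aBin iT (z0.2 a - r), k6aBin iT (z0.2 a - r) + 1} : Finset ℤ)) := ⟨_, rfl⟩
  obtain ⟨XB, hXB⟩ : ∃ XB : Finset ℤ, XB = Finset.univ.biUnion (fun i : Fin n => ({x i - 1, x i, x i + 1} : Finset ℤ)) :=
    ⟨_, rfl⟩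
  have hBc : B.card ≤ 2 * 2 ^ j := by
    rw [hB, Finset.card_product, Fintype.card_piFinset]
    refine Nat.mul_le_mul Finset.card_le_two ?_
    refine (Finset.prod_le_pow_card _ _ 2 fun a _ => Finset.card_le_two).trans ?_
    simp
  have hXc : XB.card ≤ n * 3 := by
    rw [hXB]
    refine (Finset.card_biUnion_le_card_mul _ _ 3 fun i _ => Finset.card_le_three).trans ?_
    simp
  refine ⟨(B ×ˢ XB).biUnion Fl, ?_, ?_⟩
  · have h1 : (((B ×ˢ XB).biUnion Fl).card : ℝ) ≤ ∑ c ∈ B ×ˢ XB, ((Fl c).card : ℝ) := by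
      exact_mod_cast Finset.card_biUnion_le
    have h2 : ∑ c ∈ B ×ˢ XB, ((Fl c).card : ℝ) ≤ ((B ×ˢ XB).card : ℝ) * K := by
      have := Finset.sum_le_card_nsmul (B ×ˢ XB) (fun c => ((Fl c).card : ℝ)) K fun c _ => hFlc c
      rwa [nsmul_eq_mul] at this
    have h3 : ((B ×ˢ XB).card : ℝ) ≤ (2 * 2 ^ j) * (K * 3) := by
      rw [Finset.card_product, Nat.cast_mul]
      have b1 : (B.card : ℝ) ≤ 2 * 2 ^ j := by exact_mod_cast hBc
      have b2 : (XB.card : ℝ) ≤ (n : ℝ) * 3 := by exact_mod_cast hXc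
      refine mul_le_mul b1 (b2.trans (by linarith)) (Nat.cast_nonneg _) (by positivity)
    refine h1.trans (h2.trans ((mul_le_mul_of_nonneg_right h3 (by linarith)).trans ?_))
    have : (0 : ℝ) < 2 ^ j * K ^ 2 := by positivity
    have e : (2 : ℝ) ^ (j + 3) * K ^ 2 = 8 * (2 ^ j * K ^ 2) := by ring
    rw [e]
    nlinarith
  · intro e he hb
    obtain ⟨i, hd, hxe⟩ := hbr e he
    rw [Finset.mem_biUnion]
    refine ⟨D.wc iT e, ?_, hFl _ e he.1 rfl⟩
    have hb1 : |e.2 - z0.1| ≤ r := by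
      have := (norm_fst_le (D.base e - z0)).trans hb
      simpa [K6aDat.base] using this
    have hb2 : ∀ a, |D.y e.1 e.2 a - z0.2 a| ≤ r := by
      intro a
      have := ((norm_le_pi_norm (D.base e - z0).2 a).trans (norm_snd_le (D.base e - z0))).trans hb
      simpa [K6aDat.base] using this
    unfold K6aDat.wc K6aDat.zc
    rw [Finset.mem_product, hB, Finset.mem_product, hXB]
    refine ⟨⟨k6a5_blists_two _ _ _ _ hb1 hr2, ?_⟩, ?_⟩
    · rw [Fintype.mem_piFinset]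
      intro a
      exact k6a5_blists_two _ _ _ _ (hb2 a) hr2
    · rw [Finset.mem_biUnion]
      exact ⟨i, Finset.mem_univ _, hx i e he hb hd hxe⟩

/-! ### L-252-S6a5-BQUAL -/

theorem k6a5_bqual_poly_cont {j M : ℕ} (a : Fin (M + 1) → K6aRow j) : Continuous (k6aPoly a) := by
  unfold k6aPoly
  fun_prop

theorem k6a5_bqual_vec_le {j : ℕ} (g : K6aRow j) (b : Fin (j + 1)) : |k6a5_vec g b| ≤ ‖g‖ := by
  unfold k6a5_vec
  refine Fin.cases ?_ (fun b' => ?_) b
  · simpa using norm_fst_le g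
  · simpa using (norm_le_pi_norm g.2 b').trans (norm_snd_le g)

theorem k6a5_bqual_vec_sum {j M : ℕ} (a : Fin (M + 1) → K6aRow j) (t : ℝ) (b : Fin (j + 1)) :
    k6a5_vec (∑ i : Fin (M + 1), t ^ (i : ℕ) • a i) b = ∑ i : Fin (M + 1), t ^ (i : ℕ) * k6a5_vec (a i) b := by
  unfold k6a5_vec
  refine Fin.cases ?_ (fun b' => ?_) b
  · simp [Prod.fst_sum]
  · simp [Prod.snd_sum, Finset.sum_apply]

theorem k6a5_bqual : k6a5_bqual_stmt := by
  intro j M D Pk K Kq η nb E g q l τ0 a hWF hE hKq htq hτ0 hmem ha hfit hvol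
  have hH0 : 0 < Pk.H := k6a5_api_W_pos _
  have hH1 : Pk.H ≤ 1 := k6a5_api_W_le_one _
  obtain ⟨A, hA⟩ : ∃ A : Set (D.L × ℝ), A = {e | e ∈ E ∧ ‖g (D.wc nb e) - k6aPoly a e.2‖ ≤ η} := ⟨_, rfl⟩
  have hAm : MeasurableSet A := by
    have hg : Measurable fun e : D.L × ℝ => g (D.wc nb e) := (Measurable.of_discrete (f := g)).comp (k6a5_api_wc hWF nb)
    have hp : Measurable fun e : D.L × ℝ => k6aPoly a e.2 := (k6a5_bqual_poly_cont a).measurable.comp measurable_snd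
    rw [hA]
    exact hE.inter (measurableSet_le (hg.sub hp).norm measurable_const)
  have hφ : Measurable fun τ : ℝ => ((l, k6a5_tq Pk q + Pk.H * τ) : D.L × ℝ) :=
    measurable_const.prodMk (measurable_const.add (measurable_id.const_mul _))
  have hWt : k6a5_Wt D Pk q nb M η E g l a = Set.Ico (0 : ℝ) 1 ∩ (fun τ : ℝ => ((l, k6a5_tq Pk q + Pk.H * τ) : D.L × ℝ)) ⁻¹' A := by
    ext τ
    rw [hA]
    rfl
  have hmeas : MeasurableSet (k6a5_Wt D Pk q nb M η E g l a) := by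
    rw [hWt]
    exact measurableSet_Ico.inter (hφ hAm)
  refine ⟨hmeas, ⟨hτ0, hmem, hfit⟩, ?_, ?_, ?_, ?_⟩
  · -- the volume
    obtain ⟨S, hS⟩ : ∃ S : Set ℝ, S = {t | (l, t) ∈ E ∧ k6aBin Pk.lev t = k6aBin Pk.lev (k6a5_tq Pk q + Pk.H * τ0) ∧
      ‖g (D.wc nb (l, t)) - k6aPoly a t‖ ≤ η} := ⟨_, rfl⟩
    rw [← hS] at hvol
    have hbin : k6aBin Pk.lev (k6a5_tq Pk q + Pk.H * τ0) = Pk.iv q := by
      have : k6a5_tq Pk q + Pk.H * τ0 ∈ Pk.blk q := by
        rw [k6a5_bgeo_blk]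
        constructor <;> nlinarith [hτ0.1, hτ0.2]
      exact this
    have hpre : k6a5_Wt D Pk q nb M η E g l a = (fun τ => Pk.H * τ) ⁻¹' ((fun t => k6a5_tq Pk q + t) ⁻¹' S) := by
      ext τ
      rw [hS, hbin]
      simp only [k6a5_Wt, Set.mem_ofPred_eq, Set.mem_preimage]
      have hb : k6aBin Pk.lev (k6a5_tq Pk q + Pk.H * τ) = Pk.iv q ↔ τ ∈ Set.Ico (0 : ℝ) 1 := by
        have h1 := k6a5_bgeo_blk Pk q (k6a5_tq Pk q + Pk.H * τ)
        have h2 : k6a5_tq Pk q + Pk.H * τ ∈ Pk.blk q ↔ k6aBin Pk.lev (k6a5_tq Pk q + Pk.H * τ) = Pk.iv q := Iff.rfl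
        rw [← h2, h1, Set.mem_Ico]
        constructor
        · rintro ⟨h3, h4⟩
          constructor
          · by_contra hc
            rw [not_le] at hc
            nlinarith
          · by_contra hc
            rw [not_lt] at hc
            nlinarith
        · rintro ⟨h3, h4⟩
          constructor <;> nlinarith
      rw [hb]
      tauto
    have hv : volume (k6a5_Wt D Pk q nb M η E g l a) = ENNReal.ofReal (Pk.H⁻¹) * volume S := by
      rw [hpre, Real.volume_preimage_mul_left hH0.ne', measure_preimage_add, abs_of_pos (inv_pos.2 hH0)]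
    rw [hv, ENNReal.toReal_mul, ENNReal.toReal_ofReal (inv_pos.2 hH0).le]
    have h3 : Pk.H / Kq ≤ (volume S).toReal := hvol
    rw [div_le_iff₀ hKq] at h3
    have h4 : Kq * (Pk.H⁻¹ * (volume S).toReal) = ((volume S).toReal * Kq) / Pk.H := by
      field_simp
    rw [h4, le_div_iff₀ hH0, one_mul]
    exact h3
  · intro b
    unfold k6a5_fitP
    refine Polynomial.natDegree_sum_le_of_forall_le _ _ (fun r _ => ?_)
    refine (Polynomial.natDegree_C_mul_le _ _).trans ?_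
    refine Polynomial.natDegree_pow_le.trans ?_
    have h1 : (Polynomial.C (k6a5_tq Pk q) + Polynomial.C Pk.H * Polynomial.X).natDegree ≤ 1 := by
      rw [add_comm]
      exact Polynomial.natDegree_linear_le
    have h2 : (r : ℕ) ≤ M := Nat.lt_succ_iff.1 r.2
    calc (r : ℕ) * (Polynomial.C (k6a5_tq Pk q) + Polynomial.C Pk.H * Polynomial.X).natDegree ≤ (r : ℕ) * 1 :=
          Nat.mul_le_mul_left _ h1
      _ ≤ M := by omega
  · intro b r
    refine (rmz_coeff_le_N _ r).trans ?_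
    unfold k6a5_fitP
    refine (rmz_N_sum _ _).trans ?_
    have hlin : rmzN (Polynomial.C (k6a5_tq Pk q) + Polynomial.C Pk.H * Polynomial.X) ≤ 2 := by
      refine (rmz_N_add _ _).trans ?_
      have h1 : rmzN (Polynomial.C (k6a5_tq Pk q)) = |k6a5_tq Pk q| := by
        have := rmz_N_C_mul (k6a5_tq Pk q) 1
        rwa [mul_one, rmz_N_one, mul_one] at this
      have h2 : rmzN (Polynomial.C Pk.H * Polynomial.X) ≤ Pk.H := by
        rw [rmz_N_C_mul, abs_of_pos hH0]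
        have h3 := rmz_N_X_sub_C 0
        simp only [map_zero, sub_zero, abs_zero, add_zero] at h3
        nlinarith
      rw [h1]
      linarith
    have hpow : ∀ n : ℕ, rmzN ((Polynomial.C (k6a5_tq Pk q) + Polynomial.C Pk.H * Polynomial.X) ^ n) ≤ 2 ^ n := by
      intro n
      induction n with
      | zero => simp [rmz_N_one]
      | succ n ih =>
        rw [pow_succ, pow_succ]
        exact (rmz_N_mul _ _).trans (mul_le_mul ih hlin (rmz_N_nonneg _) (by positivity))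
    calc ∑ i : Fin (M + 1), rmzN (Polynomial.C (k6a5_vec (a i) b) *
          (Polynomial.C (k6a5_tq Pk q) + Polynomial.C Pk.H * Polynomial.X) ^ (i : ℕ))
        ≤ ∑ _i : Fin (M + 1), Kq * 2 ^ M := by
          refine Finset.sum_le_sum fun i _ => ?_
          rw [rmz_N_C_mul]
          have h2 : (i : ℕ) ≤ M := Nat.lt_succ_iff.1 i.2
          refine mul_le_mul ((k6a5_bqual_vec_le (a i) b).trans (ha i)) ?_ (rmz_N_nonneg _) hKq.le
          exact (hpow _).trans (pow_le_pow_right₀ (by norm_num) h2)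
      _ = ((M : ℝ) + 1) * 2 ^ M * Kq := by
          simp only [Finset.sum_const, Finset.card_univ, Fintype.card_fin, nsmul_eq_mul]
          push_cast
          ring
  · intro b τ
    unfold k6a5_fitP k6aPoly
    rw [Polynomial.eval_finsetSum, k6a5_bqual_vec_sum]
    refine Finset.sum_congr rfl fun r _ => ?_
    simp only [Polynomial.eval_mul, Polynomial.eval_C, Polynomial.eval_pow, Polynomial.eval_add, Polynomial.eval_X]
    ring

/-! ### L-252-S6a5-BCEIL -/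

theorem k6a5_bceil_ball {j : ℕ} {D : K6aDat j} (Pk : K6aPk D) (q : Pk.Q) (u0 : Fin (j + 1) → ℝ) (ρ : ℝ) (hρ : 0 ≤ ρ)
    (z : ℝ × (Fin j → ℝ)) (h : ‖k6a5_u Pk q z - u0‖ ≤ ρ) :
    z ∈ Metric.closedBall (((k6a5_zc Pk q).1 + Pk.H * u0 0, fun a => (k6a5_zc Pk q).2 a + Pk.H * u0 a.succ) :
      ℝ × (Fin j → ℝ)) (ρ * Pk.H) := by
  have hH := k6a5_bgeo_H_pos Pk
  rw [Metric.mem_closedBall, dist_eq_norm, Prod.norm_def]
  have h0 := (norm_le_pi_norm (k6a5_u Pk q z - u0) 0).trans h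
  have hs := fun a : Fin j => (norm_le_pi_norm (k6a5_u Pk q z - u0) a.succ).trans h
  unfold k6a5_u k6aU at h0 hs
  simp only [Pi.sub_apply, Fin.cons_zero, Fin.cons_succ, Real.norm_eq_abs] at h0 hs
  refine max_le ?_ ?_
  · simp only [Prod.fst_sub, Real.norm_eq_abs]
    have e : z.1 - ((k6a5_zc Pk q).1 + Pk.H * u0 0) = ((z.1 - (k6a5_zc Pk q).1) / Pk.H - u0 0) * Pk.H := by
      field_simp
      ring
    rw [e, abs_mul, abs_of_pos hH]
    exact mul_le_mul_of_nonneg_right h0 hH.le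
  · rw [pi_norm_le_iff_of_nonneg (by positivity)]
    intro a
    simp only [Prod.snd_sub, Pi.sub_apply, Real.norm_eq_abs]
    have e : z.2 a - ((k6a5_zc Pk q).2 a + Pk.H * u0 a.succ) = ((z.2 a - (k6a5_zc Pk q).2 a) / Pk.H - u0 a.succ) * Pk.H := by
      field_simp
      ring
    rw [e, abs_mul, abs_of_pos hH]
    exact mul_le_mul_of_nonneg_right (hs a) hH.le

theorem k6a5_bceil_vol {j : ℕ} (c : ℝ × (Fin j → ℝ)) (s : ℝ) (hs : 0 ≤ s) :
    volume (Metric.closedBall c s) = ENNReal.ofReal ((2 * s) ^ (j + 1)) := by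
  obtain ⟨c1, c2⟩ := c
  rw [← closedBall_prod_same, Measure.volume_eq_prod, Measure.prod_prod, Real.volume_closedBall,
    Real.volume_pi_closedBall _ hs, Fintype.card_fin, ← ENNReal.ofReal_mul (by positivity)]
  congr 1
  ring

theorem k6a5_bceil : k6a5_bceil_stmt := by
  intro j D Pk d k K nb E Ep q T hK hWF hOk hEp hsub u0 r hr
  have hH := k6a5_bgeo_H_pos Pk
  have hW := k6a5_api_W_pos nb
  have hfin := k6a5_api_prior_fin hWF
  have hprob := hWF.prob
  obtain ⟨S, hS⟩ : ∃ S, S = T.filter (fun c => ‖k6a5_u Pk q (k6a5_corner nb c) - u0‖ ≤ r) := ⟨_, rfl⟩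
  obtain ⟨ρ, hρ⟩ : ∃ ρ, ρ = r + k6aW nb / Pk.H := ⟨_, rfl⟩
  have hρ0 : 0 ≤ ρ := by rw [hρ]; positivity
  obtain ⟨U, hUdef⟩ : ∃ U, U = Metric.closedBall (((k6a5_zc Pk q).1 + Pk.H * u0 0,
    fun a => (k6a5_zc Pk q).2 a + Pk.H * u0 a.succ) : ℝ × (Fin j → ℝ)) (ρ * Pk.H) := ⟨_, rfl⟩
  have hU : MeasurableSet U := by rw [hUdef]; exact Metric.isClosed_closedBall.measurableSet
  have hvol : volume U = ENNReal.ofReal ((2 * (ρ * Pk.H)) ^ (j + 1)) := by
    rw [hUdef]; exact k6a5_bceil_vol _ _ (by positivity)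
  rw [← hS, ← hρ]
  have h1 : ∑ c ∈ S, D.prior (Ep ∩ Pk.inc q ∩ D.wc nb ⁻¹' {c}) ≤ D.prior (E ∩ Pk.inc q ∩ D.base ⁻¹' U) := by
    rw [← measure_biUnion_finset]
    · apply measure_mono
      intro e he
      simp only [Set.mem_iUnion] at he
      obtain ⟨c, hc, ⟨he1, he2⟩, he3⟩ := he
      refine ⟨⟨hsub he1, he2⟩, ?_⟩
      rw [Set.mem_preimage, hUdef]
      apply k6a5_bceil_ball Pk q u0 ρ hρ0
      rw [hS, Finset.mem_filter] at hc
      have h5 := (k6a5_bgeo j D Pk d k K E q hK hOk).2.2.2.2 nb e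
      rw [Set.mem_preimage, Set.mem_singleton_iff] at he3
      rw [he3] at h5
      have e2 : k6a5_u Pk q (D.base e) - u0 = (k6a5_u Pk q (D.base e) - k6a5_u Pk q (k6a5_corner nb c))
          + (k6a5_u Pk q (k6a5_corner nb c) - u0) := by abel
      rw [e2, hρ]
      refine (norm_add_le _ _).trans ?_
      linarith [hc.2]
    · intro c _ c' _ hcc
      refine Set.disjoint_left.2 ?_
      rintro e ⟨_, h2⟩ ⟨_, h3⟩
      rw [Set.mem_preimage, Set.mem_singleton_iff] at h2 h3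
      exact hcc (h2.symm.trans h3)
    · intro c _
      exact (hEp.inter (k6a5_api_inc hOk q)).inter (k6a5_api_wc_fib hWF nb c)
  have h2 := hOk.capQ q U hU
  rw [hvol] at h2
  have hν : Pk.νQ q ≠ ⊤ := by
    unfold K6aPk.νQ
    exact measure_ne_top _ _
  obtain ⟨P, hP⟩ : ∃ P, P = D.prior (E ∩ Pk.inc q ∩ D.base ⁻¹' U) := ⟨_, rfl⟩
  rw [← hP] at h1 h2
  have hPt : P ≠ ⊤ := by rw [hP]; exact measure_ne_top _ _
  have h3 : Pk.H ^ j * P.toReal ≤ K * (Pk.νQ q).toReal * (2 * (ρ * Pk.H)) ^ (j + 1) := by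
    have := ENNReal.toReal_mono (ENNReal.mul_ne_top (ENNReal.mul_ne_top ENNReal.ofReal_ne_top hν) ENNReal.ofReal_ne_top) h2
    rwa [ENNReal.toReal_mul, ENNReal.toReal_mul, ENNReal.toReal_mul, ENNReal.toReal_ofReal (by positivity),
      ENNReal.toReal_ofReal (by linarith), ENNReal.toReal_ofReal (by positivity)] at this
  have h4 : ∑ c ∈ S, (D.prior (Ep ∩ Pk.inc q ∩ D.wc nb ⁻¹' {c})).toReal ≤ P.toReal := by
    rw [← ENNReal.toReal_sum (fun c _ => measure_ne_top _ _)]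
    exact ENNReal.toReal_mono hPt h1
  rw [← Finset.sum_div]
  rcases (ENNReal.toReal_nonneg (a := Pk.νQ q)).eq_or_lt with h0 | h0
  · rw [← h0, mul_zero, div_zero]
    positivity
  · rw [div_le_iff₀ (by positivity)]
    refine h4.trans ?_
    have hHj : 0 < Pk.H ^ j := by positivity
    refine le_of_mul_le_mul_left (h3.trans (le_of_eq ?_)) hHj
    ring

/-! ### L-252-S6a5-BSM (BSTRIP + BMAT + MONO) -/

theorem k6a5_bstrip : k6a5_bstrip_stmt := by
  intro j D S E s K κp w s0 hj hK hWF hw hw1 hN a ha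
  obtain ⟨i₀, hi₀⟩ := ha
  have haa : 1 ≤ a ⬝ᵥ a := by
    have h1 : a i₀ * a i₀ ≤ a ⬝ᵥ a :=
      Finset.single_le_sum (f := fun i => a i * a i) (fun i _ => mul_self_nonneg (a i)) (Finset.mem_univ i₀)
    have h2 : 1 ≤ a i₀ * a i₀ := by
      rw [← abs_mul_abs_self]
      nlinarith [abs_nonneg (a i₀)]
    linarith
  obtain ⟨N, hNdef⟩ : ∃ N : ℝ, N = Real.sqrt (a ⬝ᵥ a) := ⟨_, rfl⟩
  have hN1 : 1 ≤ N := by
    rw [hNdef]
    exact Real.one_le_sqrt.2 haa
  have hN0 : 0 < N := by linarith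
  have hNN : N * N = a ⬝ᵥ a := by
    rw [hNdef]
    exact Real.mul_self_sqrt (by linarith)
  have hu : (N⁻¹ • a) ⬝ᵥ (N⁻¹ • a) = 1 := by
    rw [smul_dotProduct, dotProduct_smul, smul_eq_mul, smul_eq_mul, ← hNN]
    field_simp
  obtain ⟨n, c, hn, hnc⟩ := k6a_lift_strip j K w (N⁻¹ • a) hj hK hw hw1 hu
  have hjK : (0 : ℝ) < (j + 1) * K := by positivity
  have hsub : E ∩ s ⁻¹' {s0} ∩ {e | |a ⬝ᵥ k6a5_vec (1, D.V e.1)| ≤ w / (4 * (j + 1) * K)}
      ⊆ E ∩ s ⁻¹' {s0} ∩ {e | |n ⬝ᵥ D.V e.1 - c| ≤ w} := by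
    rintro e ⟨he1, he2⟩
    refine ⟨he1, hnc _ (hWF.bd e.1).2.1 ?_⟩
    have he3 : |a ⬝ᵥ (Fin.cons 1 (D.V e.1) : Fin (j + 1) → ℝ)| ≤ w / (4 * (j + 1) * K) := he2
    rw [smul_dotProduct, smul_eq_mul, abs_mul, abs_of_pos (inv_pos.2 hN0)]
    have h1 : N⁻¹ ≤ 1 := inv_le_one_of_one_le₀ hN1
    have h2 : N⁻¹ * |a ⬝ᵥ (Fin.cons 1 (D.V e.1) : Fin (j + 1) → ℝ)| ≤ 1 * (w / (4 * (j + 1) * K)) :=
      mul_le_mul h1 he3 (abs_nonneg _) zero_le_one
    refine lt_of_le_of_lt h2 ?_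
    rw [one_mul]
    apply div_lt_div_of_pos_left hw (by positivity)
    nlinarith
  refine (measure_mono hsub).trans ?_
  by_contra hcon
  rw [not_le] at hcon
  exact hN ⟨n, c, hn, hcon.le⟩

theorem k6a5_bmat : k6a5_bmat_stmt := by
  intro j V A0 K δ pv hK hδ hpv hpv1 hV hVA hdet hsmall
  have hK2 : (0 : ℝ) < 2 * K := by linarith
  have hA0 : ∀ b i, |A0 b i| ≤ 2 * K := by
    intro b i
    have h1 := hV i b
    have h2 := hVA i b
    rw [abs_le] at h1 h2 ⊢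
    constructor <;> linarith [h1.1, h1.2, h2.1, h2.2]
  have hp := k6a_det_perturb (j + 1) ((2 * K)⁻¹ • Matrix.of V) ((2 * K)⁻¹ • A0.transpose) (pv / (2 * K))
    (by
      intro i b
      rw [Matrix.smul_apply, smul_eq_mul, abs_mul, abs_of_pos (inv_pos.2 hK2), inv_mul_le_iff₀ hK2, mul_one]
      exact (hV i b).trans (by linarith))
    (by
      intro i b
      rw [Matrix.smul_apply, smul_eq_mul, abs_mul, abs_of_pos (inv_pos.2 hK2), inv_mul_le_iff₀ hK2, mul_one]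
      exact hA0 b i)
    (by
      intro i b
      rw [Matrix.smul_apply, Matrix.smul_apply, smul_eq_mul, smul_eq_mul, ← mul_sub, abs_mul,
        abs_of_pos (inv_pos.2 hK2), div_eq_inv_mul]
      exact mul_le_mul_of_nonneg_left (hVA i b) (inv_pos.2 hK2).le)
  rw [Matrix.det_smul, Matrix.det_smul, Matrix.det_transpose, Fintype.card_fin, ← mul_sub, abs_mul,
    abs_of_pos (by positivity : 0 < (2 * K)⁻¹ ^ (j + 1))] at hp
  have hfac : (0 : ℝ) < ((j + 1).factorial : ℝ) := by exact_mod_cast Nat.factorial_pos _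
  have hd1 : |(Matrix.of V).det - A0.det| ≤ δ / 2 := by
    have h1 : |(Matrix.of V).det - A0.det| ≤ (2 * K) ^ (j + 1) * (((j + 1 : ℕ) : ℝ) * ((j + 1).factorial : ℝ) * (pv / (2 * K))) := by
      rw [inv_pow, inv_mul_le_iff₀ (by positivity)] at hp
      exact hp
    have h2 : pv / (2 * K) ≤ pv := div_le_self hpv (by linarith)
    have h3 : (2 * K) ^ (j + 1) * (((j + 1 : ℕ) : ℝ) * ((j + 1).factorial : ℝ) * (pv / (2 * K)))
        ≤ (2 * K) ^ (j + 1) * (((j + 1 : ℕ) : ℝ) * ((j + 1).factorial : ℝ) * pv) := by gcongr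
    push_cast at h1 h3
    nlinarith
  have hd2 : δ / 2 ≤ |A0.det| := by
    have h1 : |(Matrix.of V).det| ≤ |(Matrix.of V).det - A0.det| + |A0.det| := by
      have := abs_add_le ((Matrix.of V).det - A0.det) A0.det
      rwa [sub_add_cancel] at this
    linarith
  have hne : A0.det ≠ 0 := by
    intro h
    rw [h, abs_zero] at hd2
    linarith
  refine ⟨A0⁻¹, Matrix.mul_nonsing_inv A0 (isUnit_iff_ne_zero.2 hne), hA0, ?_⟩
  intro i b
  have h1 := k6a_inv_entry_bound (j + 1) A0 (2 * K) (δ / 2) (by linarith) (by positivity) hA0 hd2 i b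
  refine h1.trans (le_of_eq ?_)
  field_simp

theorem k6a5_mono : k6a5_mono_stmt := by
  intro j D K K' hK hKK
  have hK0 : 0 < K := by linarith
  have hK'0 : 0 < K' := by linarith
  have hof : ENNReal.ofReal K ≤ ENNReal.ofReal K' := ENNReal.ofReal_le_ofReal hKK
  refine ⟨?_, ?_, ?_, ?_, ?_⟩
  · intro h
    exact ⟨h.prob, h.m_y0, h.m_V, h.m_xc, h.m_lab, h.pal_le,
      fun l => ⟨(h.bd l).1.trans hKK, (h.bd l).2.1.trans hKK, (h.bd l).2.2.trans hKK⟩⟩
  · intro Pk d k E h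
    have hH0 : 0 < Pk.H := k6a5_api_W_pos _
    have ha := h.a_pos
    refine ⟨ha, ?_, ?_, h.asg_meas, h.disj, ?_, ?_, h.cov, ?_, ?_, ?_, ?_⟩
    · exact h.H_lo.trans (mul_le_mul_of_nonneg_right hKK hH0.le)
    · exact h.H_hi.trans (mul_le_mul_of_nonneg_right hKK (Real.rpow_nonneg ha.le _))
    · intro q hq
      exact (h.ν_lo q hq).trans (by gcongr)
    · intro q
      refine (h.ν_hi q).trans (ENNReal.ofReal_le_ofReal ?_)
      have h1 : 0 ≤ Pk.a ^ d := Real.rpow_nonneg ha.le _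
      gcongr
    · intro q l hl t ht
      exact (h.box q l hl t ht).trans (mul_le_mul_of_nonneg_right hKK hH0.le)
    · intro q hq
      exact (h.cen q hq).trans hKK
    · intro q U hU
      exact (h.capQ q U hU).trans (by gcongr)
    · intro q
      obtain ⟨n, f, Dm, h1, h2, h3⟩ := h.graphs q
      refine ⟨n, f, Dm, h1.trans hKK, ?_, ?_⟩
      · intro i z hz z' hz'
        exact (h2 i z hz z' hz').trans (mul_le_mul_of_nonneg_right hKK (norm_nonneg _))
      · intro e he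
        obtain ⟨i, h4, h5⟩ := h3 e he
        exact ⟨i, h4, h5.trans (mul_le_mul_of_nonneg_right hKK ha.le)⟩
  · intro ε nb E g h
    refine ⟨h.E_meas, fun c => (h.bound c).trans hKK, h.est, ?_⟩
    intro i hi hε c
    obtain ⟨F, h1, h2⟩ := h.lists i hi hε c
    exact ⟨F, h1.trans hKK, h2⟩
  · intro kh M η eN nb E U g h
    refine ⟨h.U_meas, h.U_sub, h.U_small, ?_⟩
    intro e he heU
    obtain ⟨a, h1, h2, h3⟩ := h.qual e he heU
    refine ⟨a, fun i => (h1 i).trans hKK, h2, le_trans ?_ h3⟩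
    exact div_le_div_of_nonneg_left (k6a5_api_W_pos kh).le hK0 hKK
  · intro Pk nb nv κp w η0 E U Ep h
    refine ⟨h.meas, h.sub, h.whole, h.broad, ?_, h.good⟩
    intro x hx J
    exact (h.dom x hx J).trans (by gcongr)

end Claimed.Agent.R252
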