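import Claimed.Agent.R252.S6a.L5GlueA

/-!
# (row252, unit S6a, layer 5, sub-architect helper274; CLOSED, 0 open leaves): (6.28), (6.29), the scales, BUILD and the exit of the layer.
Statements + plans: docstrings of the `def ..._stmt` in `S6a/L5Glue.lean` (never edit that file; false/awkward = one line to helper274).   Interfaces: `S6a/Layers.lean`.
SHARED FILE: prove YOUR theorem IN PLACE (replace its `sorry`; helper lemmas directly above it, prefix `k6a5_<leaf>_`); `git pull` first, splice only your block, land.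
-/

set_option autoImplicit false

namespace Claimed.Agent.R252

open MeasureTheory
open scoped ENNReal BigOperators Classical

/-! ### L-252-S6a5-LINE -/

theorem k6a5_line_at {j : ℕ} (g g' : K6aRow j) (V : Fin j → ℝ) (K ε : ℝ) (hK : 0 ≤ K) (hV : ‖V‖ ≤ K) (h : ‖g - g'‖ ≤ ε) :
    |k6aAt g V - k6aAt g' V| ≤ (1 + j * K) * ε := by
  have hε : 0 ≤ ε := (norm_nonneg _).trans h
  have e : k6aAt g V - k6aAt g' V = (g - g').1 + (g - g').2 ⬝ᵥ V := by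
    unfold k6aAt
    rw [Prod.fst_sub, Prod.snd_sub, sub_dotProduct]
    ring
  have h1 : |(g - g').1| ≤ ε := by
    have := norm_fst_le (g - g')
    rw [Real.norm_eq_abs] at this
    exact this.trans h
  have h2 : |(g - g').2 ⬝ᵥ V| ≤ j * K * ε := by
    unfold dotProduct
    refine (Finset.abs_sum_le_sum_abs _ _).trans ?_
    have h3 : ∀ a ∈ (Finset.univ : Finset (Fin j)), |(g - g').2 a * V a| ≤ K * ε := by
      intro a _
      rw [abs_mul, mul_comm]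
      have h4 : |V a| ≤ K := by
        have := norm_le_pi_norm V a
        rw [Real.norm_eq_abs] at this
        exact this.trans hV
      have h5 : |(g - g').2 a| ≤ ε := by
        have := norm_le_pi_norm (g - g').2 a
        rw [Real.norm_eq_abs] at this
        exact (this.trans (norm_snd_le _)).trans h
      exact mul_le_mul h4 h5 (abs_nonneg _) hK
    refine (Finset.sum_le_sum h3).trans ?_
    rw [Finset.sum_const, Finset.card_univ, Fintype.card_fin, nsmul_eq_mul, mul_assoc]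
  rw [e]
  refine (abs_add_le _ _).trans ?_
  linarith

theorem k6a5_line_poly {j : ℕ} (Dg : ℕ) (T : Fin (j + 1) → MvPolynomial (Fin (j + 1)) ℝ) (hT : ∀ i, (T i).totalDegree ≤ Dg)
    (x v : Fin (j + 1) → ℝ) (b0 b1 : ℝ) (V : Fin j → ℝ) :
    ∃ p : Polynomial ℝ, p.natDegree ≤ Dg + 1 ∧
      ∀ t, p.eval t = b0 + b1 * t - k6aAt (k6aFld T (fun i => x i + t * v i)) V := by
  choose p hp1 hp2 using fun i => rmz_line (j + 1) (T i) x v
  refine ⟨Polynomial.C b0 + Polynomial.C b1 * Polynomial.X - (p 0 + ∑ a : Fin j, p a.succ * Polynomial.C (V a)), ?_, fun t => ?_⟩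
  · refine (Polynomial.natDegree_sub_le _ _).trans (max_le ?_ ?_)
    · rw [add_comm]
      exact Polynomial.natDegree_linear_le.trans (by omega)
    · refine (Polynomial.natDegree_add_le _ _).trans (max_le (((hp1 0).trans (hT 0)).trans (by omega)) ?_)
      refine Polynomial.natDegree_sum_le_of_forall_le _ _ fun a _ => ?_
      exact (Polynomial.natDegree_mul_C_le _ _).trans (((hp1 _).trans (hT _)).trans (by omega))
  · simp only [Polynomial.eval_sub, Polynomial.eval_add, Polynomial.eval_mul, Polynomial.eval_C, Polynomial.eval_X,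
      Polynomial.eval_finsetSum]
    unfold k6aAt k6aFld dotProduct
    simp only [hp2]

theorem k6a5_line : k6a5_line_stmt := by
  intro j Dg
  refine ⟨(Dg + 2) * (4 * (Dg + 2)) ^ (Dg + 1) * (2 + j), ?_⟩
  intro D Pk d k K K1 ε nb E Es g q T hK hK1 hε hWF hOk hest hEs hT hfld l hvol t ht
  obtain ⟨c, hc⟩ : ∃ c : ℕ, c = (Dg + 2) * (4 * (Dg + 2)) ^ (Dg + 1) * (2 + j) := ⟨_, rfl⟩
  rw [← hc]
  have hc1 : 1 ≤ c := by
    rw [hc]
    exact Nat.succ_le_of_lt (by positivity)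
  have hH : 0 < Pk.H := k6a5_api_W_pos _
  -- the block
  have hblk : ∀ s ∈ Pk.blk q, k6a5_tq Pk q ≤ s ∧ s < k6a5_tq Pk q + Pk.H := by
    intro s hs
    have := (k6a5_api_bin_iff Pk.lev s (Pk.iv q)).1 hs
    unfold k6a5_tq K6aPk.H
    constructor
    · exact this.1
    · have h2 := this.2
      rw [add_mul, one_mul] at h2
      exact h2
  -- the curve
  obtain ⟨x, hx⟩ : ∃ x : Fin (j + 1) → ℝ, x = Fin.cons (-(k6a5_zc Pk q).1 / Pk.H)
      (fun a => (D.y0 l a - (k6a5_zc Pk q).2 a) / Pk.H) := ⟨_, rfl⟩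
  obtain ⟨v, hv⟩ : ∃ v : Fin (j + 1) → ℝ, v = Fin.cons (1 / Pk.H) (fun a => D.V l a / Pk.H) := ⟨_, rfl⟩
  have hu : ∀ s, k6a5_u Pk q (s, D.y l s) = fun i => x i + s * v i := by
    intro s
    funext i
    rw [hx, hv]
    unfold k6a5_u k6aU K6aDat.y
    refine Fin.cases ?_ (fun a => ?_) i
    · simp only [Fin.cons_zero]
      ring
    · simp only [Fin.cons_succ, Pi.add_apply, Pi.smul_apply, smul_eq_mul]
      ring
  obtain ⟨p, hp1, hp2⟩ := k6a5_line_poly Dg T hT x v (D.xc l 1) (2 * D.xc l 2) (D.V l)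
  have hF : ∀ s, D.Xd l s - k6aAt (k6aFld T (k6a5_u Pk q (s, D.y l s))) (D.V l) = p.eval s := by
    intro s
    rw [hp2, hu]
    rfl
  rw [hF]
  have hM : ∀ s ∈ D.fib Es l, |p.eval s| ≤ (2 + j) * K * ε := by
    intro s hs
    have hs' : (l, s) ∈ Es := hs
    have h1 := hest _ (hEs hs').1
    have h2 := k6a5_line_at _ _ (D.V l) K ε (by linarith) (hWF.bd l).2.1 (hfld _ hs')
    rw [← hF]
    have e : D.Xd l s - k6aAt (k6aFld T (k6a5_u Pk q (s, D.y l s))) (D.V l)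
        = (D.Xd l s - k6aAt (g (D.wc nb (l, s))) (D.V l))
          + (k6aAt (g (D.wc nb (l, s))) (D.V l) - k6aAt (k6aFld T (k6a5_u Pk q (D.base (l, s)))) (D.V l)) := by
      unfold K6aDat.base
      ring
    rw [e]
    refine (abs_add_le _ _).trans ?_
    have h3 : ε ≤ K * ε := le_mul_of_one_le_left hε hK
    simp only at h1
    nlinarith
  have hsub : D.fib Es l ⊆ Set.Icc (k6a5_tq Pk q) (k6a5_tq Pk q + Pk.H) := by
    intro s hs
    have hs' : (l, s) ∈ Es := hs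
    have := hblk s (hEs hs').2.2
    exact ⟨this.1, this.2.le⟩
  have hK1' : 0 < K1 := by linarith
  have h1 := rmz_interval (Dg + 1) p hp1 (k6a5_tq Pk q) (k6a5_tq Pk q + Pk.H) (1 / K1) ((2 + j) * K * ε) (by linarith)
    (by positivity) (D.fib Es l) hsub (by
      refine ENNReal.ofReal_le_of_le_toReal ?_
      have : 1 / K1 * (k6a5_tq Pk q + Pk.H - k6a5_tq Pk q) = Pk.H / K1 := by ring
      rw [this]
      exact hvol) hM
  have h2 := rmz_interval_eval (Dg + 1) p hp1 (k6a5_tq Pk q) (k6a5_tq Pk q + Pk.H) (by linarith) 0 1 t le_rfl (by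
      have := hblk t ht
      rw [abs_of_nonneg (by linarith)]
      linarith)
  simp only [Function.iterate_zero, id_eq, pow_zero, one_mul, one_pow, mul_one, div_one] at h2
  refine (h2.trans h1).trans ?_
  unfold rmzC
  have e : (((Dg + 1 : ℕ) : ℝ) + 1) * (4 * (((Dg + 1 : ℕ) : ℝ) + 1) / (1 / K1)) ^ (Dg + 1) * ((2 + j) * K * ε)
      = (c : ℝ) * K * K1 ^ (Dg + 1) * ε := by
    rw [hc]
    push_cast
    rw [div_div_eq_mul_div, div_one, mul_pow]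
    ring
  rw [e]
  have h3 : K ≤ K ^ c := by
    calc K = K ^ 1 := (pow_one K).symm
      _ ≤ K ^ c := pow_le_pow_right₀ hK hc1
  have h4 : (0 : ℝ) ≤ K1 ^ (Dg + 1) := by positivity
  have h5 : (0 : ℝ) ≤ c := Nat.cast_nonneg c
  exact mul_le_mul_of_nonneg_right (mul_le_mul_of_nonneg_right (mul_le_mul_of_nonneg_left h3 h5) h4) hε

/-! ### L-252-S6a5-SUPPORT (with CELLS) -/

theorem k6a5_support_icc (a b : ℝ) (hab : a ≤ b) : ((Finset.Icc ⌊a⌋ ⌊b⌋).card : ℝ) ≤ b - a + 2 := by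
  rw [Int.card_Icc]
  have h1 : ⌊a⌋ ≤ ⌊b⌋ := Int.floor_mono hab
  have h2 : ((⌊b⌋ + 1 - ⌊a⌋).toNat : ℤ) = ⌊b⌋ + 1 - ⌊a⌋ := Int.toNat_of_nonneg (by linarith)
  have h3 : (((⌊b⌋ + 1 - ⌊a⌋).toNat : ℤ) : ℝ) = (⌊b⌋ : ℝ) + 1 - ⌊a⌋ := by
    rw [h2]
    push_cast
    ring
  rw [Int.cast_natCast] at h3
  rw [h3]
  linarith [Int.floor_le b, Int.lt_floor_add_one a]

theorem k6a5_support_cells (m k : ℕ) {Ω : Type} (Ev : Set Ω) (pos : Ω → Fin m → ℝ) (x : Ω → ℝ) (br : Ω → Fin k)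
    (cD : Fin m → ℝ) (K R ξ ρ : ℝ) (hK : 1 ≤ K) (hξ : 0 < ξ) (hξR : ξ ≤ R) (hξρ : ξ ≤ ρ)
    (hpos : ∀ e ∈ Ev, ‖pos e - cD‖ ≤ R)
    (hx : ∀ e ∈ Ev, ∀ e' ∈ Ev, br e = br e' → |x e - x e'| ≤ K * (‖pos e - pos e'‖ + ρ)) :
    ∃ S : Finset ((Fin m → ℤ) × ℤ), (S.card : ℝ) ≤ k * (6 * K) * (4 * R / ξ) ^ m ∧
      ∀ e ∈ Ev, ((fun i => ⌊pos e i / ξ⌋), ⌊x e / ρ⌋) ∈ S := by
  have hρ : 0 < ρ := lt_of_lt_of_le hξ hξρ
  obtain ⟨B, hB⟩ : ∃ B : Finset (Fin m → ℤ),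
      B = Fintype.piFinset fun i => Finset.Icc ⌊(cD i - R) / ξ⌋ ⌊(cD i + R) / ξ⌋ := ⟨_, rfl⟩
  have hRξ : 1 ≤ R / ξ := by rwa [le_div_iff₀ hξ, one_mul]
  have hBcard : (B.card : ℝ) ≤ (4 * R / ξ) ^ m := by
    rw [hB, Fintype.card_piFinset]
    push_cast
    calc ∏ i, ((Finset.Icc ⌊(cD i - R) / ξ⌋ ⌊(cD i + R) / ξ⌋).card : ℝ) ≤ ∏ _i : Fin m, (4 * R / ξ) := by
          refine Finset.prod_le_prod (fun _ _ => Nat.cast_nonneg _) (fun i _ => ?_)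
          refine (k6a5_support_icc _ _ (div_le_div_of_nonneg_right (by linarith) hξ.le)).trans ?_
          have e : (cD i + R) / ξ - (cD i - R) / ξ + 2 = 2 * (R / ξ) + 2 := by ring
          have e' : 4 * R / ξ = 4 * (R / ξ) := by ring
          rw [e, e']
          linarith
      _ = (4 * R / ξ) ^ m := by rw [Finset.prod_const, Finset.card_univ, Fintype.card_fin]
  have hBmem : ∀ e ∈ Ev, (fun i => ⌊pos e i / ξ⌋) ∈ B := by
    intro e he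
    rw [hB, Fintype.mem_piFinset]
    intro i
    have h1 := (norm_le_pi_norm (pos e - cD) i).trans (hpos e he)
    rw [Pi.sub_apply, Real.norm_eq_abs, abs_le] at h1
    rw [Finset.mem_Icc]
    exact ⟨Int.floor_mono (div_le_div_of_nonneg_right (by linarith [h1.1]) hξ.le),
      Int.floor_mono (div_le_div_of_nonneg_right (by linarith [h1.2]) hξ.le)⟩
  have hT : ∀ p : (Fin m → ℤ) × Fin k, ∃ T : Finset ℤ, (T.card : ℝ) ≤ 6 * K ∧
      ∀ e ∈ Ev, (fun i => ⌊pos e i / ξ⌋) = p.1 → br e = p.2 → ⌊x e / ρ⌋ ∈ T := by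
    intro p
    by_cases h : ∃ e0 ∈ Ev, (fun i => ⌊pos e0 i / ξ⌋) = p.1 ∧ br e0 = p.2
    · obtain ⟨e0, he0, hn0, hb0⟩ := h
      refine ⟨Finset.Icc ⌊x e0 / ρ - 2 * K⌋ ⌊x e0 / ρ + 2 * K⌋, ?_, ?_⟩
      · exact (k6a5_support_icc _ _ (by linarith)).trans (by linarith)
      · intro e he hn hb
        have hd : ‖pos e - pos e0‖ ≤ ξ := by
          rw [pi_norm_le_iff_of_nonneg hξ.le]
          intro i
          have h1 : ⌊pos e i / ξ⌋ = ⌊pos e0 i / ξ⌋ := congrFun (hn.trans hn0.symm) i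
          have h2 := Int.abs_sub_lt_one_of_floor_eq_floor h1
          rw [← sub_div, abs_div, abs_of_pos hξ, div_lt_one hξ] at h2
          rw [Pi.sub_apply, Real.norm_eq_abs]
          exact h2.le
        have h3 := hx e he e0 he0 (hb.trans hb0.symm)
        have h4 : |x e - x e0| ≤ 2 * K * ρ := by
          refine h3.trans ?_
          have : K * (‖pos e - pos e0‖ + ρ) ≤ K * (ρ + ρ) := mul_le_mul_of_nonneg_left (by linarith) (by linarith)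
          linarith
        rw [abs_le] at h4
        have e1 : x e0 / ρ - 2 * K = (x e0 - 2 * K * ρ) / ρ := by field_simp
        have e2 : x e0 / ρ + 2 * K = (x e0 + 2 * K * ρ) / ρ := by field_simp
        rw [Finset.mem_Icc, e1, e2]
        exact ⟨Int.floor_mono (div_le_div_of_nonneg_right (by linarith [h4.1]) hρ.le),
          Int.floor_mono (div_le_div_of_nonneg_right (by linarith [h4.2]) hρ.le)⟩
    · refine ⟨∅, ?_, fun e he hn hb => absurd ⟨e, he, hn, hb⟩ h⟩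
      rw [Finset.card_empty, Nat.cast_zero]
      linarith
  choose T hTcard hTmem using hT
  refine ⟨(B ×ˢ (Finset.univ : Finset (Fin k))).biUnion fun p => (T p).image fun z => (p.1, z), ?_, ?_⟩
  · have h1 : (((B ×ˢ (Finset.univ : Finset (Fin k))).biUnion fun p => (T p).image fun z => (p.1, z)).card : ℝ)
        ≤ ∑ p ∈ B ×ˢ (Finset.univ : Finset (Fin k)), ((T p).card : ℝ) := by
      have := (Finset.card_biUnion_le (s := B ×ˢ (Finset.univ : Finset (Fin k)))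
        (t := fun p => (T p).image fun z => (p.1, z))).trans (Finset.sum_le_sum fun p _ => Finset.card_image_le)
      exact_mod_cast this
    refine h1.trans ((Finset.sum_le_card_nsmul _ _ (6 * K) fun p _ => hTcard p).trans ?_)
    rw [Finset.card_product, Finset.card_univ, Fintype.card_fin, nsmul_eq_mul]
    push_cast
    have : (B.card : ℝ) * k * (6 * K) ≤ (4 * R / ξ) ^ m * k * (6 * K) := by gcongr
    linarith
  · intro e he
    refine Finset.mem_biUnion.2 ⟨((fun i => ⌊pos e i / ξ⌋), br e), Finset.mem_product.2 ⟨hBmem e he, Finset.mem_univ _⟩, ?_⟩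
    exact Finset.mem_image.2 ⟨⌊x e / ρ⌋, hTmem _ e he rfl rfl, rfl⟩

theorem k6a5_cells : k6a5_cells_stmt := fun m k _ Ev pos x br cD K R ξ ρ h1 h2 h3 h4 h5 h6 =>
  k6a5_support_cells m k Ev pos x br cD K R ξ ρ h1 h2 h3 h4 h5 h6

theorem k6a5_support_nest {j : ℕ} {D : K6aDat j} {Pk Pk' : K6aPk D} {d k K : ℝ} {E : Set (D.L × ℝ)} (h : Pk.Ok d k K E)
    (hB : Pk.Below Pk') (q : Pk.Q) (q' : Pk'.Q) (e : D.L × ℝ) (he : e ∈ Pk.inc q) (he' : e ∈ Pk'.inc q') :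
    Pk'.asg q' ⊆ Pk.asg q ∧ Pk'.blk q' ⊆ Pk.blk q := by
  obtain ⟨q1, h1, h2⟩ := hB.nest q' ⟨e.1, he'.1⟩
  have he2 : e.1 ∈ Pk.asg q ∧ e.2 ∈ Pk.blk q := he
  have he2' : e.1 ∈ Pk'.asg q' ∧ e.2 ∈ Pk'.blk q' := he'
  have hq : q1 = q := by
    by_contra hne
    have a1 : k6aBin Pk.lev e.2 = Pk.iv q1 := h2 he2'.2
    have a2 : k6aBin Pk.lev e.2 = Pk.iv q := he2.2
    exact Set.disjoint_left.1 (h.disj q1 q hne (a1.symm.trans a2)) (h1 he2'.1) he2.1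
  subst hq
  exact ⟨h1, h2⟩

theorem k6a5_support_iv (lev lev' : ℕ) (hl : lev ≤ lev') (t : ℝ) :
    k6aBin lev' t ∈ Finset.Ico (k6aBin lev t * 2 ^ (lev' - lev)) ((k6aBin lev t + 1) * 2 ^ (lev' - lev)) := by
  unfold k6aBin
  have h1 := Int.floor_le (t * 2 ^ lev)
  have h2 := Int.lt_floor_add_one (t * 2 ^ lev)
  have e : t * 2 ^ lev' = t * 2 ^ lev * 2 ^ (lev' - lev) := by
    rw [mul_assoc, ← pow_add, Nat.add_sub_cancel' hl]
  have hp : (0 : ℝ) < 2 ^ (lev' - lev) := by positivity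
  rw [Finset.mem_Ico, Int.le_floor, Int.floor_lt, e]
  push_cast
  exact ⟨mul_le_mul_of_nonneg_right h1 hp.le, mul_lt_mul_of_pos_right h2 hp⟩

theorem k6a5_support_iv_card (n : ℤ) (δ : ℕ) : (Finset.Ico (n * 2 ^ δ) ((n + 1) * 2 ^ δ)).card = 2 ^ δ := by
  rw [Int.card_Ico]
  have : (n + 1) * 2 ^ δ - n * 2 ^ δ = ((2 ^ δ : ℕ) : ℤ) := by
    push_cast
    ring
  rw [this, Int.toNat_natCast]

theorem k6a5_support_U_le {j : ℕ} {h : ℝ} (hh : 0 < h) (zc z z' : ℝ × (Fin j → ℝ)) :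
    ‖k6aU h zc z - k6aU h zc z'‖ ≤ ‖z - z'‖ / h := by
  rw [pi_norm_le_iff_of_nonneg (by positivity)]
  intro i
  refine Fin.cases ?_ (fun a => ?_) i
  · have e : (k6aU h zc z - k6aU h zc z') 0 = (z - z').1 / h := by
      simp only [k6aU, Pi.sub_apply, Fin.cons_zero, Prod.fst_sub]
      ring
    rw [e, norm_div, Real.norm_eq_abs h, abs_of_pos hh]
    exact div_le_div_of_nonneg_right (norm_fst_le _) hh.le
  · have e : (k6aU h zc z - k6aU h zc z') a.succ = (z - z').2 a / h := by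
      simp only [k6aU, Pi.sub_apply, Fin.cons_succ, Prod.snd_sub]
      ring
    rw [e, norm_div, Real.norm_eq_abs h, abs_of_pos hh]
    exact div_le_div_of_nonneg_right ((norm_le_pi_norm _ a).trans (norm_snd_le _)) hh.le

theorem k6a5_support_U_ge {j : ℕ} {h : ℝ} (hh : 0 < h) (zc z z' : ℝ × (Fin j → ℝ)) :
    ‖z - z'‖ ≤ h * ‖k6aU h zc z - k6aU h zc z'‖ := by
  have hn : 0 ≤ h * ‖k6aU h zc z - k6aU h zc z'‖ := by positivity
  rw [Prod.norm_def, max_le_iff]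
  constructor
  · have e : (z - z').1 = h * (k6aU h zc z - k6aU h zc z') 0 := by
      simp only [k6aU, Pi.sub_apply, Fin.cons_zero, Prod.fst_sub]
      field_simp
      ring
    rw [e, norm_mul, Real.norm_eq_abs h, abs_of_pos hh]
    exact mul_le_mul_of_nonneg_left (norm_le_pi_norm _ _) hh.le
  · rw [pi_norm_le_iff_of_nonneg hn]
    intro a
    have e : (z - z').2 a = h * (k6aU h zc z - k6aU h zc z') a.succ := by
      simp only [k6aU, Pi.sub_apply, Fin.cons_succ, Prod.snd_sub]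
      field_simp
      ring
    rw [e, norm_mul, Real.norm_eq_abs h, abs_of_pos hh]
    exact mul_le_mul_of_nonneg_left (norm_le_pi_norm _ _) hh.le

/-- the base points of a packet lie in a box of radius `2 K H` -/
theorem k6a5_support_box {j : ℕ} {D : K6aDat j} {Pk : K6aPk D} {d k K : ℝ} {E : Set (D.L × ℝ)} (hK : 1 ≤ K) (h : Pk.Ok d k K E)
    (q : Pk.Q) (e : D.L × ℝ) (he : e ∈ Pk.inc q) :
    ‖D.base e - ((Pk.iv q : ℝ) * Pk.H, Pk.yc0 q + ((Pk.iv q : ℝ) * Pk.H) • Pk.yc1 q)‖ ≤ 2 * K * Pk.H := by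
  have he2 : e.1 ∈ Pk.asg q ∧ e.2 ∈ Pk.blk q := he
  have hH : 0 < Pk.H := k6a5_api_W_pos _
  have hb : k6aBin Pk.lev e.2 = Pk.iv q := he2.2
  have hb2 := (k6a5_api_bin_iff Pk.lev e.2 (Pk.iv q)).1 hb
  have hW : k6aW Pk.lev = Pk.H := rfl
  rw [hW] at hb2
  have ht : |e.2 - (Pk.iv q : ℝ) * Pk.H| ≤ Pk.H := by
    rw [abs_le]
    constructor <;> nlinarith [hb2.1, hb2.2]
  rw [Prod.norm_def, max_le_iff]
  constructor
  · show ‖e.2 - (Pk.iv q : ℝ) * Pk.H‖ ≤ 2 * K * Pk.H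
    rw [Real.norm_eq_abs]
    nlinarith
  · show ‖D.y e.1 e.2 - (Pk.yc0 q + ((Pk.iv q : ℝ) * Pk.H) • Pk.yc1 q)‖ ≤ 2 * K * Pk.H
    have e1 : D.y e.1 e.2 - (Pk.yc0 q + ((Pk.iv q : ℝ) * Pk.H) • Pk.yc1 q)
        = (D.y e.1 e.2 - (Pk.yc0 q + e.2 • Pk.yc1 q)) + (e.2 - (Pk.iv q : ℝ) * Pk.H) • Pk.yc1 q := by
      rw [sub_smul]
      abel
    rw [e1]
    refine (norm_add_le _ _).trans ?_
    have h1 := h.box q e.1 he2.1 e.2 he2.2
    have h2 : ‖(e.2 - (Pk.iv q : ℝ) * Pk.H) • Pk.yc1 q‖ ≤ Pk.H * K := by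
      rw [norm_smul, Real.norm_eq_abs]
      exact mul_le_mul ht (h.cen q ⟨e.1, he2.1⟩) (norm_nonneg _) hH.le
    linarith

theorem k6a5_support_blockcount {j : ℕ} {D : K6aDat j} {Pk Pk' : K6aPk D} {d k K : ℝ} {E : Set (D.L × ℝ)} (hK : 1 ≤ K)
    (h : Pk.Ok d k K E) (h' : Pk'.Ok d k K E) (q : Pk.Q) (Qs : Finset Pk'.Q) (i : ℤ)
    (hsub : ∀ q' ∈ Qs, Pk'.asg q' ⊆ Pk.asg q) (hne : ∀ q' ∈ Qs, (E ∩ Pk'.inc q').Nonempty) (hiv : ∀ q' ∈ Qs, Pk'.iv q' = i) :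
    (Qs.card : ℝ) * (Pk'.a ^ d * Pk'.H ^ j) ≤ K * (K * Pk.a ^ d * Pk.H ^ j) := by
  have hdisj : Set.PairwiseDisjoint (↑Qs : Set Pk'.Q) Pk'.asg := by
    intro a ha b hb hab
    exact h'.disj a b hab ((hiv a ha).trans (hiv b hb).symm)
  have h1 : ∑ q' ∈ Qs, D.ν (Pk'.asg q') ≤ D.ν (Pk.asg q) := by
    rw [← measure_biUnion_finset hdisj (fun b _ => h'.asg_meas b)]
    exact measure_mono (Set.iUnion₂_subset hsub)
  have h2 : (Qs.card : ℝ≥0∞) * ENNReal.ofReal (Pk'.a ^ d * Pk'.H ^ j)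
      ≤ ENNReal.ofReal K * ENNReal.ofReal (K * Pk.a ^ d * Pk.H ^ j) := by
    calc (Qs.card : ℝ≥0∞) * ENNReal.ofReal (Pk'.a ^ d * Pk'.H ^ j)
        = ∑ _q' ∈ Qs, ENNReal.ofReal (Pk'.a ^ d * Pk'.H ^ j) := by rw [Finset.sum_const, nsmul_eq_mul]
      _ ≤ ∑ q' ∈ Qs, ENNReal.ofReal K * Pk'.νQ q' := Finset.sum_le_sum fun q' hq' => h'.ν_lo q' (hne q' hq')
      _ = ENNReal.ofReal K * ∑ q' ∈ Qs, D.ν (Pk'.asg q') := by
          rw [Finset.mul_sum]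
          rfl
      _ ≤ ENNReal.ofReal K * D.ν (Pk.asg q) := by gcongr
      _ ≤ ENNReal.ofReal K * ENNReal.ofReal (K * Pk.a ^ d * Pk.H ^ j) := by
          gcongr
          exact h.ν_hi q
  have hH : 0 < Pk.H := k6a5_api_W_pos _
  have ha : 0 ≤ Pk.a ^ d := Real.rpow_nonneg h.a_pos.le d
  rw [← ENNReal.ofReal_natCast, ← ENNReal.ofReal_mul (Nat.cast_nonneg _), ← ENNReal.ofReal_mul (by linarith)] at h2
  exact (ENNReal.ofReal_le_ofReal_iff (by positivity)).1 h2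

theorem k6a5_support_one {j : ℕ} {D : K6aDat j} {Pk Pk' : K6aPk D} {d k K : ℝ} {E : Set (D.L × ℝ)} (hK : 1 ≤ K)
    (h' : Pk'.Ok d k K E) (nx : ℕ) (q : Pk.Q) (q' : Pk'.Q) (h1 : k6aW nx * Pk.H ≤ Pk'.H) (h2 : k6aW nx * Pk.H ≤ Pk'.a) :
    ∃ S : Finset ((Fin (j + 1) → ℤ) × ℤ),
      (S.card : ℝ) ≤ K * (6 * (2 * K)) * (4 * (2 * K * Pk'.H / Pk.H) / k6aW nx) ^ (j + 1) ∧
      ∀ e ∈ E ∩ Pk'.inc q', (k6aVBin nx (k6a5_u Pk q (D.base e)), ⌊D.X e.1 e.2 / Pk'.a⌋) ∈ S := by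
  obtain ⟨n, f, Dm, hn, hlip, hgr⟩ := h'.graphs q'
  have hH : 0 < Pk.H := k6a5_api_W_pos _
  have hH' : 0 < Pk'.H := k6a5_api_W_pos _
  have hξ : 0 < k6aW nx := k6a5_api_W_pos _
  have ha' : 0 < Pk'.a := h'.a_pos
  have hgr' : ∀ e : {e : D.L × ℝ // e ∈ E ∩ Pk'.inc q'}, ∃ i, D.base e.1 ∈ Dm i ∧
      |D.X e.1.1 e.1.2 - f i (D.base e.1)| ≤ K * Pk'.a := fun e => hgr e.1 e.2
  choose br hbr using hgr'
  obtain ⟨S, hS, hmem⟩ := k6a5_support_cells (j + 1) n (Set.univ : Set {e : D.L × ℝ // e ∈ E ∩ Pk'.inc q'})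
    (fun e => k6a5_u Pk q (D.base e.1)) (fun e => D.X e.1.1 e.1.2 / Pk.H) br
    (k6a5_u Pk q ((Pk'.iv q' : ℝ) * Pk'.H, Pk'.yc0 q' + ((Pk'.iv q' : ℝ) * Pk'.H) • Pk'.yc1 q'))
    (2 * K) (2 * K * Pk'.H / Pk.H) (k6aW nx) (Pk'.a / Pk.H) (by linarith) hξ
    (by
      rw [le_div_iff₀ hH]
      nlinarith)
    (by rwa [le_div_iff₀ hH])
    (by
      intro e _
      refine (k6a5_support_U_le hH _ _ _).trans ?_
      exact div_le_div_of_nonneg_right (k6a5_support_box hK h' q' e.1 e.2.2) hH.le)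
    (by
      intro e _ e' _ hb
      have a1 := (hbr e).2
      have a2 := (hbr e').2
      have a3 := hlip (br e) _ (hbr e).1 _ (by rw [hb]; exact (hbr e').1)
      rw [← hb] at a2
      have a4 := k6a5_support_U_ge hH (k6a5_zc Pk q) (D.base e.1) (D.base e'.1)
      have a5 : |D.X e.1.1 e.1.2 - D.X e'.1.1 e'.1.2| ≤ 2 * K * Pk'.a + K * ‖D.base e.1 - D.base e'.1‖ := by
        rw [abs_le] at a1 a2 a3 ⊢
        constructor <;> linarith [a1.1, a1.2, a2.1, a2.2, a3.1, a3.2]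
      have a6 : K * ‖D.base e.1 - D.base e'.1‖ ≤ K * (Pk.H * ‖k6aU Pk.H (k6a5_zc Pk q) (D.base e.1) - k6aU Pk.H (k6a5_zc Pk q) (D.base e'.1)‖) :=
        mul_le_mul_of_nonneg_left a4 (by linarith)
      show |D.X e.1.1 e.1.2 / Pk.H - D.X e'.1.1 e'.1.2 / Pk.H|
        ≤ 2 * K * (‖k6aU Pk.H (k6a5_zc Pk q) (D.base e.1) - k6aU Pk.H (k6a5_zc Pk q) (D.base e'.1)‖ + Pk'.a / Pk.H)
      obtain ⟨nn, hnn⟩ : ∃ nn : ℝ, nn = ‖k6aU Pk.H (k6a5_zc Pk q) (D.base e.1) - k6aU Pk.H (k6a5_zc Pk q) (D.base e'.1)‖ := ⟨_, rfl⟩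
      rw [← hnn] at a6 ⊢
      have hnn0 : 0 ≤ nn := by rw [hnn]; exact norm_nonneg _
      rw [← sub_div, abs_div, abs_of_pos hH, div_le_iff₀ hH]
      have e1 : 2 * K * (nn + Pk'.a / Pk.H) * Pk.H = 2 * K * nn * Pk.H + 2 * K * Pk'.a := by
        field_simp
      rw [e1]
      have hp : 0 ≤ K * nn * Pk.H := mul_nonneg (mul_nonneg (by linarith) hnn0) hH.le
      have e3 : K * (Pk.H * nn) = K * nn * Pk.H := by ring
      rw [e3] at a6
      linarith)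
  refine ⟨S, hS.trans ?_, ?_⟩
  · gcongr
  · intro e he
    have := hmem ⟨e, he⟩ (Set.mem_univ _)
    have e1 : (fun i => ⌊k6a5_u Pk q (D.base e) i / k6aW nx⌋) = k6aVBin nx (k6a5_u Pk q (D.base e)) :=
      k6a5_api_cell nx (k6a5_u Pk q (D.base e))
    have e2 : D.X e.1 e.2 / Pk.H / (Pk'.a / Pk.H) = D.X e.1 e.2 / Pk'.a := by
      field_simp
    simp only [e1, e2] at this
    exact this

theorem k6a5_support : k6a5_support_stmt := by
  intro j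
  obtain ⟨A, hA⟩ : ∃ A : ℕ, A = 12 * 8 ^ (j + 1) := ⟨_, rfl⟩
  refine ⟨A + (j + 5), ?_⟩
  intro D Pk Pk' d k K nx E q hK hd hWF h h' hB h1 h2
  have _ := hd
  have _ := hWF
  obtain ⟨Qs, hQs⟩ : ∃ Qs : Finset Pk'.Q, ∀ q', q' ∈ Qs ↔ (E ∩ Pk.inc q ∩ Pk'.inc q').Nonempty :=
    ⟨Finset.univ.filter fun q' => (E ∩ Pk.inc q ∩ Pk'.inc q').Nonempty, fun q' => by simp⟩
  have hone := fun q' => k6a5_support_one (Pk := Pk) hK h' nx q q' h1 h2
  choose S hScard hSmem using hone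
  have hH : 0 < Pk.H := k6a5_api_W_pos _
  have hH' : 0 < Pk'.H := k6a5_api_W_pos _
  have hξ : 0 < k6aW nx := k6a5_api_W_pos _
  have ha : 0 < Pk.a := h.a_pos
  have ha' : 0 < Pk'.a := h'.a_pos
  have had : 0 < Pk.a ^ d := Real.rpow_pos_of_pos ha d
  have had' : 0 < Pk'.a ^ d := Real.rpow_pos_of_pos ha' d
  have hK0 : 0 < K := by linarith
  -- the number of packets
  have hnest : ∀ q' ∈ Qs, Pk'.asg q' ⊆ Pk.asg q ∧ Pk'.blk q' ⊆ Pk.blk q := by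
    intro q' hq'
    obtain ⟨e, he, he'⟩ := (hQs q').1 hq'
    exact k6a5_support_nest h hB q q' e he.2 he'
  have hivm : ∀ q' ∈ Qs, Pk'.iv q' ∈ Finset.Ico (Pk.iv q * 2 ^ (Pk'.lev - Pk.lev)) ((Pk.iv q + 1) * 2 ^ (Pk'.lev - Pk.lev)) := by
    intro q' hq'
    obtain ⟨e, he, he'⟩ := (hQs q').1 hq'
    have b1 : k6aBin Pk.lev e.2 = Pk.iv q := he.2.2
    have b2 : k6aBin Pk'.lev e.2 = Pk'.iv q' := he'.2
    have := k6a5_support_iv Pk.lev Pk'.lev hB.lev_le e.2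
    rwa [b1, b2] at this
  have hcount : (Qs.card : ℝ) * (Pk'.a ^ d * Pk'.H ^ j) ≤ 2 ^ (Pk'.lev - Pk.lev) * (K * (K * Pk.a ^ d * Pk.H ^ j)) := by
    rw [Finset.card_eq_sum_card_fiberwise hivm]
    push_cast
    rw [Finset.sum_mul]
    refine (Finset.sum_le_card_nsmul _ _ (K * (K * Pk.a ^ d * Pk.H ^ j)) fun i _ => ?_).trans (le_of_eq ?_)
    · refine k6a5_support_blockcount hK h h' q _ i ?_ ?_ ?_
      · intro q' hq'
        exact (hnest q' (Finset.mem_filter.1 hq').1).1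
      · intro q' hq'
        obtain ⟨e, he, he'⟩ := (hQs q').1 (Finset.mem_filter.1 hq').1
        exact ⟨e, he.1, he'⟩
      · intro q' hq'
        exact (Finset.mem_filter.1 hq').2
    · rw [k6a5_support_iv_card, nsmul_eq_mul]
      push_cast
      ring
  have hδ : (2 : ℝ) ^ (Pk'.lev - Pk.lev) = Pk.H / Pk'.H := by
    rw [eq_div_iff hH'.ne']
    show (2 : ℝ) ^ (Pk'.lev - Pk.lev) * k6aW Pk'.lev = k6aW Pk.lev
    unfold k6aW
    have e : (1 / 2 : ℝ) ^ Pk'.lev = (1 / 2 : ℝ) ^ (Pk'.lev - Pk.lev) * (1 / 2 : ℝ) ^ Pk.lev := by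
      rw [← pow_add, Nat.sub_add_cancel hB.lev_le]
    rw [e, ← mul_assoc, ← mul_pow]
    norm_num
  obtain ⟨P, hP⟩ : ∃ P : ℝ, P = (Pk.a / Pk'.a) ^ d := ⟨_, rfl⟩
  have hP' : P = Pk.a ^ d / Pk'.a ^ d := by rw [hP, Real.div_rpow ha.le ha'.le]
  have hP0 : 0 < P := by
    rw [hP']
    positivity
  obtain ⟨r, hr⟩ : ∃ r : ℝ, r = Pk.H / Pk'.H := ⟨_, rfl⟩
  have hr0 : 0 < r := by
    rw [hr]
    positivity
  have hN : (Qs.card : ℝ) ≤ K ^ 2 * P * r ^ (j + 1) := by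
    rw [hδ] at hcount
    have e : K ^ 2 * P * r ^ (j + 1) = Pk.H / Pk'.H * (K * (K * Pk.a ^ d * Pk.H ^ j)) / (Pk'.a ^ d * Pk'.H ^ j) := by
      rw [hP', hr, div_pow]
      field_simp
      ring
    rw [e, le_div_iff₀ (by positivity)]
    exact hcount
  obtain ⟨Z, hZ⟩ : ∃ Z : ℝ, Z = ((2 : ℝ) ^ nx) ^ (j + 1) := ⟨_, rfl⟩
  have hZ0 : 0 < Z := by
    rw [hZ]
    positivity
  have hC1 : K * (6 * (2 * K)) * (4 * (2 * K * Pk'.H / Pk.H) / k6aW nx) ^ (j + 1)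
      = 12 * 8 ^ (j + 1) * K ^ (j + 3) * (1 / r) ^ (j + 1) * Z := by
    have e1 : 4 * (2 * K * Pk'.H / Pk.H) / k6aW nx = 8 * K * (1 / r) * 2 ^ nx := by
      have h3 : (2 : ℝ) ^ nx = (k6aW nx)⁻¹ := eq_inv_of_mul_eq_one_right (k6a5_api_W_mul nx)
      rw [h3, hr]
      field_simp
      ring
    rw [e1, hZ, mul_pow, mul_pow, mul_pow]
    ring
  refine ⟨Qs.biUnion S, ?_, ?_⟩
  · rw [← hP, ← hZ]
    have c1 : ((Qs.biUnion S).card : ℝ) ≤ ∑ q' ∈ Qs, ((S q').card : ℝ) := by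
      exact_mod_cast Finset.card_biUnion_le
    refine c1.trans ((Finset.sum_le_card_nsmul _ _ _ fun q' _ => hScard q').trans ?_)
    rw [nsmul_eq_mul, hC1]
    have c2 : (Qs.card : ℝ) * (12 * 8 ^ (j + 1) * K ^ (j + 3) * (1 / r) ^ (j + 1) * Z)
        ≤ K ^ 2 * P * r ^ (j + 1) * (12 * 8 ^ (j + 1) * K ^ (j + 3) * (1 / r) ^ (j + 1) * Z) :=
      mul_le_mul_of_nonneg_right hN (by positivity)
    refine c2.trans ?_
    have e2 : r ^ (j + 1) * (1 / r) ^ (j + 1) = 1 := by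
      rw [← mul_pow, mul_one_div_cancel hr0.ne', one_pow]
    have e3 : K ^ 2 * P * r ^ (j + 1) * (12 * 8 ^ (j + 1) * K ^ (j + 3) * (1 / r) ^ (j + 1) * Z)
        = (A : ℝ) * K ^ (j + 5) * Z * P := by
      rw [hA]
      push_cast
      calc K ^ 2 * P * r ^ (j + 1) * (12 * 8 ^ (j + 1) * K ^ (j + 3) * (1 / r) ^ (j + 1) * Z)
          = (r ^ (j + 1) * (1 / r) ^ (j + 1)) * (12 * 8 ^ (j + 1) * (K ^ 2 * K ^ (j + 3)) * Z * P) := by ring
        _ = 12 * 8 ^ (j + 1) * K ^ (j + 5) * Z * P := by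
            rw [e2, one_mul, ← pow_add]
            congr 4
            omega
    rw [e3]
    have c3 : (A : ℝ) * K ^ (j + 5) ≤ ((A + (j + 5) : ℕ) : ℝ) * K ^ (A + (j + 5)) :=
      k6a5_grid_le A (j + 5) (A + (j + 5)) K hK (by exact_mod_cast Nat.le_add_right _ _) (Nat.le_add_left _ _)
    exact mul_le_mul_of_nonneg_right (mul_le_mul_of_nonneg_right c3 hZ0.le) hP0.le
  · intro e he
    have hc := h'.cov e he.1
    refine Finset.mem_biUnion.2 ⟨Pk'.ofLab (D.lab e), (hQs _).2 ⟨e, he, hc⟩, hSmem _ e ⟨he.1, hc⟩⟩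

/-! ### L-252-S6a5-SCALES (with SLACK) -/

theorem k6a5_scales_W (i : ℕ) : k6aW i = (2 : ℝ) ^ (-(i : ℝ)) := by
  unfold k6aW
  rw [Real.rpow_neg (by norm_num), Real.rpow_natCast, one_div, inv_pow]

theorem k6a5_scales_Wr (i : ℕ) (x : ℝ) : k6aW i ^ x = (2 : ℝ) ^ (-(i : ℝ) * x) := by
  rw [k6a5_scales_W, ← Real.rpow_mul (by norm_num)]

theorem k6a5_scales_le {x y : ℝ} (h : x ≤ y) : (2 : ℝ) ^ x ≤ (2 : ℝ) ^ y :=
  Real.rpow_le_rpow_of_exponent_le (by norm_num) h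

theorem k6a5_scales_le_iff {x y : ℝ} : (2 : ℝ) ^ x ≤ (2 : ℝ) ^ y ↔ x ≤ y :=
  Real.rpow_le_rpow_left_iff (by norm_num)

theorem k6a5_slack : k6a5_slack_stmt := by
  intro C σ hσ
  refine ⟨σ / (2 * ((C : ℝ) + 1)), ⌈2 * (C : ℝ) / σ⌉₊, by positivity, ?_⟩
  intro K kh hk hK1 hK
  have hkh : 2 * (C : ℝ) / σ ≤ kh := (Nat.le_ceil _).trans (by exact_mod_cast hk)
  have h1 : (C : ℝ) ≤ σ * kh / 2 := by
    rw [div_le_iff₀ hσ] at hkh
    linarith
  have h2 : (C : ℝ) ≤ (2 : ℝ) ^ (σ * kh / 2) := by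
    have a1 : (C : ℝ) ≤ (2 : ℝ) ^ (C : ℝ) := by
      rw [Real.rpow_natCast]
      exact_mod_cast (Nat.lt_two_pow_self (n := C)).le
    exact a1.trans (k6a5_scales_le h1)
  have h3 : K ^ C ≤ (2 : ℝ) ^ (σ * kh / 2) := by
    have a1 : K ^ C ≤ ((2 : ℝ) ^ (σ / (2 * ((C : ℝ) + 1)) * kh)) ^ C := pow_le_pow_left₀ (by linarith) hK C
    refine a1.trans ?_
    rw [← Real.rpow_natCast, ← Real.rpow_mul (by norm_num)]
    apply k6a5_scales_le
    have hC : (0 : ℝ) ≤ C := Nat.cast_nonneg C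
    have hn : (0 : ℝ) ≤ kh := Nat.cast_nonneg kh
    have e : σ / (2 * ((C : ℝ) + 1)) * kh * C = σ * kh / 2 * (C / ((C : ℝ) + 1)) := by
      field_simp
    rw [e]
    have : (C : ℝ) / ((C : ℝ) + 1) ≤ 1 := by
      rw [div_le_one (by positivity)]
      linarith
    exact mul_le_of_le_one_right (by positivity) this
  calc (C : ℝ) * K ^ C ≤ (2 : ℝ) ^ (σ * kh / 2) * (2 : ℝ) ^ (σ * kh / 2) :=
        mul_le_mul h2 h3 (by positivity) (by positivity)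
    _ = (2 : ℝ) ^ (σ * kh) := by
        rw [← Real.rpow_add (by norm_num)]
        congr 1
        ring

theorem k6a5_scales : k6a5_scales_stmt := by
  intro M k α e2 κ Rm K kh nb n0 nx nv a a1 a2 hk0 hk1 hα0 hα1 he0 he1 hκ0 hκ1 hkh hK1 hKp hL ha0 hak
  -- exponents
  obtain ⟨L, hLe⟩ : ∃ L : ℝ, K = (2 : ℝ) ^ L :=
    ⟨Real.logb 2 K, (Real.rpow_logb (by norm_num) (by norm_num) (by linarith)).symm⟩
  obtain ⟨A, hAe⟩ : ∃ A : ℝ, a = (2 : ℝ) ^ A :=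
    ⟨Real.logb 2 a, (Real.rpow_logb (by norm_num) (by norm_num) ha0).symm⟩
  obtain ⟨p, hp⟩ : ∃ p : ℝ, p = 1 / k := ⟨_, rfl⟩
  obtain ⟨n, hn⟩ : ∃ n : ℝ, n = (kh : ℝ) := ⟨_, rfl⟩
  have hn16 : (16 : ℝ) ≤ n := by rw [hn]; exact_mod_cast hkh
  have hp1 : 1 ≤ p := by
    rw [hp, le_div_iff₀ hk0]
    linarith
  have hL0 : 0 ≤ L := by
    have : (2 : ℝ) ^ (0 : ℝ) ≤ (2 : ℝ) ^ L := by rw [Real.rpow_zero, ← hLe]; exact hK1
    exact k6a5_scales_le_iff.1 this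
  -- `16 (1+p) L ≤ n`
  have hKL : L * (16 * (1 + p)) ≤ n := by
    rw [hLe, ← Real.rpow_mul (by norm_num), ← hp, ← hn] at hKp
    exact k6a5_scales_le_iff.1 hKp
  -- `A ≤ p (L - n)`
  have hA : A ≤ p * (L - n) := by
    rw [hAe, hLe, k6a5_scales_W, ← Real.rpow_mul (by norm_num), ← Real.rpow_add (by norm_num), ← hn] at hak
    have h1 : A * k ≤ L + -n := k6a5_scales_le_iff.1 hak
    rw [hp, div_mul_eq_mul_div, one_mul, le_div_iff₀ hk0]
    linarith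
  -- `-nx ≤ L + A - n α / 2`
  have hx : -(nx : ℝ) ≤ L + (A + -n * (α / 2)) := by
    have h1 := hL.x_fine.trans hL.a1_hi
    rw [k6a5_scales_W, k6a5_scales_Wr, hAe, hLe, ← Real.rpow_add (by norm_num), ← Real.rpow_add (by norm_num), ← hn] at h1
    exact k6a5_scales_le_iff.1 h1
  have hbe : (p + 1) * n ≤ κ * nb := by
    have := hL.b_eps
    rwa [← hp, ← hn] at this
  have hbf : (nv : ℝ) + 2 * n ≤ κ * nb := by
    have := hL.b_fine
    push_cast at this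
    rwa [← hn] at this
  have hvf : (nx : ℝ) + n ≤ nv := by
    rw [hn]
    exact_mod_cast hL.v_fine
  have hMb : 2 * p + 1 ≤ M := by
    have := hL.M_big
    rw [hp]
    have e : 2 * (1 / k) = 2 / k := by ring
    rw [e]
    exact this
  have hnb0 : (0 : ℝ) ≤ nb := Nat.cast_nonneg nb
  have hκnb : κ * nb ≤ nb := mul_le_of_le_one_left hnb0 hκ1
  -- products
  obtain ⟨u, hu⟩ : ∃ u : ℝ, u = α * n := ⟨_, rfl⟩
  have hu0 : 0 < u := by rw [hu]; positivity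
  have hu1 : u < n / 2 := by rw [hu]; nlinarith
  obtain ⟨v, hv⟩ : ∃ v : ℝ, v = p * n := ⟨_, rfl⟩
  have hvn : n ≤ v := by rw [hv]; nlinarith
  obtain ⟨s, hs⟩ : ∃ s : ℝ, s = p * L := ⟨_, rfl⟩
  have hs0 : 0 ≤ s := by rw [hs]; positivity
  have hKL' : 16 * (L + s) ≤ n := by rw [hs]; linarith
  have hA' : A ≤ s - v := by rw [hs, hv]; linarith
  have hθ : (p - 1 + α) * n = v - n + u := by rw [hv, hu]; ring
  have hθ0 : 0 ≤ v - n + u := by linarith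
  -- the level
  obtain ⟨iT, hiT⟩ : ∃ iT : ℕ, iT = ⌈(p - 1 + α) * n⌉₊ := ⟨_, rfl⟩
  have hi1 : v - n + u ≤ iT := by
    rw [hiT, ← hθ]
    exact Nat.le_ceil _
  have hi2 : (iT : ℝ) ≤ v - n + u + 1 := by
    rw [hiT, ← hθ]
    exact (Nat.ceil_lt_add_one (by rw [hθ]; exact hθ0)).le
  have hbe' : v + n ≤ κ * nb := by rw [hv]; linarith
  have hx' : -(nx : ℝ) ≤ L + A - u / 2 := by rw [hu]; linarith
  have hMn : 2 * v + n ≤ M * n := by
    have : (2 * p + 1) * n ≤ M * n := mul_le_mul_of_nonneg_right hMb (by linarith)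
    rw [hv]
    linarith
  have e14 : ∀ i : ℕ, k6aW kh ^ (1 / 4 : ℝ) * k6aW i = (2 : ℝ) ^ (-n * (1 / 4) + -(i : ℝ)) := by
    intro i
    rw [k6a5_scales_Wr, k6a5_scales_W, ← Real.rpow_add (by norm_num), ← hn]
  refine ⟨iT, ?_, ?_, ?_, ?_, ?_, ?_, ?_, ?_, ?_⟩
  · have : (iT : ℝ) ≤ nb := by linarith
    exact_mod_cast this
  · rw [k6a5_scales_Wr, k6a5_scales_W]
    apply k6a5_scales_le
    linarith
  · rw [k6a5_scales_Wr, k6a5_scales_W, ← hp, ← hn]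
    apply k6a5_scales_le
    have : -n * (p - 1 + α) = -(v - n + u) := by rw [← hθ]; ring
    rw [this]
    linarith
  · rw [k6a5_scales_Wr, k6a5_scales_W, ← hp, ← hn]
    have e2' : (2 : ℝ) * (2 : ℝ) ^ (-(iT : ℝ)) = (2 : ℝ) ^ (1 + -(iT : ℝ)) := by
      rw [Real.rpow_add (by norm_num), Real.rpow_one]
    rw [e2']
    apply k6a5_scales_le
    have : -n * (p - 1 + α) = -(v - n + u) := by rw [← hθ]; ring
    rw [this]
    linarith
  · rw [k6a5_scales_W nb, k6a5_scales_W kh, k6a5_scales_W nv, k6a5_scales_W nx, ← Real.rpow_sub (by norm_num), ← hn]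
    have h1 : (2 : ℝ) ^ (-(nb : ℝ) - -n) ≤ (2 : ℝ) ^ (-(nx : ℝ) + -1) := by
      apply k6a5_scales_le
      linarith
    have h2 : (2 : ℝ) ^ (-(nv : ℝ)) ≤ (2 : ℝ) ^ (-(nx : ℝ) + -1) := by
      apply k6a5_scales_le
      linarith
    have h3 : (2 : ℝ) ^ (-(nx : ℝ) + -1) = (2 : ℝ) ^ (-(nx : ℝ)) / 2 := by
      rw [Real.rpow_add (by norm_num), Real.rpow_neg (by norm_num) 1, Real.rpow_one]
      ring
    rw [h3] at h1 h2
    linarith
  · rw [← Real.rpow_natCast, k6a5_scales_Wr, k6a5_scales_W, ← hn]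
    apply k6a5_scales_le
    have : -n * (M : ℝ) = -(M * n) := by ring
    rw [this]
    linarith
  · rw [e14, k6a5_scales_Wr]
    apply k6a5_scales_le
    linarith
  · rw [e14, k6a5_scales_W]
    apply k6a5_scales_le
    linarith
  · rw [e14, hAe]
    apply k6a5_scales_le
    linarith

/-! ### L-252-S6a5-BUILD -/

section k6a5_build_sec

variable {j : ℕ}



/-- on `E` the packet of an incidence is its true label -/
theorem k6a5_build_inc {D : K6aDat j} {Pk : K6aPk D} {d k K : ℝ} {E : Set (D.L × ℝ)} (hPk : Pk.Ok d k K E) (q : Pk.Q)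
    {e : D.L × ℝ} (he : e ∈ E) : e ∈ Pk.inc q ↔ Pk.ofLab (D.lab e) = q := by
  have h1 := hPk.cov e he
  constructor
  · intro h2
    by_contra hne
    have hiv : Pk.iv (Pk.ofLab (D.lab e)) = Pk.iv q := by
      have a1 : k6aBin Pk.lev e.2 = Pk.iv (Pk.ofLab (D.lab e)) := h1.2
      have a2 : k6aBin Pk.lev e.2 = Pk.iv q := h2.2
      rw [← a1, ← a2]
    exact Set.disjoint_left.1 (hPk.disj _ _ hne hiv) h1.1 h2.1
  · intro h2
    rw [← h2]
    exact h1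

/-- the state of the prepared family in the packet `q` -/
theorem k6a5_build_state {D : K6aDat j} {Pk : K6aPk D} {d k K Kd κp w η0 : ℝ} {nb nv : ℕ} {E U Ep : Set (D.L × ℝ)}
    (hPk : Pk.Ok d k K E) (hP : k6a5_Prep D Pk nb nv Kd κp w η0 E U Ep) (q : Pk.Q) {x : D.L × ℝ} (hx : x ∈ Ep ∩ Pk.inc q) :
    E ∩ k6a5_st Pk nb ⁻¹' {k6a5_st Pk nb x} = Ep ∩ Pk.inc q ∩ D.wc nb ⁻¹' {D.wc nb x} := by
  have hxq : Pk.ofLab (D.lab x) = q := (k6a5_build_inc hPk q (hP.sub hx.1)).1 hx.2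
  ext e
  constructor
  · rintro ⟨heE, hes⟩
    have hes' : k6a5_st Pk nb e = k6a5_st Pk nb x := hes
    have h1 : Pk.ofLab (D.lab e) = Pk.ofLab (D.lab x) := congrArg Prod.fst hes'
    have h2 : D.wc nb e = D.wc nb x := congrArg Prod.snd hes'
    exact ⟨⟨hP.whole x hx.1 e heE hes', (k6a5_build_inc hPk q heE).2 (h1.trans hxq)⟩, h2⟩
  · rintro ⟨⟨heEp, heq⟩, hew⟩
    have heE := hP.sub heEp
    refine ⟨heE, ?_⟩
    have h1 : Pk.ofLab (D.lab e) = q := (k6a5_build_inc hPk q heE).1 heq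
    have h2 : D.wc nb e = D.wc nb x := hew
    show k6a5_st Pk nb e = k6a5_st Pk nb x
    unfold k6a5_st
    rw [h1, hxq, h2]




theorem k6a5_build_bin_bd (i : ℕ) (B x : ℝ) (hx : |x| ≤ B) :
    k6aBin i x ∈ Set.Icc (-(⌈B * 2 ^ i⌉ + 1)) (⌈B * 2 ^ i⌉ + 1) := by
  obtain ⟨h1, h2⟩ := abs_le.1 hx
  have hp : (0 : ℝ) < 2 ^ i := by positivity
  unfold k6aBin
  constructor
  · rw [Int.le_floor]
    push_cast
    have : B * 2 ^ i ≤ (⌈B * 2 ^ i⌉ : ℝ) := Int.le_ceil _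
    nlinarith
  · have : ⌊x * 2 ^ i⌋ ≤ ⌈B * 2 ^ i⌉ := by
      refine (Int.floor_le_ceil _).trans (Int.ceil_mono ?_)
      exact mul_le_mul_of_nonneg_right h2 hp.le
    omega

/-- the occupied cells of a family are finitely many -/
theorem k6a5_build_occ {D : K6aDat j} {K : ℝ} (hK : 1 ≤ K) (h : D.WF K) (nb : ℕ) (S : Set (D.L × ℝ))
    (hS : S ⊆ Set.univ ×ˢ Set.Icc (0 : ℝ) 1) :
    ∃ Gd : Finset (K6aWc j), (∀ c ∈ Gd, (S ∩ D.wc nb ⁻¹' {c}).Nonempty) ∧ ∀ e ∈ S, D.wc nb e ∈ Gd := by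
  set R : ℤ := ⌈3 * K * 2 ^ nb⌉ + 1 with hR
  have hfin : (D.wc nb '' S).Finite := by
    refine Set.Finite.subset (s := ((Set.Icc (-R) R) ×ˢ (Set.pi Set.univ fun _ : Fin j => Set.Icc (-R) R)) ×ˢ Set.Icc (-R) R)
      (((Set.finite_Icc _ _).prod (Set.Finite.pi fun _ => Set.finite_Icc _ _)).prod (Set.finite_Icc _ _)) ?_
    rintro c ⟨e, he, rfl⟩
    have ht : e.2 ∈ Set.Icc (0 : ℝ) 1 := (hS he).2
    obtain ⟨b1, b2, b3⟩ := h.bd e.1
    have ht' : |e.2| ≤ 1 := by rw [abs_le]; constructor <;> linarith [ht.1, ht.2]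
    refine ⟨⟨?_, ?_⟩, ?_⟩
    · exact k6a5_build_bin_bd nb (3 * K) _ (by linarith)
    · intro a _
      refine k6a5_build_bin_bd nb (3 * K) _ ?_
      have c1 : |D.y0 e.1 a| ≤ K := (norm_le_pi_norm (D.y0 e.1) a).trans b1
      have c2 : |D.V e.1 a| ≤ K := (norm_le_pi_norm (D.V e.1) a).trans b2
      have : D.y e.1 e.2 a = D.y0 e.1 a + e.2 * D.V e.1 a := by simp [K6aDat.y]
      rw [this]
      calc |D.y0 e.1 a + e.2 * D.V e.1 a| ≤ |D.y0 e.1 a| + |e.2| * |D.V e.1 a| := by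
            rw [← abs_mul]; exact abs_add_le _ _
        _ ≤ K + 1 * K := by gcongr
        _ ≤ 3 * K := by linarith
    · refine k6a5_build_bin_bd nb (3 * K) _ ?_
      have c : ∀ a, |D.xc e.1 a| ≤ K := fun a => (norm_le_pi_norm (D.xc e.1) a).trans b3
      unfold K6aDat.X
      have t2 : |e.2 ^ 2| ≤ 1 := by rw [abs_pow]; exact pow_le_one₀ (abs_nonneg _) ht'
      calc |D.xc e.1 0 + D.xc e.1 1 * e.2 + D.xc e.1 2 * e.2 ^ 2|
          ≤ |D.xc e.1 0| + |D.xc e.1 1| * |e.2| + |D.xc e.1 2| * |e.2 ^ 2| := by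
            rw [← abs_mul, ← abs_mul]; exact abs_add_three _ _ _
        _ ≤ K + K * 1 + K * 1 := by
            have := c 0; have := c 1; have := c 2
            gcongr <;> first | exact c _ | assumption
        _ = 3 * K := by ring
  refine ⟨hfin.toFinset, fun c hc => ?_, fun e he => ?_⟩
  · obtain ⟨e, he, rfl⟩ := hfin.mem_toFinset.1 hc
    exact ⟨e, he, rfl⟩
  · exact hfin.mem_toFinset.2 ⟨e, he, rfl⟩




theorem k6a5_build_cube_meas (i : ℕ) (J : Fin j → ℤ) : MeasurableSet (k6aCube i J) := by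
  have : k6aCube i J = k6aVBin i ⁻¹' {J} := rfl
  rw [this]
  exact k6a5_api_vbin i (measurableSet_singleton J)

theorem k6a5_build_pal_sum {D : K6aDat j} {K : ℝ} (h : D.WF K) (i : ℕ) (F : Finset (Fin j → ℤ)) :
    ∑ J ∈ F, D.pal (k6aCube i J) ≤ 1 := by
  rw [← measure_biUnion_finset (fun J _ J' _ hne => ?_) (fun J _ => k6a5_build_cube_meas i J)]
  · exact (measure_mono (Set.subset_univ _)).trans h.pal_le
  · refine Set.disjoint_left.2 fun u h1 h2 => hne ?_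
    have a1 : k6aVBin i u = J := h1
    have a2 : k6aVBin i u = J' := h2
    rw [← a1, ← a2]

theorem k6a5_build_num (hj : j = 1 ∨ j = 2) (κp : ℝ) (h0 : 0 ≤ κp) (h1 : κp ≤ 1 / 50) :
    ((j + 1 : ℕ) : ℝ≥0∞) * (ENNReal.ofReal κp + ENNReal.ofReal (1 / 64)) ≤ 1 / 2 := by
  have e2 : (1 / 2 : ℝ≥0∞) = ENNReal.ofReal (1 / 2) := by
    rw [ENNReal.ofReal_div_of_pos (by norm_num)]
    simp
  have e3 : ((j + 1 : ℕ) : ℝ≥0∞) = ENNReal.ofReal ((j + 1 : ℕ) : ℝ) := (ENNReal.ofReal_natCast _).symm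
  rw [e2, e3, ← ENNReal.ofReal_add h0 (by norm_num), ← ENNReal.ofReal_mul (by positivity)]
  refine ENNReal.ofReal_le_ofReal ?_
  rcases hj with rfl | rfl <;> norm_num <;> linarith

/-- **the tuple of velocity bins** in the language of `K6aDat` -/
theorem k6a5_build_tuple (hj : j = 1 ∨ j = 2) {D : K6aDat j} {Pk : K6aPk D} {d k K κp w : ℝ} {nb nv : ℕ} {E U Ep : Set (D.L × ℝ)}
    (q : Pk.Q) (hK : 1 ≤ K) (hWF : D.WF K) (hPk : Pk.Ok d k K E) (hU : MeasurableSet U)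
    (hP : k6a5_Prep D Pk nb nv K κp w (1 / 64) E U Ep) (hκ0 : 0 ≤ κp) (hκ1 : κp ≤ 1 / 50) (hw : 0 < w) (hw1 : w ≤ 1)
    (hE01 : E ⊆ Set.univ ×ˢ Set.Icc (0 : ℝ) 1) (hne : D.prior (Ep ∩ Pk.inc q) ≠ 0) :
    ∃ (Jt : Fin (j + 1) → Fin j → ℤ) (T : Finset (K6aWc j)),
      (∀ c ∈ T, ∃ e : Fin (j + 1) → D.L × ℝ,
        (∀ i, e i ∈ Ep ∩ Pk.inc q ∧ e i ∉ U ∧ D.wc nb (e i) = c ∧ D.vb nv (e i).1 = Jt i) ∧
        (w / (4 * (j + 1) * K) / ((j + 1 : ℕ) : ℝ)) ^ (j + 1) / ((j + 1).factorial : ℝ)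
          ≤ |Matrix.det (Matrix.of fun i => k6a5_vec (1, D.V (e i).1))|) ∧
      D.prior (Ep ∩ Pk.inc q) ≤ 2 * ENNReal.ofReal K ^ (2 * (j + 1)) * ∑ c ∈ T, D.prior (Ep ∩ Pk.inc q ∩ D.wc nb ⁻¹' {c}) := by
  have hj1 : 1 ≤ j := by rcases hj with rfl | rfl <;> norm_num
  have hfinP := k6a5_api_prior_fin hWF
  set S : Set (D.L × ℝ) := Ep ∩ Pk.inc q with hSdef
  have hSm : MeasurableSet S := hP.meas.inter (k6a5_api_inc hPk q)
  have hS01 : S ⊆ Set.univ ×ˢ Set.Icc (0 : ℝ) 1 := fun e he => hE01 (hP.sub he.1)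
  obtain ⟨Gd, hGd1, hGd2⟩ := k6a5_build_occ hK hWF nb S hS01
  -- velocity bins
  set Rv : ℤ := ⌈K * 2 ^ nv⌉ + 1 with hRv
  set BF : Finset (Fin j → ℤ) := Fintype.piFinset fun _ : Fin j => Finset.Icc (-Rv) Rv with hBF
  have hvb : ∀ l : D.L, D.vb nv l ∈ BF := by
    intro l
    rw [hBF, Fintype.mem_piFinset]
    intro a
    have := k6a5_build_bin_bd nv K (D.V l a) ((norm_le_pi_norm (D.V l) a).trans (hWF.bd l).2.1)
    exact Finset.mem_Icc.2 this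
  set μ : Measure (D.L × ℝ) := D.prior.restrict S with hμ
  have hμS : ∀ A : Set (D.L × ℝ), MeasurableSet A → μ A = D.prior (S ∩ A) := by
    intro A hA
    rw [hμ, Measure.restrict_apply hA, Set.inter_comm]
  have hvelm : Measurable fun e : D.L × ℝ => k6a5_vec (1, D.V e.1) := by
    unfold k6a5_vec
    refine measurable_pi_lambda _ fun a => ?_
    refine Fin.cases ?_ (fun b => ?_) a
    · simp only [Fin.cons_zero]; exact measurable_const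
    · simp only [Fin.cons_succ]; exact (measurable_pi_apply b).comp (hWF.m_V.comp measurable_fst)
  have hstrm : ∀ a : Fin (j + 1) → ℝ, ∀ t : ℝ, MeasurableSet {e : D.L × ℝ | |a ⬝ᵥ k6a5_vec (1, D.V e.1)| ≤ t} := by
    intro a t
    have : Measurable fun e : D.L × ℝ => |a ⬝ᵥ k6a5_vec (1, D.V e.1)| := by
      have h1 : Measurable fun e : D.L × ℝ => a ⬝ᵥ k6a5_vec (1, D.V e.1) := by
        unfold dotProduct
        exact Finset.measurable_sum _ fun i _ => ((measurable_pi_apply i).comp hvelm).const_mul _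
      exact h1.abs
    exact this measurableSet_Iic
  have key := k6a5_tuple (j + 1) μ (D.wc nb) (fun e => (⟨D.vb nv e.1, hvb e.1⟩ : BF)) (fun e => k6a5_vec (1, D.V e.1))
    (U ∪ Sᶜ) (fun J => D.pal (k6aCube nv J.1)) Gd (ENNReal.ofReal K) (ENNReal.ofReal κp) (ENNReal.ofReal (1 / 64))
    (w / (4 * (j + 1) * K)) (by omega) (fun c => k6a5_api_wc_fib hWF nb c)
    (fun J => by
      have : (fun e : D.L × ℝ => (⟨D.vb nv e.1, hvb e.1⟩ : BF)) ⁻¹' {J} = {e : D.L × ℝ | D.vb nv e.1 = J.1} := by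
        ext e
        simp [Subtype.ext_iff]
      rw [this]
      exact k6a5_api_vb hWF nv J.1)
    hvelm (hU.union hSm.compl) (by positivity)
    (fun c hc a ha => by
      obtain ⟨x, hxS, hxc⟩ := hGd1 c hc
      have hxc' : D.wc nb x = c := hxc
      have hst := k6a5_build_state hPk hP q hxS
      rw [hxc'] at hst
      have h1 := k6a5_bstrip j D E (k6a5_st Pk nb) K κp w (k6a5_st Pk nb x) hj1 hK hWF hw hw1 (hP.broad x hxS.1) a ha
      rw [hst] at h1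
      rw [hμS _ ((k6a5_api_wc_fib hWF nb c).inter (hstrm a _)), hμS _ (k6a5_api_wc_fib hWF nb c), ← Set.inter_assoc]
      exact h1)
    (fun c hc => by
      obtain ⟨x, hxS, hxc⟩ := hGd1 c hc
      have hxc' : D.wc nb x = c := hxc
      have hst := k6a5_build_state hPk hP q hxS
      rw [hxc'] at hst
      have h1 := hP.good x hxS.1
      rw [hst] at h1
      rw [hμS _ ((k6a5_api_wc_fib hWF nb c).inter (hU.union hSm.compl)), hμS _ (k6a5_api_wc_fib hWF nb c)]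
      refine le_trans (measure_mono ?_) h1
      rintro e ⟨heS, hec, heU | heS'⟩
      · refine ⟨heU, ?_⟩
        have : e ∈ E ∩ k6a5_st Pk nb ⁻¹' {k6a5_st Pk nb x} := by rw [hst]; exact ⟨heS, hec⟩
        exact this.2
      · exact absurd heS heS')
    (fun c hc J => by
      obtain ⟨x, hxS, hxc⟩ := hGd1 c hc
      have hxc' : D.wc nb x = c := hxc
      have hst := k6a5_build_state hPk hP q hxS
      rw [hxc'] at hst
      have h1 := hP.dom x hxS.1 J.1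
      rw [hst] at h1
      have e1 : (fun e : D.L × ℝ => (⟨D.vb nv e.1, hvb e.1⟩ : BF)) ⁻¹' {J} = {e : D.L × ℝ | D.vb nv e.1 = J.1} := by
        ext e
        simp [Subtype.ext_iff]
      rw [e1, hμS _ ((k6a5_api_wc_fib hWF nb c).inter (k6a5_api_vb hWF nv J.1)), hμS _ (k6a5_api_wc_fib hWF nb c),
        ← Set.inter_assoc]
      exact h1)
    (by
      rw [Finset.sum_coe_sort BF fun J => D.pal (k6aCube nv J)]
      exact (k6a5_build_pal_sum hWF nv BF).trans (by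
        rw [← ENNReal.ofReal_one]; exact ENNReal.ofReal_le_ofReal hK))
    (k6a5_build_num hj κp hκ0 hκ1)
  -- total mass
  have htot : ∑ c ∈ Gd, μ (D.wc nb ⁻¹' {c}) = D.prior S := by
    rw [← measure_biUnion_finset (fun c _ c' _ hne => ?_) (fun c _ => k6a5_api_wc_fib hWF nb c)]
    · rw [hμS _ (Finset.measurableSet_biUnion _ fun c _ => k6a5_api_wc_fib hWF nb c)]
      congr 1
      ext e
      constructor
      · exact fun h => h.1
      · intro he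
        exact ⟨he, Set.mem_biUnion (hGd2 e he) rfl⟩
    · refine Set.disjoint_left.2 fun e h1 h2 => hne ?_
      have a1 : D.wc nb e = c := h1
      have a2 : D.wc nb e = c' := h2
      rw [← a1, ← a2]
  rw [htot] at key
  obtain ⟨J, hJ⟩ := key hne
  refine ⟨fun i => (J i).1, Gd.filter (k6a5_Wit (D.wc nb) (fun e => (⟨D.vb nv e.1, hvb e.1⟩ : BF))
    (fun e => k6a5_vec (1, D.V e.1)) (U ∪ Sᶜ) ((w / (4 * (j + 1) * K) / ((j + 1 : ℕ) : ℝ)) ^ (j + 1) / ((j + 1).factorial : ℝ)) J),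
    ?_, ?_⟩
  · intro c hc
    obtain ⟨e, he1, he2⟩ := (Finset.mem_filter.1 hc).2
    refine ⟨e, fun i => ?_, he2⟩
    obtain ⟨a1, a2, a3⟩ := he1 i
    have a3' : e i ∉ U ∧ e i ∈ S := by
      constructor
      · exact fun h => a3 (Or.inl h)
      · by_contra h; exact a3 (Or.inr h)
    exact ⟨a3'.2, a3'.1, a1, congrArg Subtype.val a2⟩
  · refine hJ.trans (le_of_eq ?_)
    congr 1
    refine Finset.sum_congr rfl fun c _ => ?_
    rw [hμS _ (k6a5_api_wc_fib hWF nb c)]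




theorem k6a5_build_cK (c a : ℕ) (A K : ℝ) (hK : 1 ≤ K) (hA : A ≤ c) (ha : a ≤ c) : A * K ^ a ≤ (c : ℝ) * K ^ c := by
  have h1 : K ^ a ≤ K ^ c := pow_le_pow_right₀ hK ha
  have h2 : (0 : ℝ) ≤ K ^ a := by positivity
  calc A * K ^ a ≤ (c : ℝ) * K ^ a := mul_le_mul_of_nonneg_right hA h2
    _ ≤ (c : ℝ) * K ^ c := mul_le_mul_of_nonneg_left h1 (by positivity)

theorem k6a5_build_vec_le (g : K6aRow j) (b : Fin (j + 1)) : |k6a5_vec g b| ≤ ‖g‖ := by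
  unfold k6a5_vec
  refine Fin.cases ?_ (fun a => ?_) b
  · simp only [Fin.cons_zero]
    exact norm_fst_le g
  · simp only [Fin.cons_succ]
    exact (norm_le_pi_norm g.2 a).trans (norm_snd_le g)

theorem k6a5_build_vec_norm (g : K6aRow j) : ‖k6a5_vec g‖ ≤ ‖g‖ :=
  (pi_norm_le_iff_of_nonneg (norm_nonneg _)).2 fun b => k6a5_build_vec_le g b

theorem k6a5_build_vec_sub (g g' : K6aRow j) (b : Fin (j + 1)) : k6a5_vec g b - k6a5_vec g' b = k6a5_vec (g - g') b := by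
  unfold k6a5_vec
  refine Fin.cases ?_ (fun a => ?_) b
  · simp
  · simp

/-- a ball in the normalised coordinates is a ball in the physical base -/
theorem k6a5_build_ball {D : K6aDat j} (Pk : K6aPk D) (q : Pk.Q) (c0 : Fin (j + 1) → ℝ) (r : ℝ) (hr : 0 ≤ r)
    (z : ℝ × (Fin j → ℝ)) (h : ‖k6a5_u Pk q z - c0‖ ≤ r) :
    ‖z - ((k6a5_zc Pk q).1 + Pk.H * c0 0, fun a => (k6a5_zc Pk q).2 a + Pk.H * c0 a.succ)‖ ≤ r * Pk.H := by
  have hH : 0 < Pk.H := k6a5_api_W_pos _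
  have hc : ∀ b, |k6a5_u Pk q z b - c0 b| ≤ r := fun b => by
    have := (norm_le_pi_norm (k6a5_u Pk q z - c0) b).trans h
    simpa using this
  have hrH : 0 ≤ r * Pk.H := by positivity
  rw [Prod.norm_def]
  refine max_le ?_ ?_
  · have h0 := hc 0
    simp only [k6a5_u, k6aU, Fin.cons_zero] at h0
    simp only [Prod.fst_sub, Real.norm_eq_abs]
    have e : z.1 - ((k6a5_zc Pk q).1 + Pk.H * c0 0) = ((z.1 - (k6a5_zc Pk q).1) / Pk.H - c0 0) * Pk.H := by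
      field_simp
      ring
    rw [e, abs_mul, abs_of_pos hH]
    exact mul_le_mul_of_nonneg_right h0 hH.le
  · refine (pi_norm_le_iff_of_nonneg hrH).2 fun a => ?_
    have h0 := hc a.succ
    simp only [k6a5_u, k6aU, Fin.cons_succ] at h0
    simp only [Prod.snd_sub, Pi.sub_apply, Real.norm_eq_abs]
    have e : z.2 a - ((k6a5_zc Pk q).2 a + Pk.H * c0 a.succ) = ((z.2 a - (k6a5_zc Pk q).2 a) / Pk.H - c0 a.succ) * Pk.H := by
      field_simp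
      ring
    rw [e, abs_mul, abs_of_pos hH]
    exact mul_le_mul_of_nonneg_right h0 hH.le

/-- the bin of a row as a cell of the vector -/
theorem k6a5_build_rowbin (i : ℕ) (g : K6aRow j) :
    k6a_cell (k6aW i) (k6a5_vec g) = (Fin.cons (k6aRowBin i g).1 (k6aRowBin i g).2 : Fin (j + 1) → ℤ) := by
  rw [k6a5_api_cell]
  funext b
  unfold k6aVBin k6a5_vec k6aRowBin
  refine Fin.cases ?_ (fun a => ?_) b
  · simp
  · simp [k6aVBin]




/-- lower bound of the determinant threshold -/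
theorem k6a5_build_delta (j : ℕ) (K w : ℝ) (hK : 1 ≤ K) (hw : 0 < w) (hKw : 1 ≤ K * w) :
    0 < (w / (4 * (j + 1) * K) / ((j + 1 : ℕ) : ℝ)) ^ (j + 1) / ((j + 1).factorial : ℝ) ∧
    1 ≤ (((j + 1).factorial : ℝ) * (4 * ((j : ℝ) + 1) ^ 2) ^ (j + 1) * K ^ (2 * (j + 1))) *
      ((w / (4 * (j + 1) * K) / ((j + 1 : ℕ) : ℝ)) ^ (j + 1) / ((j + 1).factorial : ℝ)) := by
  have hK0 : 0 < K := by linarith
  have hf : (0 : ℝ) < ((j + 1).factorial : ℝ) := by positivity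
  constructor
  · positivity
  · have e : (((j + 1).factorial : ℝ) * (4 * ((j : ℝ) + 1) ^ 2) ^ (j + 1) * K ^ (2 * (j + 1))) *
      ((w / (4 * (j + 1) * K) / ((j + 1 : ℕ) : ℝ)) ^ (j + 1) / ((j + 1).factorial : ℝ)) = (K * w) ^ (j + 1) := by
      push_cast
      rw [pow_mul, div_pow, div_pow, mul_pow, mul_pow, mul_pow, mul_pow]
      rw [← pow_mul, ← pow_mul]
      field_simp
      ring
    rw [e]
    exact one_le_pow₀ hKw



set_option maxHeartbeats 1000000 in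
theorem k6a5_build : k6a5_build_stmt := by
  intro j M hj
  set C1 : ℕ := 4 * (j + 1) * ((j + 1).factorial) ^ 2 * 2 ^ (j + 1) * (4 * (j + 1) ^ 2) ^ (j + 1) with hC1
  set c : ℕ := C1 + (M + 1) * 2 ^ M + 2 ^ (j + 3) + 3 * (j + 1) + 3 with hc
  refine ⟨c, ?_⟩
  intro D Pk d k K κp ε w eN r0 nb nv iT E U Ep g q hK hWF hPk hG hQ hP hκ0 hκ1 hw hw1 hKw hE01 hne hmass hiT hε ha hr0 hr0' hnv hnb
  have hK0 : 0 < K := by linarith
  have hH : 0 < Pk.H := k6a5_api_W_pos _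
  have hH1 : Pk.H ≤ 1 := k6a5_api_W_le_one _
  have hcK : ∀ (A : ℝ) (a : ℕ), A ≤ c → a ≤ c → A * K ^ a ≤ (c : ℝ) * K ^ c := fun A a h1 h2 => k6a5_build_cK c a A K hK h1 h2
  obtain ⟨g1, g2, g3, g4, g5⟩ := k6a5_bgeo j D Pk d k K E q hK hPk
  obtain ⟨Jt, T, hT1, hT2⟩ := k6a5_build_tuple hj q hK hWF hPk hQ.U_meas hP hκ0 hκ1 hw hw1 hE01 hne
  set tq : ℝ := k6a5_tq Pk q with htq
  set η : ℝ := k6aW Pk.lev ^ M with hη
  set δ0 : ℝ := (w / (4 * (j + 1) * K) / ((j + 1 : ℕ) : ℝ)) ^ (j + 1) / ((j + 1).factorial : ℝ) with hδ0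
  obtain ⟨hδpos, hδlow⟩ := k6a5_build_delta j K w hK hw hKw
  rw [← hδ0] at hδpos hδlow
  -- a default incidence
  have hex0 : (Ep ∩ Pk.inc q).Nonempty := by
    by_contra h
    rw [Set.not_nonempty_iff_eq_empty] at h
    exact hne (by rw [h]; simp)
  obtain ⟨x0, hx0⟩ := hex0
  -- the witnesses
  have hW : ∀ c : K6aWc j, ∃ e : Fin (j + 1) → D.L × ℝ, c ∈ T →
      (∀ i, e i ∈ Ep ∩ Pk.inc q ∧ e i ∉ U ∧ D.wc nb (e i) = c ∧ D.vb nv (e i).1 = Jt i) ∧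
        δ0 ≤ |Matrix.det (Matrix.of fun i => k6a5_vec (1, D.V (e i).1))| := by
    intro c
    by_cases hcT : c ∈ T
    · obtain ⟨e, he⟩ := hT1 c hcT
      exact ⟨e, fun _ => he⟩
    · exact ⟨fun _ => x0, fun h => absurd h hcT⟩
  choose ew hew using hW
  -- their polynomials
  have hA : ∀ (c : K6aWc j) (i : Fin (j + 1)), ∃ a : Fin (M + 1) → K6aRow j, c ∈ T →
      (∀ r, ‖a r‖ ≤ K) ∧ ‖g (D.wc nb (ew c i)) - k6aPoly a (ew c i).2‖ ≤ η ∧
      k6aW Pk.lev / K ≤ volume.real {t | ((ew c i).1, t) ∈ E ∧ k6aBin Pk.lev t = k6aBin Pk.lev (ew c i).2 ∧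
        ‖g (D.wc nb ((ew c i).1, t)) - k6aPoly a t‖ ≤ η} := by
    intro c i
    by_cases hcT : c ∈ T
    · obtain ⟨h1, h2, -, -⟩ := (hew c hcT).1 i
      obtain ⟨a, ha⟩ := hQ.qual (ew c i) (hP.sub h1.1) h2
      exact ⟨a, fun _ => ha⟩
    · exact ⟨fun _ => 0, fun h => absurd h hcT⟩
  choose cf hcf using hA
  -- times
  set wτ : K6aWc j → Fin (j + 1) → ℝ := fun c i => ((ew c i).2 - tq) / Pk.H with hwτ
  have hteq : ∀ c i, tq + Pk.H * wτ c i = (ew c i).2 := by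
    intro c i
    rw [hwτ]
    field_simp
    ring
  have hτI : ∀ c ∈ T, ∀ i, wτ c i ∈ Set.Ico (0 : ℝ) 1 := by
    intro c hcT i
    obtain ⟨τ, hτ, hτe⟩ := (g3 (ew c i).2).1 ((hew c hcT).1 i).1.2.2
    have : wτ c i = τ := by
      rw [hwτ]
      simp only
      rw [hτe]
      field_simp
      ring
    rw [this]
    exact hτ
  have heE : ∀ c ∈ T, ∀ i, ew c i ∈ E := fun c hcT i => hP.sub ((hew c hcT).1 i).1.1
  -- T is not empty
  have hTne : T.Nonempty := by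
    by_contra h
    rw [Finset.not_nonempty_iff_eq_empty] at h
    rw [h] at hT2
    simp at hT2
    exact hne hT2
  obtain ⟨c1, hc1⟩ := hTne
  have htq1 : |tq| ≤ 1 := by
    have h1 := (hE01 (heE c1 hc1 0)).2
    have h2 := hteq c1 0
    have h3 := hτI c1 hc1 0
    have h4 : 0 ≤ Pk.H * wτ c1 0 := mul_nonneg hH.le h3.1
    have h5 : Pk.H * wτ c1 0 ≤ 1 := by nlinarith [h3.2]
    rw [abs_le]
    constructor <;> linarith [h1.1, h1.2]
  -- the matrix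
  set A0 : Matrix (Fin (j + 1)) (Fin (j + 1)) ℝ := Matrix.of fun b i => k6a5_vcen nv (Jt i) b with hA0
  have hpv0 : 0 < k6aW nv := k6a5_api_W_pos nv
  have hvelA : ∀ c ∈ T, ∀ i b, |k6a5_vec (1, D.V (ew c i).1) b - A0 b i| ≤ k6aW nv := by
    intro c hcT i b
    have hJ : D.vb nv (ew c i).1 = Jt i := ((hew c hcT).1 i).2.2.2
    rw [hA0]
    simp only [Matrix.of_apply]
    unfold k6a5_vec k6a5_vcen
    refine Fin.cases ?_ (fun a => ?_) b
    · simp only [Fin.cons_zero, sub_self, abs_zero]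
      exact hpv0.le
    · simp only [Fin.cons_succ]
      rw [← hJ]
      obtain ⟨b1, b2⟩ := k6a5_api_bin_mem nv (D.V (ew c i).1 a)
      have : D.vb nv (ew c i).1 a = k6aBin nv (D.V (ew c i).1 a) := rfl
      rw [this, abs_le]
      constructor <;> nlinarith
  have hvelK : ∀ (l : D.L) b, |k6a5_vec (1, D.V l) b| ≤ K := by
    intro l b
    refine (k6a5_build_vec_le _ b).trans ?_
    rw [Prod.norm_def]
    refine max_le ?_ (hWF.bd l).2.1
    simpa using hK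
  -- constants
  have hcN : C1 ≤ c ∧ (M + 1) * 2 ^ M ≤ c ∧ 2 ^ (j + 3) ≤ c ∧ 3 * (j + 1) ≤ c ∧ 3 ≤ c := by
    rw [hc]
    generalize C1 = x1
    generalize (M + 1) * 2 ^ M = x2
    generalize 2 ^ (j + 3) = x3
    omega
  obtain ⟨hcN1, hcN2, hcN3, hcN4, hcN5⟩ := hcN
  set G : ℝ := ((j + 1).factorial : ℝ) ^ 2 * 2 ^ (j + 1) * (4 * ((j : ℝ) + 1) ^ 2) ^ (j + 1) with hG'
  have hGpos : 0 < G := by positivity
  have hC1G : (C1 : ℝ) = 4 * ((j : ℝ) + 1) * G := by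
    rw [hC1, hG']
    push_cast
    ring
  have hC1c : 4 * ((j : ℝ) + 1) * G ≤ c := by
    rw [← hC1G]
    exact_mod_cast hcN1
  have hj0 : (0 : ℝ) ≤ j := Nat.cast_nonneg j
  set Fd : ℝ := ((j + 1).factorial : ℝ) * (4 * ((j : ℝ) + 1) ^ 2) ^ (j + 1) * K ^ (2 * (j + 1)) with hFd
  have hFdpos : 0 < Fd := by positivity
  have hinvδ : 1 / δ0 ≤ Fd := by
    rw [div_le_iff₀ hδpos]
    exact hδlow
  have hGK : ((j + 1).factorial : ℝ) * (2 * K) ^ (j + 1) * Fd = G * K ^ (3 * (j + 1)) := by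
    rw [hFd, hG', mul_pow]
    ring
  have hsmall : 2 * (((j : ℝ) + 1) * ((j + 1).factorial : ℝ) * (2 * K) ^ (j + 1)) * k6aW nv ≤ δ0 := by
    have h1 : 2 * ((j : ℝ) + 1) * G * K ^ (3 * (j + 1)) ≤ (c : ℝ) * K ^ c :=
      hcK _ _ (by nlinarith) hcN4
    have h2 : 2 * (((j : ℝ) + 1) * ((j + 1).factorial : ℝ) * (2 * K) ^ (j + 1)) * Fd = 2 * ((j : ℝ) + 1) * G * K ^ (3 * (j + 1)) := by
      calc 2 * (((j : ℝ) + 1) * ((j + 1).factorial : ℝ) * (2 * K) ^ (j + 1)) * Fd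
          = 2 * ((j : ℝ) + 1) * (((j + 1).factorial : ℝ) * (2 * K) ^ (j + 1) * Fd) := by ring
        _ = 2 * ((j : ℝ) + 1) * G * K ^ (3 * (j + 1)) := by rw [hGK]; ring
    have h3 : 0 ≤ 2 * (((j : ℝ) + 1) * ((j + 1).factorial : ℝ) * (2 * K) ^ (j + 1)) * k6aW nv := by positivity
    calc 2 * (((j : ℝ) + 1) * ((j + 1).factorial : ℝ) * (2 * K) ^ (j + 1)) * k6aW nv
        ≤ 2 * (((j : ℝ) + 1) * ((j + 1).factorial : ℝ) * (2 * K) ^ (j + 1)) * k6aW nv * (Fd * δ0) :=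
          le_mul_of_one_le_right h3 hδlow
      _ = (2 * (((j : ℝ) + 1) * ((j + 1).factorial : ℝ) * (2 * K) ^ (j + 1)) * Fd) * k6aW nv * δ0 := by ring
      _ ≤ ((c : ℝ) * K ^ c) * k6aW nv * δ0 := by rw [h2]; gcongr
      _ ≤ 1 * δ0 := by gcongr
      _ = δ0 := one_mul _
  obtain ⟨Bi, hBi1, hBi2, hBi3⟩ := k6a5_bmat j (fun i => k6a5_vec (1, D.V (ew c1 i).1)) A0 K δ0 (k6aW nv) hK hδpos hpv0.le
    (k6a5_api_W_le_one nv) (fun i b => hvelK _ b) (fun i b => hvelA c1 hc1 i b) (hew c1 hc1).2 hsmall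
  -- qualification in normalised time
  have hBQ : ∀ c ∈ T, ∀ i, MeasurableSet (k6a5_Wt D Pk q nb M η E g (ew c i).1 (cf c i)) ∧
      wτ c i ∈ k6a5_Wt D Pk q nb M η E g (ew c i).1 (cf c i) ∧
      1 ≤ K * (volume (k6a5_Wt D Pk q nb M η E g (ew c i).1 (cf c i))).toReal ∧
      (∀ b, (k6a5_fitP Pk q (cf c i) b).natDegree ≤ M) ∧
      (∀ b r, |(k6a5_fitP Pk q (cf c i) b).coeff r| ≤ ((M : ℝ) + 1) * 2 ^ M * K) ∧
      ∀ b τ, (k6a5_fitP Pk q (cf c i) b).eval τ = k6a5_vec (k6aPoly (cf c i) (tq + Pk.H * τ)) b := by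
    intro c hcT i
    obtain ⟨a1, a2, a3⟩ := hcf c i hcT
    refine k6a5_bqual j M D Pk K K η nb E g q (ew c i).1 (wτ c i) (cf c i) hWF hG.E_meas hK0 htq1 (hτI c hcT i) ?_ a1 ?_ ?_
    · rw [← htq, hteq c i]
      exact heE c hcT i
    · rw [← htq, hteq c i]
      exact a2
    · rw [← htq, hteq c i]
      exact a3
  have hνpos : 0 < (Pk.νQ q).toReal := by
    refine ENNReal.toReal_pos ?_ ?_
    · intro h0
      have h1 := hPk.ν_lo q ⟨x0, hP.sub hx0.1, hx0.2⟩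
      rw [h0, mul_zero, nonpos_iff_eq_zero, ENNReal.ofReal_eq_zero] at h1
      have : 0 < Pk.a ^ d * Pk.H ^ j := mul_pos (Real.rpow_pos_of_pos hPk.a_pos d) (pow_pos hH j)
      linarith
    · exact ne_top_of_le_ne_top ENNReal.ofReal_ne_top (hPk.ν_hi q)
  have hfinP := k6a5_api_prior_fin hWF
  refine ⟨T, A0, Bi, fun c i => (ew c i).1, wτ, cf, ⌊(2 : ℝ) ^ (j + 3) * K ^ 2⌋₊, ?_, ?_⟩
  · refine (Nat.floor_le (by positivity)).trans (hcK _ _ (by exact_mod_cast hcN3) (by omega))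
  have hone : (1 : ℝ) ≤ (c : ℝ) * K ^ c := by
    have := hcK 1 0 (by exact_mod_cast (by omega : 1 ≤ c)) (Nat.zero_le _)
    simpa using this
  have hlin : ∀ A : ℝ, A ≤ c → A * K ≤ (c : ℝ) * K ^ c := fun A hA => by
    have := hcK A 1 hA (by omega)
    simpa using this
  have h3c : (3 : ℝ) ≤ c := by exact_mod_cast hcN5
  have hln : ∀ (s : K6aWc j) (i : Fin (j + 1)) (τ : ℝ),
      (k6a5_mk D Pk q nb M η E Ep g T A0 Bi (fun c i => (ew c i).1) wτ cf).ln s i τ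
        = k6a5_u Pk q (D.base ((ew s i).1, tq + Pk.H * τ)) := fun s i τ => (g1 (ew s i).1 τ).symm
  have hasg : ∀ s ∈ T, ∀ i, (ew s i).1 ∈ Pk.asg q := fun s hs i => ((hew s hs).1 i).1.2.1
  constructor
  · -- wt_nonneg
    intro s
    exact div_nonneg ENNReal.toReal_nonneg (mul_nonneg hH.le ENNReal.toReal_nonneg)
  · exact hBi1
  · intro a i
    exact (hBi2 a i).trans (hlin 2 (by linarith))
  · intro i a
    refine (hBi3 i a).trans ?_
    have h1 : 2 * ((j + 1).factorial : ℝ) * (2 * K) ^ (j + 1) / δ0 = 2 * ((j + 1).factorial : ℝ) * (2 * K) ^ (j + 1) * (1 / δ0) := by ring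
    rw [h1]
    calc 2 * ((j + 1).factorial : ℝ) * (2 * K) ^ (j + 1) * (1 / δ0) ≤ 2 * ((j + 1).factorial : ℝ) * (2 * K) ^ (j + 1) * Fd := by gcongr
      _ = 2 * (((j + 1).factorial : ℝ) * (2 * K) ^ (j + 1) * Fd) := by ring
      _ = 2 * G * K ^ (3 * (j + 1)) := by rw [hGK]; ring
      _ ≤ (c : ℝ) * K ^ c := hcK _ _ (by nlinarith) hcN4
  · -- A_time
    intro i
    show A0 0 i = 1
    rw [hA0]
    simp [k6a5_vcen]
  · -- cs_bd
    intro s hs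
    show ‖k6a5_u Pk q (k6a5_corner nb s)‖ ≤ _
    have h1 := g5 nb (ew s 0)
    rw [((hew s hs).1 0).2.2.1] at h1
    have h2 := g4 (ew s 0).1 (hasg s hs 0) (ew s 0).2 ((hew s hs).1 0).1.2.2
    have h3 : k6aW nb / Pk.H ≤ 1 := by rw [div_le_one hH]; exact hnb
    have h4 : ‖k6a5_u Pk q (k6a5_corner nb s)‖ ≤ ‖k6a5_u Pk q (D.base (ew s 0))‖ +
        ‖k6a5_u Pk q (D.base (ew s 0)) - k6a5_u Pk q (k6a5_corner nb s)‖ := by
      have := norm_sub_le (k6a5_u Pk q (D.base (ew s 0))) (k6a5_u Pk q (D.base (ew s 0)) - k6a5_u Pk q (k6a5_corner nb s))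
      simpa using this
    have h5 : ‖k6a5_u Pk q (D.base (ew s 0))‖ ≤ 2 * K := h2
    calc ‖k6a5_u Pk q (k6a5_corner nb s)‖ ≤ 2 * K + 1 := by linarith
      _ ≤ 3 * K := by linarith
      _ ≤ _ := hlin 3 h3c
  · -- G_bd
    intro s _
    show ‖k6a5_vec (g s)‖ ≤ _
    calc ‖k6a5_vec (g s)‖ ≤ ‖g s‖ := k6a5_build_vec_norm _
      _ ≤ K := hG.bound s
      _ = 1 * K := (one_mul K).symm
      _ ≤ _ := hlin 1 (by linarith)
  · -- ln_time
    intro s _ i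
    exact ⟨g2 (ew s i).1, by show k6a5_vec (1, D.V (ew s i).1) 0 = 1; simp [k6a5_vec]⟩
  · -- ln_vel
    intro s hs i a
    exact hvelA s hs i a
  · -- ln_at
    intro s hs i
    have h1 := g5 nb (ew s i)
    rw [((hew s hs).1 i).2.2.1] at h1
    have e1 := hln s i (wτ s i)
    rw [hteq s i] at e1
    have e2 : (k6a5_mk D Pk q nb M η E Ep g T A0 Bi (fun c i => (ew c i).1) wτ cf).ln s i
        ((k6a5_mk D Pk q nb M η E Ep g T A0 Bi (fun c i => (ew c i).1) wτ cf).tw s i) = k6a5_u Pk q (D.base (ew s i)) := e1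
    rw [e2]
    exact h1
  · -- tw_mem
    intro s hs i
    exact (hBQ s hs i).2.1
  · -- Gt_tw
    intro s hs i
    show k6a5_vec (g (D.wc nb ((ew s i).1, tq + Pk.H * wτ s i))) = k6a5_vec (g s)
    rw [hteq s i]
    have : D.wc nb ((ew s i).1, (ew s i).2) = s := ((hew s hs).1 i).2.2.1
    rw [this]
  · intro s hs i
    exact (hBQ s hs i).1
  · intro s _ i τ hτ
    exact Set.Ico_subset_Icc_self hτ.1
  · -- Wt_vol
    intro s hs i
    have h1 := (hBQ s hs i).2.2.1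
    have h2 : K ≤ (c : ℝ) * K ^ c := by simpa using hlin 1 (by linarith)
    exact h1.trans (mul_le_mul_of_nonneg_right h2 ENNReal.toReal_nonneg)
  · intro s hs i a
    exact (hBQ s hs i).2.2.2.1 a
  · intro s hs i a r
    refine ((hBQ s hs i).2.2.2.2.1 a r).trans (hlin _ ?_)
    exact_mod_cast hcN2
  · -- fit_err
    intro s hs i τ hτ a
    show |k6a5_vec (g (D.wc nb ((ew s i).1, tq + Pk.H * τ))) a - (k6a5_fitP Pk q (cf s i) a).eval τ| ≤ η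
    rw [(hBQ s hs i).2.2.2.2.2 a τ, k6a5_build_vec_sub]
    exact (k6a5_build_vec_le _ a).trans hτ.2.2
  · -- lists
    intro c0
    obtain ⟨F, hF1, hF2⟩ := k6a5_blists j D Pk d k K ε (r0 * Pk.H) nb iT E g q hK hPk hG hiT hε ha (by positivity) hr0'
      ((k6a5_zc Pk q).1 + Pk.H * c0 0, fun a => (k6a5_zc Pk q).2 a + Pk.H * c0 a.succ)
    refine ⟨F.image (fun p => (Fin.cons p.1 p.2 : Fin (j + 1) → ℤ)), ?_, ?_⟩
    · exact Finset.card_image_le.trans (Nat.le_floor hF1)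
    · intro s hs i τ hτ hball
      have hball' : ‖k6a5_u Pk q (D.base ((ew s i).1, tq + Pk.H * τ)) - c0‖ ≤ r0 := by
        rw [← hln s i τ]
        exact hball
      have hmemE : ((ew s i).1, tq + Pk.H * τ) ∈ E := hτ.2.1
      have hinc : ((ew s i).1, tq + Pk.H * τ) ∈ Pk.inc q := ⟨hasg s hs i, (g3 _).2 ⟨τ, hτ.1, rfl⟩⟩
      have h1 := hF2 _ ⟨hmemE, hinc⟩ (k6a5_build_ball Pk q c0 r0 hr0 _ hball')
      show k6a_cell (k6aW iT) (k6a5_vec (g (D.wc nb ((ew s i).1, tq + Pk.H * τ)))) ∈ _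
      rw [k6a5_build_rowbin]
      exact Finset.mem_image.2 ⟨_, h1, rfl⟩
  · -- ceil
    intro c0 r hr
    have h1 := k6a5_bceil j D Pk d k K nb E Ep q T hK hWF hPk hP.meas hP.sub c0 r hr
    refine h1.trans ?_
    have h2 : (2 : ℝ) ^ (j + 1) * K ≤ (c : ℝ) * K ^ c := hlin _ (by
      have : (2 : ℝ) ^ (j + 1) ≤ 2 ^ (j + 3) := pow_le_pow_right₀ (by norm_num) (by omega)
      exact this.trans (by exact_mod_cast hcN3))
    have h3 : 0 ≤ (r + k6aW nb / Pk.H) ^ (j + 1) := by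
      have : 0 ≤ k6aW nb / Pk.H := div_nonneg (k6a5_api_W_pos nb).le hH.le
      positivity
    exact mul_le_mul_of_nonneg_right h2 h3
  · -- mass
    show 1 ≤ _ * ∑ s ∈ T, (D.prior (Ep ∩ Pk.inc q ∩ D.wc nb ⁻¹' {s})).toReal / (Pk.H * (Pk.νQ q).toReal)
    rw [← Finset.sum_div]
    have hden : 0 < Pk.H * (Pk.νQ q).toReal := mul_pos hH hνpos
    have r1 : (D.prior (Ep ∩ Pk.inc q)).toReal ≤ 2 * K ^ (2 * (j + 1)) * ∑ s ∈ T, (D.prior (Ep ∩ Pk.inc q ∩ D.wc nb ⁻¹' {s})).toReal := by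
      have h1 := ENNReal.toReal_mono (by
        refine ENNReal.mul_ne_top (ENNReal.mul_ne_top (by norm_num) (ENNReal.pow_ne_top ENNReal.ofReal_ne_top)) ?_
        exact (ENNReal.sum_ne_top.2 fun s _ => measure_ne_top _ _)) hT2
      rw [ENNReal.toReal_mul, ENNReal.toReal_mul, ENNReal.toReal_pow, ENNReal.toReal_ofReal hK0.le,
        ENNReal.toReal_sum (fun s _ => measure_ne_top _ _)] at h1
      simpa using h1
    have r2 : Pk.H * (Pk.νQ q).toReal ≤ K * (D.prior (Ep ∩ Pk.inc q)).toReal := by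
      have h1 := ENNReal.toReal_mono (ENNReal.mul_ne_top ENNReal.ofReal_ne_top (measure_ne_top _ _)) hmass
      rw [ENNReal.toReal_mul, ENNReal.toReal_mul, ENNReal.toReal_ofReal hK0.le, ENNReal.toReal_ofReal hH.le] at h1
      exact h1
    rw [← mul_div_assoc, le_div_iff₀ hden, one_mul]
    have hS0 : 0 ≤ ∑ s ∈ T, (D.prior (Ep ∩ Pk.inc q ∩ D.wc nb ⁻¹' {s})).toReal := Finset.sum_nonneg fun _ _ => ENNReal.toReal_nonneg
    calc Pk.H * (Pk.νQ q).toReal ≤ K * (2 * K ^ (2 * (j + 1)) * ∑ s ∈ T, (D.prior (Ep ∩ Pk.inc q ∩ D.wc nb ⁻¹' {s})).toReal) :=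
          r2.trans (mul_le_mul_of_nonneg_left r1 hK0.le)
      _ = (2 * K ^ (2 * (j + 1) + 1)) * ∑ s ∈ T, (D.prior (Ep ∩ Pk.inc q ∩ D.wc nb ⁻¹' {s})).toReal := by ring
      _ ≤ _ := mul_le_mul_of_nonneg_right (hcK _ _ (by linarith) (by omega)) hS0

end k6a5_build_sec

/-! ### L-252-S6a5-HUB -/

theorem k6a5_hub_W_pos (i : ℕ) : 0 < k6aW i := by
  unfold k6aW
  positivity

theorem k6a5_hub_W_le_one (i : ℕ) : k6aW i ≤ 1 := by
  unfold k6aW
  exact pow_le_one₀ (by norm_num) (by norm_num)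

theorem k6a5_hub_W_rpow (i : ℕ) (s : ℝ) : k6aW i ^ s * (2 : ℝ) ^ (s * i) = 1 := by
  have h1 : k6aW i = ((2 : ℝ) ^ (i : ℝ))⁻¹ := by
    unfold k6aW
    rw [Real.rpow_natCast, one_div, inv_pow]
  have h2 : (0 : ℝ) < (2 : ℝ) ^ (i : ℝ) := Real.rpow_pos_of_pos (by norm_num) _
  rw [h1, Real.inv_rpow h2.le, ← Real.rpow_mul (by norm_num), mul_comm s (i : ℝ)]
  exact inv_mul_cancel₀ (Real.rpow_pos_of_pos (by norm_num) _).ne'

theorem k6a5_hub_absorb (kh : ℕ) (σ X : ℝ) (hσ : σ ≤ 1 / 4) (hX : X ≤ (2 : ℝ) ^ (σ * kh)) :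
    X * k6aW kh ^ (1 / 4 : ℝ) ≤ 1 := by
  have h0 : 0 ≤ k6aW kh ^ (1 / 4 : ℝ) := Real.rpow_nonneg (k6a5_hub_W_pos kh).le _
  have h1 : (2 : ℝ) ^ (σ * kh) ≤ (2 : ℝ) ^ ((1 / 4 : ℝ) * kh) :=
    Real.rpow_le_rpow_of_exponent_le (by norm_num) (mul_le_mul_of_nonneg_right hσ (Nat.cast_nonneg kh))
  calc X * k6aW kh ^ (1 / 4 : ℝ) ≤ (2 : ℝ) ^ ((1 / 4 : ℝ) * kh) * k6aW kh ^ (1 / 4 : ℝ) :=
        mul_le_mul_of_nonneg_right (hX.trans h1) h0
    _ = 1 := by rw [mul_comm]; exact k6a5_hub_W_rpow kh _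

section k6a5HubSec

variable {j : ℕ}

theorem k6a5_hub_bin_meas (i : ℕ) : Measurable (k6aBin i) := by
  unfold k6aBin
  exact (measurable_id.mul_const _).floor

theorem k6a5_hub_wc_meas (D : K6aDat j) (K : ℝ) (h : D.WF K) (i : ℕ) : Measurable (D.wc i) := by
  have hy : Measurable fun e : D.L × ℝ => D.y e.1 e.2 := by
    unfold K6aDat.y
    exact (h.m_y0.comp measurable_fst).add (measurable_snd.smul (h.m_V.comp measurable_fst))
  have hX : Measurable fun e : D.L × ℝ => D.X e.1 e.2 := by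
    unfold K6aDat.X
    have hc : ∀ a : Fin 3, Measurable fun e : D.L × ℝ => D.xc e.1 a :=
      fun a => (measurable_pi_apply a).comp (h.m_xc.comp measurable_fst)
    exact ((hc 0).add ((hc 1).mul measurable_snd)).add ((hc 2).mul (measurable_snd.pow_const 2))
  unfold K6aDat.wc K6aDat.zc
  refine Measurable.prodMk (Measurable.prodMk ((k6a5_hub_bin_meas i).comp measurable_snd) ?_) ((k6a5_hub_bin_meas i).comp hX)
  unfold k6aVBin
  exact measurable_pi_lambda _ fun a => (k6a5_hub_bin_meas i).comp ((measurable_pi_apply a).comp hy)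

theorem k6a5_hub_inc_meas {D : K6aDat j} (Pk : K6aPk D) {d k K : ℝ} {E : Set (D.L × ℝ)} (h : Pk.Ok d k K E) (q : Pk.Q) :
    MeasurableSet (Pk.inc q) := by
  unfold K6aPk.inc
  refine (h.asg_meas q).prod ?_
  exact (k6a5_hub_bin_meas Pk.lev) (measurableSet_singleton _)

theorem k6a5_hub_inc_null {D : K6aDat j} {K : ℝ} (h : D.WF K) (Pk : K6aPk D) (q : Pk.Q) (h0 : Pk.νQ q = 0) :
    D.prior (Pk.inc q) = 0 := by
  have := h.prob
  unfold K6aDat.prior K6aPk.inc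
  rw [Measure.prod_prod]
  have h1 : D.ν (Pk.asg q) = 0 := h0
  rw [h1, zero_mul]

theorem k6a5_hub_lab {D : K6aDat j} (Pk : K6aPk D) {d k K : ℝ} {E : Set (D.L × ℝ)} (h : Pk.Ok d k K E) (q : Pk.Q)
    (x : D.L × ℝ) (hx : x ∈ E) (hq : x ∈ Pk.inc q) : Pk.ofLab (D.lab x) = q := by
  by_contra hne
  have h1 := h.cov x hx
  have h2 : Pk.iv (Pk.ofLab (D.lab x)) = Pk.iv q := by
    have a1 : k6aBin Pk.lev x.2 = Pk.iv (Pk.ofLab (D.lab x)) := h1.2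
    have a2 : k6aBin Pk.lev x.2 = Pk.iv q := hq.2
    rw [← a1, a2]
  exact Set.disjoint_left.1 (h.disj _ _ hne h2) h1.1 hq.1

theorem k6a5_hub_state {D : K6aDat j} (Pk : K6aPk D) {d k K Kd κp w η0 : ℝ} {nb nv : ℕ} {E U Ep : Set (D.L × ℝ)}
    (hP : k6a5_Prep D Pk nb nv Kd κp w η0 E U Ep) (h : Pk.Ok d k K E) (q : Pk.Q) (Sel : Finset (K6aWc j)) (e : D.L × ℝ)
    (he : e ∈ Ep ∩ Pk.inc q) (hs : D.wc nb e ∈ Sel) :
    (Ep ∩ Pk.inc q ∩ {x | D.wc nb x ∈ Sel}) ∩ D.wc nb ⁻¹' {D.wc nb e} = E ∩ k6a5_st Pk nb ⁻¹' {k6a5_st Pk nb e} := by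
  have hq : Pk.ofLab (D.lab e) = q := k6a5_hub_lab Pk h q e (hP.sub he.1) he.2
  ext x
  constructor
  · rintro ⟨⟨⟨x1, x2⟩, -⟩, x4⟩
    refine ⟨hP.sub x1, ?_⟩
    have x4' : D.wc nb x = D.wc nb e := x4
    show k6a5_st Pk nb x = k6a5_st Pk nb e
    unfold k6a5_st
    rw [k6a5_hub_lab Pk h q x (hP.sub x1) x2, hq, x4']
  · rintro ⟨x1, x2⟩
    have x2' : k6a5_st Pk nb x = k6a5_st Pk nb e := x2
    have x3 : Pk.ofLab (D.lab x) = Pk.ofLab (D.lab e) := congrArg Prod.fst x2'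
    have x4 : D.wc nb x = D.wc nb e := congrArg Prod.snd x2'
    refine ⟨⟨⟨hP.whole e he.1 x x1 x2', ?_⟩, ?_⟩, x4⟩
    · have := h.cov x x1
      rwa [x3, hq] at this
    · show D.wc nb x ∈ Sel
      rw [x4]
      exact hs

theorem k6a5_hub_mass_eq (D : K6aDat j) (K : ℝ) (hWF : D.WF K) (nb : ℕ) (A : Set (D.L × ℝ)) (hA : MeasurableSet A)
    (Sel : Finset (K6aWc j)) :
    D.prior (A ∩ {x | D.wc nb x ∈ Sel}) = ∑ c ∈ Sel, D.prior (A ∩ D.wc nb ⁻¹' {c}) := by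
  have e : A ∩ {x | D.wc nb x ∈ Sel} = ⋃ c ∈ Sel, A ∩ D.wc nb ⁻¹' {c} := by
    ext x
    simp only [Set.mem_inter_iff, Set.mem_ofPred_eq, Set.mem_iUnion, Set.mem_preimage, Set.mem_singleton_iff, exists_prop]
    constructor
    · rintro ⟨h1, h2⟩
      exact ⟨_, h2, h1, rfl⟩
    · rintro ⟨c, h1, h2, h3⟩
      exact ⟨h2, h3 ▸ h1⟩
  rw [e]
  refine measure_biUnion_finset ?_ fun c _ => hA.inter ((k6a5_hub_wc_meas D K hWF nb) (measurableSet_singleton c))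
  intro c _ c' _ hne
  show Disjoint (A ∩ D.wc nb ⁻¹' {c}) (A ∩ D.wc nb ⁻¹' {c'})
  rw [Set.disjoint_left]
  rintro x ⟨-, h1⟩ ⟨-, h2⟩
  exact hne ((Set.mem_singleton_iff.1 h1).symm.trans (Set.mem_singleton_iff.1 h2))

theorem k6a5_hub_vec_fld (T : Fin (j + 1) → MvPolynomial (Fin (j + 1)) ℝ) (u : Fin (j + 1) → ℝ) (a : Fin (j + 1)) :
    k6a5_vec (k6aFld T u) a = MvPolynomial.eval u (T a) := by
  unfold k6a5_vec k6aFld
  refine Fin.cases ?_ (fun b => ?_) a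
  · rw [Fin.cons_zero]
  · rw [Fin.cons_succ]

theorem k6a5_hub_row_norm (g g' : K6aRow j) (B : ℝ) (h : ∀ a : Fin (j + 1), |k6a5_vec g a - k6a5_vec g' a| ≤ B) :
    ‖g - g'‖ ≤ B := by
  have hB : 0 ≤ B := (abs_nonneg _).trans (h 0)
  rw [Prod.norm_def]
  refine max_le ?_ ?_
  · have := h 0
    unfold k6a5_vec at this
    rwa [Fin.cons_zero, Fin.cons_zero] at this
  · rw [pi_norm_le_iff_of_nonneg hB]
    intro b
    have := h b.succ
    unfold k6a5_vec at this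
    rwa [Fin.cons_succ, Fin.cons_succ] at this

theorem k6a5_hub_field (P : Fin (j + 1) → MvPolynomial (Fin (j + 1)) ℝ) (Dg : ℕ) (hdeg : ∀ a, (P a).totalDegree ≤ Dg) (N L : ℝ)
    (hN : ∀ a, rmzNm (P a) ≤ N) (hL : 1 ≤ L) (x y : Fin (j + 1) → ℝ) (hx : ‖x‖ ≤ L) (hy : ‖y‖ ≤ L) (G : K6aRow j) (B : ℝ)
    (hG : ∀ a, |k6a5_vec G a - MvPolynomial.eval x (P a)| ≤ B) :
    ‖G - k6aFld P y‖ ≤ B + N * ((((j + 1 : ℕ) : ℝ)) * Dg) * L ^ ((j + 1) * Dg) * ‖x - y‖ := by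
  refine k6a5_hub_row_norm _ _ _ fun a => ?_
  rw [k6a5_hub_vec_fld]
  have h1 := k6a5_lip (j + 1) Dg (P a) (fun i => (MvPolynomial.degreeOf_le_totalDegree _ _).trans (hdeg a)) L hL x y
    (fun i => (norm_le_pi_norm x i).trans hx) (fun i => (norm_le_pi_norm y i).trans hy)
  have h2 : rmzNm (P a) * ((((j + 1 : ℕ) : ℝ)) * Dg) * L ^ ((j + 1) * Dg) * ‖x - y‖
      ≤ N * ((((j + 1 : ℕ) : ℝ)) * Dg) * L ^ ((j + 1) * Dg) * ‖x - y‖ := by
    have : 0 ≤ L := by linarith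
    gcongr
    exact hN a
  have h3 : k6a5_vec G a - MvPolynomial.eval y (P a)
      = (k6a5_vec G a - MvPolynomial.eval x (P a)) + (MvPolynomial.eval x (P a) - MvPolynomial.eval y (P a)) := by ring
  rw [h3]
  exact (abs_add_le _ _).trans (add_le_add (hG a) (h1.trans h2))

theorem k6a5_hub_num (cB cN cP cL cS : ℕ) (k ε : ℝ) (hk : 0 < k) (hε : 0 < ε) :
    ∃ (η : ℝ) (k0 : ℕ), 0 < η ∧ ∀ (K : ℝ) (kh : ℕ), k0 ≤ kh → 1 ≤ K → K ≤ (2 : ℝ) ^ (η * kh) →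
      ∃ Z : ℝ, 16 ≤ kh ∧ K ^ (16 * (1 + 1 / k)) ≤ (2 : ℝ) ^ (kh : ℝ) ∧ 256 * K ^ 256 ≤ Z ∧ (cB : ℝ) * (64 * K ^ 3) ^ cB ≤ Z ∧
        (1 ≤ (cB : ℝ) * (64 * K ^ 3) ^ cB → (cN : ℝ) * ((cB : ℝ) * (64 * K ^ 3) ^ cB) ^ cN ≤ Z ∧
          (cP : ℝ) * ((cB : ℝ) * (64 * K ^ 3) ^ cB) ^ cP ≤ Z) ∧
        (cL : ℝ) * K ^ cL ≤ Z ∧ (cS : ℝ) * K ^ cS ≤ Z ∧ Z ^ 4 ≤ (2 : ℝ) ^ (ε * kh) ∧ Z ^ 2 * k6aW kh ^ (1 / 4 : ℝ) ≤ 1 := by
  obtain ⟨σ0, hσ0def⟩ : ∃ σ0 : ℝ, σ0 = min ε (1 / 4) / 4 := ⟨_, rfl⟩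
  have hσ0 : 0 < σ0 := by
    rw [hσ0def]
    have : 0 < min ε (1 / 4) := lt_min hε (by norm_num)
    positivity
  have hσ0ε : 4 * σ0 ≤ ε := by
    rw [hσ0def]
    linarith [min_le_left ε (1 / 4 : ℝ)]
  have hσ04 : 2 * σ0 ≤ 1 / 4 := by
    rw [hσ0def]
    linarith [min_le_right ε (1 / 4 : ℝ)]
  obtain ⟨η3, k3, hη3, hS3⟩ := k6a5_slack cN σ0 hσ0
  obtain ⟨η4, k4, hη4, hS4⟩ := k6a5_slack cP σ0 hσ0
  obtain ⟨η2, k2, hη2, hS2⟩ := k6a5_slack cB (min σ0 (min η3 η4)) (lt_min hσ0 (lt_min hη3 hη4))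
  obtain ⟨η1, k1, hη1, hS1⟩ := k6a5_slack 256 (min σ0 η2) (lt_min hσ0 hη2)
  obtain ⟨η5, k5, hη5, hS5⟩ := k6a5_slack cL σ0 hσ0
  obtain ⟨η6, k6, hη6, hS6⟩ := k6a5_slack cS σ0 hσ0
  have hp : 0 < 16 * (1 + 1 / k) := by positivity
  refine ⟨min (min η1 (min η5 η6)) (1 / (16 * (1 + 1 / k))), max (max (max k1 k2) (max k3 k4)) (max (max k5 k6) 16),
    lt_min (lt_min hη1 (lt_min hη5 hη6)) (by positivity), ?_⟩
  intro K kh hkh hK hKη
  have hkh0 : (0 : ℝ) ≤ kh := Nat.cast_nonneg kh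
  have mono : ∀ a b : ℝ, a ≤ b → (2 : ℝ) ^ (a * kh) ≤ (2 : ℝ) ^ (b * kh) := fun a b hab =>
    Real.rpow_le_rpow_of_exponent_le (by norm_num) (mul_le_mul_of_nonneg_right hab hkh0)
  have g1 : k1 ≤ kh := by omega
  have g2 : k2 ≤ kh := by omega
  have g3 : k3 ≤ kh := by omega
  have g4 : k4 ≤ kh := by omega
  have g5 : k5 ≤ kh := by omega
  have g6 : k6 ≤ kh := by omega
  have g7 : 16 ≤ kh := by omega
  have hK1 : K ≤ (2 : ℝ) ^ (η1 * kh) := hKη.trans (mono _ _ ((min_le_left _ _).trans (min_le_left _ _)))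
  have hK5 : K ≤ (2 : ℝ) ^ (η5 * kh) :=
    hKη.trans (mono _ _ ((min_le_left _ _).trans ((min_le_right _ _).trans (min_le_left _ _))))
  have hK6 : K ≤ (2 : ℝ) ^ (η6 * kh) :=
    hKη.trans (mono _ _ ((min_le_left _ _).trans ((min_le_right _ _).trans (min_le_right _ _))))
  have hK7 : K ≤ (2 : ℝ) ^ (1 / (16 * (1 + 1 / k)) * kh) := hKη.trans (mono _ _ (min_le_right _ _))
  have a1 := hS1 K kh g1 hK hK1
  have hK3 : 64 * K ^ 3 ≤ 256 * K ^ 256 := by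
    have : K ^ 3 ≤ K ^ 256 := pow_le_pow_right₀ hK (by norm_num)
    have h0 : 0 ≤ K ^ 256 := by positivity
    linarith
  have hK3one : 1 ≤ 64 * K ^ 3 := by
    have : 1 ≤ K ^ 3 := one_le_pow₀ hK
    linarith
  have a1' : (256 : ℝ) * K ^ 256 ≤ (2 : ℝ) ^ (min σ0 η2 * kh) := by exact_mod_cast a1
  have a2 := hS2 (64 * K ^ 3) kh g2 hK3one (hK3.trans (a1'.trans (mono _ _ (min_le_right _ _))))
  refine ⟨(2 : ℝ) ^ (σ0 * kh), g7, ?_, a1'.trans (mono _ _ (min_le_left _ _)), a2.trans (mono _ _ (min_le_left _ _)), ?_,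
    hS5 K kh g5 hK hK5, hS6 K kh g6 hK hK6, ?_, ?_⟩
  · calc K ^ (16 * (1 + 1 / k)) ≤ ((2 : ℝ) ^ (1 / (16 * (1 + 1 / k)) * kh)) ^ (16 * (1 + 1 / k)) :=
          Real.rpow_le_rpow (by linarith) hK7 hp.le
      _ = (2 : ℝ) ^ (kh : ℝ) := by
          rw [← Real.rpow_mul (by norm_num)]
          congr 1
          field_simp
  · intro h1
    exact ⟨hS3 _ kh g3 h1 (a2.trans (mono _ _ ((min_le_right _ _).trans (min_le_left _ _)))),
      hS4 _ kh g4 h1 (a2.trans (mono _ _ ((min_le_right _ _).trans (min_le_right _ _))))⟩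
  · rw [← Real.rpow_natCast, ← Real.rpow_mul (by norm_num)]
    refine Real.rpow_le_rpow_of_exponent_le (by norm_num) ?_
    push_cast
    nlinarith
  · refine k6a5_hub_absorb kh (2 * σ0) _ hσ04 (le_of_eq ?_)
    rw [← Real.rpow_natCast, ← Real.rpow_mul (by norm_num)]
    congr 1
    push_cast
    ring

theorem k6a5_hub_Z3 (Z S3 S4 : ℝ) (hZ : 256 ≤ Z) (h3 : S3 ≤ Z) (h4 : S4 ≤ Z) (h40 : 0 ≤ S4) :
    1 + S3 * (1 + S4) ≤ Z ^ 3 := by
  have h1 : S3 * (1 + S4) ≤ Z * (1 + Z) := mul_le_mul h3 (by linarith) (by linarith) (by linarith)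
  nlinarith [mul_nonneg (by linarith : (0 : ℝ) ≤ Z) (by linarith : (0 : ℝ) ≤ Z), pow_pos (by linarith : (0 : ℝ) < Z) 2]

theorem k6a5_hub_S4 (nP : ℕ) (K2 : ℝ) (h : 1 ≤ K2) :
    (nP : ℝ) * (2 * K2) ^ nP ≤ ((nP * 2 ^ nP + nP : ℕ) : ℝ) * K2 ^ (nP * 2 ^ nP + nP) := by
  have h1 : K2 ^ nP ≤ K2 ^ (nP * 2 ^ nP + nP) := pow_le_pow_right₀ h (Nat.le_add_left _ _)
  have h0 : 0 ≤ K2 ^ nP := by positivity
  rw [mul_pow]
  push_cast
  calc (nP : ℝ) * (2 ^ nP * K2 ^ nP) = ((nP : ℝ) * 2 ^ nP) * K2 ^ nP := by ring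
    _ ≤ ((nP : ℝ) * 2 ^ nP + nP) * K2 ^ (nP * 2 ^ nP + nP) :=
        mul_le_mul (by linarith [(Nat.cast_nonneg nP : (0 : ℝ) ≤ nP)]) h1 h0 (by positivity)

theorem k6a5_hub_small {a1 a K h4 W1 : ℝ} (ha1 : a1 ≤ K * (a * W1)) (hW1 : W1 ≤ 1) (ha0 : 0 < a) (ha : a ≤ h4) (hK : 1 ≤ K)
    (hKh : K * h4 ≤ 1) : a1 ≤ 1 := by
  have h1 : a * W1 ≤ a := by
    have := mul_le_mul_of_nonneg_left hW1 ha0.le
    rwa [mul_one] at this
  calc a1 ≤ K * (a * W1) := ha1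
    _ ≤ K * h4 := mul_le_mul_of_nonneg_left (h1.trans ha) (by linarith)
    _ ≤ 1 := hKh

end k6a5HubSec

set_option maxHeartbeats 4000000 in
theorem k6a5_hub : k6a5_hub_stmt := by
  intro j M d k α e2 κ Rm κb hj hd0 hd1 hk0 hk1 hα0 hα1 he20 he21 hκ0 hκ1 hκb0 hκb1
  obtain ⟨cB, hBuild⟩ := k6a5_build j M hj
  obtain ⟨cN, hFin⟩ := k6a5_fin (j + 1) M (Nat.succ_le_succ (Nat.zero_le j))
  obtain ⟨cL, hLine⟩ := k6a5_line j ((j + 1) * M)
  obtain ⟨cS, hSupp⟩ := k6a5_support j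
  refine ⟨κb / 100, by positivity, ?_⟩
  intro ε hε
  obtain ⟨nP, hnP⟩ : ∃ nP : ℕ, nP = (j + 1) * ((j + 1) * M) := ⟨_, rfl⟩
  obtain ⟨η, k0, hη, hnum⟩ := k6a5_hub_num cB cN (nP * 2 ^ nP + nP) cL cS k ε hk0 hε
  refine ⟨η, k0, hη, ?_⟩
  intro D Pk Pk1 Pk2 K δ w e eN nb n0 nx nv E U Lc m0 g hlev hK hKη hLv hWF hPhys hGraph hQual hPk hPk1 hPk2 hB1 hB2 hw0 hw1
    hKw hBrd hδ0 heN0 heE he0 hKe hδ heN
  obtain ⟨Z, h16, hK16, hZ1, hZ2, hZ34, hZ5, hZ6, hZout, hZh⟩ := hnum K Pk.lev hlev hK hKη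
  have := hWF.prob
  have hfin : IsFiniteMeasure D.prior := by
    unfold K6aDat.prior
    infer_instance
  have hK0 : 0 < K := by linarith
  -- PREP
  obtain ⟨Ep, hPrep, hloss⟩ := k6a5_prep k6a_brd_coarse j D Pk d K (16 * K ^ 2) κb w δ eN (1 / 64) n0 nb nv E U Lc m0 hWF hPhys
    hLv.nb_le hLv.nv_le hK (by positivity) hδ0 (by norm_num) heN0 hκb0 hBrd hQual.U_meas hQual.U_sub hQual.U_small
  have hEp_mass : ENNReal.ofReal (e / 2) ≤ D.prior Ep := by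
    have f1 : D.prior E ≠ ⊤ := measure_ne_top _ _
    have f2 : D.prior Ep ≠ ⊤ := measure_ne_top _ _
    have r1 : e ≤ (D.prior E).toReal := (ENNReal.ofReal_le_iff_le_toReal f1).1 heE
    have f3 : D.prior Ep + ENNReal.ofReal (δ / κb + K / (16 * K ^ 2)) + ENNReal.ofReal (eN / (1 / 64)) * D.prior E ≠ ⊤ :=
      ENNReal.add_ne_top.2 ⟨ENNReal.add_ne_top.2 ⟨f2, ENNReal.ofReal_ne_top⟩, ENNReal.mul_ne_top ENNReal.ofReal_ne_top f1⟩
    have r2 := ENNReal.toReal_mono f3 hloss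
    rw [ENNReal.toReal_add (ENNReal.add_ne_top.2 ⟨f2, ENNReal.ofReal_ne_top⟩) (ENNReal.mul_ne_top ENNReal.ofReal_ne_top f1),
      ENNReal.toReal_add f2 ENNReal.ofReal_ne_top, ENNReal.toReal_mul, ENNReal.toReal_ofReal (by positivity),
      ENNReal.toReal_ofReal (by positivity)] at r2
    rw [ENNReal.ofReal_le_iff_le_toReal f2]
    have r3 : K / (16 * K ^ 2) ≤ e / 16 := by
      rw [div_le_div_iff₀ (by positivity) (by norm_num)]
      nlinarith [mul_pos hK0 hK0]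
    have r4 : eN / (1 / 64) * (D.prior E).toReal ≤ 1 / 100 * (D.prior E).toReal :=
      mul_le_mul_of_nonneg_right (by linarith) ENNReal.toReal_nonneg
    have r5 : δ / κb ≤ e / 100 := by
      rw [div_le_iff₀ hκb0]
      linarith
    linarith
  -- PICK
  obtain ⟨q, hq0, hq1⟩ := k6a5_pick j D Pk d k K (e / 2) E Ep hWF hPk hPrep.meas hPrep.sub (by positivity) hEp_mass
  -- MONO
  obtain ⟨K1, hK1def⟩ : ∃ K1 : ℝ, K1 = 64 * K ^ 3 := ⟨_, rfl⟩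
  have hKp2 : 1 ≤ K ^ 2 := one_le_pow₀ hK
  have hKp3 : K ≤ K ^ 3 := by nlinarith
  have hKK1 : K ≤ K1 := by
    rw [hK1def]
    linarith
  have hK1one : 1 ≤ K1 := hK.trans hKK1
  obtain ⟨mWF, mPk, mGraph, mQual, -⟩ := k6a5_mono j D K K1 hK hKK1
  obtain ⟨-, -, -, -, mPrep⟩ := k6a5_mono j D (K * (16 * K ^ 2)) K1 (by nlinarith) (by rw [hK1def]; nlinarith)
  have hq2 : ENNReal.ofReal Pk.H * Pk.νQ q ≤ ENNReal.ofReal K1 * D.prior (Ep ∩ Pk.inc q) := by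
    have t1 : (1 : ℝ≥0∞) ≤ ENNReal.ofReal K1 * ENNReal.ofReal (e / 2 / 2) := by
      rw [← ENNReal.ofReal_mul (by linarith), ← ENNReal.ofReal_one]
      refine ENNReal.ofReal_le_ofReal ?_
      rw [hK1def]
      nlinarith
    calc ENNReal.ofReal Pk.H * Pk.νQ q = 1 * (ENNReal.ofReal Pk.H * Pk.νQ q) := (one_mul _).symm
      _ ≤ ENNReal.ofReal K1 * ENNReal.ofReal (e / 2 / 2) * (ENNReal.ofReal Pk.H * Pk.νQ q) := by gcongr
      _ = ENNReal.ofReal K1 * (ENNReal.ofReal (e / 2 / 2) * (ENNReal.ofReal Pk.H * Pk.νQ q)) := mul_assoc _ _ _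
      _ ≤ ENNReal.ofReal K1 * D.prior (Ep ∩ Pk.inc q) := by gcongr
  -- SCALES
  obtain ⟨iT, s1, s2, s3, s4, s5, s6, s7, s8, s9⟩ := k6a5_scales M k α e2 κ Rm K Pk.lev nb n0 nx nv Pk.a Pk1.a Pk2.a hk0 hk1 hα0 hα1
    he20 he21 hκ0 hκ1 h16 hK hK16 hLv hPk.a_pos hPk.H_lo
  obtain ⟨h4, hh4⟩ : ∃ h4 : ℝ, h4 = k6aW Pk.lev ^ (1 / 4 : ℝ) := ⟨_, rfl⟩
  rw [← hh4] at s7 s8 s9 hZh
  have hh40 : 0 ≤ h4 := by
    rw [hh4]
    exact Real.rpow_nonneg (k6a5_hub_W_pos _).le _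
  have hHdef : Pk.H = k6aW Pk.lev := rfl
  have hH0 : 0 < Pk.H := k6a5_hub_W_pos _
  have hH1 : Pk.H ≤ 1 := k6a5_hub_W_le_one _
  have hWT0 : 0 < k6aW iT := k6a5_hub_W_pos _
  have hWT1 : k6aW iT ≤ 1 := k6a5_hub_W_le_one _
  have hK256 : 1 ≤ K ^ 256 := one_le_pow₀ hK
  have hZ256 : 256 ≤ Z := by linarith
  have hZ0 : 0 < Z := by linarith
  have hZh1 : Z * h4 ≤ 1 := by
    refine le_trans ?_ hZh
    refine mul_le_mul_of_nonneg_right ?_ hh40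
    rw [sq]
    exact le_mul_of_one_le_left hZ0.le (by linarith)
  have h4K1 : 4 * K1 ≤ Z := by
    rw [hK1def]
    have : K ^ 3 ≤ K ^ 256 := pow_le_pow_right₀ hK (by norm_num)
    linarith
  have hK1Z : K1 ≤ Z := by linarith
  have hKZ : K ≤ Z := hKK1.trans hK1Z
  rw [← hK1def] at hZ2 hZ34
  have hh4WT : h4 * k6aW iT ≤ h4 := by
    have := mul_le_mul_of_nonneg_left hWT1 hh40
    rwa [mul_one] at this
  have hnv0 : 0 < k6aW nv := k6a5_hub_W_pos _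
  have hnb0 : 0 < k6aW nb := k6a5_hub_W_pos _
  have hnx0 : 0 < k6aW nx := k6a5_hub_W_pos _
  have hβ0 : 0 ≤ k6aW nb / Pk.H := (div_pos hnb0 hH0).le
  have hβnx : k6aW nb / Pk.H ≤ k6aW nx := by
    have : k6aW nb / Pk.H + k6aW nv ≤ k6aW nx := s5
    linarith
  have hnvnx : k6aW nv ≤ k6aW nx := by
    have : k6aW nb / Pk.H + k6aW nv ≤ k6aW nx := s5
    linarith
  -- BUILD
  obtain ⟨r0, hr0⟩ : ∃ r0 : ℝ, r0 = k6aW iT / (4 * K1 * Pk.H) := ⟨_, rfl⟩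
  have hden : 0 < 4 * K1 * Pk.H := by positivity
  obtain ⟨T, A0, Bi, wl, wτ, cf, K0, hK0le, hOk⟩ := hBuild D Pk d k K1 (2 * κb) (k6aW nb ^ κ) w eN r0 nb nv iT E U Ep g q hK1one (mWF hWF)
    (mPk Pk d k E hPk) (mGraph _ nb E g hGraph) (mQual Pk.lev M _ eN nb E U g hQual) (mPrep Pk nb nv (2 * κb) w (1 / 64) E U Ep hPrep)
    (by positivity) (by linarith) hw0 hw1
    (hKw.trans (mul_le_mul_of_nonneg_right hKK1 hw0.le))
    (fun x hx => ⟨Set.mem_univ _, (hPhys.E_sub hx).2⟩) hq0 hq2 s1 s2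
    (by
      calc 4 * K1 * Pk.a ≤ Z * (h4 * k6aW iT) := mul_le_mul h4K1 s9 hPk.a_pos.le hZ0.le
        _ = Z * h4 * k6aW iT := by ring
        _ ≤ 1 * k6aW iT := mul_le_mul_of_nonneg_right hZh1 hWT0.le
        _ = k6aW iT := one_mul _)
    (by rw [hr0]; positivity)
    (by
      rw [hr0]
      refine le_of_eq ?_
      field_simp)
    (by
      calc (cB : ℝ) * K1 ^ cB * k6aW nv ≤ Z * h4 := mul_le_mul hZ2 (hnvnx.trans (s8.trans hh4WT)) hnv0.le hZ0.le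
        _ ≤ 1 := hZh1)
    (by
      have : k6aW nb / Pk.H ≤ 1 := hβnx.trans (k6a5_hub_W_le_one _)
      rwa [div_le_one hH0] at this)
  obtain ⟨K2, hK2def⟩ : ∃ K2 : ℝ, K2 = (cB : ℝ) * K1 ^ cB := ⟨_, rfl⟩
  rw [← hK2def] at hZ2 hZ34 hK0le hOk
  have hK2one : 1 ≤ K2 := by
    have t1 := hOk.A_time 0
    have t2 := hOk.A_bd (k6a5_mk D Pk q nb M (k6aW Pk.lev ^ M) E Ep g T A0 Bi wl wτ cf).i0 0
    rw [t1, abs_one] at t2
    exact t2
  obtain ⟨hZ3, hZ4⟩ := hZ34 hK2one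
  have hK20 : 0 < K2 := by linarith
  obtain ⟨S3, hS3def⟩ : ∃ S3 : ℝ, S3 = (cN : ℝ) * K2 ^ cN := ⟨_, rfl⟩
  rw [← hS3def] at hZ3
  have hS30 : 0 ≤ S3 := by
    rw [hS3def]
    positivity
  have hPar : k6a5_Fd.Par cN K2 (k6aW nb / Pk.H) (k6aW nv) (k6aW nx) r0 (k6aW Pk.lev ^ M) (k6aW iT) K0 :=
    { K_one := hK2one
      K0_le := hK0le
      β_nonneg := hβ0
      pv_nonneg := hnv0.le
      ξ_pos := hnx0
      fine := s5
      εq_nonneg := (pow_pos (k6a5_hub_W_pos _) _).le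
      εq_le := s6
      εT_pos := hWT0
      εT_le := hWT1
      ξ_r0 := by
        rw [← hS3def, hr0, le_div_iff₀ hden]
        calc S3 * k6aW nx * (4 * K1 * Pk.H) ≤ Z * (h4 * k6aW iT) * (Z * 1) :=
              mul_le_mul (mul_le_mul hZ3 s8 hnx0.le hZ0.le) (mul_le_mul h4K1 hH1 hH0.le hZ0.le) hden.le
                (mul_nonneg hZ0.le (mul_nonneg hh40 hWT0.le))
          _ = Z ^ 2 * h4 * k6aW iT := by ring
          _ ≤ 1 * k6aW iT := mul_le_mul_of_nonneg_right hZh hWT0.le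
          _ = k6aW iT := one_mul _
      ξ_εT := by
        rw [← hS3def]
        calc S3 * k6aW nx ≤ Z * (h4 * k6aW iT) := mul_le_mul hZ3 s8 hnx0.le hZ0.le
          _ = Z * h4 * k6aW iT := by ring
          _ ≤ 1 * k6aW iT := mul_le_mul_of_nonneg_right hZh1 hWT0.le
          _ = k6aW iT := one_mul _ }
  -- FIN
  obtain ⟨P, Sel, f1, f2, f3, f4, f5⟩ : ∃ (P : Fin (j + 1) → MvPolynomial (Fin (j + 1)) ℝ) (Sel : Finset (K6aWc j)), Sel ⊆ T ∧
      (∀ a, (P a).totalDegree ≤ (j + 1) * M) ∧ (∀ a, rmzNm (P a) ≤ (cN : ℝ) * K2 ^ cN) ∧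
      1 ≤ (cN : ℝ) * K2 ^ cN * ∑ c ∈ Sel, (D.prior (Ep ∩ Pk.inc q ∩ D.wc nb ⁻¹' {c})).toReal / (Pk.H * (Pk.νQ q).toReal) ∧
      ∀ s ∈ Sel, ∀ a, |k6a5_vec (g s) a - MvPolynomial.eval (k6a5_u Pk q (k6a5_corner nb s)) (P a)| ≤ (cN : ℝ) * K2 ^ cN * k6aW iT :=
    hFin _ _ _ _ _ _ _ _ _ hPar hOk
  rw [← hS3def] at f3 f4 f5
  have hcs : ∀ s ∈ T, ‖k6a5_u Pk q (k6a5_corner nb s)‖ ≤ K2 := hOk.cs_bd
  clear hOk hPar hFin hBuild hnum hZ34 hK256 hZ1 hK16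
  obtain ⟨b1, b2, b3, b4, b5⟩ := k6a5_bgeo j D Pk d k K E q hK hPk
  obtain ⟨Es, hEs⟩ : ∃ Es : Set (D.L × ℝ), Es = Ep ∩ Pk.inc q ∩ {x | D.wc nb x ∈ Sel} := ⟨_, rfl⟩
  have hincm := k6a5_hub_inc_meas Pk hPk q
  have hAm : MeasurableSet (Ep ∩ Pk.inc q) := hPrep.meas.inter hincm
  have hEsm : MeasurableSet Es := by
    rw [hEs]
    exact hAm.inter ((k6a5_hub_wc_meas D K hWF nb) (Finset.measurableSet Sel))
  have hEsA : Es ⊆ Ep ∩ Pk.inc q := by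
    rw [hEs]
    exact Set.inter_subset_left
  have hEsE : Es ⊆ E ∩ Pk.inc q := fun x hx => ⟨hPrep.sub (hEsA hx).1, (hEsA hx).2⟩
  have hEsSel : ∀ x ∈ Es, D.wc nb x ∈ Sel := by
    intro x hx
    rw [hEs] at hx
    exact hx.2
  -- the output slack
  obtain ⟨Ko, hKo⟩ : ∃ Ko : ℝ, Ko = (2 : ℝ) ^ (ε * Pk.lev) := ⟨_, rfl⟩
  rw [← hKo] at hZout ⊢
  have hZone : 1 ≤ Z := by linarith
  have hZ34' : Z ^ 3 ≤ Z ^ 4 := pow_le_pow_right₀ hZone (by norm_num)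
  have hZ14 : Z ≤ Z ^ 4 := by
    have := pow_le_pow_right₀ hZone (show 1 ≤ 4 by norm_num)
    rwa [pow_one] at this
  have hZKo : Z ≤ Ko := hZ14.trans hZout
  have hKo0 : 0 < Ko := hZ0.trans_le hZKo
  have hh41 : h4 ≤ 1 := by
    refine le_trans ?_ hZh1
    exact le_mul_of_one_le_left hh40 hZone
  -- the field error
  obtain ⟨S4, hS4def⟩ : ∃ S4 : ℝ, S4 = (((j + 1 : ℕ) : ℝ)) * (((j + 1) * M : ℕ) : ℝ) * (2 * K2) ^ ((j + 1) * ((j + 1) * M)) := ⟨_, rfl⟩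
  have hS40 : 0 ≤ S4 := by
    rw [hS4def]
    positivity
  have hS4Z : S4 ≤ Z := by
    refine le_trans ?_ hZ4
    refine le_trans (le_of_eq ?_) (k6a5_hub_S4 nP K2 hK2one)
    rw [hS4def, hnP]
    push_cast
    ring
  obtain ⟨K3, hK3def⟩ : ∃ K3 : ℝ, K3 = 1 + S3 * (1 + S4) := ⟨_, rfl⟩
  have hK3Z : K3 ≤ Z ^ 3 := by
    rw [hK3def]
    exact k6a5_hub_Z3 Z S3 S4 hZ256 hZ3 hS4Z hS40
  have hK3one : 1 ≤ K3 := by
    rw [hK3def]
    have : 0 ≤ S3 * (1 + S4) := by positivity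
    linarith
  have hβWT : k6aW nb / Pk.H ≤ k6aW iT := by
    refine hβnx.trans (s8.trans ?_)
    have := mul_le_mul_of_nonneg_right hh41 hWT0.le
    rwa [one_mul] at this
  have hfield : ∀ e ∈ Es, ‖g (D.wc nb e) - k6aFld P (k6a5_u Pk q (D.base e))‖ ≤ K3 * k6aW iT := by
    intro e he
    have hs := hEsSel e he
    have hxy : ‖k6a5_u Pk q (k6a5_corner nb (D.wc nb e)) - k6a5_u Pk q (D.base e)‖ ≤ k6aW nb / Pk.H := by
      rw [norm_sub_rev]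
      exact b5 nb e
    have hx : ‖k6a5_u Pk q (k6a5_corner nb (D.wc nb e))‖ ≤ 2 * K2 := (hcs _ (f1 hs)).trans (by linarith)
    have hy : ‖k6a5_u Pk q (D.base e)‖ ≤ 2 * K2 := by
      have t1 : k6a5_u Pk q (D.base e) = k6a5_u Pk q (k6a5_corner nb (D.wc nb e))
          - (k6a5_u Pk q (k6a5_corner nb (D.wc nb e)) - k6a5_u Pk q (D.base e)) := by abel
      rw [t1]
      refine (norm_sub_le _ _).trans ?_
      have t2 := hcs _ (f1 hs)
      have t3 : k6aW nb / Pk.H ≤ 1 := hβWT.trans hWT1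
      linarith
    have h1 := k6a5_hub_field P ((j + 1) * M) f2 S3 (2 * K2) f3 (by linarith) _ _ hx hy (g (D.wc nb e)) (S3 * k6aW iT) (f5 _ hs)
    refine h1.trans ?_
    have h2 : S3 * ((((j + 1 : ℕ) : ℝ)) * (((j + 1) * M : ℕ) : ℝ)) * (2 * K2) ^ ((j + 1) * ((j + 1) * M))
        * ‖k6a5_u Pk q (k6a5_corner nb (D.wc nb e)) - k6a5_u Pk q (D.base e)‖ ≤ S3 * S4 * k6aW iT := by
      have e1 : S3 * ((((j + 1 : ℕ) : ℝ)) * (((j + 1) * M : ℕ) : ℝ)) * (2 * K2) ^ ((j + 1) * ((j + 1) * M)) = S3 * S4 := by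
        rw [hS4def]
        ring
      rw [e1]
      exact mul_le_mul_of_nonneg_left (hxy.trans hβWT) (mul_nonneg hS30 hS40)
    rw [hK3def]
    have e2 : (1 + S3 * (1 + S4)) * k6aW iT = k6aW iT + (S3 * k6aW iT + S3 * S4 * k6aW iT) := by ring
    rw [e2]
    linarith
  -- the support hypotheses
  have hKh4 : K * h4 ≤ 1 := (mul_le_mul_of_nonneg_right hKZ hh40).trans hZh1
  have hah4 : Pk.a ≤ h4 := s9.trans hh4WT
  have hKH : K * Pk.H ≤ 1 := by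
    have t1 : Pk.H ≤ h4 := by
      rw [hh4, hHdef]
      have := Real.rpow_le_rpow_of_exponent_ge (k6a5_hub_W_pos Pk.lev) (k6a5_hub_W_le_one Pk.lev) (show (1 / 4 : ℝ) ≤ 1 by norm_num)
      rwa [Real.rpow_one] at this
    exact (mul_le_mul_of_nonneg_left t1 hK0.le).trans hKh4
  have hsup : ∀ (Pk' : K6aPk D), Pk'.Ok d k K E → Pk'.a ≤ 1 → k6aW nx ≤ Pk'.a →
      k6aW nx * Pk.H ≤ Pk'.H ∧ k6aW nx * Pk.H ≤ Pk'.a := by
    intro Pk' hOk' ha1 hx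
    have hH' : 0 < Pk'.H := k6a5_hub_W_pos _
    constructor
    · have t1 : Pk'.a ≤ Pk'.a ^ k := by
        have := Real.rpow_le_rpow_of_exponent_ge hOk'.a_pos ha1 hk1
        rwa [Real.rpow_one] at this
      have t2 : k6aW nx ≤ K * Pk'.H := hx.trans (t1.trans hOk'.H_lo)
      calc k6aW nx * Pk.H ≤ K * Pk'.H * Pk.H := mul_le_mul_of_nonneg_right t2 hH0.le
        _ = K * Pk.H * Pk'.H := by ring
        _ ≤ 1 * Pk'.H := mul_le_mul_of_nonneg_right hKH hH'.le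
        _ = Pk'.H := one_mul _
    · calc k6aW nx * Pk.H ≤ k6aW nx * 1 := mul_le_mul_of_nonneg_left hH1 hnx0.le
        _ = k6aW nx := mul_one _
        _ ≤ Pk'.a := hx
  have hW1 : ∀ s : ℝ, 0 ≤ s → k6aW Pk.lev ^ s ≤ 1 := fun s hs =>
    Real.rpow_le_one (k6a5_hub_W_pos _).le (k6a5_hub_W_le_one _) hs
  have ha1one : Pk1.a ≤ 1 := k6a5_hub_small hLv.a1_hi (hW1 _ (by positivity)) hPk.a_pos hah4 hK hKh4
  have ha2one : Pk2.a ≤ 1 := k6a5_hub_small hLv.a2_hi (hW1 _ he20.le) hPk.a_pos hah4 hK hKh4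
  have hjoint : ∀ (Pk' : K6aPk D), Pk'.Ok d k K E → Pk.Below Pk' → Pk'.a ≤ 1 → k6aW nx ≤ Pk'.a →
      ∃ F : Finset ((Fin (j + 1) → ℤ) × ℤ), (F.card : ℝ) ≤ Ko * ((2 : ℝ) ^ nx) ^ (j + 1) * (Pk.a / Pk'.a) ^ d ∧
        ∀ e ∈ Es, (k6aVBin nx (k6aU Pk.H (k6a5_zc Pk q) (D.base e)), ⌊D.X e.1 e.2 / Pk'.a⌋) ∈ F := by
    intro Pk' hOk' hB ha1 hx
    obtain ⟨F, hF1, hF2⟩ := hSupp D Pk Pk' d k K nx E q hK hd0 hWF hPk hOk' hB (hsup Pk' hOk' ha1 hx).1 (hsup Pk' hOk' ha1 hx).2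
    refine ⟨F, hF1.trans ?_, fun e he => hF2 e (hEsE he)⟩
    have t0 : 0 ≤ (Pk.a / Pk'.a) ^ d := Real.rpow_nonneg (div_pos hPk.a_pos hOk'.a_pos).le _
    have t1 : (0 : ℝ) ≤ ((2 : ℝ) ^ nx) ^ (j + 1) := by positivity
    exact mul_le_mul_of_nonneg_right (mul_le_mul_of_nonneg_right (hZ6.trans hZKo) t1) t0
  -- states
  have hstate : ∀ e ∈ Es, Es ∩ D.wc nb ⁻¹' {D.wc nb e} = E ∩ k6a5_st Pk nb ⁻¹' {k6a5_st Pk nb e} := by
    intro e he
    rw [hEs]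
    exact k6a5_hub_state Pk hPrep hPk q Sel e (hEsA he) (hEsSel e he)
  refine ⟨Ep, Es, q, k6a5_zc Pk q, P, hPrep.meas, hPrep.sub, ?_⟩
  exact
    { Es_meas := hEsm
      Es_sub := hEsA
      pos := by
        intro h0
        apply hq0
        refine measure_mono_null (Set.inter_subset_right) ?_
        exact k6a5_hub_inc_null hWF Pk q h0
      whole := by
        intro e he e' he' hw
        rw [hEs]
        refine ⟨he', ?_⟩
        show D.wc nb e' ∈ Sel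
        rw [hw]
        exact hEsSel e he
      mass := by
        have hνfin : Pk.νQ q ≠ ⊤ := by
          show D.ν (Pk.asg q) ≠ ⊤
          exact measure_ne_top _ _
        have hsum : (D.prior Es).toReal = ∑ c ∈ Sel, (D.prior (Ep ∩ Pk.inc q ∩ D.wc nb ⁻¹' {c})).toReal := by
          rw [hEs, k6a5_hub_mass_eq D K hWF nb _ hAm Sel, ENNReal.toReal_sum (fun c _ => measure_ne_top _ _)]
        rw [← Finset.sum_div, ← hsum] at f4
        have hden0 : 0 ≤ Pk.H * (Pk.νQ q).toReal := mul_nonneg hH0.le ENNReal.toReal_nonneg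
        have hdenpos : 0 < Pk.H * (Pk.νQ q).toReal := by
          rcases hden0.eq_or_lt with h0 | h0
          · rw [← h0, div_zero, mul_zero] at f4
            linarith
          · exact h0
        have h1 : Pk.H * (Pk.νQ q).toReal ≤ S3 * (D.prior Es).toReal := by
          rw [← mul_div_assoc, le_div_iff₀ hdenpos, one_mul] at f4
          exact f4
        calc ENNReal.ofReal Pk.H * Pk.νQ q = ENNReal.ofReal Pk.H * ENNReal.ofReal (Pk.νQ q).toReal := by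
              rw [ENNReal.ofReal_toReal hνfin]
          _ = ENNReal.ofReal (Pk.H * (Pk.νQ q).toReal) := (ENNReal.ofReal_mul hH0.le).symm
          _ ≤ ENNReal.ofReal (S3 * (D.prior Es).toReal) := ENNReal.ofReal_le_ofReal h1
          _ = ENNReal.ofReal S3 * D.prior Es := by
              rw [ENNReal.ofReal_mul hS30, ENNReal.ofReal_toReal (measure_ne_top _ _)]
          _ ≤ ENNReal.ofReal Ko * D.prior Es := mul_le_mul_left (ENNReal.ofReal_le_ofReal (hZ3.trans hZKo)) _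
      u_bd := fun l hl t ht => (b4 l hl t ht).trans (by linarith)
      deg := f2
      coef := fun i m => (rmz_coeff_le_Nm (P i) m).trans ((f3 i).trans (hZ3.trans hZKo))
      field := by
        intro e he
        refine (hfield e he).trans ?_
        exact mul_le_mul (hK3Z.trans (hZ34'.trans hZout)) s3 hWT0.le hKo0.le
      line := by
        intro K1' hK1' l hl t ht
        have h1 := hLine D Pk d k K K1' (K3 * k6aW iT) nb E Es g q P hK hK1' (by positivity) hWF hPk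
          (fun e he => (hGraph.est e he).trans (s2.trans (le_mul_of_one_le_left hWT0.le hK3one))) hEsE f2 hfield l hl t ht
        refine h1.trans ?_
        have t1 : (cL : ℝ) * K ^ cL * K3 ≤ Ko := by
          calc (cL : ℝ) * K ^ cL * K3 ≤ Z * Z ^ 3 := mul_le_mul hZ5 hK3Z (by linarith) hZ0.le
            _ = Z ^ 4 := by ring
            _ ≤ Ko := hZout
        have t2 : 0 ≤ K1' ^ ((j + 1) * M + 1) := by positivity
        calc (cL : ℝ) * K ^ cL * K1' ^ ((j + 1) * M + 1) * (K3 * k6aW iT)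
            = ((cL : ℝ) * K ^ cL * K3) * K1' ^ ((j + 1) * M + 1) * k6aW iT := by ring
          _ ≤ Ko * K1' ^ ((j + 1) * M + 1) * k6aW Pk.lev ^ (1 / k - 1 + α) :=
              mul_le_mul (mul_le_mul_of_nonneg_right t1 t2) s3 hWT0.le (mul_nonneg hKo0.le t2)
      joint1 := hjoint Pk1 hPk1 hB1 ha1one hLv.x_fine
      joint2 := hjoint Pk2 hPk2 hB2 ha2one hLv.x_fine2
      broad := by
        intro e he hnar
        refine hPrep.broad e (hEsA he).1 ?_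
        obtain ⟨n, c, hn, hle⟩ := hnar
        refine ⟨n, c, hn, ?_⟩
        rw [← hstate e he]
        exact hle
      dom := by
        intro c J
        rcases Set.eq_empty_or_nonempty (Es ∩ D.wc nb ⁻¹' {c}) with h0 | ⟨e, he1, he2⟩
        · rw [h0]
          simp
        · have hc : D.wc nb e = c := he2
          subst hc
          rw [hstate e he1]
          refine (hPrep.dom e (hEsA he1).1 J).trans ?_
          have t1 : K * (16 * K ^ 2) ≤ Ko := by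
            refine le_trans ?_ (hK1Z.trans hZKo)
            rw [hK1def]
            have e3 : K * (16 * K ^ 2) = 16 * K ^ 3 := by ring
            rw [e3]
            linarith [pow_pos hK0 3]
          exact mul_le_mul_left (mul_le_mul_left (ENNReal.ofReal_le_ofReal t1) _) _ }

end Claimed.Agent.R252
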