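/-
Leaf L-252-S6a-NUMLV (row252, unit S6a, chief helper234), proved by helper192.   Helpers: prefix `k6a_nl_`.
Statement and PLAN: docstring of the `def ..._stmt` in `ChainDefs.lean`.
Everything is written as `2^(-x)` (`k6a_nl_p`); every clause becomes a linear inequality between exponents.
-/
import Claimed.Agent.R252.S6a.ChainDefs

namespace Claimed.Agent.R252

open MeasureTheory
open scoped ENNReal BigOperators

/-- `2^(-x)` -/
noncomputable def k6a_nl_p (x : ℝ) : ℝ := (2 : ℝ) ^ (-x)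

theorem k6a_nl_p_pos (x : ℝ) : 0 < k6a_nl_p x := Real.rpow_pos_of_pos (by norm_num) _

theorem k6a_nl_p_add (x y : ℝ) : k6a_nl_p (x + y) = k6a_nl_p x * k6a_nl_p y := by
  unfold k6a_nl_p
  rw [neg_add, Real.rpow_add (by norm_num)]

theorem k6a_nl_p_sub (x y : ℝ) : k6a_nl_p (x - y) = k6a_nl_p x / k6a_nl_p y := by
  rw [eq_div_iff (k6a_nl_p_pos y).ne', ← k6a_nl_p_add, sub_add_cancel]

theorem k6a_nl_p_rpow (x c : ℝ) : k6a_nl_p x ^ c = k6a_nl_p (c * x) := by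
  unfold k6a_nl_p
  rw [← Real.rpow_mul (by norm_num)]
  congr 1
  ring

theorem k6a_nl_p_pow (x : ℝ) (m : ℕ) : k6a_nl_p x ^ m = k6a_nl_p (m * x) := by
  rw [← Real.rpow_natCast, k6a_nl_p_rpow]

theorem k6a_nl_p_le {x y : ℝ} (h : y ≤ x) : k6a_nl_p x ≤ k6a_nl_p y := by
  unfold k6a_nl_p
  exact Real.rpow_le_rpow_of_exponent_le (by norm_num) (by linarith)

theorem k6a_nl_p_le_iff {x y : ℝ} : k6a_nl_p x ≤ k6a_nl_p y ↔ y ≤ x := by
  unfold k6a_nl_p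
  rw [Real.rpow_le_rpow_left_iff (by norm_num)]
  constructor <;> intro h <;> linarith

theorem k6a_nl_W (m : ℕ) : k6aW m = k6a_nl_p m := by
  unfold k6aW k6a_nl_p
  rw [Real.rpow_neg (by norm_num), Real.rpow_natCast, one_div, inv_pow]

theorem k6a_nl_Q (m : ℕ) : kbQ m = k6a_nl_p m := by
  unfold kbQ k6a_nl_p
  rw [Real.rpow_neg (by norm_num), Real.rpow_natCast, one_div, inv_pow]

theorem k6a_nl_ex (a : ℝ) (ha : 0 < a) : ∃ u, a = k6a_nl_p u := by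
  refine ⟨-Real.logb 2 a, ?_⟩
  unfold k6a_nl_p
  rw [neg_neg, Real.rpow_logb (by norm_num) (by norm_num) ha]

theorem k6a_nl_shift (e0 e : ℝ) (m : ℕ) (h : e0 + m ≤ e) : k6a_nl_p e ≤ k6a_nl_p e0 / 2 ^ m := by
  calc k6a_nl_p e ≤ k6a_nl_p (e0 + m) := k6a_nl_p_le h
    _ = k6a_nl_p e0 * k6a_nl_p m := k6a_nl_p_add _ _
    _ = k6a_nl_p e0 / 2 ^ m := by
        rw [← k6a_nl_W]
        unfold k6aW
        rw [one_div, inv_pow, div_eq_mul_inv]

theorem k6a_nl_sum2 {e0 e1 e2 : ℝ} (h1 : e0 + 1 ≤ e1) (h2 : e0 + 1 ≤ e2) : k6a_nl_p e1 + k6a_nl_p e2 ≤ k6a_nl_p e0 := by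
  have a1 := k6a_nl_shift e0 e1 1 (by exact_mod_cast h1)
  have a2 := k6a_nl_shift e0 e2 1 (by exact_mod_cast h2)
  have := k6a_nl_p_pos e0
  linarith

theorem k6a_nl_sum3 {e0 e1 e2 e3 : ℝ} (h1 : e0 + 2 ≤ e1) (h2 : e0 + 2 ≤ e2) (h3 : e0 + 2 ≤ e3) :
    k6a_nl_p e1 + k6a_nl_p e2 + k6a_nl_p e3 ≤ k6a_nl_p e0 := by
  have a1 := k6a_nl_shift e0 e1 2 (by exact_mod_cast h1)
  have a2 := k6a_nl_shift e0 e2 2 (by exact_mod_cast h2)
  have a3 := k6a_nl_shift e0 e3 2 (by exact_mod_cast h3)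
  have := k6a_nl_p_pos e0
  linarith

theorem k6a_nl_sum5 {e0 e1 e2 e3 e4 e5 : ℝ} (h1 : e0 + 3 ≤ e1) (h2 : e0 + 3 ≤ e2) (h3 : e0 + 3 ≤ e3) (h4 : e0 + 3 ≤ e4) (h5 : e0 + 3 ≤ e5) :
    k6a_nl_p e1 + k6a_nl_p e2 + k6a_nl_p e3 + k6a_nl_p e4 + k6a_nl_p e5 ≤ k6a_nl_p e0 := by
  have a1 := k6a_nl_shift e0 e1 3 (by exact_mod_cast h1)
  have a2 := k6a_nl_shift e0 e2 3 (by exact_mod_cast h2)
  have a3 := k6a_nl_shift e0 e3 3 (by exact_mod_cast h3)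
  have a4 := k6a_nl_shift e0 e4 3 (by exact_mod_cast h4)
  have a5 := k6a_nl_shift e0 e5 3 (by exact_mod_cast h5)
  have := k6a_nl_p_pos e0
  linarith

set_option maxHeartbeats 1600000 in
theorem k6a_num_lv : k6a_num_lv_stmt := by
  intro d k κg Zx hd0 hd1 hk0 hk1 hκ0 hκ1 hZx
  have hE0 : 0 < k6cE d := by unfold k6cE; linarith
  have hE1 : k6cE d ≤ 1 / 24 := by unfold k6cE; linarith
  have hdE : d = 1 - 24 * k6cE d := by unfold k6cE; ring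
  have hM : 2 / k + 1 ≤ (k6cM k : ℝ) := by
    unfold k6cM
    push_cast
    linarith [Nat.le_ceil (2 / k)]
  have hX : 1 / k + 2 ≤ (k6cX k : ℝ) := by
    unfold k6cX
    push_cast
    linarith [Nat.le_ceil (1 / k)]
  have hZ : Zx ≤ (k6cZ Zx : ℝ) := Nat.le_ceil Zx
  have hB : ((2 * k6cZ Zx + k6cM k + k6cX k + 8 : ℕ) : ℝ) ≤ κg * (k6cB k κg Zx : ℝ) := by
    have := Nat.le_ceil (((2 * k6cZ Zx + k6cM k + k6cX k + 8 : ℕ) : ℝ) / κg)
    rw [div_le_iff₀ hκ0] at this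
    rw [mul_comm κg]
    exact this
  have hR : k6cR k κg Zx = k6cB k κg Zx + 2 * k6cZ Zx + k6cM k + k6cX k + 4 := rfl
  generalize k6cE d = E at *
  generalize k6cR k κg Zx = R at *
  generalize k6cB k κg Zx = B at *
  generalize k6cM k = M at *
  generalize k6cX k = X at *
  generalize k6cZ Zx = Z at *
  refine ⟨min (k / 48) (E / 2), max 48 ⌈4 / E⌉₊, by positivity, ?_⟩
  intro lv n0 K a a1 a2 Rm hlv hK1 hK2 ha h1 h2 ha1 ha2 hRn hRm
  obtain ⟨u, rfl⟩ := k6a_nl_ex a ha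
  obtain ⟨w, rfl⟩ := k6a_nl_ex K (by linarith)
  subst ha1 ha2
  simp only [k6a_nl_W, k6a_nl_p_rpow, ← k6a_nl_p_add] at h1 h2
  have hy1 : w + (lv : ℝ) ≤ k * u := k6a_nl_p_le_iff.1 h1
  have hy2 : w + k * u ≤ (lv : ℝ) := k6a_nl_p_le_iff.1 h2
  have hw0 : w ≤ 0 := by
    have : k6a_nl_p 0 ≤ k6a_nl_p w := by
      have e : k6a_nl_p 0 = 1 := by
        unfold k6a_nl_p
        simp
      rw [e]
      exact hK1
    exact k6a_nl_p_le_iff.1 this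
  have hw1 : -(min (k / 48) (E / 2) * (lv : ℝ)) ≤ w := by
    have : k6a_nl_p w ≤ k6a_nl_p (-(min (k / 48) (E / 2) * (lv : ℝ))) := by
      refine hK2.trans (le_of_eq ?_)
      unfold k6a_nl_p
      rw [neg_neg]
    exact k6a_nl_p_le_iff.1 this
  have hL48 : (48 : ℝ) ≤ (lv : ℝ) := by exact_mod_cast (le_max_left _ _).trans hlv
  have hL0 : (0 : ℝ) ≤ (lv : ℝ) := by linarith
  have hEL : 4 ≤ E * (lv : ℝ) := by
    have h3 : (⌈4 / E⌉₊ : ℝ) ≤ (lv : ℝ) := by exact_mod_cast (le_max_right _ _).trans hlv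
    have h4 := (Nat.le_ceil (4 / E)).trans h3
    rw [div_le_iff₀ hE0] at h4
    linarith
  have hwk : -(k * (lv : ℝ) / 48) ≤ w := by
    have : min (k / 48) (E / 2) * (lv : ℝ) ≤ k / 48 * (lv : ℝ) := mul_le_mul_of_nonneg_right (min_le_left _ _) hL0
    linarith
  have hwE : -(E * (lv : ℝ) / 2) ≤ w := by
    have : min (k / 48) (E / 2) * (lv : ℝ) ≤ E / 2 * (lv : ℝ) := mul_le_mul_of_nonneg_right (min_le_right _ _) hL0
    linarith
  have hkL : k * (lv : ℝ) ≤ (lv : ℝ) := by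
    have := mul_le_mul_of_nonneg_right hk1 hL0
    linarith
  have hck : 1 / k * k = 1 := by field_simp
  have hc1 : 1 ≤ 1 / k := by
    rw [le_div_iff₀ hk0]
    linarith
  have hu : u = 1 / k * (k * u) := by rw [← mul_assoc, hck, one_mul]
  have hu1 : u ≤ 1 / k * (lv : ℝ) + (lv : ℝ) / 48 := by
    have h3 : 1 / k * (k * u) ≤ 1 / k * ((lv : ℝ) + k * (lv : ℝ) / 48) := mul_le_mul_of_nonneg_left (by linarith) (by linarith)
    have e : 1 / k * ((lv : ℝ) + k * (lv : ℝ) / 48) = 1 / k * (lv : ℝ) + (1 / k * k) * (lv : ℝ) / 48 := by ring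
    rw [e, hck, ← hu] at h3
    linarith
  have hu2 : 1 / k * (lv : ℝ) - (lv : ℝ) / 48 ≤ u := by
    have h3 : 1 / k * ((lv : ℝ) - k * (lv : ℝ) / 48) ≤ 1 / k * (k * u) := mul_le_mul_of_nonneg_left (by linarith) (by linarith)
    have e : 1 / k * ((lv : ℝ) - k * (lv : ℝ) / 48) = 1 / k * (lv : ℝ) - (1 / k * k) * (lv : ℝ) / 48 := by ring
    rw [e, hck, ← hu] at h3
    linarith
  have hcL : (lv : ℝ) ≤ 1 / k * (lv : ℝ) := by
    have := mul_le_mul_of_nonneg_right hc1 hL0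
    linarith
  have hu0 : 0 ≤ u := by linarith
  have huy : k * u ≤ u := by
    have := mul_le_mul_of_nonneg_right hk1 hu0
    linarith
  have hEw0 : E * w ≤ 0 := mul_nonpos_of_nonneg_of_nonpos hE0.le hw0
  have hEw1 : w / 24 ≤ E * w := by
    have := mul_le_mul_of_nonpos_right hE1 hw0
    linarith
  have hEy1 : E * w + E * (lv : ℝ) ≤ E * (k * u) := by
    have := mul_le_mul_of_nonneg_left hy1 hE0.le
    linarith
  have hEy2 : E * w + E * (k * u) ≤ E * (lv : ℝ) := by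
    have := mul_le_mul_of_nonneg_left hy2 hE0.le
    linarith
  have hEL1 : E * (lv : ℝ) ≤ (lv : ℝ) / 24 := by
    have := mul_le_mul_of_nonneg_right hE1 hL0
    linarith
  have hXL : 1 / k * (lv : ℝ) + 2 * (lv : ℝ) ≤ (X : ℝ) * (lv : ℝ) := by
    have := mul_le_mul_of_nonneg_right hX hL0
    linarith
  push_cast at hB
  have hZ0 : (0 : ℝ) ≤ (Z : ℝ) * (lv : ℝ) := by positivity
  have hM0 : (0 : ℝ) ≤ (M : ℝ) * (lv : ℝ) := by positivity
  have hX0 : (0 : ℝ) ≤ (X : ℝ) * (lv : ℝ) := by positivity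
  have hB0 : (0 : ℝ) ≤ (B : ℝ) * (lv : ℝ) := by positivity
  have hκB : 2 * ((Z : ℝ) * (lv : ℝ)) + (M : ℝ) * (lv : ℝ) + (X : ℝ) * (lv : ℝ) + 8 * (lv : ℝ) ≤ κg * ((B : ℝ) * (lv : ℝ)) := by
    have := mul_le_mul_of_nonneg_right hB hL0
    linarith
  have hκB1 : κg * ((B : ℝ) * (lv : ℝ)) ≤ (B : ℝ) * (lv : ℝ) := by
    have := mul_le_mul_of_nonneg_right hκ1 hB0
    linarith
  have hRn' : (B : ℝ) * (lv : ℝ) + 2 * ((Z : ℝ) * (lv : ℝ)) + (M : ℝ) * (lv : ℝ) + (X : ℝ) * (lv : ℝ) + 4 * (lv : ℝ) ≤ (n0 : ℝ) := by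
    have : ((R * lv : ℕ) : ℝ) ≤ (n0 : ℝ) := by exact_mod_cast hRn
    rw [hR] at this
    push_cast at this
    linarith
  have hdy : d * (k * u) = k * u - 24 * (E * (k * u)) := by
    rw [hdE]
    ring
  refine ⟨⟨?_, ?_, ?_, ?_, ?_, ?_, hRm⟩, ⟨hM, ?_, ?_, ?_, ?_, ?_, ?_, ?_, ?_, ?_, ?_, ?_, hRm⟩, ⟨?_, ?_, ?_, ?_, ?_, ?_, ?_, ?_, ?_⟩⟩
  -- K6aLv
  · push_cast
    exact mul_le_mul_of_nonneg_right hZ hL0
  · have : ((Z * lv + lv : ℕ) : ℝ) ≤ (((Z + M + 1) * lv : ℕ) : ℝ) := by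
      push_cast
      linarith
    exact_mod_cast this
  · have : (((M + 1) * lv : ℕ) : ℝ) ≤ (((Z + M + 1) * lv : ℕ) : ℝ) := by
      push_cast
      linarith
    exact_mod_cast this
  · push_cast
    linarith
  · have : ((B * lv : ℕ) : ℝ) ≤ (n0 : ℝ) := by
      push_cast
      linarith
    exact_mod_cast this
  · have : (((Z + M + 1) * lv + Z * lv : ℕ) : ℝ) ≤ (n0 : ℝ) := by
      push_cast
      linarith
    exact_mod_cast this
  -- K6aLvF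
  · simp only [k6a_nl_W, k6a_nl_p_rpow, ← k6a_nl_p_add]
    apply k6a_nl_p_le
    linarith
  · simp only [k6a_nl_W, k6a_nl_p_rpow, ← k6a_nl_p_add]
    apply k6a_nl_p_le
    linarith
  · simp only [k6a_nl_W, k6a_nl_p_rpow, ← k6a_nl_p_add]
    apply k6a_nl_p_le
    linarith
  · simp only [k6a_nl_W, k6a_nl_p_rpow, ← k6a_nl_p_add]
    apply k6a_nl_p_le
    linarith
  · simp only [k6a_nl_W, k6a_nl_p_rpow, Nat.cast_mul]
    apply k6a_nl_p_le
    linarith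
  · simp only [k6a_nl_W, k6a_nl_p_rpow, Nat.cast_mul]
    apply k6a_nl_p_le
    linarith
  · have : ((X * lv + lv : ℕ) : ℝ) ≤ (((X + 3) * lv : ℕ) : ℝ) := by
      push_cast
      linarith
    exact_mod_cast this
  · push_cast
    linarith
  · push_cast
    linarith
  · have : ((B * lv : ℕ) : ℝ) ≤ (n0 : ℝ) := by
      push_cast
      linarith
    exact_mod_cast this
  · have : (((X + 3) * lv : ℕ) : ℝ) ≤ (n0 : ℝ) := by
      push_cast
      linarith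
    exact_mod_cast this
  -- K6bLv
  · push_cast
    linarith
  · simp only [k6a_nl_W, k6a_nl_Q, ← k6a_nl_p_sub, Nat.cast_mul, Nat.cast_add, Nat.cast_ofNat]
    apply k6a_nl_sum2 <;> linarith
  · simp only [k6a_nl_W, k6a_nl_Q, k6a_nl_p_rpow, ← k6a_nl_p_add, ← k6a_nl_p_sub, Nat.cast_mul, Nat.cast_add, Nat.cast_ofNat]
    apply k6a_nl_sum3 <;> linarith
  · simp only [k6a_nl_W, k6a_nl_Q, k6a_nl_p_rpow, ← k6a_nl_p_add, ← k6a_nl_p_sub, Nat.cast_mul, Nat.cast_add, Nat.cast_ofNat]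
    apply k6a_nl_sum5 <;> linarith
  · simp only [k6a_nl_p_rpow]
    apply k6a_nl_p_le
    linarith
  · simp only [k6a_nl_Q, k6a_nl_p_rpow]
    apply k6a_nl_p_le
    linarith
  · simp only [k6a_nl_Q, k6a_nl_p_rpow, ← k6a_nl_p_add, ← k6a_nl_p_sub]
    apply k6a_nl_p_le
    linarith
  · simp only [k6a_nl_W, k6a_nl_Q, k6a_nl_p_rpow, k6a_nl_p_pow, ← k6a_nl_p_add, ← k6a_nl_p_sub, Nat.cast_mul, Nat.cast_add, Nat.cast_ofNat]
    apply k6a_nl_sum2 <;> linarith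
  · simp only [k6a_nl_Q, k6a_nl_p_rpow]
    apply k6a_nl_p_le
    linarith

end Claimed.Agent.R252
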