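/-
Leaf L-252-S6a-NUMN (row252, unit S6a, chief helper234), proved by helper192.   Helpers: prefix `k6a_nn_`.
Statement and PLAN: docstring of the `def ..._stmt` in `ChainDefs.lean`.   Everything is written as `2^(-x)` (`k6a_nl_p` of `NumLv.lean`).
-/
import Claimed.Agent.R252.S6a.NumLv

namespace Claimed.Agent.R252

open MeasureTheory
open scoped ENNReal BigOperators

theorem k6a_nn_two_mul (x : ℝ) : 2 * k6a_nl_p x = k6a_nl_p (x - 1) := by
  rw [k6a_nl_p_sub]
  have e : k6a_nl_p 1 = 1 / 2 := by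
    unfold k6a_nl_p
    rw [Real.rpow_neg (by norm_num), Real.rpow_one, one_div]
  rw [e]
  ring

theorem k6a_nn_two_pow (m : ℕ) : (2 : ℝ) ^ m = k6a_nl_p (-(m : ℝ)) := by
  unfold k6a_nl_p
  rw [neg_neg, Real.rpow_natCast]

theorem k6a_nn_two_rpow (x : ℝ) : (2 : ℝ) ^ x = k6a_nl_p (-x) := by
  unfold k6a_nl_p
  rw [neg_neg]

theorem k6a_num_N : k6a_num_N_stmt := by
  intro k k0 Rr hk0 hk1
  refine ⟨max 4 ((2 : ℝ) ^ (2 * (k0 : ℝ) / k)), le_trans (by norm_num) (le_max_left _ _), ?_⟩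
  intro N τp lv n0 hN hτ0 hτ1 h1 h2 h3 h4
  have hN2 : 4 ≤ N := (le_max_left _ _).trans hN
  have hNk : (2 : ℝ) ^ (2 * (k0 : ℝ) / k) ≤ N := (le_max_right _ _).trans hN
  obtain ⟨v, rfl⟩ := k6a_nl_ex N (by linarith)
  simp only [k6a_nl_W, k6a_nl_p_rpow, ← k6a_nl_p_add, k6a_nn_two_mul] at h1 h2 h3 h4
  rw [k6a_nl_p_le_iff] at h1 h2 h3 h4
  rw [k6a_nn_two_rpow, k6a_nl_p_le_iff] at hNk
  have hv1 : v ≤ -2 := by
    have : k6a_nl_p (-2) ≤ k6a_nl_p v := by
      have e : k6a_nl_p (-2) = 4 := by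
        unfold k6a_nl_p
        rw [neg_neg]
        norm_num
      rw [e]
      exact hN2
    exact k6a_nl_p_le_iff.1 this
  have hkv : k * v ≤ -(2 * (k0 : ℝ)) := by
    have := mul_le_mul_of_nonneg_left hNk hk0.le
    have e : k * -(2 * (k0 : ℝ) / k) = -(2 * (k0 : ℝ)) := by
      field_simp
    rw [e] at this
    exact this
  have hτv : k / 2 * v ≤ τp * v := mul_le_mul_of_nonpos_right hτ1 (by linarith)
  have hτv0 : τp * v ≤ 0 := mul_nonpos_of_nonneg_of_nonpos hτ0.le (by linarith)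
  have hkv1 : v ≤ k * v := by
    have := mul_le_mul_of_nonpos_right hk1 (show v ≤ 0 by linarith)
    linarith
  have hkv0 : k * v < 0 := mul_neg_of_pos_of_neg hk0 (by linarith)
  have hL : -(k / 2 * v) ≤ (lv : ℝ) := by linarith
  have hL1 : (1 : ℝ) ≤ (lv : ℝ) := by
    have : (0 : ℝ) < (lv : ℝ) := by linarith
    have h5 : 0 < lv := by exact_mod_cast this
    exact_mod_cast h5
  have hR0 : (0 : ℝ) ≤ (Rr : ℝ) := by positivity
  refine ⟨?_, ?_, ?_, ?_, ?_⟩
  · have : (k0 : ℝ) ≤ (lv : ℝ) := by linarith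
    exact_mod_cast this
  · rw [k6a_nl_p_rpow, k6a_nn_two_pow]
    apply k6a_nl_p_le
    linarith
  · rw [k6a_nl_p_rpow, k6a_nn_two_pow]
    apply k6a_nl_p_le
    linarith
  · rcases Nat.eq_zero_or_pos Rr with hR | hR
    · rw [hR, zero_mul]
      exact Nat.zero_le _
    · have hR1 : (1 : ℝ) ≤ (Rr : ℝ) := by exact_mod_cast hR
      have h5 : (lv : ℝ) ≤ -((k + τp) * v) := by linarith
      have h6 := mul_le_mul_of_nonneg_left h5 hR0
      have h7 : (1 : ℝ) ≤ -v + τp * v := by linarith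
      have h8 := mul_le_mul_of_nonneg_left h7 hR0
      have : ((Rr * lv : ℕ) : ℝ) ≤ (n0 : ℝ) := by
        push_cast
        linarith
      exact_mod_cast this
  · have h5 : -v ≤ 2 / k * (lv : ℝ) := by
      have h6 := mul_le_mul_of_nonneg_left hL (show 0 ≤ 2 / k by positivity)
      have e : 2 / k * -(k / 2 * v) = -v := by
        field_simp
      rw [e] at h6
      exact h6
    have h7 := mul_le_mul_of_nonneg_left h5 (show 0 ≤ (Rr : ℝ) * (k + 1) by positivity)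
    have e : (2 * ((Rr : ℝ) * (k + 1)) / k + 1) * (lv : ℝ) = (Rr : ℝ) * (k + 1) * (2 / k * (lv : ℝ)) + (lv : ℝ) := by
      ring
    rw [e]
    linarith

end Claimed.Agent.R252
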