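/-
Leaf L-252-S6a-NUMSL (row252, unit S6a, chief helper234).
PROVED (helper88).   Helpers: prefix `k6a_ns_`.
Statement and PLAN: docstring of the `def ..._stmt` in `ChainDefs.lean` (never edit it; a false or awkward statement = one line to helper234).
-/
import Claimed.Agent.R252.S6a.ChainDefs

namespace Claimed.Agent.R252

open MeasureTheory
open scoped ENNReal BigOperators

theorem k6a_ns_pow {k N : ℝ} {lv : ℕ} (hk : 0 < k) (hN : 2 ≤ N) (h : N ^ (k / 2) ≤ (2 : ℝ) ^ lv) {y : ℝ} (hy : 0 ≤ y) :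
    N ^ y ≤ (2 : ℝ) ^ (2 * y / k * lv) := by
  have hN0 : 0 ≤ N := by linarith
  have e1 : N ^ y = (N ^ (k / 2)) ^ (2 * y / k) := by
    rw [← Real.rpow_mul hN0]
    congr 1
    field_simp
  have e2 : (2 : ℝ) ^ (2 * y / k * lv) = ((2 : ℝ) ^ lv) ^ (2 * y / k) := by
    rw [← Real.rpow_natCast, ← Real.rpow_mul (by norm_num), mul_comm]
  rw [e1, e2]
  exact Real.rpow_le_rpow (by positivity) h (by positivity)

theorem k6a_ns_two_mono {a b : ℝ} (h : a ≤ b) : (2 : ℝ) ^ a ≤ (2 : ℝ) ^ b :=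
  Real.rpow_le_rpow_of_exponent_le (by norm_num) h

theorem k6a_ns_exists (A η : ℝ) (hη : 0 < η) : ∃ k0 : ℕ, ∀ lv : ℕ, k0 ≤ lv → A ≤ (2 : ℝ) ^ (η * lv) := by
  have h1 : (1 : ℝ) < (2 : ℝ) ^ η := Real.one_lt_rpow (by norm_num) hη
  obtain ⟨n, hn⟩ := pow_unbounded_of_one_lt A h1
  refine ⟨n, fun lv hlv => ?_⟩
  have e : ((2 : ℝ) ^ η) ^ n = (2 : ℝ) ^ (η * n) := by
    rw [← Real.rpow_natCast, ← Real.rpow_mul (by norm_num)]
  rw [e] at hn
  refine hn.le.trans (k6a_ns_two_mono ?_)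
  have : (n : ℝ) ≤ lv := by exact_mod_cast hlv
  gcongr

theorem k6a_num_slack : k6a_num_slack_stmt := by
  intro k Cg δr η2 c' η6 hk hk1 hCg hδ hδ1 hη2 hc' hη6
  obtain ⟨n1, hn1⟩ := k6a_ns_exists (Cg * δr ^ (-Cg)) (η2 / 2) (by positivity)
  obtain ⟨n2, hn2⟩ := k6a_ns_exists (1 / c') (η2 / 2) (by positivity)
  obtain ⟨n3, hn3⟩ := k6a_ns_exists 64 (η6 / 2) (by positivity)
  refine ⟨max n1 (max n2 n3), fun N τp τ u m lv hN hlv hNl hτp hτp' hτ hττ hu huτ hm hm1 => ?_⟩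
  have l1 : n1 ≤ lv := (le_max_left _ _).trans hlv
  have l2 : n2 ≤ lv := ((le_max_left _ _).trans (le_max_right _ _)).trans hlv
  have l3 : n3 ≤ lv := ((le_max_right _ _).trans (le_max_right _ _)).trans hlv
  have hN0 : 0 < N := by linarith
  have hN1 : 1 ≤ N := by linarith
  have hlv0 : (0 : ℝ) ≤ lv := Nat.cast_nonneg _
  have hCg0 : 0 < Cg := by linarith
  have hkey : τp * (16 * Cg) ≤ η2 * k := (le_div_iff₀ (by positivity)).1 hτp'
  -- `N^τp ≤ 2^(η2/8 lv)`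
  have hA : N ^ τp ≤ (2 : ℝ) ^ (η2 / 8 * lv) := by
    refine (k6a_ns_pow hk hN hNl hτp.le).trans (k6a_ns_two_mono ?_)
    have : 2 * τp / k ≤ η2 / 8 := by
      rw [div_le_iff₀ hk]
      nlinarith
    gcongr
  have hB : N ^ (3 * τp * Cg) ≤ (2 : ℝ) ^ (3 / 8 * η2 * lv) := by
    refine (k6a_ns_pow hk hN hNl (by positivity)).trans (k6a_ns_two_mono ?_)
    have : 2 * (3 * τp * Cg) / k ≤ 3 / 8 * η2 := by
      rw [div_le_iff₀ hk]
      nlinarith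
    gcongr
  have hm0 : 0 < m := lt_of_lt_of_le (Real.rpow_pos_of_pos hN0 _) hm
  have hmτ : N ^ (-τp) ≤ m := (Real.rpow_le_rpow_of_exponent_le hN1 (by linarith)).trans hm
  have huτ' : N ^ (-τp) ≤ N ^ (-u) := Real.rpow_le_rpow_of_exponent_le hN1 (by linarith)
  refine ⟨?_, ?_, ?_, ?_⟩
  · refine hA.trans (k6a_ns_two_mono ?_)
    nlinarith [mul_nonneg hη2.le hlv0]
  · have hP : 0 < N ^ (-τp) := Real.rpow_pos_of_pos hN0 _
    have hden : δr * (N ^ (-τp) * N ^ (-τp)) ≤ δr * m * N ^ (-u) := by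
      rw [mul_assoc]
      gcongr
    have h1 : N ^ τp / (δr * m * N ^ (-u)) ≤ N ^ (3 * τp) / δr := by
      have e : N ^ (3 * τp) / δr = N ^ τp / (δr * (N ^ (-τp) * N ^ (-τp))) := by
        rw [← Real.rpow_add hN0, div_eq_div_iff hδ.ne' (by positivity), mul_comm δr, ← mul_assoc, ← Real.rpow_add hN0]
        congr 2
        ring
      rw [e]
      gcongr
    have h2 : (N ^ τp / (δr * m * N ^ (-u))) ^ Cg ≤ N ^ (3 * τp * Cg) * δr ^ (-Cg) := by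
      refine (Real.rpow_le_rpow (by positivity) h1 hCg0.le).trans (le_of_eq ?_)
      rw [Real.div_rpow (by positivity) hδ.le, ← Real.rpow_mul hN0.le, Real.rpow_neg hδ.le, div_eq_mul_inv]
    have hδp : 0 < δr ^ (-Cg) := Real.rpow_pos_of_pos hδ _
    calc Cg * (N ^ τp / (δr * m * N ^ (-u))) ^ Cg ≤ Cg * (N ^ (3 * τp * Cg) * δr ^ (-Cg)) := by gcongr
      _ = (Cg * δr ^ (-Cg)) * N ^ (3 * τp * Cg) := by ring
      _ ≤ (2 : ℝ) ^ (η2 / 2 * lv) * (2 : ℝ) ^ (3 / 8 * η2 * lv) := by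
          gcongr
          exact hn1 lv l1
      _ = (2 : ℝ) ^ (η2 / 2 * lv + 3 / 8 * η2 * lv) := (Real.rpow_add (by norm_num) _ _).symm
      _ ≤ _ := k6a_ns_two_mono (by nlinarith [mul_nonneg hη2.le hlv0])
  · have h1 : (2 : ℝ) ^ (-(η2 / 8 * lv)) ≤ m := by
      refine le_trans ?_ hmτ
      rw [Real.rpow_neg (by norm_num), Real.rpow_neg hN0.le]
      exact inv_anti₀ (Real.rpow_pos_of_pos hN0 _) hA
    have h2 : (2 : ℝ) ^ (-(η2 / 2 * lv)) ≤ c' := by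
      have := hn2 lv l2
      rw [Real.rpow_neg (by norm_num)]
      rw [one_div] at this
      exact inv_le_of_inv_le₀ hc' this
    calc (1 : ℝ) ≤ (2 : ℝ) ^ (η2 * lv + (-(η2 / 2 * lv) + -(η2 / 8 * lv))) :=
          Real.one_le_rpow (by norm_num) (by nlinarith [mul_nonneg hη2.le hlv0])
      _ = (2 : ℝ) ^ (η2 * lv) * ((2 : ℝ) ^ (-(η2 / 2 * lv)) * (2 : ℝ) ^ (-(η2 / 8 * lv))) := by
          rw [Real.rpow_add (by norm_num), Real.rpow_add (by norm_num)]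
      _ ≤ _ := by gcongr
  · calc 64 * (2 : ℝ) ^ (η6 / 2 * lv) ≤ (2 : ℝ) ^ (η6 / 2 * lv) * (2 : ℝ) ^ (η6 / 2 * lv) := by
          gcongr
          exact hn3 lv l3
      _ = (2 : ℝ) ^ (η6 / 2 * lv + η6 / 2 * lv) := (Real.rpow_add (by norm_num) _ _).symm
      _ = _ := by congr 1; ring

end Claimed.Agent.R252
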