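import Claimed.Agent.R252.S6a.Q4Snd
import Claimed.Agent.R252.S5.Contract

/-!
# ROW 252, unit S6a, post BP-252-S6a4 (sub-architect helper198; prefix `k6a4_`), file 6: THE DISCOVERY (06 l.836-862).   CONTRACT.

`k6a4_fit` = EXIT 2 of S6a4 (one scale, one parent): inside ANY label set `E` that satisfies `k6a4_In` with small slack there is an incidence with polynomial rows of degree `M` fitting `(G0, Gy)` along its own
trajectory on labelled times of duration `≥ h^(1+ε)` in its `h`-block.   Since `E` lies in the failure set, this is the contradiction that ends the proof of Proposition 6.3.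
-/

set_option autoImplicit false

namespace Claimed.Agent.R252

open MeasureTheory Set
open scoped BigOperators

variable {j : ℕ}

/-- the polynomial rows `(a0, a)` fit the graph row at the incidence `(l, v)` within `er` -/
def k6a4_Fit {Λ ι : Type} {M : ℕ} (w : Λ × ℝ → ι) (G0 : ι → ℝ) (Gy : ι → Fin j → ℝ) (a0 : Fin (M + 1) → ℝ)
    (a : Fin (M + 1) → Fin j → ℝ) (er : ℝ) (l : Λ) (v : ℝ) : Prop :=
  |G0 (w (l, v)) - ∑ i : Fin (M + 1), v ^ (i : ℕ) * a0 i| ≤ er ∧ ‖Gy (w (l, v)) - ∑ i : Fin (M + 1), v ^ (i : ℕ) • a i‖ ≤ er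

theorem k6a4_Fit_eqns_cite : True := by
  have := @k6a4_Fit.eq_1
  trivial

theorem k6a4_T1_dot (u V : Fin j → ℝ) : |u ⬝ᵥ V| ≤ j * ‖u‖ * ‖V‖ := by
  unfold dotProduct
  calc |∑ i, u i * V i| ≤ ∑ i, |u i * V i| := Finset.abs_sum_le_sum_abs _ _
    _ ≤ ∑ _i : Fin j, ‖u‖ * ‖V‖ := by
        refine Finset.sum_le_sum fun i _ => ?_
        rw [abs_mul]
        exact mul_le_mul (norm_le_pi_norm u i) (norm_le_pi_norm V i) (abs_nonneg _) (norm_nonneg _)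
    _ = j * ‖u‖ * ‖V‖ := by simp [mul_assoc]

/-- T1. from a fit of the time-only row to a fit of the graph row along ONE trajectory (06 l.846-850): `Gy = F + O(K ρ)`, `G0 = X' - Gy V + O(η)`, `X'` affine, `V` constant. -/
theorem k6a4_fit_line {Λ ι : Type} [MeasurableSpace Λ] {d K ζ ρ b η : ℝ} {ν : Measure Λ} {c : Λ → k5_Co j}
    {E : Set (Λ × ℝ)} {π : Measure (Fin j → ℝ)} {w : Λ × ℝ → ι} {Ws : Finset ι} {m0 : ι → ℝ} {G0 : ι → ℝ}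
    {Gy : ι → Fin j → ℝ} {F : k6a4_Ix j → ℝ → Fin j → ℝ} (h : k6a4_In j d K ζ ρ b η ν c E π w Ws m0 G0 Gy F)
    (hK : 1 ≤ K) (M : ℕ) (hM : 2 ≤ M) (l : Λ) (a : Fin (M + 1) → Fin j → ℝ) (Ka er : ℝ) (ha : ∀ i, ‖a i‖ ≤ Ka) :
    ∃ a0 : Fin (M + 1) → ℝ, (∀ i, |a0 i| ≤ 2 * K + j * K * Ka) ∧ ∀ v, (l, v) ∈ E →
      ‖F (k5_cbin ρ (c l)) v - ∑ i : Fin (M + 1), v ^ (i : ℕ) • a i‖ ≤ er →
      k6a4_Fit w G0 Gy a0 a ((1 + j * K) * (er + K * ρ) + η) l v := by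
  classical
  have hj0 : (0 : ℝ) ≤ j := Nat.cast_nonneg j
  obtain ⟨V, hV⟩ : ∃ V, V = k5_yd (c l) := ⟨_, rfl⟩
  have hcl := h.cb l
  have hVK : ‖V‖ ≤ K := by
    rw [hV]; unfold k5_yd
    exact (norm_le_pi_norm (c l).2 1).trans ((norm_snd_le (c l)).trans hcl)
  have hc1 : |(c l).1 1| ≤ K := (norm_le_pi_norm (c l).1 1).trans ((norm_fst_le (c l)).trans hcl)
  have hc2 : |(c l).1 2| ≤ K := (norm_le_pi_norm (c l).1 2).trans ((norm_fst_le (c l)).trans hcl)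
  obtain ⟨p, hpdef⟩ : ∃ p : Fin (M + 1) → ℝ, p = fun i : Fin (M + 1) => if (i : ℕ) = 0 then (c l).1 1 else
      if (i : ℕ) = 1 then 2 * (c l).1 2 else 0 := ⟨_, rfl⟩
  have hp : ∀ i, |p i| ≤ 2 * K := by
    intro i
    rw [hpdef]
    simp only
    split_ifs
    · linarith
    · rw [abs_mul, abs_two]; linarith
    · rw [abs_zero]; linarith
  have hsum : ∀ v : ℝ, ∑ i : Fin (M + 1), v ^ (i : ℕ) * p i = (c l).1 1 + 2 * v * (c l).1 2 := by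
    intro v
    obtain ⟨M', rfl⟩ : ∃ M', M = M' + 2 := ⟨M - 2, by omega⟩
    rw [Fin.sum_univ_succ, Fin.sum_univ_succ, hpdef]
    simp
    ring
  refine ⟨fun i => p i - a i ⬝ᵥ V, ?_, ?_⟩
  · intro i
    have h1 := k6a4_T1_dot (a i) V
    have h2 : (j : ℝ) * ‖a i‖ * ‖V‖ ≤ j * K * Ka := by
      calc (j : ℝ) * ‖a i‖ * ‖V‖ ≤ j * Ka * K :=
            mul_le_mul (mul_le_mul_of_nonneg_left (ha i) hj0) hVK (norm_nonneg _)
              (mul_nonneg hj0 ((norm_nonneg _).trans (ha i)))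
        _ = j * K * Ka := by ring
    have h3 : |p i - a i ⬝ᵥ V| ≤ |p i| + |a i ⬝ᵥ V| := by
      simpa using norm_sub_le (p i) (a i ⬝ᵥ V)
    show |p i - a i ⬝ᵥ V| ≤ _
    linarith [hp i]
  · intro v hv hF
    have hg := h.graph (l, v) hv
    have hFG := h.FG (l, v) hv
    simp only [k6a4_bk] at hFG
    obtain ⟨P, hP⟩ : ∃ P : Fin j → ℝ, P = ∑ i : Fin (M + 1), v ^ (i : ℕ) • a i := ⟨_, rfl⟩
    rw [← hP] at hF
    have hη : 0 ≤ η := (abs_nonneg _).trans hg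
    have hGP : ‖Gy (w (l, v)) - P‖ ≤ er + K * ρ := by
      have : Gy (w (l, v)) - P = (F (k5_cbin ρ (c l)) v - P) - (F (k5_cbin ρ (c l)) v - Gy (w (l, v))) := by abel
      rw [this]
      exact (norm_sub_le _ _).trans (add_le_add hF hFG)
    have he0 : 0 ≤ er + K * ρ := (norm_nonneg _).trans hGP
    have hjK : 0 ≤ (j : ℝ) * K := by positivity
    have hs0 : ∑ i : Fin (M + 1), v ^ (i : ℕ) * (p i - a i ⬝ᵥ V) = (c l).1 1 + 2 * v * (c l).1 2 - P ⬝ᵥ V := by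
      simp only [mul_sub, Finset.sum_sub_distrib, hsum v]
      congr 1
      rw [hP, sum_dotProduct]
      refine Finset.sum_congr rfl fun i _ => ?_
      rw [smul_dotProduct, smul_eq_mul]
    refine ⟨?_, ?_⟩
    · rw [hs0]
      have hd := k6a4_T1_dot (Gy (w (l, v)) - P) V
      have hd2 : (j : ℝ) * ‖Gy (w (l, v)) - P‖ * ‖V‖ ≤ j * K * (er + K * ρ) := by
        calc (j : ℝ) * ‖Gy (w (l, v)) - P‖ * ‖V‖ ≤ j * (er + K * ρ) * K :=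
              mul_le_mul (mul_le_mul_of_nonneg_left hGP hj0) hVK (norm_nonneg _) (mul_nonneg hj0 he0)
          _ = j * K * (er + K * ρ) := by ring
      have hx : k5_xD 1 (c l) v = (c l).1 1 + 2 * v * (c l).1 2 := rfl
      simp only [hx, ← hV] at hg
      rw [sub_dotProduct] at hd
      have e : G0 (w (l, v)) - ((c l).1 1 + 2 * v * (c l).1 2 - P ⬝ᵥ V)
          = -((c l).1 1 + 2 * v * (c l).1 2 - G0 (w (l, v)) - Gy (w (l, v)) ⬝ᵥ V)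
            - (Gy (w (l, v)) ⬝ᵥ V - P ⬝ᵥ V) := by ring
      rw [e]
      have h3 := norm_sub_le (-((c l).1 1 + 2 * v * (c l).1 2 - G0 (w (l, v)) - Gy (w (l, v)) ⬝ᵥ V))
        (Gy (w (l, v)) ⬝ᵥ V - P ⬝ᵥ V)
      simp only [Real.norm_eq_abs, abs_neg] at h3
      nlinarith
    · rw [← hP]
      nlinarith

/-- **EXIT 2 of S6a4: the discovery.** -/
theorem k6a4_fit (j M : ℕ) (d θ : ℝ) (hM : 2 ≤ M) (hd0 : 0 ≤ d) (hd : d < 1) (hθ : 0 < θ) (hθ1 : θ ≤ 1)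
    (hFJ : k5_FJ d θ) :
    ∃ C Zx : ℝ, 1 ≤ C ∧ 0 < Zx ∧ ∀ ε : ℝ, 0 < ε → ∃ (η' : ℝ) (k₀ : ℕ), 0 < η' ∧
      ∀ {Λ ι : Type} [MeasurableSpace Λ] {K ζ ρ b η : ℝ} {ν : Measure Λ} {c : Λ → k5_Co j} {E : Set (Λ × ℝ)}
        {π : Measure (Fin j → ℝ)} {w : Λ × ℝ → ι} {Ws : Finset ι} {m0 : ι → ℝ} {G0 : ι → ℝ} {Gy : ι → Fin j → ℝ}
        {F : k6a4_Ix j → ℝ → Fin j → ℝ},
      k6a4_In j d K ζ ρ b η ν c E π w Ws m0 G0 Gy F → k6a4_Sc j K ζ ρ b η →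
      ∀ (kh L : ℕ) (s : ℕ → ℝ) (A δ : ℝ), k₀ ≤ kh → 1 ≤ A → s 0 = 1 → s L = ζ → (∀ i ≤ L, s i ∈ k5_Dy ζ) →
      (∀ i < L, s (i + 1) ≤ s i) → (∀ i < L, s i ≤ A * s (i + 1)) → 0 < δ → δ ≤ 1 → δ ≤ k5_mass ν E →
      k6a4_Ko C K δ A L ≤ ((1 / 2 : ℝ) ^ kh) ^ (-η') → ζ ≤ ((1 / 2 : ℝ) ^ kh) ^ Zx →
      ∃ e ∈ E, ∃ (a0 : Fin (M + 1) → ℝ) (a : Fin (M + 1) → Fin j → ℝ),
        (∀ i, |a0 i| ≤ 2 * K + j * K * ((1 / 2 : ℝ) ^ kh) ^ (-ε)) ∧ (∀ i, ‖a i‖ ≤ ((1 / 2 : ℝ) ^ kh) ^ (-ε)) ∧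
        k6a4_Fit w G0 Gy a0 a ((1 + j * K) * (((1 / 2 : ℝ) ^ kh) ^ ((M : ℝ) + 1 / 4) + K * ρ) + η) e.1 e.2 ∧
        ((1 / 2 : ℝ) ^ kh) ^ (1 + ε) ≤ volume.real {v | (e.1, v) ∈ E ∧ ⌊v * 2 ^ kh⌋ = ⌊e.2 * 2 ^ kh⌋ ∧
          k6a4_Fit w G0 Gy a0 a ((1 + j * K) * (((1 / 2 : ℝ) ^ kh) ^ ((M : ℝ) + 1 / 4) + K * ρ) + η) e.1 v} := by
  obtain ⟨C, hC, hsnd⟩ := k6a4_snd j
  obtain ⟨Zx, hZx, hj⟩ := k5_higher_jets_inc j M d θ hM hd0 hd hθ hθ1 hFJ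
  refine ⟨C, Zx, hC, hZx, ?_⟩
  intro ε hε
  obtain ⟨η', k₀, hη', hjj⟩ := hj ε hε
  refine ⟨η', k₀, hη', ?_⟩
  intro Λ ι _ K ζ ρ b η ν c E π w Ws m0 G0 Gy F h hsc kh L s A δ hk hA hs0 hsL hsD hmono hrat hδ hδ1 hm hKo hζ
  obtain ⟨B, S, hSm, hSE, hSB, hSnd, hmass⟩ := hsnd h hsc hd0 L s A δ hA hs0 hsL hsD hmono hrat hδ hδ1 hm
  have hK := hsc.K1
  have hKo1 : 1 ≤ k6a4_Ko C K δ A L := by
    have h0 : 0 ≤ (C * K * ((L : ℝ) + 1) / δ) ^ (C * ((L : ℝ) + 1)) := Real.rpow_nonneg (by positivity) _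
    unfold k6a4_Ko
    linarith
  obtain ⟨E'', -, hE''s, hE''mass, hfit⟩ := hjj kh _ ζ hk hKo1 hKo hζ Λ (k6a4_nu ν ρ c B)
    (fun l => k6a4_zc ρ B (c l)) S (F B) hSnd hmass
  have hne : E''.Nonempty := by
    by_contra hcon
    rw [not_nonempty_iff_eq_empty] at hcon
    rw [hcon] at hE''mass
    have h0 : (0 : ℝ) < ((1 / 2 : ℝ) ^ kh) ^ ε := by positivity
    have h1 : k5_mass (k6a4_nu ν ρ c B) (∅ : Set (Λ × ℝ)) = 0 := measureReal_empty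
    linarith
  obtain ⟨⟨l, t⟩, hlt⟩ := hne
  obtain ⟨a, ha, hat, hvol⟩ := hfit l t hlt
  obtain ⟨a0, ha0, hline⟩ := k6a4_fit_line h hK M hM l a (((1 / 2 : ℝ) ^ kh) ^ (-ε))
    (((1 / 2 : ℝ) ^ kh) ^ ((M : ℝ) + 1 / 4)) ha
  have hlB : k5_cbin ρ (c l) = B := hSB (l, t) (hE''s hlt)
  rw [hlB] at hline
  refine ⟨(l, t), hSE (hE''s hlt), a0, a, ha0, ha, hline t (hSE (hE''s hlt)) hat, hvol.trans ?_⟩
  refine measureReal_mono ?_ ?_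
  · rintro v ⟨hv1, hv2, hv3⟩
    exact ⟨hSE hv1, hv2, hline v (hSE hv1) hv3⟩
  · refine ne_top_of_le_ne_top (measure_Ico_lt_top (a := (0 : ℝ)) (b := 1)).ne (measure_mono ?_)
    rintro v ⟨hv1, -, -⟩
    exact h.tI l v hv1

/-- T2. **choice of a parent**: weights `p`, masses `m`, one summed budget `bud`. -/
theorem k6a4_parent {W : Type} [Fintype W] (p m bud : W → ℝ) (δ K : ℝ) (hp : ∀ γ, 0 ≤ p γ) (hp1 : ∑ γ, p γ ≤ 1)
    (hb0 : ∀ γ, 0 ≤ bud γ) (hm : δ ≤ ∑ γ, p γ * m γ) (hb : ∑ γ, p γ * bud γ ≤ K) (hδ : 0 < δ) (hK : 0 < K) :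
    ∃ γ, 0 < p γ ∧ δ / 2 ≤ m γ ∧ bud γ ≤ 2 * K / δ * m γ := by
  by_contra hcon
  push Not at hcon
  have hlt : ∀ γ, 0 < p γ → p γ * m γ < p γ * (δ / 2) + δ / (2 * K) * (p γ * bud γ) := by
    intro γ hγ
    have hpb : 0 ≤ δ / (2 * K) * (p γ * bud γ) := by
      have := hb0 γ
      positivity
    by_cases h1 : δ / 2 ≤ m γ
    · have h2 := hcon γ hγ h1
      have h3 : m γ < δ / (2 * K) * bud γ := by
        have : δ / (2 * K) * (2 * K / δ * m γ) = m γ := by field_simp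
        calc m γ = δ / (2 * K) * (2 * K / δ * m γ) := this.symm
          _ < δ / (2 * K) * bud γ := mul_lt_mul_of_pos_left h2 (by positivity)
      have h4 : p γ * m γ < p γ * (δ / (2 * K) * bud γ) := mul_lt_mul_of_pos_left h3 hγ
      have h5 : 0 ≤ p γ * (δ / 2) := by positivity
      nlinarith
    · push Not at h1
      have h4 : p γ * m γ < p γ * (δ / 2) := mul_lt_mul_of_pos_left h1 hγ
      linarith
  have hle : ∀ γ, p γ * m γ ≤ p γ * (δ / 2) + δ / (2 * K) * (p γ * bud γ) := by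
    intro γ
    rcases (hp γ).lt_or_eq with h | h
    · exact (hlt γ h).le
    · rw [← h]; simp
  have hex : ∃ γ, 0 < p γ := by
    by_contra hno
    push Not at hno
    have : ∑ γ, p γ * m γ = 0 := Finset.sum_eq_zero fun γ _ => by
      rw [le_antisymm (hno γ) (hp γ), zero_mul]
    linarith
  obtain ⟨γ₀, hγ₀⟩ := hex
  have hs : ∑ γ, p γ * m γ < ∑ γ, (p γ * (δ / 2) + δ / (2 * K) * (p γ * bud γ)) :=
    Finset.sum_lt_sum (fun γ _ => hle γ) ⟨γ₀, Finset.mem_univ _, hlt γ₀ hγ₀⟩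
  rw [Finset.sum_add_distrib, ← Finset.sum_mul, ← Finset.mul_sum] at hs
  have h1 : (∑ γ, p γ) * (δ / 2) ≤ δ / 2 := by nlinarith
  have h2 : δ / (2 * K) * ∑ γ, p γ * bud γ ≤ δ / 2 := by
    calc δ / (2 * K) * ∑ γ, p γ * bud γ ≤ δ / (2 * K) * K := mul_le_mul_of_nonneg_left hb (by positivity)
      _ = δ / 2 := by field_simp
  linarith

end Claimed.Agent.R252
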