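import Claimed.Agent.R252.S6a.StripHub
import Claimed.Agent.R252.S6a.Q4Top
import Claimed.Agent.R252.S6a.Q4Bridge

/-!
# ROW 252, unit S6a (sub-architect helper198; prefix `k6a4_`), file 9: THE DISCOVERY HUB   `k6a_hub_disc_stmt` (S6a/Hubs)  =  `k6a3_hub_stmt` (exit of S6a3, S6a/StripHub)  +  `k6a4_fit` (S6a/Q4Top).

* `k6a4_qual_of_fit`   (D1) translation of the conclusion of `k6a4_fit` into `K6aQualAt`;
* `k6a4_disc_arith`    (D2) the choice of the tolerance `ε₃` of S6a3, of the grid step `sp` and all numerical inequalities;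
* `k6a_hub_disc`       the assembly (proved here from D1, D2, `k6a3_hub_stmt`, `k6a3_br_grid_stmt`).
-/

set_option autoImplicit false

namespace Claimed.Agent.R252

open MeasureTheory Set
open scoped BigOperators ENNReal

variable {j : ℕ}

/-- D1. from polynomial rows for `(G0, Gy)` at the master states to `K6aQualAt`.   (`a' i = (a0 i, a i)`; `k6aPoly a' t = (∑ t^i a0 i, ∑ t^i • a i)`; `g (D.wc nb e) = g (k6a3_crs (n0 - nb) (D.wc n0 e))` by `k6a4_wc_coarse`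
(`k6a3_crs = k6a4_cw` by `rfl`); sup norm of a pair; `measureReal_mono`, the larger set lies in `[0,1]`.) -/
theorem k6a4_qual_of_fit (D : K6aDat j) (kh M nb n0 : ℕ) (hnb : nb ≤ n0) (g : K6aWc j → K6aRow j)
    (E' U : Set (D.L × ℝ)) (hEU : E' ⊆ U) (hU1 : ∀ e ∈ U, 0 ≤ e.2 ∧ e.2 ≤ 1) (e : D.L × ℝ) (a0 : Fin (M + 1) → ℝ)
    (a : Fin (M + 1) → Fin j → ℝ) (er η₀ Kq c₀ : ℝ) (ha0 : ∀ i, |a0 i| ≤ Kq) (ha : ∀ i, ‖a i‖ ≤ Kq) (her : er ≤ η₀)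
    (hfit : k6a4_Fit (D.ms n0) (fun s => (g (k6a3_crs (n0 - nb) s.2)).1) (fun s => (g (k6a3_crs (n0 - nb) s.2)).2)
      a0 a er e.1 e.2)
    (hc : k6aW kh / Kq ≤ c₀)
    (hvol : c₀ ≤ volume.real {v | (e.1, v) ∈ E' ∧ ⌊v * 2 ^ kh⌋ = ⌊e.2 * 2 ^ kh⌋ ∧
      k6a4_Fit (D.ms n0) (fun s => (g (k6a3_crs (n0 - nb) s.2)).1) (fun s => (g (k6a3_crs (n0 - nb) s.2)).2)
        a0 a er e.1 v}) :
    K6aQualAt D kh M Kq η₀ nb U g e := by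
  have hpoly : ∀ t : ℝ, k6aPoly (fun i => ((a0 i, a i) : K6aRow j)) t =
      (∑ i : Fin (M + 1), t ^ (i : ℕ) * a0 i, ∑ i : Fin (M + 1), t ^ (i : ℕ) • a i) := by
    intro t
    unfold k6aPoly
    refine Prod.ext ?_ ?_
    · simp [Prod.fst_sum]
    · simp [Prod.snd_sum]
  have hkey : ∀ v : ℝ, k6a4_Fit (D.ms n0) (fun s => (g (k6a3_crs (n0 - nb) s.2)).1)
      (fun s => (g (k6a3_crs (n0 - nb) s.2)).2) a0 a er e.1 v →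
      ‖g (D.wc nb (e.1, v)) - k6aPoly (fun i => ((a0 i, a i) : K6aRow j)) v‖ ≤ η₀ := by
    intro v hv
    obtain ⟨h1, h2⟩ := hv
    have hw : D.wc nb (e.1, v) = k6a3_crs (n0 - nb) (D.ms n0 (e.1, v)).2 := k6a4_wc_coarse D nb n0 hnb (e.1, v)
    rw [hpoly, hw, Prod.norm_def]
    exact max_le (h1.trans her) (h2.trans her)
  refine ⟨fun i => (a0 i, a i), fun i => ?_, hkey e.2 hfit, hc.trans (hvol.trans (measureReal_mono ?_ ?_))⟩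
  · rw [Prod.norm_def]
    exact max_le (ha0 i) (ha i)
  · rintro v ⟨h1, h2, h3⟩
    exact ⟨hEU h1, h2, hkey v h3⟩
  · refine ne_top_of_le_ne_top (measure_Icc_lt_top (a := (0 : ℝ)) (b := 1)).ne (measure_mono ?_)
    rintro v ⟨h1, -, -⟩
    exact hU1 (e.1, v) h1

theorem k6a4_da_half (n : ℕ) (s : ℝ) : ((1 / 2 : ℝ) ^ n) ^ s = (2 : ℝ) ^ (-((n : ℝ) * s)) := by
  have h : ((1 / 2 : ℝ) ^ n) = (2 : ℝ) ^ (-(n : ℝ)) := by
    rw [Real.rpow_neg (by norm_num), Real.rpow_natCast, one_div, inv_pow]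
  rw [h, ← Real.rpow_mul (by norm_num)]
  congr 1
  ring

theorem k6a4_da_W (n : ℕ) : k6aW n = (2 : ℝ) ^ (-(n : ℝ)) := by
  unfold k6aW
  rw [Real.rpow_neg (by norm_num), Real.rpow_natCast, one_div, inv_pow]

theorem k6a4_da_lin {t : ℝ} (ht : 0 ≤ t) : t / 2 ≤ (2 : ℝ) ^ t := by
  rw [Real.rpow_def_of_pos (by norm_num)]
  have h1 := Real.add_one_le_exp (Real.log 2 * t)
  have h2 := Real.log_two_gt_d9
  nlinarith

theorem k6a4_da_mono {s t : ℝ} (h : s ≤ t) : (2 : ℝ) ^ s ≤ (2 : ℝ) ^ t :=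
  Real.rpow_le_rpow_of_exponent_le (by norm_num) h

/-- the slack of the discovery -/
theorem k6a4_da_Ko {C Rm η' ε₃ k Lm : ℝ} {sp nz : ℕ} (hC : 1 ≤ C) (hRm : 0 < Rm) (hη' : 0 < η') (hε₃ : 0 < ε₃)
    (hk : 0 < k) (hLm : Lm = Rm / (η' / 4) + 2) (he : ε₃ ≤ η' / (8 * (C * Lm)))
    (hsp1 : η' / 4 * k ≤ sp) (hsp2 : (sp : ℝ) ≤ η' / 4 * k + 1) (hnz : (nz : ℝ) ≤ Rm * k)
    (hbig : 4 * (2 + (C * Lm) ^ (C * Lm)) / η' ≤ k) :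
    k6a4_Ko C ((2 : ℝ) ^ (ε₃ * k)) (1 / (2 : ℝ) ^ (ε₃ * k)) ((2 : ℝ) ^ sp) (k6a3_gl nz sp) ≤ (2 : ℝ) ^ (k * η') := by
  have hσ : 0 < η' / 4 := by positivity
  have hsp0 : (0 : ℝ) < sp := lt_of_lt_of_le (by positivity) hsp1
  have hLm2 : 2 ≤ Lm := by
    rw [hLm]
    have : 0 < Rm / (η' / 4) := by positivity
    linarith
  have hL : ((k6a3_gl nz sp : ℕ) : ℝ) + 1 ≤ Lm := by
    unfold k6a3_gl
    have h1 : (((nz + sp - 1) / sp : ℕ) : ℝ) ≤ ((nz + sp - 1 : ℕ) : ℝ) / sp := Nat.cast_div_le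
    have h2 : ((nz + sp - 1 : ℕ) : ℝ) ≤ nz + sp := by
      have : nz + sp - 1 ≤ nz + sp := Nat.sub_le _ _
      exact_mod_cast this
    have h3 : ((nz + sp - 1 : ℕ) : ℝ) / sp ≤ ((nz : ℝ) + sp) / sp := div_le_div_of_nonneg_right h2 hsp0.le
    have h4 : ((nz : ℝ) + sp) / sp = nz / sp + 1 := by
      field_simp
    have h5 : (nz : ℝ) / sp ≤ Rm / (η' / 4) := by
      rw [div_le_div_iff₀ hsp0 hσ]
      calc (nz : ℝ) * (η' / 4) ≤ Rm * k * (η' / 4) := mul_le_mul_of_nonneg_right hnz hσ.le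
        _ = Rm * (η' / 4 * k) := by ring
        _ ≤ Rm * sp := mul_le_mul_of_nonneg_left hsp1 hRm.le
    rw [hLm]
    linarith
  obtain ⟨X, hX⟩ : ∃ X, X = (2 : ℝ) ^ (ε₃ * k) := ⟨_, rfl⟩
  obtain ⟨L1, hL1⟩ : ∃ L1 : ℝ, L1 = ((k6a3_gl nz sp : ℕ) : ℝ) + 1 := ⟨_, rfl⟩
  obtain ⟨B0, hB0⟩ : ∃ B0 : ℝ, B0 = (C * Lm) ^ (C * Lm) := ⟨_, rfl⟩
  have hX1 : 1 ≤ X := by
    rw [hX]
    exact Real.one_le_rpow (by norm_num) (by positivity)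
  have hL11 : 1 ≤ L1 := by
    have : (0 : ℝ) ≤ ((k6a3_gl nz sp : ℕ) : ℝ) := Nat.cast_nonneg _
    linarith
  unfold k6a4_Ko
  rw [← hX, ← hL1]
  rw [← hL1] at hL
  rw [← hB0] at hbig
  have hX0 : 0 < X := by linarith
  have hB00 : 0 ≤ B0 := by
    rw [hB0]
    positivity
  have e1 : C * X * L1 / (1 / X) = C * L1 * (X * X) := by
    field_simp
  rw [e1]
  have hXX : 1 ≤ X * X := one_le_mul_of_one_le_of_one_le hX1 hX1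
  have b1 : 1 ≤ C * L1 * (X * X) := one_le_mul_of_one_le_of_one_le (one_le_mul_of_one_le_of_one_le hC hL11) hXX
  have b2 : C * L1 * (X * X) ≤ C * Lm * (X * X) :=
    mul_le_mul_of_nonneg_right (mul_le_mul_of_nonneg_left hL (by linarith)) (by linarith)
  have b3 : C * L1 ≤ C * Lm := mul_le_mul_of_nonneg_left hL (by linarith)
  have s1 : (C * L1 * (X * X)) ^ (C * L1) ≤ (C * Lm * (X * X)) ^ (C * L1) :=
    Real.rpow_le_rpow (by linarith) b2 (by positivity)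
  have s2 : (C * Lm * (X * X)) ^ (C * L1) ≤ (C * Lm * (X * X)) ^ (C * Lm) :=
    Real.rpow_le_rpow_of_exponent_le (b1.trans b2) b3
  have s3 : (C * Lm * (X * X)) ^ (C * Lm) = B0 * (X * X) ^ (C * Lm) := by
    rw [hB0]
    exact Real.mul_rpow (by positivity) (by positivity)
  have s4 : (X * X) ^ (C * Lm) = (2 : ℝ) ^ (2 * ε₃ * k * (C * Lm)) := by
    rw [hX, ← Real.rpow_add (by norm_num), ← Real.rpow_mul (by norm_num)]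
    congr 1
    ring
  have s5 : (2 : ℝ) ^ (2 * ε₃ * k * (C * Lm)) ≤ (2 : ℝ) ^ (η' / 4 * k) := by
    refine k6a4_da_mono ?_
    have h1 := (le_div_iff₀ (by positivity)).1 he
    have h2 := mul_le_mul_of_nonneg_right h1 hk.le
    nlinarith
  have s6 : (2 : ℝ) ^ sp ≤ 2 * (2 : ℝ) ^ (η' / 4 * k) := by
    rw [← Real.rpow_natCast]
    calc (2 : ℝ) ^ (sp : ℝ) ≤ (2 : ℝ) ^ (η' / 4 * k + 1) := k6a4_da_mono hsp2
      _ = 2 * (2 : ℝ) ^ (η' / 4 * k) := by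
        rw [Real.rpow_add (by norm_num), Real.rpow_one]
        ring
  have s7 : 2 + B0 ≤ (2 : ℝ) ^ (3 * (η' / 4 * k)) := by
    have h1 := k6a4_da_lin (t := 3 * (η' / 4 * k)) (by positivity)
    have h2 := (div_le_iff₀ hη').1 hbig
    linarith
  have s8 : (2 : ℝ) ^ (k * η') = (2 : ℝ) ^ (η' / 4 * k) * (2 : ℝ) ^ (3 * (η' / 4 * k)) := by
    rw [← Real.rpow_add (by norm_num)]
    congr 1
    ring
  obtain ⟨V, hV⟩ : ∃ V, V = (2 : ℝ) ^ (η' / 4 * k) := ⟨_, rfl⟩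
  have hV0 : 0 < V := by
    rw [hV]
    positivity
  rw [s8, ← hV]
  rw [← hV] at s5 s6
  have s9 : (C * L1 * (X * X)) ^ (C * L1) ≤ B0 * V := by
    refine (s1.trans s2).trans ?_
    rw [s3, s4]
    exact mul_le_mul_of_nonneg_left s5 hB00
  calc (2 : ℝ) ^ sp + (C * L1 * (X * X)) ^ (C * L1) ≤ 2 * V + B0 * V := add_le_add s6 s9
    _ = V * (2 + B0) := by ring
    _ ≤ V * (2 : ℝ) ^ (3 * (η' / 4 * k)) := mul_le_mul_of_nonneg_left s7 hV0.le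

/-- the third inequality -/
theorem k6a4_da_3 {ε ε₃ k : ℝ} {j : ℕ} (hj : j ≤ 2) (hε₃ : 0 < ε₃) (he : ε₃ ≤ ε / 4) (hk : 0 < k) (hbig : 4 ≤ ε * k) :
    2 * (2 : ℝ) ^ (ε₃ * k) + j * (2 : ℝ) ^ (ε₃ * k) * (2 : ℝ) ^ (k * (ε / 4)) ≤ (2 : ℝ) ^ (ε * k) := by
  obtain ⟨X, hX⟩ : ∃ X, X = (2 : ℝ) ^ (ε₃ * k) := ⟨_, rfl⟩
  obtain ⟨V, hV⟩ : ∃ V, V = (2 : ℝ) ^ (k * (ε / 4)) := ⟨_, rfl⟩
  have hX0 : 0 < X := by
    rw [hX]
    positivity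
  have hXV : X ≤ V := by
    rw [hX, hV]
    refine k6a4_da_mono ?_
    nlinarith
  have hV2 : 2 ≤ V := by
    rw [hV]
    calc (2 : ℝ) = (2 : ℝ) ^ (1 : ℝ) := (Real.rpow_one 2).symm
      _ ≤ (2 : ℝ) ^ (k * (ε / 4)) := k6a4_da_mono (by linarith)
  have e : (2 : ℝ) ^ (ε * k) = V * V * (V * V) := by
    rw [hV, ← Real.rpow_add (by norm_num), ← Real.rpow_add (by norm_num)]
    congr 1
    ring
  have hj' : (j : ℝ) ≤ 2 := by exact_mod_cast hj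
  have hj0 : (0 : ℝ) ≤ j := Nat.cast_nonneg _
  rw [← hX, ← hV, e]
  have h1 : (j : ℝ) * X * V ≤ 2 * V * V :=
    mul_le_mul_of_nonneg_right (mul_le_mul hj' hXV hX0.le (by norm_num)) (by linarith)
  have h2 : 4 ≤ V * V := by nlinarith
  have h3 : 2 * X ≤ V * V := by nlinarith
  nlinarith

/-- the fifth inequality -/
theorem k6a4_da_5 {ε₃ k κ : ℝ} {j M nr nb : ℕ} (hj : j ≤ 2) (hε₃ : 0 < ε₃) (he : ε₃ ≤ 1 / 16) (hk : 32 ≤ k)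
    (hr : ((M : ℝ) + 1) * k ≤ nr) (hb : ((M : ℝ) + 1) * k ≤ κ * nb) :
    (1 + j * (2 : ℝ) ^ (ε₃ * k)) * ((2 : ℝ) ^ (-(k * ((M : ℝ) + 1 / 4))) + (2 : ℝ) ^ (ε₃ * k) * (2 : ℝ) ^ (-(nr : ℝ)))
      + (2 : ℝ) ^ (-((nb : ℝ) * κ)) ≤ (2 : ℝ) ^ (-(k * (M : ℝ))) / 2 := by
  obtain ⟨X, hX⟩ : ∃ X, X = (2 : ℝ) ^ (ε₃ * k) := ⟨_, rfl⟩
  obtain ⟨u, hu⟩ : ∃ u, u = (2 : ℝ) ^ (-(k * (M : ℝ))) := ⟨_, rfl⟩
  obtain ⟨a, ha⟩ : ∃ a, a = (2 : ℝ) ^ (-(k / 4)) := ⟨_, rfl⟩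
  have hX1 : 1 ≤ X := by
    rw [hX]
    exact Real.one_le_rpow (by norm_num) (by positivity)
  have hu0 : 0 < u := by
    rw [hu]
    positivity
  have ha0 : 0 < a := by
    rw [ha]
    positivity
  have e1 : (2 : ℝ) ^ (-(k * ((M : ℝ) + 1 / 4))) = u * a := by
    rw [hu, ha, ← Real.rpow_add (by norm_num)]
    congr 1
    ring
  have e2 : (2 : ℝ) ^ (-(nr : ℝ)) ≤ u * a := by
    rw [← e1]
    refine k6a4_da_mono ?_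
    nlinarith
  have e3 : (2 : ℝ) ^ (-((nb : ℝ) * κ)) ≤ u * a := by
    rw [← e1]
    refine k6a4_da_mono ?_
    nlinarith
  have e4 : X * X * a ≤ 1 / 16 := by
    rw [hX, ha, ← Real.rpow_add (by norm_num), ← Real.rpow_add (by norm_num)]
    calc (2 : ℝ) ^ (ε₃ * k + ε₃ * k + -(k / 4)) ≤ (2 : ℝ) ^ (-(4 : ℝ)) := k6a4_da_mono (by nlinarith)
      _ = 1 / 16 := by
        rw [Real.rpow_neg (by norm_num), show (4 : ℝ) = ((4 : ℕ) : ℝ) by norm_num, Real.rpow_natCast]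
        norm_num
  have hj' : (j : ℝ) ≤ 2 := by exact_mod_cast hj
  have hj0 : (0 : ℝ) ≤ j := Nat.cast_nonneg _
  rw [← hX, ← hu, e1]
  have hua : 0 < u * a := mul_pos hu0 ha0
  have f1 : 1 + (j : ℝ) * X ≤ 3 * X := by nlinarith
  have f2 : u * a + X * (2 : ℝ) ^ (-(nr : ℝ)) ≤ 2 * X * (u * a) := by
    have := mul_le_mul_of_nonneg_left e2 (by linarith : (0 : ℝ) ≤ X)
    nlinarith
  have f3 : (1 + (j : ℝ) * X) * (u * a + X * (2 : ℝ) ^ (-(nr : ℝ))) ≤ 3 * X * (2 * X * (u * a)) :=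
    mul_le_mul f1 f2 (by positivity) (by linarith)
  have f4 : u * a ≤ u * (X * X * a) := by
    have : 1 ≤ X * X := one_le_mul_of_one_le_of_one_le hX1 hX1
    have h2 : a ≤ X * X * a := by nlinarith
    exact mul_le_mul_of_nonneg_left h2 hu0.le
  have f5 : u * (X * X * a) ≤ u * (1 / 16) := mul_le_mul_of_nonneg_left e4 hu0.le
  have f6 : 3 * X * (2 * X * (u * a)) = 6 * (u * (X * X * a)) := by ring
  linarith

/-- D2. **the arithmetic of the discovery.**   `σ = η'/4`, `sp = ⌈σ kh⌉₊`, `Lm = Rm/σ + 2 ≥ k6a3_gl nz sp + 1` (`nz ≤ n0 ≤ Rm kh`), `ε₃ = min (1/16) (min (ε/4) (η'/(8 C Lm)))`, `X = 2^(ε₃ kh)`: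
`Ko = 2^sp + (C (L+1) X²)^(C (L+1)) ≤ 2·2^(η' kh/4) + (C Lm)^(C Lm) 2^(η' kh/4) ≤ 2^(η' kh)`;   `k6aW nr ≤ h^(M+1)`, `k6aW nb ^ κ ≤ (1/2)^(nr+nz+kh) ≤ h^(M+1)`, `X² h^(1/4) ≤ 2^(-kh/8)`;   `k1` large. -/
theorem k6a4_disc_arith (j M : ℕ) (C Zx Rm ε η' : ℝ) (hj : j ≤ 2) (hC : 1 ≤ C) (hZx : 0 < Zx) (hRm : 0 < Rm)
    (hε : 0 < ε) (hη' : 0 < η') :
    ∃ (ε₃ : ℝ) (k1 : ℕ), 0 < ε₃ ∧ ε₃ ≤ 1 / 4 ∧ ∀ (κ : ℝ) (kh nz nr nb n0 : ℕ), 0 < κ → κ ≤ 1 → k1 ≤ kh →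
      K6aLv M Zx κ Rm kh nz nr nb n0 →
      ∃ sp : ℕ, 1 ≤ sp ∧
        k6a4_Ko C ((2 : ℝ) ^ (ε₃ * kh)) (1 / (2 : ℝ) ^ (ε₃ * kh)) ((2 : ℝ) ^ sp) (k6a3_gl nz sp)
          ≤ ((1 / 2 : ℝ) ^ kh) ^ (-η') ∧
        k6aW nz ≤ ((1 / 2 : ℝ) ^ kh) ^ Zx ∧
        2 * (2 : ℝ) ^ (ε₃ * kh) + j * (2 : ℝ) ^ (ε₃ * kh) * ((1 / 2 : ℝ) ^ kh) ^ (-(ε / 4)) ≤ (2 : ℝ) ^ (ε * kh) ∧
        ((1 / 2 : ℝ) ^ kh) ^ (-(ε / 4)) ≤ (2 : ℝ) ^ (ε * kh) ∧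
        (1 + j * (2 : ℝ) ^ (ε₃ * kh)) * (((1 / 2 : ℝ) ^ kh) ^ ((M : ℝ) + 1 / 4) + (2 : ℝ) ^ (ε₃ * kh) * k6aW nr)
          + k6aW nb ^ κ ≤ k6aW kh ^ M / 2 ∧
        k6aW kh / (2 : ℝ) ^ (ε * kh) ≤ ((1 / 2 : ℝ) ^ kh) ^ (1 + ε / 4) := by
  obtain ⟨Lm, hLm⟩ : ∃ Lm : ℝ, Lm = Rm / (η' / 4) + 2 := ⟨_, rfl⟩
  have hLm2 : 2 ≤ Lm := by
    rw [hLm]
    have : 0 < Rm / (η' / 4) := by positivity
    linarith
  have hCL : 0 < 8 * (C * Lm) := by positivity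
  refine ⟨min (1 / 16) (min (ε / 4) (η' / (8 * (C * Lm)))),
    max 32 (max ⌈4 / ε⌉₊ ⌈4 * (2 + (C * Lm) ^ (C * Lm)) / η'⌉₊), by positivity,
    (min_le_left _ _).trans (by norm_num), ?_⟩
  obtain ⟨ε₃, hε₃d⟩ : ∃ ε₃ : ℝ, ε₃ = min (1 / 16) (min (ε / 4) (η' / (8 * (C * Lm)))) := ⟨_, rfl⟩
  rw [← hε₃d]
  have hε₃ : 0 < ε₃ := by
    rw [hε₃d]
    positivity
  have he1 : ε₃ ≤ 1 / 16 := by
    rw [hε₃d]
    exact min_le_left _ _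
  have he2 : ε₃ ≤ ε / 4 := by
    rw [hε₃d]
    exact (min_le_right _ _).trans (min_le_left _ _)
  have he3 : ε₃ ≤ η' / (8 * (C * Lm)) := by
    rw [hε₃d]
    exact (min_le_right _ _).trans (min_le_right _ _)
  intro κ kh nz nr nb n0 hκ hκ1 hk hLv
  have hk32 : (32 : ℝ) ≤ kh := by
    have : 32 ≤ kh := le_of_max_le_left hk
    exact_mod_cast this
  have hk0 : (0 : ℝ) < kh := by linarith
  have hkε : 4 ≤ ε * kh := by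
    have h1 : ⌈4 / ε⌉₊ ≤ kh := le_of_max_le_left (le_of_max_le_right hk)
    have h2 : 4 / ε ≤ (kh : ℝ) := (Nat.le_ceil _).trans (by exact_mod_cast h1)
    have h3 := (div_le_iff₀ hε).1 h2
    linarith
  have hkB : 4 * (2 + (C * Lm) ^ (C * Lm)) / η' ≤ (kh : ℝ) := by
    have h1 : ⌈4 * (2 + (C * Lm) ^ (C * Lm)) / η'⌉₊ ≤ kh := le_of_max_le_right (le_of_max_le_right hk)
    exact (Nat.le_ceil _).trans (by exact_mod_cast h1)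
  have hσk : 0 < η' / 4 * (kh : ℝ) := by positivity
  have hnz : (nz : ℝ) ≤ Rm * kh := by
    have h1 : nz ≤ n0 := le_trans (Nat.le_add_left _ _) hLv.rz_le
    have h2 : (nz : ℝ) ≤ n0 := by exact_mod_cast h1
    exact h2.trans hLv.bdd
  have hr : ((M : ℝ) + 1) * kh ≤ nr := by exact_mod_cast hLv.r_h
  have hb : ((M : ℝ) + 1) * kh ≤ κ * nb := by
    refine le_trans (hr.trans ?_) hLv.b_fine
    have : nr ≤ nr + nz + kh := by omega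
    exact_mod_cast this
  refine ⟨⌈η' / 4 * (kh : ℝ)⌉₊, Nat.ceil_pos.2 hσk, ?_, ?_, ?_, ?_, ?_, ?_⟩
  · have e : ((1 / 2 : ℝ) ^ kh) ^ (-η') = (2 : ℝ) ^ ((kh : ℝ) * η') := by
      rw [k6a4_da_half]
      congr 1
      ring
    rw [e]
    exact k6a4_da_Ko hC hRm hη' hε₃ hk0 hLm he3 (Nat.le_ceil _) (Nat.ceil_lt_add_one hσk.le).le hnz hkB
  · rw [k6a4_da_half, k6a4_da_W]
    refine k6a4_da_mono ?_
    have := hLv.z_fine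
    linarith
  · have e : ((1 / 2 : ℝ) ^ kh) ^ (-(ε / 4)) = (2 : ℝ) ^ ((kh : ℝ) * (ε / 4)) := by
      rw [k6a4_da_half]
      congr 1
      ring
    rw [e]
    exact k6a4_da_3 hj hε₃ he2 hk0 hkε
  · rw [k6a4_da_half]
    refine k6a4_da_mono ?_
    nlinarith
  · have e1 : k6aW kh ^ M = (2 : ℝ) ^ (-((kh : ℝ) * (M : ℝ))) := by
      unfold k6aW
      rw [← Real.rpow_natCast, k6a4_da_half]
    have e2 : k6aW nb ^ κ = (2 : ℝ) ^ (-((nb : ℝ) * κ)) := by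
      unfold k6aW
      rw [k6a4_da_half]
    rw [e1, e2, k6a4_da_half, k6a4_da_W]
    exact k6a4_da_5 hj hε₃ he1 hk32 hr hb
  · rw [k6a4_da_half, k6a4_da_W, div_eq_mul_inv, ← Real.rpow_neg (by norm_num), ← Real.rpow_add (by norm_num)]
    refine k6a4_da_mono ?_
    nlinarith

/-- **the discovery hub** -/
theorem k6a_hub_disc (h3 : k6a3_hub_stmt) (hG : k6a3_br_grid_stmt) : k6a_hub_disc_stmt := by
  intro j M d θ κ hj hM hd0 hd hθ hθ1 hFJ hκ hκ1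
  obtain ⟨C, Zx, hC, hZx, hfit⟩ := k6a4_fit j M d θ hM hd0 hd hθ hθ1 hFJ
  refine ⟨Zx, hZx, fun Rm ε hε => ?_⟩
  have hj2 : j ≤ 2 := by rcases hj with h | h <;> omega
  by_cases hRm : 0 < Rm
  swap
  · -- no admissible levels
    refine ⟨1, 1, one_pos, ?_⟩
    intro D K δ w e kh nz nr nb n0 E U Lc m0 g hk _ _ hLv
    exfalso
    have h1 : (n0 : ℝ) ≤ 0 := hLv.bdd.trans (mul_nonpos_of_nonpos_of_nonneg (not_lt.1 hRm) (Nat.cast_nonneg _))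
    have h2 : n0 = 0 := by exact_mod_cast le_antisymm h1 (Nat.cast_nonneg _)
    have h3 := hLv.r_h
    have h4 := hLv.rz_le
    have h5 : 1 ≤ (M + 1) * kh := Nat.mul_pos (by omega) (by omega)
    omega
  obtain ⟨η', k₀', hη', hfit'⟩ := hfit (ε / 4) (by positivity)
  obtain ⟨ε₃, k1, hε₃, hε₃4, har⟩ := k6a4_disc_arith j M C Zx Rm ε η' hj2 hC hZx hRm hε hη'
  obtain ⟨η, k0, hη, hhub⟩ := h3 j d κ Rm hj hd0 hd hκ hκ1 hRm ε₃ hε₃ hε₃4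
  refine ⟨η, max k0 (max k₀' k1), hη, ?_⟩
  intro D K δ w e kh nz nr nb n0 E U Lc m0 g hk hK hKη hLv hWF hPh hGr hw hKw hBrd hδ hδe hKe hUm hUE hmass
  have hk0 : k0 ≤ kh := le_of_max_le_left hk
  have hk0' : k₀' ≤ kh := le_of_max_le_left (le_of_max_le_right hk)
  have hk1 : k1 ≤ kh := le_of_max_le_right (le_of_max_le_right hk)
  obtain ⟨E', Ws, F, hE'U, hIn, hSc, hm⟩ := hhub D K δ w e kh nz nr nb n0 E U Lc m0 g hk0 hK hKη hLv.r_z hLv.b_fine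
    hLv.nb_le hLv.rz_le hLv.bdd hWF hPh hGr hw hKw hBrd hδ hδe hKe hUm hUE hmass
  obtain ⟨sp, hsp, a1, a2, a3, a4, a5, a6⟩ := har κ kh nz nr nb n0 hκ hκ1 hk1 hLv
  obtain ⟨⟨g0, gL, gpos, gmono, grat⟩, -, glev⟩ := hG nz sp hsp
  have hX : (1 : ℝ) ≤ (2 : ℝ) ^ (ε₃ * kh) := Real.one_le_rpow (by norm_num) (by positivity)
  have hX0 : (0 : ℝ) < (2 : ℝ) ^ (ε₃ * kh) := by positivity
  have hDy : ∀ i ≤ k6a3_gl nz sp, k6a3_gs nz sp i ∈ k5_Dy (k6aW nz) := by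
    intro i _
    obtain ⟨m, hm, hgm⟩ := glev i
    rw [hgm]
    refine ⟨?_, m, rfl⟩
    unfold k6aW
    exact pow_le_pow_of_le_one (by norm_num) (by norm_num) hm
  obtain ⟨x, hxE', a0, a, ha0, ha, hfx, hvol⟩ := hfit' hIn hSc kh (k6a3_gl nz sp) (k6a3_gs nz sp) ((2 : ℝ) ^ sp)
    (1 / (2 : ℝ) ^ (ε₃ * kh)) hk0' (one_le_pow₀ (by norm_num)) g0 gL hDy gmono grat (by positivity)
    (by rw [div_le_one hX0]; exact hX) hm a1 a2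
  refine ⟨x, hE'U hxE', ?_⟩
  exact k6a4_qual_of_fit D kh M nb n0 hLv.nb_le g E' U hE'U (fun e he => (hPh.E_sub (hUE he)).2) x a0 a _ _ _ _
    (fun i => (ha0 i).trans a3) (fun i => (ha i).trans a4) a5 hfx a6 hvol

end Claimed.Agent.R252
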