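import Claimed.Agent.R252.S6a.Q4Defs
import Claimed.Agent.R252.S6a.Pay

/-!
# ROW 252, unit S6a, post BP-252-S6a4 (sub-architect helper198; prefix `k6a4_`), file 2: GENERIC LEAVES (paper-free measure theory and counting).   CONTRACT: each `sorry` is a leaf `L-252-S6a4-G*`.

`μ` is an arbitrary measure (in the application `ν.prod volume`, NOT finite): finiteness is the hypothesis `μ E ≠ ⊤`.
-/

set_option autoImplicit false

namespace Claimed.Agent.R252

open MeasureTheory Set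
open scoped BigOperators ENNReal

theorem k6a4_keep_sub {Ω κ : Type} [MeasurableSpace Ω] (μ : Measure Ω) (E : Set Ω) (key : Ω → κ) (thr : κ → ℝ) :
    k6a4_keep μ E key thr ⊆ E := fun _ h => h.1

/-- G1. the retained entries form a measurable set -/
theorem k6a4_keep_meas {Ω κ : Type} [MeasurableSpace Ω] (μ : Measure Ω) (E : Set Ω) (hE : MeasurableSet E)
    (key : Ω → κ) (hk : ∀ k, MeasurableSet (key ⁻¹' {k})) (S : Finset κ) (hS : ∀ x ∈ E, key x ∈ S) (thr : κ → ℝ) :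
    MeasurableSet (k6a4_keep μ E key thr) := by
  classical
  have h : k6a4_keep μ E key thr = ⋃ k ∈ S.filter (fun k => thr k ≤ μ.real (E ∩ key ⁻¹' {k}) ∧ 0 < μ.real (E ∩ key ⁻¹' {k})),
      E ∩ key ⁻¹' {k} := by
    ext x
    simp only [k6a4_keep, mem_iUnion, Finset.mem_filter, mem_ofPred_eq, exists_prop]
    constructor
    · rintro ⟨hx, h1, h2⟩
      exact ⟨key x, ⟨hS x hx, h1, h2⟩, hx, rfl⟩
    · rintro ⟨k, ⟨_, h1, h2⟩, hx, rfl⟩
      exact ⟨hx, h1, h2⟩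
  rw [h]
  exact Finset.measurableSet_biUnion _ (fun k _ => hE.inter (hk k))

/-- G2. **deletion of light entries**, two-level keys: the threshold depends on the first key only, every first key has at most `N` second keys. -/
theorem k6a4_keep_loss {Ω κ₁ κ₂ : Type} [MeasurableSpace Ω] (μ : Measure Ω) (E : Set Ω) (hE : MeasurableSet E)
    (hfin : μ E ≠ ⊤) (key₁ : Ω → κ₁) (key₂ : Ω → κ₂) (hk₁ : ∀ k, MeasurableSet (key₁ ⁻¹' {k}))
    (hk₂ : ∀ k, MeasurableSet (key₂ ⁻¹' {k})) (S : Finset κ₁) (hS : ∀ x ∈ E, key₁ x ∈ S) (T : κ₁ → Finset κ₂)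
    (hT : ∀ x ∈ E, key₂ x ∈ T (key₁ x)) (N : ℝ) (hN : ∀ k ∈ S, ((T k).card : ℝ) ≤ N) (thr : κ₁ → ℝ)
    (h0 : ∀ k, 0 ≤ thr k) :
    μ.real (E \ k6a4_keep μ E (fun x => (key₁ x, key₂ x)) (fun k => thr k.1)) ≤ N * ∑ k ∈ S, thr k := by
  set key : Ω → κ₁ × κ₂ := fun x => (key₁ x, key₂ x) with hkey
  set R : Set Ω := E \ k6a4_keep μ E key (fun k => thr k.1) with hR
  have hRE : R ⊆ E := sdiff_subset
  have hcov : R ⊆ ⋃ k₁ ∈ S, ⋃ k₂ ∈ T k₁, R ∩ key ⁻¹' {(k₁, k₂)} := by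
    intro x hx
    simp only [mem_iUnion, exists_prop]
    exact ⟨key₁ x, hS x (hRE hx), key₂ x, hT x (hRE hx), hx, rfl⟩
  have hfinU : μ (⋃ k₁ ∈ S, ⋃ k₂ ∈ T k₁, R ∩ key ⁻¹' {(k₁, k₂)}) ≠ ⊤ := by
    refine ne_top_of_le_ne_top hfin (measure_mono ?_)
    simp only [iUnion_subset_iff]
    intro k₁ _ k₂ _ x hx
    exact hRE hx.1
  have hone : ∀ k₁ k₂, μ.real (R ∩ key ⁻¹' {(k₁, k₂)}) ≤ thr k₁ := by
    intro k₁ k₂
    rcases eq_empty_or_nonempty (R ∩ key ⁻¹' {(k₁, k₂)}) with he | ⟨x, hx, hxk⟩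
    · rw [he, measureReal_empty]
      exact h0 k₁
    have hxk' : key x = (k₁, k₂) := hxk
    have h1 : μ.real (R ∩ key ⁻¹' {(k₁, k₂)}) ≤ μ.real (E ∩ key ⁻¹' {(k₁, k₂)}) :=
      measureReal_mono (inter_subset_inter_left _ hRE)
        (ne_top_of_le_ne_top hfin (measure_mono inter_subset_left))
    refine h1.trans ?_
    by_contra hcon
    push Not at hcon
    apply hx.2
    refine ⟨hx.1, ?_, ?_⟩
    · rw [hxk']
      exact hcon.le
    · rw [hxk']
      exact lt_of_le_of_lt (h0 k₁) hcon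
  calc μ.real R ≤ μ.real (⋃ k₁ ∈ S, ⋃ k₂ ∈ T k₁, R ∩ key ⁻¹' {(k₁, k₂)}) := measureReal_mono hcov hfinU
    _ ≤ ∑ k₁ ∈ S, μ.real (⋃ k₂ ∈ T k₁, R ∩ key ⁻¹' {(k₁, k₂)}) := measureReal_biUnion_finset_le _ _
    _ ≤ ∑ k₁ ∈ S, ∑ k₂ ∈ T k₁, μ.real (R ∩ key ⁻¹' {(k₁, k₂)}) :=
        Finset.sum_le_sum fun k₁ _ => measureReal_biUnion_finset_le _ _
    _ ≤ ∑ k₁ ∈ S, ∑ _k₂ ∈ T k₁, thr k₁ := Finset.sum_le_sum fun k₁ _ => Finset.sum_le_sum fun k₂ _ => hone k₁ k₂
    _ = ∑ k₁ ∈ S, ((T k₁).card : ℝ) * thr k₁ := by simp only [Finset.sum_const, nsmul_eq_mul]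
    _ ≤ ∑ k₁ ∈ S, N * thr k₁ := Finset.sum_le_sum fun k₁ hk => mul_le_mul_of_nonneg_right (hN k₁ hk) (h0 k₁)
    _ = N * ∑ k ∈ S, thr k := by rw [Finset.mul_sum]

/-- a set all of whose finite subsets satisfy a bound on the cardinality which fails for large numbers is a `Finset` satisfying this bound -/
theorem k6a4g_finite_of_card {α : Type} (P : Set α) (Q : ℕ → Prop) (hQ : ∃ n, ∀ m, n ≤ m → ¬ Q m)
    (h : ∀ F : Finset α, (F : Set α) ⊆ P → Q F.card) : ∃ T : Finset α, Q T.card ∧ ∀ x, x ∈ P → x ∈ T := by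
  have hfin : P.Finite := by
    by_contra hinf
    obtain ⟨n, hn⟩ := hQ
    obtain ⟨F, hF1, hF2⟩ := Set.Infinite.exists_subset_card_eq hinf n
    exact hn n le_rfl (hF2 ▸ h F hF1)
  refine ⟨hfin.toFinset, h _ (by simp), fun x hx => hfin.mem_toFinset.2 hx⟩

/-- G3. at most `M / c₀` entries of mass `≥ c₀` in a set of mass `≤ M` -/
theorem k6a4_count {Ω κ : Type} [MeasurableSpace Ω] (μ : Measure Ω) (A : Set Ω) (hA : MeasurableSet A) (hfin : μ A ≠ ⊤)
    (key : Ω → κ) (hk : ∀ k, MeasurableSet (key ⁻¹' {k})) (c₀ M : ℝ) (hc : 0 < c₀) (hM : μ.real A ≤ M) :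
    ∃ T : Finset κ, (T.card : ℝ) * c₀ ≤ M ∧ ∀ k, c₀ ≤ μ.real (A ∩ key ⁻¹' {k}) → k ∈ T := by
  refine k6a4g_finite_of_card {k | c₀ ≤ μ.real (A ∩ key ⁻¹' {k})} (fun n : ℕ => (n : ℝ) * c₀ ≤ M) ?_ ?_
  · obtain ⟨n, hn⟩ := exists_nat_gt (M / c₀)
    refine ⟨n, fun m hm hle => ?_⟩
    rw [div_lt_iff₀ hc] at hn
    have : (n : ℝ) ≤ m := by exact_mod_cast hm
    nlinarith
  · intro F hF
    have hfinF : ∀ k ∈ F, μ (A ∩ key ⁻¹' {k}) ≠ ⊤ := fun k _ =>
      ne_top_of_le_ne_top hfin (measure_mono inter_subset_left)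
    have hd : (F : Set κ).PairwiseDisjoint (fun k => A ∩ key ⁻¹' {k}) := by
      intro k _ k' _ hkk
      refine Set.disjoint_left.2 fun x hx hx' => hkk ?_
      have h1 : key x = k := hx.2
      have h2 : key x = k' := hx'.2
      rw [← h1, h2]
    calc (F.card : ℝ) * c₀ = ∑ _k ∈ F, c₀ := by rw [Finset.sum_const, nsmul_eq_mul]
      _ ≤ ∑ k ∈ F, μ.real (A ∩ key ⁻¹' {k}) := Finset.sum_le_sum fun k hk => hF hk
      _ = μ.real (⋃ k ∈ F, A ∩ key ⁻¹' {k}) := (measureReal_biUnion_finset hd (fun k _ => hA.inter (hk k)) hfinF).symm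
      _ ≤ μ.real A := measureReal_mono (by simp only [iUnion_subset_iff]; exact fun k _ => inter_subset_left) hfin
      _ ≤ M := hM

/-- G4. **the residual list by paying against the palette** (06 l.775-799), abstract form.   `A` = the incidences of one zoomed cell of one world, `w` = fine state, `J` = fine velocity bin (values in `Js`, palette weights `p`,
total `≤ pI`), `r` = residual bin.   `r` is constant up to `1` on a state; a velocity bin supports `≤ k` residual bins; `μ(W, J) ≤ K m0(W) p(J)`.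
Then the states of mass `≥ m0(W) pI / Kc` (and `> 0`) see at most `3 k K Kc` residual bins altogether. -/
theorem k6a4_pay_list {Ω ι κ : Type} [MeasurableSpace Ω] (μ : Measure Ω) (A : Set Ω) (hA : MeasurableSet A)
    (hfin : μ A ≠ ⊤) (w : Ω → ι) (J : Ω → κ) (r : Ω → ℤ) (hw : ∀ i, MeasurableSet (w ⁻¹' {i}))
    (hJ : ∀ x, MeasurableSet (J ⁻¹' {x})) (Js : Finset κ) (p : κ → ℝ) (pI K Kc k : ℝ) (m0 : ι → ℝ)
    (hJs : ∀ x ∈ A, J x ∈ Js) (hp : ∀ x ∈ Js, 0 ≤ p x) (hpI : ∑ x ∈ Js, p x ≤ pI) (hK : 0 < K) (hKc : 0 < Kc) (hk0 : 0 ≤ k)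
    (hm0 : ∀ i, 0 ≤ m0 i)
    (hconst : ∀ x ∈ A, ∀ x' ∈ A, w x = w x' → |r x - r x'| ≤ 1)
    (hcount : ∀ y ∈ Js, ∃ T : Finset ℤ, (T.card : ℝ) ≤ k ∧ ∀ x ∈ A, J x = y → r x ∈ T)
    (hjoint : ∀ i y, μ.real (A ∩ w ⁻¹' {i} ∩ J ⁻¹' {y}) ≤ K * m0 i * p y) :
    ∃ T : Finset ℤ, (T.card : ℝ) ≤ 3 * k * K * Kc ∧
      ∀ x ∈ A, m0 (w x) * pI / Kc ≤ μ.real (A ∩ w ⁻¹' {w x}) → 0 < μ.real (A ∩ w ⁻¹' {w x}) → r x ∈ T := by
  classical
  choose! Tl hTl1 hTl2 using hcount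
  set Rl : ℤ → κ → Prop := fun ρ y => ∃ τ ∈ Tl y, |τ - ρ| ≤ 1 with hRl
  set P : Set ℤ := {ρ | ∃ x ∈ A, m0 (w x) * pI / Kc ≤ μ.real (A ∩ w ⁻¹' {w x}) ∧ 0 < μ.real (A ∩ w ⁻¹' {w x}) ∧ r x = ρ} with hP
  have hkey : ∀ ρ ∈ P, 0 < pI ∧ pI / (Kc * K) ≤ ∑ y ∈ Js.filter (fun y => Rl ρ y), p y := by
    rintro ρ ⟨x, hxA, hx1, hx2, rfl⟩
    have hdec : μ.real (A ∩ w ⁻¹' {w x}) ≤ ∑ y ∈ Js.filter (fun y => Rl (r x) y), K * m0 (w x) * p y := by
      have hcov : A ∩ w ⁻¹' {w x} ⊆ ⋃ y ∈ Js.filter (fun y => Rl (r x) y), A ∩ w ⁻¹' {w x} ∩ J ⁻¹' {y} := by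
        intro x' hx'
        simp only [mem_iUnion, exists_prop, Finset.mem_filter]
        exact ⟨J x', ⟨hJs x' hx'.1, r x', hTl2 _ (hJs x' hx'.1) x' hx'.1 rfl, hconst x' hx'.1 x hxA hx'.2⟩, hx', rfl⟩
      have hfinU : μ (⋃ y ∈ Js.filter (fun y => Rl (r x) y), A ∩ w ⁻¹' {w x} ∩ J ⁻¹' {y}) ≠ ⊤ := by
        refine ne_top_of_le_ne_top hfin (measure_mono ?_)
        simp only [iUnion_subset_iff]
        intro y _ x' hx'
        exact hx'.1.1
      calc μ.real (A ∩ w ⁻¹' {w x}) ≤ μ.real (⋃ y ∈ Js.filter (fun y => Rl (r x) y), A ∩ w ⁻¹' {w x} ∩ J ⁻¹' {y}) :=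
            measureReal_mono hcov hfinU
        _ ≤ ∑ y ∈ Js.filter (fun y => Rl (r x) y), μ.real (A ∩ w ⁻¹' {w x} ∩ J ⁻¹' {y}) := measureReal_biUnion_finset_le _ _
        _ ≤ _ := Finset.sum_le_sum fun y _ => hjoint (w x) y
    rw [← Finset.mul_sum] at hdec
    set Sg : ℝ := ∑ y ∈ Js.filter (fun y => Rl (r x) y), p y with hSg
    have hSg0 : 0 ≤ Sg := Finset.sum_nonneg (fun y hy => hp y (Finset.mem_filter.1 hy).1)
    have hSgle : Sg ≤ pI :=
      (Finset.sum_le_sum_of_subset_of_nonneg (Finset.filter_subset _ _) (fun y hy _ => hp y hy)).trans hpI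
    have hm0pos : 0 < m0 (w x) := by
      rcases (hm0 (w x)).lt_or_eq with h | h
      · exact h
      · rw [← h] at hdec
        simp only [mul_zero, zero_mul] at hdec
        linarith
    have hSgpos : 0 < Sg := by
      rcases hSg0.lt_or_eq with h | h
      · exact h
      · rw [← h] at hdec
        simp only [mul_zero] at hdec
        linarith
    refine ⟨lt_of_lt_of_le hSgpos hSgle, ?_⟩
    have h3 : m0 (w x) * pI / Kc ≤ K * m0 (w x) * Sg := hx1.trans hdec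
    rw [div_le_iff₀ (by positivity)]
    rw [div_le_iff₀ hKc] at h3
    have h4 : m0 (w x) * pI ≤ m0 (w x) * (Sg * (Kc * K)) := by
      calc m0 (w x) * pI ≤ K * m0 (w x) * Sg * Kc := h3
        _ = m0 (w x) * (Sg * (Kc * K)) := by ring
    exact le_of_mul_le_mul_left h4 hm0pos
  have hcnt : ∀ (F : Finset ℤ), ∀ y ∈ Js, (F.filter (fun ρ => Rl ρ y)).card ≤ ⌊3 * k⌋₊ := by
    intro F y hy
    have hsub : F.filter (fun ρ => Rl ρ y) ⊆ (Tl y).biUnion (fun τ => {τ - 1, τ, τ + 1}) := by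
      intro ρ hρ
      obtain ⟨τ, hτ, hτρ⟩ := (Finset.mem_filter.1 hρ).2
      rw [Finset.mem_biUnion]
      refine ⟨τ, hτ, ?_⟩
      simp only [Finset.mem_insert, Finset.mem_singleton]
      rw [abs_le] at hτρ
      omega
    have h1 : ((Tl y).biUnion (fun τ => ({τ - 1, τ, τ + 1} : Finset ℤ))).card ≤ (Tl y).card * 3 :=
      Finset.card_biUnion_le_card_mul _ _ _ (fun τ _ => Finset.card_le_three)
    refine (Finset.card_le_card hsub).trans (h1.trans ?_)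
    apply Nat.le_floor
    push_cast
    linarith [hTl1 y hy]
  obtain ⟨T, hT1, hT2⟩ := k6a4g_finite_of_card P (fun n : ℕ => (n : ℝ) ≤ 3 * k * K * Kc)
    (by
      obtain ⟨n, hn⟩ := exists_nat_gt (3 * k * K * Kc)
      refine ⟨n, fun m hm hle => ?_⟩
      have : (n : ℝ) ≤ m := by exact_mod_cast hm
      linarith)
    (by
      intro F hF
      rcases F.eq_empty_or_nonempty with rfl | ⟨ρ₀, hρ₀⟩
      · simp only [Finset.card_empty, Nat.cast_zero]
        positivity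
      have hpI0 : 0 < pI := (hkey ρ₀ (hF hρ₀)).1
      have h1 := k6a_pay_count_fin F Js p hp Rl ⌊3 * k⌋₊ (fun y hy => by convert hcnt F y hy) (pI / (Kc * K))
        (fun ρ hρ => by convert (hkey ρ (hF hρ)).2)
      have h2 : ((⌊3 * k⌋₊ : ℕ) : ℝ) * ∑ a ∈ Js, p a ≤ 3 * k * pI :=
        mul_le_mul (Nat.floor_le (by positivity)) hpI (Finset.sum_nonneg hp) (by positivity)
      have h3 : (F.card : ℝ) * (pI / (Kc * K)) ≤ 3 * k * pI := h1.trans h2
      have h4 : (F.card : ℝ) * (pI / (Kc * K)) = pI * ((F.card : ℝ) / (Kc * K)) := by ring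
      rw [h4, mul_comm (3 * k) pI] at h3
      have h5 := le_of_mul_le_mul_left h3 hpI0
      rw [div_le_iff₀ (by positivity)] at h5
      calc (F.card : ℝ) ≤ 3 * k * (Kc * K) := h5
        _ = 3 * k * K * Kc := by ring)
  exact ⟨T, hT1, fun x hxA h1 h2 => hT2 _ ⟨x, hxA, h1, h2, rfl⟩⟩

/-- G5. Tonelli: a set of incidences in a time interval of length `s` with sections of prior mass `≤ M` -/
theorem k6a4_mass_sec {Λ : Type} [MeasurableSpace Λ] (ν : Measure Λ) [IsFiniteMeasure ν] (S : Set (Λ × ℝ))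
    (hS : MeasurableSet S) (a s M : ℝ) (hs : 0 ≤ s) (hM : 0 ≤ M) (ht : ∀ l t, (l, t) ∈ S → a ≤ t ∧ t < a + s)
    (hsec : ∀ t, ν.real (k5_sec S t) ≤ M) : k5_mass ν S ≤ s * M := by
  unfold k5_mass
  have h1 : (ν.prod volume) S ≤ ENNReal.ofReal (s * M) := by
    rw [Measure.prod_apply_symm hS]
    calc ∫⁻ t, ν ((fun l => (l, t)) ⁻¹' S) ≤ ∫⁻ t, (Ico a (a + s)).indicator (fun _ => ENNReal.ofReal M) t := by
          refine lintegral_mono fun t => ?_
          by_cases ht' : t ∈ Ico a (a + s)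
          · rw [indicator_of_mem ht']
            have h2 := hsec t
            rw [← ofReal_measureReal (measure_ne_top ν _)]
            exact ENNReal.ofReal_le_ofReal h2
          · rw [indicator_of_notMem ht']
            have h3 : (fun l => (l, t)) ⁻¹' S = ∅ := by
              ext l
              simp only [mem_preimage, mem_empty_iff_false, iff_false]
              exact fun h => ht' (ht l t h)
            rw [h3, measure_empty]
      _ = ENNReal.ofReal M * volume (Ico a (a + s)) := by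
          rw [lintegral_indicator measurableSet_Ico, setLIntegral_const]
      _ = ENNReal.ofReal (s * M) := by
          rw [Real.volume_Ico, add_sub_cancel_left, mul_comm, ENNReal.ofReal_mul hs]
  exact ENNReal.toReal_le_of_le_ofReal (by positivity) h1

/-- G5'. labels with times in `[0,1)` have finite mass -/
theorem k6a4_mass_fin {Λ : Type} [MeasurableSpace Λ] (ν : Measure Λ) [IsFiniteMeasure ν] (S : Set (Λ × ℝ))
    (ht : ∀ l t, (l, t) ∈ S → 0 ≤ t ∧ t < 1) : (ν.prod volume) S ≠ ⊤ := by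
  have hsub : S ⊆ univ ×ˢ Ico (0 : ℝ) 1 := fun ⟨l, t⟩ h => ⟨mem_univ _, ht l t h⟩
  refine ne_top_of_le_ne_top ?_ (measure_mono hsub)
  rw [Measure.prod_prod, Real.volume_Ico]
  exact ENNReal.mul_ne_top (measure_ne_top ν _) ENNReal.ofReal_ne_top

/-- G6. **choice of a world** (06 l.829-835): `∑_B ν(B) ≤ 1`, so some block of positive prior mass has relative incidence mass `≥ δ`. -/
theorem k6a4_world {Λ κ : Type} [MeasurableSpace Λ] (ν : Measure Λ) [IsFiniteMeasure ν] (hν : ν.real univ ≤ 1)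
    (blk : Λ → κ) (hb : ∀ k, MeasurableSet (blk ⁻¹' {k})) (S : Finset κ) (hS : ∀ l, blk l ∈ S) (E : Set (Λ × ℝ))
    (hE : MeasurableSet E) (ht : ∀ l t, (l, t) ∈ E → 0 ≤ t ∧ t < 1) (δ : ℝ) (hδ : 0 < δ) (hm : δ ≤ k5_mass ν E) :
    ∃ B, 0 < ν.real (blk ⁻¹' {B}) ∧ δ * ν.real (blk ⁻¹' {B}) ≤ k5_mass ν {e | e ∈ E ∧ blk e.1 = B} := by
  classical
  by_contra hcon
  push Not at hcon
  set EB : κ → Set (Λ × ℝ) := fun B => {e | e ∈ E ∧ blk e.1 = B} with hEB
  have hEBm : ∀ B, MeasurableSet (EB B) := fun B => hE.inter (measurable_fst (hb B))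
  have hEBsub : ∀ B, EB B ⊆ E := fun B e he => he.1
  have hEfin : (ν.prod volume) E ≠ ⊤ := k6a4_mass_fin ν E ht
  have hle : ∀ B, k5_mass ν (EB B) ≤ ν.real (blk ⁻¹' {B}) := by
    intro B
    have h1 := k6a4_mass_sec ν (EB B) (hEBm B) 0 1 (ν.real (blk ⁻¹' {B})) zero_le_one measureReal_nonneg
      (fun l t h => by simpa using ht l t h.1) (fun t => measureReal_mono (fun l hl => hl.2))
    simpa using h1
  have hsum : k5_mass ν E = ∑ B ∈ S, k5_mass ν (EB B) := by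
    have h1 : E = ⋃ B ∈ S, EB B := by
      ext e
      simp only [mem_iUnion, exists_prop]
      exact ⟨fun he => ⟨blk e.1, hS _, he, rfl⟩, fun ⟨B, _, he⟩ => he.1⟩
    have hd : (S : Set κ).PairwiseDisjoint EB := by
      intro B _ B' _ hBB
      refine Set.disjoint_left.2 fun e he he' => hBB ?_
      rw [← he.2, he'.2]
    unfold k5_mass
    conv_lhs => rw [h1]
    exact measureReal_biUnion_finset hd (fun B _ => hEBm B)
      (fun B _ => ne_top_of_le_ne_top hEfin (measure_mono (hEBsub B)))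
  have hνsum : ∑ B ∈ S, ν.real (blk ⁻¹' {B}) ≤ 1 := by
    have hd : (S : Set κ).PairwiseDisjoint (fun B => blk ⁻¹' {B}) := by
      intro B _ B' _ hBB
      refine Set.disjoint_left.2 fun l hl hl' => hBB ?_
      have h1 : blk l = B := hl
      have h2 : blk l = B' := hl'
      rw [← h1, h2]
    rw [← measureReal_biUnion_finset hd (fun B _ => hb B)]
    exact (measureReal_mono (subset_univ _)).trans hν
  have hle2 : ∀ B ∈ S, k5_mass ν (EB B) ≤ δ * ν.real (blk ⁻¹' {B}) := by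
    intro B _
    rcases (measureReal_nonneg : 0 ≤ ν.real (blk ⁻¹' {B})).lt_or_eq with h | h
    · exact (hcon B h).le
    · have h1 := hle B
      rw [← h] at h1 ⊢
      simpa using h1
  by_cases hall : ∀ B ∈ S, ν.real (blk ⁻¹' {B}) = 0
  · have h1 : k5_mass ν E ≤ 0 := by
      rw [hsum]
      calc ∑ B ∈ S, k5_mass ν (EB B) ≤ ∑ B ∈ S, ν.real (blk ⁻¹' {B}) := Finset.sum_le_sum fun B _ => hle B
        _ = 0 := Finset.sum_eq_zero hall
    linarith
  · push Not at hall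
    obtain ⟨B₀, hB₀, hne⟩ := hall
    have hpos : 0 < ν.real (blk ⁻¹' {B₀}) := lt_of_le_of_ne measureReal_nonneg (Ne.symm hne)
    have h1 : ∑ B ∈ S, k5_mass ν (EB B) < ∑ B ∈ S, δ * ν.real (blk ⁻¹' {B}) :=
      Finset.sum_lt_sum hle2 ⟨B₀, hB₀, hcon B₀ hpos⟩
    rw [← hsum, ← Finset.mul_sum] at h1
    nlinarith

/-- G7. a set of reals of diameter `≤ D s` meets at most `2 D + 3` bins of width `s` -/
theorem k6a4_bins_of_diam {α : Type} (S : Set α) (f : α → ℝ) (s D : ℝ) (hs : 0 < s) (hD : 0 ≤ D)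
    (h : ∀ x ∈ S, ∀ y ∈ S, |f x - f y| ≤ D * s) :
    ∃ T : Finset ℤ, (T.card : ℝ) ≤ 2 * D + 3 ∧ ∀ x ∈ S, k5_bin s (f x) ∈ T := by
  rcases S.eq_empty_or_nonempty with rfl | ⟨x₀, hx₀⟩
  · refine ⟨∅, ?_, by simp⟩
    simp only [Finset.card_empty, Nat.cast_zero]
    linarith
  set u : ℝ := f x₀ / s with hu
  refine ⟨Finset.Icc ⌊u - D⌋ ⌊u + D⌋, ?_, ?_⟩
  · rw [Int.card_Icc]
    have h0 : 0 ≤ ⌊u + D⌋ + 1 - ⌊u - D⌋ := by
      have := Int.floor_le_floor (show u - D ≤ u + D by linarith)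
      omega
    have h1 : ((⌊u + D⌋ + 1 - ⌊u - D⌋).toNat : ℝ) = ((⌊u + D⌋ + 1 - ⌊u - D⌋ : ℤ) : ℝ) := by
      exact_mod_cast Int.toNat_of_nonneg h0
    rw [h1]
    push_cast
    have h2 := Int.floor_le (u + D)
    have h3 := Int.lt_floor_add_one (u - D)
    linarith
  · intro x hx
    have h2 := h x hx x₀ hx₀
    have h3 : |f x / s - u| ≤ D := by
      rw [hu, ← sub_div, abs_div, abs_of_pos hs, div_le_iff₀ hs]
      exact h2
    rw [abs_le] at h3
    rw [Finset.mem_Icc]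
    exact ⟨Int.floor_le_floor (by linarith), Int.floor_le_floor (by linarith)⟩

/-- G8. masses for the conditioned prior -/
theorem k6a4_nu_real {Λ : Type} [MeasurableSpace Λ] {j : ℕ} (ν : Measure Λ) [IsFiniteMeasure ν] (ρ : ℝ) (c : Λ → k5_Co j)
    (B : k6a4_Ix j) (hB : MeasurableSet {l | k5_cbin ρ (c l) = B}) (A : Set Λ) :
    (k6a4_nu ν ρ c B).real A = ν.real (A ∩ {l | k5_cbin ρ (c l) = B}) / ν.real {l | k5_cbin ρ (c l) = B} := by
  unfold k6a4_nu
  rw [measureReal_def, Measure.smul_apply, smul_eq_mul, Measure.restrict_apply' hB, ENNReal.toReal_mul,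
    ENNReal.toReal_inv, measureReal_def, measureReal_def]
  ring

/-- G8'. the conditioned prior is a probability -/
theorem k6a4_nu_prob {Λ : Type} [MeasurableSpace Λ] {j : ℕ} (ν : Measure Λ) [IsFiniteMeasure ν] (ρ : ℝ) (c : Λ → k5_Co j)
    (B : k6a4_Ix j) (hB : MeasurableSet {l | k5_cbin ρ (c l) = B}) (h0 : 0 < ν.real {l | k5_cbin ρ (c l) = B}) :
    IsProbabilityMeasure (k6a4_nu ν ρ c B) := by
  refine ⟨?_⟩
  unfold k6a4_nu
  rw [Measure.smul_apply, smul_eq_mul, Measure.restrict_apply' hB, univ_inter]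
  refine ENNReal.inv_mul_cancel ?_ (measure_ne_top ν _)
  intro h
  rw [measureReal_def, h] at h0
  simp at h0

/-- G8''. incidence masses for the conditioned prior -/
theorem k6a4_nu_mass {Λ : Type} [MeasurableSpace Λ] {j : ℕ} (ν : Measure Λ) [IsFiniteMeasure ν] (ρ : ℝ) (c : Λ → k5_Co j)
    (B : k6a4_Ix j) (hB : MeasurableSet {l | k5_cbin ρ (c l) = B}) (S : Set (Λ × ℝ)) (hS : MeasurableSet S)
    (hSB : ∀ e ∈ S, k5_cbin ρ (c e.1) = B) :
    k5_mass (k6a4_nu ν ρ c B) S = k5_mass ν S / ν.real {l | k5_cbin ρ (c l) = B} := by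
  unfold k5_mass k6a4_nu
  have hsub : S ⊆ {l | k5_cbin ρ (c l) = B} ×ˢ univ := fun e he => ⟨hSB e he, mem_univ _⟩
  rw [Measure.prod_smul_left, measureReal_def, Measure.smul_apply, smul_eq_mul, Measure.restrict_prod_eq_prod_univ,
    Measure.restrict_apply hS, inter_eq_self_of_subset_left hsub, ENNReal.toReal_mul, ENNReal.toReal_inv,
    measureReal_def, measureReal_def]
  ring

end Claimed.Agent.R252
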