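import Claimed.Agent.R252.S6a.Q4Defs
import Claimed.Agent.R252.S6a.Curve
import Claimed.Agent.R252.S6a.Choice

/-!
# ROW 252, unit S6a, post BP-252-S6a4 (sub-architect helper198; prefix `k6a4_`), file 3: POINTWISE GEOMETRY OF THE ZOOM (paper-free algebra).   CONTRACT: each `sorry` is a leaf `L-252-S6a4-P*`.

Norms are sup norms (`k5_Co j` is a product of `Pi` types).   `|u ⬝ᵥ v| ≤ j ‖u‖ ‖v‖`.
-/

set_option autoImplicit false

namespace Claimed.Agent.R252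

open MeasureTheory Set
open scoped BigOperators

variable {j : ℕ}

/-- the coefficients of the lower corner of the block `B` of side `ρ` (the 'central curves' `X_c`, `y_c`) -/
def k6a4_cor (ρ : ℝ) (B : k6a4_Ix j) : k5_Co j := (fun i => ρ * B.1 i, fun i a => ρ * B.2 i a)

theorem k6a4_cor_eqns_cite : True := by
  have := @k6a4_cor.eq_1
  trivial

/-! ### P1. linearity of the zoom -/

theorem k6a4_dot_le (u v : Fin j → ℝ) : |u ⬝ᵥ v| ≤ j * (‖u‖ * ‖v‖) := by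
  unfold dotProduct
  calc |∑ i, u i * v i| ≤ ∑ i, |u i * v i| := Finset.abs_sum_le_sum_abs _ _
    _ ≤ ∑ _i : Fin j, ‖u‖ * ‖v‖ := Finset.sum_le_sum fun i _ => by
        rw [abs_mul]
        exact mul_le_mul (norm_le_pi_norm u i) (norm_le_pi_norm v i) (abs_nonneg _) (norm_nonneg _)
    _ = j * (‖u‖ * ‖v‖) := by simp

theorem k6a4_zm_x (ρ : ℝ) (hρ : ρ ≠ 0) (B : k6a4_Ix j) (c : k5_Co j) (t : ℝ) :
    k5_x (k6a4_zm ρ B c) t = (k5_x c t - k5_x (k6a4_cor ρ B) t) / ρ := by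
  simp only [k5_x, k6a4_zm, k6a4_cor]
  field_simp
  ring

theorem k6a4_zm_y (ρ : ℝ) (hρ : ρ ≠ 0) (B : k6a4_Ix j) (c : k5_Co j) (t : ℝ) (a : Fin j) :
    k5_y (k6a4_zm ρ B c) t a = (k5_y c t a - k5_y (k6a4_cor ρ B) t a) / ρ := by
  simp only [k5_y, k6a4_zm, k6a4_cor]
  field_simp
  ring

theorem k6a4_zm_xD (ρ : ℝ) (hρ : ρ ≠ 0) (B : k6a4_Ix j) (c : k5_Co j) (t : ℝ) :
    k5_xD 1 (k6a4_zm ρ B c) t = (k5_xD 1 c t - k5_xD 1 (k6a4_cor ρ B) t) / ρ := by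
  simp only [k5_xD, k6a4_zm, k6a4_cor]
  field_simp
  ring

theorem k6a4_zm_yd (ρ : ℝ) (hρ : ρ ≠ 0) (B : k6a4_Ix j) (c : k5_Co j) (a : Fin j) :
    k5_yd (k6a4_zm ρ B c) a = (k5_yd c a - k5_yd (k6a4_cor ρ B) a) / ρ := by
  simp only [k5_yd, k6a4_zm, k6a4_cor]
  field_simp

/-- a zoomed cube of side `q` is a physical cube of side `ρ q` that moves with the corner curve -/
theorem k6a4_zm_InQ (ρ : ℝ) (hρ : 0 < ρ) (B : k6a4_Ix j) (c : k5_Co j) (t q a : ℝ) (y₀ : Fin j → ℝ) :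
    k5_InQ q a y₀ (k6a4_zm ρ B c) t ↔
      k5_InQ (ρ * q) (ρ * a + k5_x (k6a4_cor ρ B) t) (fun i => ρ * y₀ i + k5_y (k6a4_cor ρ B) t i) c t := by
  unfold k5_InQ
  rw [k6a4_zm_x ρ hρ.ne' B c t]
  simp only [k6a4_zm_y ρ hρ.ne' B c t]
  have e1 : ∀ u v w : ℝ, (u ≤ (v - w) / ρ ↔ ρ * u + w ≤ v) := by
    intro u v w
    rw [le_div_iff₀ hρ]
    constructor <;> intro h <;> linarith
  have e2 : ∀ u v w : ℝ, ((v - w) / ρ ≤ u + q ↔ v ≤ ρ * u + w + ρ * q) := by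
    intro u v w
    rw [div_le_iff₀ hρ]
    constructor <;> intro h <;> linarith
  simp only [e1, e2]

/-! ### P2. the zoomed coefficients of the own block lie in `[0,1)` -/

theorem k6a4_own_mem (ρ : ℝ) (hρ : 0 < ρ) (c : k5_Co j) :
    (∀ i, 0 ≤ (k6a4_own ρ c).1 i ∧ (k6a4_own ρ c).1 i < 1) ∧ ∀ i a, 0 ≤ (k6a4_own ρ c).2 i a ∧ (k6a4_own ρ c).2 i a < 1 := by
  refine ⟨fun i => ?_, fun i a => ?_⟩
  · simp only [k6a4_own, k6a4_zm, k5_cbin]
    exact ⟨by linarith [Int.floor_le (c.1 i / ρ)], by linarith [Int.lt_floor_add_one (c.1 i / ρ)]⟩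
  · simp only [k6a4_own, k6a4_zm, k5_cbin]
    exact ⟨by linarith [Int.floor_le (c.2 i a / ρ)], by linarith [Int.lt_floor_add_one (c.2 i a / ρ)]⟩

/-- the sup norm of a coefficient vector, by components -/
theorem k6a4p_norm_le {c : k5_Co j} {r : ℝ} (hr : 0 ≤ r) (h1 : ∀ i, |c.1 i| ≤ r) (h2 : ∀ i a, |c.2 i a| ≤ r) : ‖c‖ ≤ r := by
  rw [Prod.norm_def]
  refine max_le ?_ ?_
  · exact (pi_norm_le_iff_of_nonneg hr).2 h1
  · exact (pi_norm_le_iff_of_nonneg hr).2 fun i => (pi_norm_le_iff_of_nonneg hr).2 (h2 i)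

theorem k6a4p_le_norm1 (c : k5_Co j) (i : Fin 3) : |c.1 i| ≤ ‖c‖ :=
  (norm_le_pi_norm c.1 i).trans (norm_fst_le c)

theorem k6a4p_le_norm2 (c : k5_Co j) (i : Fin 2) (a : Fin j) : |c.2 i a| ≤ ‖c‖ :=
  (norm_le_pi_norm (c.2 i) a).trans ((norm_le_pi_norm c.2 i).trans (norm_snd_le c))

theorem k6a4p_yd_norm (c : k5_Co j) : ‖k5_yd c‖ ≤ ‖c‖ :=
  (norm_le_pi_norm c.2 1).trans (norm_snd_le c)

theorem k6a4_own_norm (ρ : ℝ) (hρ : 0 < ρ) (c : k5_Co j) : ‖k6a4_own ρ c‖ ≤ 1 := by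
  obtain ⟨h1, h2⟩ := k6a4_own_mem ρ hρ c
  refine k6a4p_norm_le zero_le_one (fun i => ?_) (fun i a => ?_)
  · rw [abs_le]
    exact ⟨by linarith [(h1 i).1], (h1 i).2.le⟩
  · rw [abs_le]
    exact ⟨by linarith [(h2 i a).1], (h2 i a).2.le⟩

theorem k6a4_zc_norm (ρ : ℝ) (hρ : 0 < ρ) (B : k6a4_Ix j) (c : k5_Co j) : ‖k6a4_zc ρ B c‖ ≤ 1 := by
  unfold k6a4_zc
  split_ifs with h
  · have := k6a4_own_norm ρ hρ c
    rw [k6a4_own, h] at this
    exact this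
  · simp

/-- the corner is within `ρ` of the block -/
theorem k6a4_cor_norm (ρ K : ℝ) (hρ : 0 < ρ) (c : k5_Co j) (hc : ‖c‖ ≤ K) : ‖k6a4_cor ρ (k5_cbin ρ c)‖ ≤ K + ρ := by
  have hK : 0 ≤ K := (norm_nonneg c).trans hc
  have key : ∀ x : ℝ, |x| ≤ K → |ρ * (⌊x / ρ⌋ : ℝ)| ≤ K + ρ := by
    intro x hx
    have h1 := Int.floor_le (x / ρ)
    have h2 := Int.lt_floor_add_one (x / ρ)
    rw [le_div_iff₀ hρ] at h1
    rw [div_lt_iff₀ hρ] at h2
    rw [abs_le] at hx ⊢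
    constructor <;> nlinarith
  refine k6a4p_norm_le (by linarith) (fun i => ?_) (fun i a => ?_)
  · exact key _ ((k6a4p_le_norm1 c i).trans hc)
  · exact key _ ((k6a4p_le_norm2 c i a).trans hc)

/-! ### P3. aligned bins -/

theorem k6a4p_div_dy (ρ : ℝ) (_hρ : 0 < ρ) (i : ℕ) (x : ℝ) : x / (ρ * (1 / 2 : ℝ) ^ i) = 2 ^ i * (x / ρ) := by
  rw [one_div, inv_pow]
  field_simp

/-- dyadic refinement of the integer part -/
theorem k6a4p_floor_dy (u : ℝ) (i : ℕ) (n : ℤ) : ⌊u⌋ = n ↔ 2 ^ i * n ≤ ⌊(2 : ℝ) ^ i * u⌋ ∧ ⌊(2 : ℝ) ^ i * u⌋ < 2 ^ i * (n + 1) := by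
  have h2 : (0 : ℝ) < 2 ^ i := by positivity
  rw [Int.floor_eq_iff, Int.le_floor, Int.floor_lt]
  push_cast
  rw [mul_le_mul_iff_right₀ h2, mul_lt_mul_iff_right₀ h2]

theorem k6a4p_floor_nest (ρ : ℝ) (hρ : 0 < ρ) (i : ℕ) (x x' : ℝ)
    (h : ⌊x / (ρ * (1 / 2 : ℝ) ^ i)⌋ = ⌊x' / (ρ * (1 / 2 : ℝ) ^ i)⌋) : ⌊x / ρ⌋ = ⌊x' / ρ⌋ := by
  rw [k6a4p_div_dy ρ hρ, k6a4p_div_dy ρ hρ] at h
  have h1 := (k6a4p_floor_dy (x' / ρ) i ⌊x' / ρ⌋).1 rfl
  rw [← h] at h1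
  exact (k6a4p_floor_dy (x / ρ) i ⌊x' / ρ⌋).2 h1

theorem k6a4p_floor_close {s x x' : ℝ} (hs : 0 < s) (h : ⌊x / s⌋ = ⌊x' / s⌋) : |x - x'| ≤ s := by
  have h1 := Int.floor_le (x / s)
  have h2 := Int.lt_floor_add_one (x / s)
  have h3 := Int.floor_le (x' / s)
  have h4 := Int.lt_floor_add_one (x' / s)
  rw [h] at h1 h2
  rw [le_div_iff₀ hs] at h1 h3
  rw [div_lt_iff₀ hs] at h2 h4
  rw [abs_le]
  constructor <;> nlinarith

/-- the `2^{-i}`-bins of the zoom are the blocks of side `ρ 2^{-i}` -/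
theorem k6a4_cbin_zoom (ρ : ℝ) (hρ : 0 < ρ) (i : ℕ) (B : k6a4_Ix j) (c : k5_Co j) :
    k5_cbin ((1 / 2 : ℝ) ^ i) (k6a4_zm ρ B c) =
      (fun a => (k5_cbin (ρ * (1 / 2 : ℝ) ^ i) c).1 a - 2 ^ i * B.1 a,
        fun a a' => (k5_cbin (ρ * (1 / 2 : ℝ) ^ i) c).2 a a' - 2 ^ i * B.2 a a') := by
  have key : ∀ (x : ℝ) (n : ℤ), ⌊(x / ρ - n) / (1 / 2 : ℝ) ^ i⌋ = ⌊x / (ρ * (1 / 2 : ℝ) ^ i)⌋ - 2 ^ i * n := by
    intro x n
    have h1 : (x / ρ - n) / (1 / 2 : ℝ) ^ i = x / (ρ * (1 / 2 : ℝ) ^ i) - ((2 ^ i * n : ℤ) : ℝ) := by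
      rw [k6a4p_div_dy ρ hρ i x]
      push_cast
      rw [one_div, inv_pow, div_inv_eq_mul]
      ring
    rw [h1, Int.floor_sub_intCast]
  simp only [k5_cbin, k6a4_zm, key]

theorem k6a4_cbin_nest (ρ : ℝ) (hρ : 0 < ρ) (i : ℕ) (c c' : k5_Co j)
    (h : k5_cbin (ρ * (1 / 2 : ℝ) ^ i) c = k5_cbin (ρ * (1 / 2 : ℝ) ^ i) c') : k5_cbin ρ c = k5_cbin ρ c' := by
  have h1 : ∀ a, ⌊c.1 a / (ρ * (1 / 2 : ℝ) ^ i)⌋ = ⌊c'.1 a / (ρ * (1 / 2 : ℝ) ^ i)⌋ := fun a => congrFun (congrArg Prod.fst h) a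
  have h2 : ∀ a a', ⌊c.2 a a' / (ρ * (1 / 2 : ℝ) ^ i)⌋ = ⌊c'.2 a a' / (ρ * (1 / 2 : ℝ) ^ i)⌋ :=
    fun a a' => congrFun (congrFun (congrArg Prod.snd h) a) a'
  refine Prod.ext (funext fun a => ?_) (funext fun a => funext fun a' => ?_)
  · exact k6a4p_floor_nest ρ hρ i _ _ (h1 a)
  · exact k6a4p_floor_nest ρ hρ i _ _ (h2 a a')

theorem k6a4_vbin_of_cbin (p : ℝ) (c : k5_Co j) : k5_vbin p (k5_yd c) = (k5_cbin p c).2 1 := by
  rfl

theorem k6a4_cbin_close (s : ℝ) (hs : 0 < s) (c c' : k5_Co j) (h : k5_cbin s c = k5_cbin s c') : ‖c - c'‖ ≤ s := by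
  have h1 : ∀ a, ⌊c.1 a / s⌋ = ⌊c'.1 a / s⌋ := fun a => congrFun (congrArg Prod.fst h) a
  have h2 : ∀ a a', ⌊c.2 a a' / s⌋ = ⌊c'.2 a a' / s⌋ := fun a a' => congrFun (congrFun (congrArg Prod.snd h) a) a'
  refine k6a4p_norm_le hs.le (fun a => ?_) (fun a a' => ?_)
  · exact k6a4p_floor_close hs (h1 a)
  · exact k6a4p_floor_close hs (h2 a a')

/-- the coordinates of `k6a4_Z` -/
theorem k6a4_Z_norm (c c' : k5_Co j) (t t' r : ℝ) :
    ‖k6a4_Z c t - k6a4_Z c' t'‖ ≤ r ↔ |t - t'| ≤ r ∧ ‖k5_y c t - k5_y c' t'‖ ≤ r ∧ |k5_x c t - k5_x c' t'| ≤ r := by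
  by_cases hr : 0 ≤ r
  · rw [pi_norm_le_iff_of_nonneg hr, pi_norm_le_iff_of_nonneg hr, Fin.forall_fin_succ, Fin.forall_fin_succ']
    simp only [Pi.sub_apply, k6a4_Z, Fin.cons_zero, Fin.cons_succ, Fin.snoc_castSucc, Fin.snoc_last, Real.norm_eq_abs]
  · constructor
    · intro h
      exact absurd ((norm_nonneg _).trans h) hr
    · intro h
      exact absurd ((abs_nonneg _).trans h.1) hr

theorem k6a4_Z_norm_le (c c' : k5_Co j) (t t' : ℝ) :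
    ‖k6a4_Z c t - k6a4_Z c' t'‖ ≤ |t - t'| + |k5_x c t - k5_x c' t'| + ‖k5_y c t - k5_y c' t'‖ := by
  rw [k6a4_Z_norm]
  have h1 := abs_nonneg (t - t')
  have h2 := abs_nonneg (k5_x c t - k5_x c' t')
  have h3 := norm_nonneg (k5_y c t - k5_y c' t')
  refine ⟨by linarith, by linarith, by linarith⟩

/-- a zoomed cell is a time interval times a cube -/
theorem k6a4_cell_InQ (s : ℝ) (hs : 0 < s) (c : k5_Co j) (t : ℝ) (n : Fin (j + 2) → ℤ) (h : k6a_cell s (k6a4_Z c t) = n) :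
    ((n 0 : ℝ) * s ≤ t ∧ t < (n 0 : ℝ) * s + s) ∧
      k5_InQ s ((n (Fin.last (j + 1)) : ℝ) * s) (fun a => (n a.castSucc.succ : ℝ) * s) c t := by
  have key : ∀ (x : ℝ) (m : ℤ), ⌊x / s⌋ = m → (m : ℝ) * s ≤ x ∧ x < (m : ℝ) * s + s := by
    intro x m hm
    have h1 := Int.floor_le (x / s)
    have h2 := Int.lt_floor_add_one (x / s)
    rw [hm] at h1 h2
    rw [le_div_iff₀ hs] at h1
    rw [div_lt_iff₀ hs] at h2
    exact ⟨h1, by linarith⟩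
  have h0 : ⌊t / s⌋ = n 0 := by
    have := congrFun h 0
    simpa [k6a_cell, k6a4_Z] using this
  have hl : ⌊k5_x c t / s⌋ = n (Fin.last (j + 1)) := by
    have := congrFun h (Fin.last (j + 1))
    rw [← Fin.succ_last] at this ⊢
    simpa [k6a_cell, k6a4_Z] using this
  have hy : ∀ a : Fin j, ⌊k5_y c t a / s⌋ = n a.castSucc.succ := by
    intro a
    have := congrFun h a.castSucc.succ
    simpa [k6a_cell, k6a4_Z] using this
  refine ⟨key _ _ h0, (key _ _ hl).1, (key _ _ hl).2.le, fun a => ⟨(key _ _ (hy a)).1, (key _ _ (hy a)).2.le⟩⟩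

/-! ### P4. the residual velocity is nearly constant on a fine state inside a block (06 l.702-714) -/

theorem k6a4_res_const (K ζ ρ b η : ℝ) (hsc : k6a4_Sc j K ζ ρ b η) (c c' : k5_Co j) (t t' g0 : ℝ) (gy f f' : Fin j → ℝ)
    (hc : ‖c‖ ≤ K) (hB : k5_cbin ρ c = k5_cbin ρ c') (ht : |t - t'| ≤ b)
    (hg : |k5_xD 1 c t - g0 - gy ⬝ᵥ k5_yd c| ≤ η) (hg' : |k5_xD 1 c' t' - g0 - gy ⬝ᵥ k5_yd c'| ≤ η)
    (hf : ‖f - gy‖ ≤ K * ρ) (hf' : ‖f' - gy‖ ≤ K * ρ) :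
    |k5_R f (k6a4_own ρ c) t - k5_R f' (k6a4_own ρ c') t'| ≤ ζ := by
  have hρ := hsc.ρ0
  have hK1 := hsc.K1
  have hρ1 : ρ ≤ 1 := hsc.ρζ.trans hsc.ζ1
  set B := k5_cbin ρ c with hBdef
  have ho : k6a4_own ρ c = k6a4_zm ρ B c := rfl
  have ho' : k6a4_own ρ c' = k6a4_zm ρ B c' := by rw [k6a4_own, ← hB]
  -- the zoomed velocities
  have hv : ‖k5_yd (k6a4_zm ρ B c)‖ ≤ 1 := (k6a4p_yd_norm _).trans (ho ▸ k6a4_own_norm ρ hρ c)
  have hv' : ‖k5_yd (k6a4_zm ρ B c')‖ ≤ 1 := (k6a4p_yd_norm _).trans (ho' ▸ k6a4_own_norm ρ hρ c')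
  have hyd : ∀ c₁ : k5_Co j, k5_yd c₁ = ρ • k5_yd (k6a4_zm ρ B c₁) + k5_yd (k6a4_cor ρ B) := by
    intro c₁
    funext a
    rw [Pi.add_apply, Pi.smul_apply, k6a4_zm_yd ρ hρ.ne' B c₁ a, smul_eq_mul]
    field_simp
    ring
  have hcor : |(k6a4_cor ρ B).1 2| ≤ K + 1 :=
    ((k6a4p_le_norm1 _ 2).trans (k6a4_cor_norm ρ K hρ c hc)).trans (by linarith)
  rw [ho, ho']
  simp only [k5_R]
  rw [k6a4_zm_xD ρ hρ.ne' B c t, k6a4_zm_xD ρ hρ.ne' B c' t']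
  set z := k5_yd (k6a4_zm ρ B c) with hz
  set z' := k5_yd (k6a4_zm ρ B c') with hz'
  set e := k5_xD 1 c t - g0 - gy ⬝ᵥ k5_yd c with he
  set e' := k5_xD 1 c' t' - g0 - gy ⬝ᵥ k5_yd c' with he'
  have hd1 : |(f - gy) ⬝ᵥ z| ≤ j * (K * ρ) := by
    refine (k6a4_dot_le _ _).trans ?_
    have : ‖f - gy‖ * ‖z‖ ≤ (K * ρ) * 1 := mul_le_mul hf hv (norm_nonneg _) (by positivity)
    have hj : (0 : ℝ) ≤ j := Nat.cast_nonneg j
    nlinarith
  have hd2 : |(f' - gy) ⬝ᵥ z'| ≤ j * (K * ρ) := by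
    refine (k6a4_dot_le _ _).trans ?_
    have : ‖f' - gy‖ * ‖z'‖ ≤ (K * ρ) * 1 := mul_le_mul hf' hv' (norm_nonneg _) (by positivity)
    have hj : (0 : ℝ) ≤ j := Nat.cast_nonneg j
    nlinarith
  have hcd : k5_xD 1 (k6a4_cor ρ B) t - k5_xD 1 (k6a4_cor ρ B) t' = 2 * (t - t') * (k6a4_cor ρ B).1 2 := by
    simp only [k5_xD]
    ring
  have hcd' : |2 * (t - t') * (k6a4_cor ρ B).1 2| ≤ 2 * b * (K + 1) := by
    rw [abs_mul, abs_mul, abs_two]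
    have : |t - t'| * |(k6a4_cor ρ B).1 2| ≤ b * (K + 1) := mul_le_mul ht hcor (abs_nonneg _) hsc.b0
    nlinarith
  have hx : k5_xD 1 c t = e + g0 + gy ⬝ᵥ (ρ • z + k5_yd (k6a4_cor ρ B)) := by
    rw [he, hyd c]
    ring
  have hx' : k5_xD 1 c' t' = e' + g0 + gy ⬝ᵥ (ρ • z' + k5_yd (k6a4_cor ρ B)) := by
    rw [he', hyd c']
    ring
  have hmain : ρ * ((k5_xD 1 c t - k5_xD 1 (k6a4_cor ρ B) t) / ρ - f ⬝ᵥ z
      - ((k5_xD 1 c' t' - k5_xD 1 (k6a4_cor ρ B) t') / ρ - f' ⬝ᵥ z'))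
      = (e - e') - 2 * (t - t') * (k6a4_cor ρ B).1 2 - ρ * ((f - gy) ⬝ᵥ z) + ρ * ((f' - gy) ⬝ᵥ z') := by
    rw [← hcd, hx, hx']
    simp only [dotProduct_add, dotProduct_smul, sub_dotProduct, smul_eq_mul]
    field_simp
    ring
  have hrc := hsc.rc
  have habs : ρ * |(k5_xD 1 c t - k5_xD 1 (k6a4_cor ρ B) t) / ρ - f ⬝ᵥ z
      - ((k5_xD 1 c' t' - k5_xD 1 (k6a4_cor ρ B) t') / ρ - f' ⬝ᵥ z')| ≤ ρ * ζ := by
    rw [← abs_of_pos hρ, ← abs_mul, abs_of_pos hρ, hmain]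
    rw [abs_le] at hg hg' hcd' hd1 hd2 ⊢
    constructor <;> nlinarith [hg.1, hg.2, hg'.1, hg'.2, hcd'.1, hcd'.2, mul_le_mul_of_nonneg_left hd1.1 hρ.le,
      mul_le_mul_of_nonneg_left hd1.2 hρ.le, mul_le_mul_of_nonneg_left hd2.1 hρ.le, mul_le_mul_of_nonneg_left hd2.2 hρ.le]
  exact le_of_mul_le_mul_left habs hρ

/-! ### P5. one block contributes a bounded range of residuals in one cell (06 l.737-744);  `c`, `c'` are ZOOMED coefficients -/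

theorem k6a4_res_block (K s : ℝ) (c c' : k5_Co j) (t t' : ℝ) (f f' : Fin j → ℝ) (hK : 0 ≤ K) (hs : 0 ≤ s)
    (hc : ‖c‖ ≤ 1) (hc' : ‖c'‖ ≤ 1) (hcc : ‖c - c'‖ ≤ s) (ht0 : 0 ≤ t') (ht1 : t' ≤ 1) (ht : |t - t'| ≤ s)
    (hf : ‖f‖ ≤ K) (hff : ‖f - f'‖ ≤ 2 * K * s) :
    |k5_R f c t - k5_R f' c' t'| ≤ (5 + 3 * j * K) * s := by
  have hj : (0 : ℝ) ≤ j := Nat.cast_nonneg j
  have h11 : |c.1 1 - c'.1 1| ≤ s := (k6a4p_le_norm1 (c - c') 1).trans hcc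
  have h12 : |c.1 2 - c'.1 2| ≤ s := (k6a4p_le_norm1 (c - c') 2).trans hcc
  have hc2 : |c.1 2| ≤ 1 := (k6a4p_le_norm1 c 2).trans hc
  have hd1 : |f ⬝ᵥ (k5_yd c - k5_yd c')| ≤ j * (K * s) := by
    refine (k6a4_dot_le _ _).trans ?_
    have h1 : ‖k5_yd c - k5_yd c'‖ ≤ s := (k6a4p_yd_norm (c - c')).trans hcc
    have : ‖f‖ * ‖k5_yd c - k5_yd c'‖ ≤ K * s := mul_le_mul hf h1 (norm_nonneg _) hK
    exact mul_le_mul_of_nonneg_left this hj
  have hd2 : |(f - f') ⬝ᵥ k5_yd c'| ≤ j * (2 * K * s) := by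
    refine (k6a4_dot_le _ _).trans ?_
    have h1 : ‖k5_yd c'‖ ≤ 1 := (k6a4p_yd_norm c').trans hc'
    have : ‖f - f'‖ * ‖k5_yd c'‖ ≤ 2 * K * s * 1 := mul_le_mul hff h1 (norm_nonneg _) (by positivity)
    rw [mul_one] at this
    exact mul_le_mul_of_nonneg_left this hj
  have h3 : |(t - t') * c.1 2| ≤ s := by
    rw [abs_mul]
    calc |t - t'| * |c.1 2| ≤ s * 1 := mul_le_mul ht hc2 (abs_nonneg _) hs
      _ = s := mul_one s
  have h4 : |t' * (c.1 2 - c'.1 2)| ≤ s := by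
    rw [abs_mul, abs_of_nonneg ht0]
    calc t' * |c.1 2 - c'.1 2| ≤ 1 * s := mul_le_mul ht1 h12 (abs_nonneg _) zero_le_one
      _ = s := one_mul s
  have hmain : k5_R f c t - k5_R f' c' t' = (c.1 1 - c'.1 1) + 2 * ((t - t') * c.1 2) + 2 * (t' * (c.1 2 - c'.1 2))
      - f ⬝ᵥ (k5_yd c - k5_yd c') - (f - f') ⬝ᵥ k5_yd c' := by
    simp only [k5_R, k5_xD, dotProduct_sub, sub_dotProduct]
    ring
  rw [hmain]
  rw [abs_le] at h11 h3 h4 hd1 hd2 ⊢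
  constructor <;> nlinarith [h11.1, h11.2, h3.1, h3.2, h4.1, h4.2, hd1.1, hd1.2, hd2.1, hd2.2]

theorem k6a4_R_bound (K : ℝ) (c : k5_Co j) (t : ℝ) (f : Fin j → ℝ) (hc : ‖c‖ ≤ 1) (ht0 : 0 ≤ t) (ht1 : t ≤ 1)
    (hf : ‖f‖ ≤ K) : |k5_R f c t| ≤ 3 + j * K := by
  have hj : (0 : ℝ) ≤ j := Nat.cast_nonneg j
  have hK : 0 ≤ K := (norm_nonneg f).trans hf
  have h1 : |c.1 1| ≤ 1 := (k6a4p_le_norm1 c 1).trans hc
  have h2 : |c.1 2| ≤ 1 := (k6a4p_le_norm1 c 2).trans hc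
  have hd : |f ⬝ᵥ k5_yd c| ≤ j * K := by
    refine (k6a4_dot_le _ _).trans ?_
    have h3 : ‖k5_yd c‖ ≤ 1 := (k6a4p_yd_norm c).trans hc
    have : ‖f‖ * ‖k5_yd c‖ ≤ K * 1 := mul_le_mul hf h3 (norm_nonneg _) hK
    rw [mul_one] at this
    exact mul_le_mul_of_nonneg_left this hj
  have h4 : |t * c.1 2| ≤ 1 := by
    rw [abs_mul, abs_of_nonneg ht0]
    calc t * |c.1 2| ≤ 1 * 1 := mul_le_mul ht1 h2 (abs_nonneg _) zero_le_one
      _ = 1 := one_mul 1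
  have hmain : k5_R f c t = c.1 1 + 2 * (t * c.1 2) - f ⬝ᵥ k5_yd c := by
    simp only [k5_R, k5_xD]
    ring
  rw [hmain]
  rw [abs_le] at h1 h4 hd ⊢
  constructor <;> linarith [h1.1, h1.2, h4.1, h4.2, hd.1, hd.2]

/-! ### P6. a block uses `≤ C / s` zoomed cells (06 l.717);  `c'` = ZOOMED coefficients -/

theorem k6a4_block_cells (j : ℕ) : ∃ C : ℝ, 1 ≤ C ∧ ∀ s : ℝ, 0 < s → s ≤ 1 → ∀ B' : k6a4_Ix j,
    ∃ T : Finset (Fin (j + 2) → ℤ), (T.card : ℝ) ≤ C / s ∧ ∀ (c' : k5_Co j) (t : ℝ), ‖c'‖ ≤ 1 → 0 ≤ t → t ≤ 1 →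
      k5_cbin s c' = B' → k6a_cell s (k6a4_Z c' t) ∈ T := by
  classical
  refine ⟨7 ^ (j + 2) * (2 ^ (j + 2) * 4), ?_, ?_⟩
  · have h1 : (1 : ℝ) ≤ 7 ^ (j + 2) := one_le_pow₀ (by norm_num)
    have h2 : (1 : ℝ) ≤ 2 ^ (j + 2) := one_le_pow₀ (by norm_num)
    nlinarith
  intro s hs hs1 B'
  by_cases hex : ∃ c₀ : k5_Co j, ‖c₀‖ ≤ 1 ∧ k5_cbin s c₀ = B'
  swap
  · refine ⟨∅, ?_, fun c' t hc' _ _ hB => absurd ⟨c', hc', hB⟩ hex⟩
    simp only [Finset.card_empty, Nat.cast_zero]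
    positivity
  obtain ⟨c₀, hc₀, hB₀⟩ := hex
  obtain ⟨F, hF1, hF2⟩ := k6a_curve_cells (j + 2) (fun t => k6a4_Z c₀ t) 3 1 s (by norm_num) zero_le_one hs
    (by
      intro u hu t ht
      rw [k6a4_Z_norm]
      have hut := abs_nonneg (u - t)
      refine ⟨by linarith, ?_, ?_⟩
      · refine (pi_norm_le_iff_of_nonneg (by positivity)).2 fun a => ?_
        have h1 : k5_y c₀ u a - k5_y c₀ t a = (u - t) * c₀.2 1 a := by
          simp only [k5_y]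
          ring
        rw [Pi.sub_apply, h1, Real.norm_eq_abs, abs_mul]
        have h2 : |c₀.2 1 a| ≤ 1 := (k6a4p_le_norm2 c₀ 1 a).trans hc₀
        nlinarith [abs_nonneg (c₀.2 1 a)]
      · have h1 : k5_x c₀ u - k5_x c₀ t = (u - t) * (c₀.1 1 + (u + t) * c₀.1 2) := by
          simp only [k5_x]
          ring
        rw [h1, abs_mul, mul_comm]
        refine mul_le_mul_of_nonneg_right ?_ hut
        have h2 : |c₀.1 1| ≤ 1 := (k6a4p_le_norm1 c₀ 1).trans hc₀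
        have h3 : |c₀.1 2| ≤ 1 := (k6a4p_le_norm1 c₀ 2).trans hc₀
        have h4 : |(u + t) * c₀.1 2| ≤ 2 := by
          rw [abs_mul, abs_of_nonneg (by linarith [hu.1, ht.1])]
          nlinarith [abs_nonneg (c₀.1 2), hu.1, hu.2, ht.1, ht.2]
        calc |c₀.1 1 + (u + t) * c₀.1 2| ≤ |c₀.1 1| + |(u + t) * c₀.1 2| := abs_add_le _ _
          _ ≤ 3 := by linarith)
  refine ⟨F.biUnion (fun n => Fintype.piFinset (fun i => Finset.Icc (n i - 3) (n i + 3))), ?_, ?_⟩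
  · have h1 : (F.biUnion (fun n => Fintype.piFinset (fun i => Finset.Icc (n i - 3) (n i + 3)))).card ≤ F.card * 7 ^ (j + 2) := by
      refine Finset.card_biUnion_le_card_mul _ _ _ (fun n _ => ?_)
      rw [Fintype.card_piFinset]
      have : ∀ i, (Finset.Icc (n i - 3) (n i + 3)).card = 7 := by
        intro i
        rw [Int.card_Icc]
        have : n i + 3 + 1 - (n i - 3) = 7 := by ring
        rw [this]
        rfl
      simp [this]
    have h2 : ((F.biUnion (fun n => Fintype.piFinset (fun i => Finset.Icc (n i - 3) (n i + 3)))).card : ℝ)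
        ≤ (F.card : ℝ) * 7 ^ (j + 2) := by exact_mod_cast h1
    refine h2.trans ?_
    have h3 : (3 : ℝ) * 1 / s + 1 ≤ 4 / s := by
      rw [div_add_one hs.ne']
      gcongr
      linarith
    have h4 : (F.card : ℝ) ≤ 2 ^ (j + 2) * (4 / s) := hF1.trans (by gcongr)
    calc (F.card : ℝ) * 7 ^ (j + 2) ≤ 2 ^ (j + 2) * (4 / s) * 7 ^ (j + 2) := by gcongr
      _ = 7 ^ (j + 2) * (2 ^ (j + 2) * 4) / s := by ring
  · intro c' t hc' ht0 ht1 hB
    rw [Finset.mem_biUnion]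
    refine ⟨_, hF2 t ⟨ht0, ht1⟩, ?_⟩
    rw [Fintype.mem_piFinset]
    intro i
    have hcc : ‖c' - c₀‖ ≤ s := k6a4_cbin_close s hs c' c₀ (hB.trans hB₀.symm)
    have hZ : ‖k6a4_Z c' t - k6a4_Z c₀ t‖ ≤ 3 * s := by
      rw [k6a4_Z_norm]
      refine ⟨by simp; positivity, ?_, ?_⟩
      · refine (pi_norm_le_iff_of_nonneg (by positivity)).2 fun a => ?_
        have h1 : k5_y c' t a - k5_y c₀ t a = (c' - c₀).2 0 a + t * (c' - c₀).2 1 a := by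
          simp only [k5_y, Prod.snd_sub, Pi.sub_apply]
          ring
        rw [Pi.sub_apply, h1, Real.norm_eq_abs]
        have h2 := (k6a4p_le_norm2 (c' - c₀) 0 a).trans hcc
        have h3 := (k6a4p_le_norm2 (c' - c₀) 1 a).trans hcc
        have h4 : |t * (c' - c₀).2 1 a| ≤ s := by
          rw [abs_mul, abs_of_nonneg ht0]
          nlinarith [abs_nonneg ((c' - c₀).2 1 a)]
        calc |(c' - c₀).2 0 a + t * (c' - c₀).2 1 a| ≤ |(c' - c₀).2 0 a| + |t * (c' - c₀).2 1 a| := abs_add_le _ _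
          _ ≤ 3 * s := by linarith
      · have h1 : k5_x c' t - k5_x c₀ t = (c' - c₀).1 0 + t * (c' - c₀).1 1 + t ^ 2 * (c' - c₀).1 2 := by
          simp only [k5_x, Prod.fst_sub, Pi.sub_apply]
          ring
        rw [h1]
        have h2 := (k6a4p_le_norm1 (c' - c₀) 0).trans hcc
        have h3 := (k6a4p_le_norm1 (c' - c₀) 1).trans hcc
        have h4 := (k6a4p_le_norm1 (c' - c₀) 2).trans hcc
        have h5 : |t * (c' - c₀).1 1| ≤ s := by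
          rw [abs_mul, abs_of_nonneg ht0]
          nlinarith [abs_nonneg ((c' - c₀).1 1)]
        have h6 : |t ^ 2 * (c' - c₀).1 2| ≤ s := by
          rw [abs_mul, abs_of_nonneg (by positivity)]
          have : t ^ 2 ≤ 1 := by nlinarith
          nlinarith [abs_nonneg ((c' - c₀).1 2)]
        calc |(c' - c₀).1 0 + t * (c' - c₀).1 1 + t ^ 2 * (c' - c₀).1 2|
            ≤ |(c' - c₀).1 0 + t * (c' - c₀).1 1| + |t ^ 2 * (c' - c₀).1 2| := abs_add_le _ _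
          _ ≤ |(c' - c₀).1 0| + |t * (c' - c₀).1 1| + |t ^ 2 * (c' - c₀).1 2| := by
              gcongr
              exact abs_add_le _ _
          _ ≤ 3 * s := by linarith
    have hi : |k6a4_Z c' t i - k6a4_Z c₀ t i| ≤ 3 * s := (norm_le_pi_norm (k6a4_Z c' t - k6a4_Z c₀ t) i).trans hZ
    have hi' : |k6a4_Z c' t i / s - k6a4_Z c₀ t i / s| ≤ 3 := by
      rw [← sub_div, abs_div, abs_of_pos hs, div_le_iff₀ hs]
      exact hi
    rw [abs_le] at hi'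
    rw [Finset.mem_Icc]
    simp only [k6a_cell]
    constructor
    · have : ⌊k6a4_Z c₀ t i / s⌋ - 3 = ⌊k6a4_Z c₀ t i / s - (3 : ℤ)⌋ := (Int.floor_sub_intCast _ _).symm
      rw [this]
      refine Int.floor_le_floor ?_
      push_cast
      linarith [hi'.1]
    · have : ⌊k6a4_Z c₀ t i / s⌋ + 3 = ⌊k6a4_Z c₀ t i / s + (3 : ℤ)⌋ := (Int.floor_add_intCast _ _).symm
      rw [this]
      refine Int.floor_le_floor ?_
      push_cast
      linarith [hi'.2]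

/-! ### P7. a fine state has diameter `≤ ζ` in the zoom of a block (06 l.757) -/

theorem k6a4_state_close (K ζ ρ b η : ℝ) (hsc : k6a4_Sc j K ζ ρ b η) (c c' : k5_Co j) (t t' : ℝ) (hc : ‖c‖ ≤ K)
    (hB : k5_cbin ρ c = k5_cbin ρ c') (ht : 0 ≤ t ∧ t ≤ 1) (ht' : 0 ≤ t' ∧ t' ≤ 1)
    (hZ : ‖k6a4_Z c t - k6a4_Z c' t'‖ ≤ b) : ‖k6a4_Z (k6a4_own ρ c) t - k6a4_Z (k6a4_own ρ c') t'‖ ≤ ζ := by
  have hρ := hsc.ρ0
  have hK1 := hsc.K1
  have hρ1 : ρ ≤ 1 := hsc.ρζ.trans hsc.ζ1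
  have hb0 := hsc.b0
  have hbρ := hsc.bρ
  have hζ0 : 0 < ζ := lt_of_lt_of_le hρ hsc.ρζ
  set B := k5_cbin ρ c with hBdef
  have ho : k6a4_own ρ c = k6a4_zm ρ B c := rfl
  have ho' : k6a4_own ρ c' = k6a4_zm ρ B c' := by rw [k6a4_own, ← hB]
  have hcor : ‖k6a4_cor ρ B‖ ≤ K + 1 := (k6a4_cor_norm ρ K hρ c hc).trans (by linarith)
  rw [k6a4_Z_norm] at hZ
  obtain ⟨hZt, hZy, hZx⟩ := hZ
  rw [ho, ho', k6a4_Z_norm]
  have hρζ : ρ * ζ ≤ ζ := by nlinarith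
  refine ⟨?_, ?_, ?_⟩
  · nlinarith
  · refine (pi_norm_le_iff_of_nonneg hζ0.le).2 fun a => ?_
    rw [Pi.sub_apply, k6a4_zm_y ρ hρ.ne' B c t a, k6a4_zm_y ρ hρ.ne' B c' t' a, ← sub_div, Real.norm_eq_abs, abs_div,
      abs_of_pos hρ, div_le_iff₀ hρ]
    have h1 : |k5_y c t a - k5_y c' t' a| ≤ b := (norm_le_pi_norm (k5_y c t - k5_y c' t') a).trans hZy
    have h2 : k5_y (k6a4_cor ρ B) t a - k5_y (k6a4_cor ρ B) t' a = (t - t') * (k6a4_cor ρ B).2 1 a := by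
      simp only [k5_y]
      ring
    have h3 : |(t - t') * (k6a4_cor ρ B).2 1 a| ≤ b * (K + 1) := by
      rw [abs_mul]
      exact mul_le_mul hZt ((k6a4p_le_norm2 _ 1 a).trans hcor) (abs_nonneg _) hb0
    have h4 : k5_y c t a - k5_y (k6a4_cor ρ B) t a - (k5_y c' t' a - k5_y (k6a4_cor ρ B) t' a)
        = (k5_y c t a - k5_y c' t' a) - (t - t') * (k6a4_cor ρ B).2 1 a := by
      rw [← h2]
      ring
    rw [h4]
    rw [abs_le] at h1 h3 ⊢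
    constructor <;> nlinarith [h1.1, h1.2, h3.1, h3.2]
  · rw [k6a4_zm_x ρ hρ.ne' B c t, k6a4_zm_x ρ hρ.ne' B c' t', ← sub_div, abs_div, abs_of_pos hρ, div_le_iff₀ hρ]
    have h2 : k5_x (k6a4_cor ρ B) t - k5_x (k6a4_cor ρ B) t'
        = (t - t') * ((k6a4_cor ρ B).1 1 + (t + t') * (k6a4_cor ρ B).1 2) := by
      simp only [k5_x]
      ring
    have h5 : |(k6a4_cor ρ B).1 1 + (t + t') * (k6a4_cor ρ B).1 2| ≤ 3 * (K + 1) := by
      have h6 := (k6a4p_le_norm1 (k6a4_cor ρ B) 1).trans hcor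
      have h7 := (k6a4p_le_norm1 (k6a4_cor ρ B) 2).trans hcor
      have h8 : |(t + t') * (k6a4_cor ρ B).1 2| ≤ 2 * (K + 1) := by
        rw [abs_mul, abs_of_nonneg (by linarith [ht.1, ht'.1])]
        exact mul_le_mul (by linarith [ht.2, ht'.2]) h7 (abs_nonneg _) (by norm_num)
      calc _ ≤ |(k6a4_cor ρ B).1 1| + |(t + t') * (k6a4_cor ρ B).1 2| := abs_add_le _ _
        _ ≤ 3 * (K + 1) := by linarith
    have h3 : |(t - t') * ((k6a4_cor ρ B).1 1 + (t + t') * (k6a4_cor ρ B).1 2)| ≤ b * (3 * (K + 1)) := by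
      rw [abs_mul]
      exact mul_le_mul hZt h5 (abs_nonneg _) hb0
    have h4 : k5_x c t - k5_x (k6a4_cor ρ B) t - (k5_x c' t' - k5_x (k6a4_cor ρ B) t')
        = (k5_x c t - k5_x c' t') - (t - t') * ((k6a4_cor ρ B).1 1 + (t + t') * (k6a4_cor ρ B).1 2) := by
      rw [← h2]
      ring
    rw [h4]
    rw [abs_le] at hZx h3 ⊢
    constructor <;> nlinarith [hZx.1, hZx.2, h3.1, h3.2]

/-! ### P8. palette masses of aligned bins -/

theorem k6a4_pm_nonneg (π : Measure (Fin j → ℝ)) (p : ℝ) (J : Fin j → ℤ) : 0 ≤ k6a4_pm π p J := measureReal_nonneg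

theorem k6a4p_vbin_measurable (p : ℝ) : Measurable (fun u : Fin j → ℝ => k5_vbin p u) := by
  refine measurable_pi_iff.2 fun a => ?_
  have h : Measurable fun u : Fin j → ℝ => u a / p := by fun_prop
  exact Int.measurable_floor.comp h

theorem k6a4p_vbin_meas (p : ℝ) (x : Fin j → ℤ) : MeasurableSet {u : Fin j → ℝ | k5_vbin p u = x} :=
  k6a4p_vbin_measurable p (measurableSet_singleton x)

theorem k6a4p_vbin_disj (p : ℝ) (S : Set (Fin j → ℤ)) :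
    S.PairwiseDisjoint (fun x => {u : Fin j → ℝ | k5_vbin p u = x}) := by
  intro x _ y _ hxy
  refine Set.disjoint_left.2 fun u hu hu' => hxy ?_
  have h1 : k5_vbin p u = x := hu
  have h2 : k5_vbin p u = y := hu'
  rw [← h1, h2]

theorem k6a4p_cbin_measurable (p : ℝ) : Measurable (fun c : k5_Co j => k5_cbin p c) := by
  refine Measurable.prodMk ?_ ?_
  · refine measurable_pi_iff.2 fun a => ?_
    have h : Measurable fun c : k5_Co j => c.1 a / p := by fun_prop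
    exact Int.measurable_floor.comp h
  · refine measurable_pi_iff.2 fun a => measurable_pi_iff.2 fun a' => ?_
    have h : Measurable fun c : k5_Co j => c.2 a a' / p := by fun_prop
    exact Int.measurable_floor.comp h

/-- the fine bins inside a coarse bin -/
theorem k6a4_pm_sub (π : Measure (Fin j → ℝ)) [IsFiniteMeasure π] (ρ : ℝ) (hρ : 0 < ρ) (i : ℕ) (I : Fin j → ℤ) :
    ∃ Js : Finset (Fin j → ℤ), (∀ u, k5_vbin ρ u = I → k5_vbin (ρ * (1 / 2 : ℝ) ^ i) u ∈ Js) ∧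
      ∑ x ∈ Js, k6a4_pm π (ρ * (1 / 2 : ℝ) ^ i) x ≤ k6a4_pm π ρ I := by
  classical
  refine ⟨Fintype.piFinset (fun a => Finset.Ico (2 ^ i * I a) (2 ^ i * (I a + 1))), ?_, ?_⟩
  · intro u hu
    rw [Fintype.mem_piFinset]
    intro a
    rw [Finset.mem_Ico]
    have h1 : ⌊u a / ρ⌋ = I a := congrFun hu a
    have h2 := (k6a4p_floor_dy (u a / ρ) i (I a)).1 h1
    simp only [k5_vbin]
    rw [k6a4p_div_dy ρ hρ]
    exact h2
  · unfold k6a4_pm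
    rw [← measureReal_biUnion_finset (k6a4p_vbin_disj _ _) (fun x _ => k6a4p_vbin_meas _ x)]
    refine measureReal_mono ?_
    simp only [iUnion_subset_iff]
    intro x hx u hu
    rw [Fintype.mem_piFinset] at hx
    funext a
    have h1 := hx a
    rw [Finset.mem_Ico] at h1
    have h2 : ⌊u a / (ρ * (1 / 2 : ℝ) ^ i)⌋ = x a := congrFun hu a
    rw [k6a4p_div_dy ρ hρ] at h2
    rw [← h2] at h1
    exact (k6a4p_floor_dy (u a / ρ) i (I a)).2 h1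

theorem k6a4_pm_sum (π : Measure (Fin j → ℝ)) [IsFiniteMeasure π] (p : ℝ) (Is : Finset (Fin j → ℤ)) :
    ∑ x ∈ Is, k6a4_pm π p x ≤ π.real univ := by
  unfold k6a4_pm
  rw [← measureReal_biUnion_finset (k6a4p_vbin_disj _ _) (fun x _ => k6a4p_vbin_meas _ x)]
  exact measureReal_mono (subset_univ _)

/-! ### P9. finite ranges, disjoint blocks, measurability -/

theorem k6a4p_floor_mem {p K x : ℝ} (hp : 0 < p) (hx : |x| ≤ K) : ⌊x / p⌋ ∈ Finset.Icc ⌊-K / p⌋ ⌊K / p⌋ := by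
  rw [abs_le] at hx
  rw [Finset.mem_Icc]
  exact ⟨Int.floor_le_floor (by gcongr; exact hx.1), Int.floor_le_floor (by gcongr; exact hx.2)⟩

theorem k6a4_cbin_fin (p K : ℝ) (hp : 0 < p) : ∃ S : Finset (k6a4_Ix j), ∀ c : k5_Co j, ‖c‖ ≤ K → k5_cbin p c ∈ S := by
  classical
  refine ⟨(Fintype.piFinset fun _ => Finset.Icc ⌊-K / p⌋ ⌊K / p⌋) ×ˢ
    (Fintype.piFinset fun _ => Fintype.piFinset fun _ => Finset.Icc ⌊-K / p⌋ ⌊K / p⌋), ?_⟩
  intro c hc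
  rw [Finset.mem_product, Fintype.mem_piFinset, Fintype.mem_piFinset]
  refine ⟨fun a => k6a4p_floor_mem hp ((k6a4p_le_norm1 c a).trans hc), fun a => ?_⟩
  rw [Fintype.mem_piFinset]
  exact fun a' => k6a4p_floor_mem hp ((k6a4p_le_norm2 c a a').trans hc)

theorem k6a4_vbin_fin (p K : ℝ) (hp : 0 < p) : ∃ S : Finset (Fin j → ℤ), ∀ u : Fin j → ℝ, ‖u‖ ≤ K → k5_vbin p u ∈ S := by
  classical
  refine ⟨Fintype.piFinset fun _ => Finset.Icc ⌊-K / p⌋ ⌊K / p⌋, ?_⟩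
  intro u hu
  rw [Fintype.mem_piFinset]
  exact fun a => k6a4p_floor_mem hp ((norm_le_pi_norm u a).trans hu)

theorem k6a4_blk_sum {Λ : Type} [MeasurableSpace Λ] (ν : Measure Λ) [IsFiniteMeasure ν] (c : Λ → k5_Co j)
    (hc : Measurable c) (p : ℝ) (S : Finset (k6a4_Ix j)) : ∑ B ∈ S, ν.real {l | k5_cbin p (c l) = B} ≤ ν.real univ := by
  have hm : ∀ B, MeasurableSet {l | k5_cbin p (c l) = B} := fun B =>
    ((k6a4p_cbin_measurable p).comp hc) (measurableSet_singleton B)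
  have hd : (S : Set (k6a4_Ix j)).PairwiseDisjoint (fun B => {l | k5_cbin p (c l) = B}) := by
    intro x _ y _ hxy
    refine Set.disjoint_left.2 fun u hu hu' => hxy ?_
    have h1 : k5_cbin p (c u) = x := hu
    have h2 : k5_cbin p (c u) = y := hu'
    rw [← h1, h2]
  rw [← measureReal_biUnion_finset hd (fun B _ => hm B)]
  exact measureReal_mono (subset_univ _)

theorem k6a4_meas_cbin {Λ : Type} [MeasurableSpace Λ] (c : Λ → k5_Co j) (hc : Measurable c) (p : ℝ) (B : k6a4_Ix j) :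
    MeasurableSet {l | k5_cbin p (c l) = B} := by
  exact ((k6a4p_cbin_measurable p).comp hc) (measurableSet_singleton B)

theorem k6a4_meas_bk {Λ : Type} [MeasurableSpace Λ] (c : Λ → k5_Co j) (hc : Measurable c) (p : ℝ) (B : k6a4_Ix j) :
    MeasurableSet (k6a4_bk p c ⁻¹' {B}) := by
  exact ((k6a4p_cbin_measurable p).comp (hc.comp measurable_fst)) (measurableSet_singleton B)

theorem k6a4_meas_vb {Λ : Type} [MeasurableSpace Λ] (c : Λ → k5_Co j) (hc : Measurable c) (p : ℝ) (J : Fin j → ℤ) :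
    MeasurableSet (k6a4_vb p c ⁻¹' {J}) := by
  have h1 : Measurable fun e : Λ × ℝ => k5_yd (c e.1) :=
    (measurable_pi_apply (1 : Fin 2)).comp (measurable_snd.comp (hc.comp measurable_fst))
  exact ((k6a4p_vbin_measurable p).comp h1) (measurableSet_singleton J)

theorem k6a4_meas_Z {Λ : Type} [MeasurableSpace Λ] (c : Λ → k5_Co j) (hc : Measurable c) :
    Measurable fun e : Λ × ℝ => k6a4_Z (c e.1) e.2 := by
  have hc1 : Measurable fun e : Λ × ℝ => (c e.1).1 := measurable_fst.comp (hc.comp measurable_fst)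
  have hc2 : Measurable fun e : Λ × ℝ => (c e.1).2 := measurable_snd.comp (hc.comp measurable_fst)
  have h1 : ∀ i, Measurable fun e : Λ × ℝ => (c e.1).1 i := fun i => (measurable_pi_apply i).comp hc1
  have h2 : ∀ i a, Measurable fun e : Λ × ℝ => (c e.1).2 i a := fun i a =>
    (measurable_pi_apply a).comp ((measurable_pi_apply i).comp hc2)
  refine measurable_pi_iff.2 ?_
  rw [Fin.forall_fin_succ, Fin.forall_fin_succ']
  simp only [k6a4_Z, Fin.cons_zero, Fin.cons_succ, Fin.snoc_castSucc, Fin.snoc_last]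
  refine ⟨measurable_snd, fun a => ?_, ?_⟩
  · simp only [k5_y]
    exact (h2 0 a).add (measurable_snd.mul (h2 1 a))
  · simp only [k5_x]
    exact ((h1 0).add (measurable_snd.mul (h1 1))).add ((measurable_snd.pow_const 2).mul (h1 2))

theorem k6a4p_own_measurable (ρ : ℝ) : Measurable (fun c : k5_Co j => k6a4_own ρ c) := by
  refine Measurable.prodMk ?_ ?_
  · refine measurable_pi_iff.2 fun a => ?_
    have h : Measurable fun c : k5_Co j => c.1 a / ρ := by fun_prop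
    exact measurable_fract.comp h
  · refine measurable_pi_iff.2 fun a => measurable_pi_iff.2 fun a' => ?_
    have h : Measurable fun c : k5_Co j => c.2 a a' / ρ := by fun_prop
    exact measurable_fract.comp h

theorem k6a4p_zm_measurable (ρ : ℝ) (B : k6a4_Ix j) : Measurable (fun c : k5_Co j => k6a4_zm ρ B c) := by
  unfold k6a4_zm
  fun_prop

theorem k6a4_meas_cl {Λ : Type} [MeasurableSpace Λ] (c : Λ → k5_Co j) (hc : Measurable c) (ρ s : ℝ)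
    (n : Fin (j + 2) → ℤ) : MeasurableSet (k6a4_cl ρ s c ⁻¹' {n}) := by
  have ho : Measurable fun l => k6a4_own ρ (c l) := (k6a4p_own_measurable ρ).comp hc
  exact (k6a_cc_cell_meas s (k6a4_meas_Z (fun l => k6a4_own ρ (c l)) ho)) (measurableSet_singleton n)

theorem k6a4_meas_zc {Λ : Type} [MeasurableSpace Λ] (c : Λ → k5_Co j) (hc : Measurable c) (ρ : ℝ) (B : k6a4_Ix j) :
    Measurable fun l => k6a4_zc ρ B (c l) := by
  unfold k6a4_zc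
  exact Measurable.ite (k6a4_meas_cbin c hc ρ B) ((k6a4p_zm_measurable ρ B).comp hc) measurable_const

theorem k6a4_meas_R {Λ : Type} [MeasurableSpace Λ] (c : Λ → k5_Co j) (hc : Measurable c) (f : ℝ → Fin j → ℝ)
    (hf : Measurable f) : Measurable fun e : Λ × ℝ => k5_R (f e.2) (c e.1) e.2 := by
  have hc1 : Measurable fun e : Λ × ℝ => (c e.1).1 := measurable_fst.comp (hc.comp measurable_fst)
  have hc2 : Measurable fun e : Λ × ℝ => (c e.1).2 := measurable_snd.comp (hc.comp measurable_fst)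
  have h1 : ∀ i, Measurable fun e : Λ × ℝ => (c e.1).1 i := fun i => (measurable_pi_apply i).comp hc1
  have h2 : ∀ i a, Measurable fun e : Λ × ℝ => (c e.1).2 i a := fun i a =>
    (measurable_pi_apply a).comp ((measurable_pi_apply i).comp hc2)
  have h3 : ∀ a, Measurable fun e : Λ × ℝ => f e.2 a := fun a => (measurable_pi_apply a).comp (hf.comp measurable_snd)
  simp only [k5_R, k5_xD, k5_yd, dotProduct]
  refine Measurable.sub ((h1 1).add ((measurable_snd.const_mul 2).mul (h1 2))) ?_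
  exact Finset.measurable_sum _ (fun a _ => (h3 a).mul (h2 1 a))

end Claimed.Agent.R252
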