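import Claimed.Agent.R252.S6a.Q4Gen
import Claimed.Agent.R252.S6a.Q4Geo

/-!
# ROW 252, unit S6a, post BP-252-S6a4 (sub-architect helper198; prefix `k6a4_`), file 4: THE RESIDUAL LISTS (06 l.716-799).   CONTRACT: each `sorry` is a leaf `L-252-S6a4-L*`.

ONE width `s = 2^{-i} ≥ ζ`, `β = ρ s`.   Two deletions, both from FIXED sets (no successive dependence between different widths: the lists are upper lists, the final set is the intersection over the grid):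
* `k6a4_E1` : keep the block/cell entries `(B_β, zoomed s-cell)` of mass `≥ s ν(B_β) / K1`            (loss `≤ C / K1`, `k6a4_loss1`);
* `k6a4_E2` : keep the refined entries `(W, B_ρ, zoomed s-cell)` of `E1`-mass `≥ m0(W) π([V]_ρ) / K1`   (loss `≤ 2^(j+2) K² / K1`, `k6a4_loss2`).
Then: `k6a4_cell_cap` + `floor` ⟹ `≤ K² K1` blocks per (cell, fine velocity bin) (`k6a4_blocks`);  a block gives `≤ 13 + 6 j K` residual bins (`k6a4_vel_bins`);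
`k6a4_pay_list` removes the velocity condition (`k6a4_list_cell`).
-/

set_option autoImplicit false

namespace Claimed.Agent.R252

open MeasureTheory Set
open scoped BigOperators

variable {j : ℕ}

/-- first deletion: block/cell entries -/
noncomputable def k6a4_E1 {Λ : Type} [MeasurableSpace Λ] (ν : Measure Λ) (c : Λ → k5_Co j) (E : Set (Λ × ℝ))
    (ρ s K1 : ℝ) : Set (Λ × ℝ) :=
  k6a4_keep (ν.prod volume) E (fun e => (k6a4_bk (ρ * s) c e, k6a4_cl ρ s c e))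
    (fun k => s * ν.real {l | k5_cbin (ρ * s) (c l) = k.1} / K1)

/-- second deletion: refined entries `(W, B_ρ, cell)`; the key contains `[V]_ρ`, which is a function of `B_ρ` -/
noncomputable def k6a4_E2 {Λ ι : Type} [MeasurableSpace Λ] (ν : Measure Λ) (c : Λ → k5_Co j) (E : Set (Λ × ℝ))
    (π : Measure (Fin j → ℝ)) (w : Λ × ℝ → ι) (m0 : ι → ℝ) (ρ s K1 : ℝ) : Set (Λ × ℝ) :=
  k6a4_keep (ν.prod volume) (k6a4_E1 ν c E ρ s K1)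
    (fun e => ((w e, k6a4_vb ρ c e), (k6a4_bk ρ c e, k6a4_cl ρ s c e)))
    (fun k => m0 k.1.1 * k6a4_pm π ρ k.1.2 / K1)

theorem k6a4_list_eqns_cite : True := by
  have := @k6a4_E1.eq_1
  have := @k6a4_E2.eq_1
  trivial

section

variable {Λ ι : Type} [MeasurableSpace Λ] {d K ζ ρ b η : ℝ} {ν : Measure Λ} {c : Λ → k5_Co j} {E : Set (Λ × ℝ)}
  {π : Measure (Fin j → ℝ)} {w : Λ × ℝ → ι} {Ws : Finset ι} {m0 : ι → ℝ} {G0 : ι → ℝ} {Gy : ι → Fin j → ℝ}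
  {F : k6a4_Ix j → ℝ → Fin j → ℝ}

theorem k6a4_ls_own_cbin0 (ρ : ℝ) (hρ : 0 < ρ) (i : ℕ) (c c' : k5_Co j)
    (h : k5_cbin (ρ * (1 / 2 : ℝ) ^ i) c = k5_cbin (ρ * (1 / 2 : ℝ) ^ i) c') :
    k5_cbin ((1 / 2 : ℝ) ^ i) (k6a4_own ρ c) = k5_cbin ((1 / 2 : ℝ) ^ i) (k6a4_own ρ c') := by
  unfold k6a4_own
  rw [k6a4_cbin_zoom ρ hρ i, k6a4_cbin_zoom ρ hρ i, h, k6a4_cbin_nest ρ hρ i c c' h]

theorem k6a4_ls_meas_pair {Ω κ₁ κ₂ : Type} [MeasurableSpace Ω] (f : Ω → κ₁) (g : Ω → κ₂)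
    (hf : ∀ k, MeasurableSet (f ⁻¹' {k})) (hg : ∀ k, MeasurableSet (g ⁻¹' {k})) (k : κ₁ × κ₂) :
    MeasurableSet ((fun x => (f x, g x)) ⁻¹' {k}) := by
  have e : (fun x => (f x, g x)) ⁻¹' {k} = f ⁻¹' {k.1} ∩ g ⁻¹' {k.2} := by
    ext x
    simp only [mem_preimage, mem_singleton_iff, mem_inter_iff, Prod.ext_iff]
  rw [e]
  exact (hf _).inter (hg _)

/-- L1. measurability and loss of the first deletion.   (`k6a4_keep_meas`, `k6a4_keep_loss` with `key₁` = block, `key₂` = cell, `N = C / s` from `k6a4_block_cells` + `k6a4_cbin_zoom`, `k6a4_blk_sum`.) -/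
theorem k6a4_loss1 (j : ℕ) : ∃ C : ℝ, 1 ≤ C ∧ ∀ {Λ : Type} [MeasurableSpace Λ] (ν : Measure Λ) [IsFiniteMeasure ν]
    (c : Λ → k5_Co j) (E : Set (Λ × ℝ)) (K ρ s K1 : ℝ), Measurable c → MeasurableSet E →
    (∀ l t, (l, t) ∈ E → 0 ≤ t ∧ t < 1) → (∀ l, ‖c l‖ ≤ K) → 0 < ρ → (∃ i : ℕ, s = (1 / 2 : ℝ) ^ i) → 0 < K1 →
    MeasurableSet (k6a4_E1 ν c E ρ s K1) ∧ k5_mass ν (E \ k6a4_E1 ν c E ρ s K1) ≤ C * ν.real univ / K1 := by
  classical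
  obtain ⟨C, hC, hcells⟩ := k6a4_block_cells j
  refine ⟨C, hC, ?_⟩
  intro Λ _ ν _ c E K ρ s K1 hc hE htI hcb hρ hi hK1
  obtain ⟨i, rfl⟩ := hi
  have hs0 : (0 : ℝ) < (1 / 2) ^ i := by positivity
  have hs1 : ((1 : ℝ) / 2) ^ i ≤ 1 := pow_le_one₀ (by norm_num) (by norm_num)
  choose T0 hT0c hT0 using hcells _ hs0 hs1
  obtain ⟨S, hS⟩ := k6a4_cbin_fin (j := j) (ρ * (1 / 2) ^ i) K (by positivity)
  obtain ⟨T, hTdef⟩ : ∃ T : k6a4_Ix j → Finset (Fin (j + 2) → ℤ), T = fun B1 =>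
      if hx : ∃ c0 : k5_Co j, k5_cbin (ρ * (1 / 2) ^ i) c0 = B1 then
        T0 (k5_cbin ((1 / 2) ^ i) (k6a4_own ρ hx.choose)) else ∅ := ⟨_, rfl⟩
  have hT : ∀ x ∈ E, k6a4_cl ρ ((1 / 2) ^ i) c x ∈ T (k6a4_bk (ρ * (1 / 2) ^ i) c x) := by
    intro x hx
    have hex : ∃ c0 : k5_Co j, k5_cbin (ρ * (1 / 2) ^ i) c0 = k6a4_bk (ρ * (1 / 2) ^ i) c x := ⟨c x.1, rfl⟩
    rw [hTdef]
    simp only [dif_pos hex]
    apply hT0 _ (k6a4_own ρ (c x.1)) x.2 (k6a4_own_norm ρ hρ _) (htI _ _ hx).1 (htI _ _ hx).2.le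
    exact k6a4_ls_own_cbin0 ρ hρ i _ _ hex.choose_spec.symm
  have hN : ∀ k ∈ S, ((T k).card : ℝ) ≤ C / (1 / 2) ^ i := by
    intro k _
    rw [hTdef]
    simp only
    split_ifs
    · exact hT0c _
    · simp only [Finset.card_empty, Nat.cast_zero]
      positivity
  have hS' : ∀ x ∈ E, k6a4_bk (ρ * (1 / 2) ^ i) c x ∈ S := fun x _ => hS _ (hcb _)
  constructor
  · refine k6a4_keep_meas (ν.prod volume) E hE _
      (k6a4_ls_meas_pair _ _ (k6a4_meas_bk c hc _) (k6a4_meas_cl c hc ρ _)) (S ×ˢ S.biUnion T) ?_ _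
    intro x hx
    exact Finset.mem_product.2 ⟨hS' x hx, Finset.mem_biUnion.2 ⟨_, hS' x hx, hT x hx⟩⟩
  · have hl := k6a4_keep_loss (ν.prod volume) E hE (k6a4_mass_fin ν E htI) (k6a4_bk (ρ * (1 / 2) ^ i) c)
      (k6a4_cl ρ ((1 / 2) ^ i) c) (k6a4_meas_bk c hc _) (k6a4_meas_cl c hc ρ _) S hS' T hT (C / (1 / 2) ^ i) hN
      (fun B => (1 / 2) ^ i * ν.real {l | k5_cbin (ρ * (1 / 2) ^ i) (c l) = B} / K1) (fun k => by positivity)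
    refine le_trans hl ?_
    have hsum := k6a4_blk_sum ν c hc (ρ * (1 / 2) ^ i) S
    rw [← Finset.sum_div, ← Finset.mul_sum]
    have e1 : ∀ X : ℝ, C / (1 / 2) ^ i * (((1 / 2) ^ i * X) / K1) = C * X / K1 := by
      intro X
      field_simp
    rw [e1]
    exact div_le_div_of_nonneg_right (mul_le_mul_of_nonneg_left hsum (by linarith)) hK1.le

/-- L2. measurability and loss of the second deletion.   (`key₁ = (W, [V]_ρ)`, `key₂ = (B_ρ, cell)`, `N = 2^(j+2) K` from `plist`, `k6a4_state_close`, `k6a_cv_piece`;  `∑ thr ≤ (∑ m0)(∑ π(I)) / K1 ≤ K / K1`.) -/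
theorem k6a4_loss2 (h : k6a4_In j d K ζ ρ b η ν c E π w Ws m0 G0 Gy F) (hsc : k6a4_Sc j K ζ ρ b η) (s K1 : ℝ)
    (hs : s ∈ k5_Dy ζ) (hK1 : 0 < K1) :
    MeasurableSet (k6a4_E2 ν c E π w m0 ρ s K1) ∧
      k5_mass ν (k6a4_E1 ν c E ρ s K1 \ k6a4_E2 ν c E π w m0 ρ s K1) ≤ 2 ^ (j + 2) * K ^ 2 / K1 := by
  classical
  have := h.fin
  have := h.pfin
  have hρ := hsc.ρ0
  have hK := hsc.K1
  have hK0 : 0 < K := by linarith
  have hs0 : 0 < s := by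
    obtain ⟨_, i, rfl⟩ := hs
    positivity
  obtain ⟨C, _, h1⟩ := k6a4_loss1 j
  have hm1 : MeasurableSet (k6a4_E1 ν c E ρ s K1) := (h1 ν c E K ρ s K1 h.mc h.mE h.tI h.cb hρ hs.2 hK1).1
  have hsub1 : k6a4_E1 ν c E ρ s K1 ⊆ E := k6a4_keep_sub _ _ _ _
  have hfin1 : (ν.prod volume) (k6a4_E1 ν c E ρ s K1) ≠ ⊤ :=
    ne_top_of_le_ne_top (k6a4_mass_fin ν E h.tI) (measure_mono hsub1)
  obtain ⟨Vs, hVs⟩ := k6a4_vbin_fin (j := j) ρ K hρ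
  choose Tp hTpc hTp using h.plist
  have hcl : ∀ (i : ι) (B : k6a4_Ix j), ∃ Fc : Finset (Fin (j + 2) → ℤ), Fc.card ≤ 2 ^ (j + 2) ∧
      ∀ e ∈ {e : Λ × ℝ | e ∈ E ∧ w e = i ∧ k6a4_bk ρ c e = B},
        k6a_cell s (k6a4_Z (k6a4_own ρ (c e.1)) e.2) ∈ Fc :=
    fun i B => k6a_cv_piece (j + 2) (fun e : Λ × ℝ => k6a4_Z (k6a4_own ρ (c e.1)) e.2) s hs0 _
      (fun e he e' he' => (k6a4_state_close K ζ ρ b η hsc _ _ _ _ (h.cb _) (he.2.2.trans he'.2.2.symm)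
        ⟨(h.tI _ _ he.1).1, (h.tI _ _ he.1).2.le⟩ ⟨(h.tI _ _ he'.1).1, (h.tI _ _ he'.1).2.le⟩
        (h.wd e he.1 e' he'.1 (he.2.1.trans he'.2.1.symm))).trans hs.1)
  choose Fc hFcc hFc using hcl
  obtain ⟨T, hTdef⟩ : ∃ T : ι × (Fin j → ℤ) → Finset (k6a4_Ix j × (Fin (j + 2) → ℤ)),
      T = fun k => (Tp k.1 k.2).biUnion (fun B => (Fc k.1 B).image (fun n => (B, n))) := ⟨_, rfl⟩
  have hT : ∀ x ∈ k6a4_E1 ν c E ρ s K1, (k6a4_bk ρ c x, k6a4_cl ρ s c x) ∈ T (w x, k6a4_vb ρ c x) := by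
    intro x hx
    have hxE := hsub1 hx
    rw [hTdef]
    refine Finset.mem_biUnion.2 ⟨k6a4_bk ρ c x, hTp _ _ x hxE rfl rfl, Finset.mem_image.2 ⟨k6a4_cl ρ s c x, ?_, rfl⟩⟩
    exact hFc _ _ x ⟨hxE, rfl, rfl⟩
  have hN : ∀ k ∈ Ws ×ˢ Vs, ((T k).card : ℝ) ≤ 2 ^ (j + 2) * K := by
    intro k _
    rw [hTdef]
    have a1 : (((Tp k.1 k.2).biUnion (fun B => (Fc k.1 B).image (fun n => (B, n)))).card : ℝ)
        ≤ ∑ B ∈ Tp k.1 k.2, (((Fc k.1 B).image (fun n => (B, n))).card : ℝ) := by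
      exact_mod_cast Finset.card_biUnion_le
    have a2 : ∑ B ∈ Tp k.1 k.2, (((Fc k.1 B).image (fun n => (B, n))).card : ℝ)
        ≤ ∑ _B ∈ Tp k.1 k.2, (2 ^ (j + 2) : ℝ) := by
      refine Finset.sum_le_sum (fun B _ => ?_)
      have := (Finset.card_image_le (s := Fc k.1 B) (f := fun n => (B, n))).trans (hFcc k.1 B)
      exact_mod_cast this
    rw [Finset.sum_const, nsmul_eq_mul] at a2
    refine a1.trans (a2.trans ?_)
    rw [mul_comm]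
    exact mul_le_mul_of_nonneg_left (hTpc _ _) (by positivity)
  have hS : ∀ x ∈ k6a4_E1 ν c E ρ s K1, (w x, k6a4_vb ρ c x) ∈ Ws ×ˢ Vs := by
    intro x hx
    refine Finset.mem_product.2 ⟨h.wS x (hsub1 hx), hVs _ ?_⟩
    exact ((norm_le_pi_norm (c x.1).2 1).trans (norm_snd_le (c x.1))).trans (h.cb _)
  have hk1 := k6a4_ls_meas_pair w (k6a4_vb ρ c) h.mw (k6a4_meas_vb c h.mc ρ)
  have hk2 := k6a4_ls_meas_pair (k6a4_bk ρ c) (k6a4_cl ρ s c) (k6a4_meas_bk c h.mc ρ) (k6a4_meas_cl c h.mc ρ s)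
  constructor
  · refine k6a4_keep_meas (ν.prod volume) _ hm1 _ (k6a4_ls_meas_pair _ _ hk1 hk2)
      ((Ws ×ˢ Vs) ×ˢ (Ws ×ˢ Vs).biUnion T) ?_ _
    intro x hx
    exact Finset.mem_product.2 ⟨hS x hx, Finset.mem_biUnion.2 ⟨_, hS x hx, hT x hx⟩⟩
  · have hl := k6a4_keep_loss (ν.prod volume) _ hm1 hfin1 (fun e => (w e, k6a4_vb ρ c e))
      (fun e => (k6a4_bk ρ c e, k6a4_cl ρ s c e)) hk1 hk2 (Ws ×ˢ Vs) hS T hT (2 ^ (j + 2) * K) hN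
      (fun k => m0 k.1 * k6a4_pm π ρ k.2 / K1)
      (fun k => div_nonneg (mul_nonneg (h.m0n _) (k6a4_pm_nonneg _ _ _)) hK1.le)
    refine le_trans hl ?_
    have e1 : ∑ k ∈ Ws ×ˢ Vs, m0 k.1 * k6a4_pm π ρ k.2 / K1
        = (∑ i ∈ Ws, m0 i) * (∑ I ∈ Vs, k6a4_pm π ρ I) / K1 := by
      rw [← Finset.sum_div, Finset.sum_product, Finset.sum_mul_sum]
    rw [e1]
    have e2 : ∑ I ∈ Vs, k6a4_pm π ρ I ≤ 1 := (k6a4_pm_sum π ρ Vs).trans h.pi1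
    have e3 : 0 ≤ ∑ I ∈ Vs, k6a4_pm π ρ I := Finset.sum_nonneg (fun _ _ => k6a4_pm_nonneg _ _ _)
    have e4 : (∑ i ∈ Ws, m0 i) * (∑ I ∈ Vs, k6a4_pm π ρ I) ≤ K * 1 :=
      mul_le_mul h.m0s e2 e3 hK0.le
    calc 2 ^ (j + 2) * K * ((∑ i ∈ Ws, m0 i) * (∑ I ∈ Vs, k6a4_pm π ρ I) / K1)
        ≤ 2 ^ (j + 2) * K * (K * 1 / K1) :=
          mul_le_mul_of_nonneg_left (div_le_div_of_nonneg_right e4 hK1.le) (by positivity)
      _ = 2 ^ (j + 2) * K ^ 2 / K1 := by ring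

theorem k6a4_ls_measA {Λ : Type} [MeasurableSpace Λ] (c : Λ → k5_Co j) (hc : Measurable c) (E : Set (Λ × ℝ)) (hE : MeasurableSet E)
    (ρ s p : ℝ) (B : k6a4_Ix j) (n : Fin (j + 2) → ℤ) (x : Fin j → ℤ) :
    MeasurableSet {e | e ∈ E ∧ k6a4_bk ρ c e = B ∧ k6a4_cl ρ s c e = n ∧ k6a4_vb p c e = x} := by
  have e1 : {e | e ∈ E ∧ k6a4_bk ρ c e = B ∧ k6a4_cl ρ s c e = n ∧ k6a4_vb p c e = x}
      = E ∩ (k6a4_bk ρ c ⁻¹' {B} ∩ (k6a4_cl ρ s c ⁻¹' {n} ∩ k6a4_vb p c ⁻¹' {x})) := by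
    ext e; rfl
  rw [e1]
  exact hE.inter ((k6a4_meas_bk c hc ρ B).inter ((k6a4_meas_cl c hc ρ s n).inter (k6a4_meas_vb c hc _ x)))

/-- L3. `λ(zoomed cell, J) ≤ K s β^(j+d) π(J)` : the fixed-time cap integrated along the moving cross-section (06 l.722-730).   (`k6a4_mass_sec`, `k6a4_cell_InQ`, `k6a4_zm_InQ`, `cap` with `q = r = s`.) -/
theorem k6a4_cell_cap (h : k6a4_In j d K ζ ρ b η ν c E π w Ws m0 G0 Gy F) (hsc : k6a4_Sc j K ζ ρ b η) (s : ℝ)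
    (hs : s ∈ k5_Dy ζ) (B : k6a4_Ix j) (n : Fin (j + 2) → ℤ) (x : Fin j → ℤ) :
    k5_mass ν {e | e ∈ E ∧ k6a4_bk ρ c e = B ∧ k6a4_cl ρ s c e = n ∧ k6a4_vb (ρ * s) c e = x}
      ≤ s * (K * (ρ * s) ^ ((j : ℝ) + d) * k6a4_pm π (ρ * s) x) := by
  have := h.fin
  have hρ := hsc.ρ0
  have hK := hsc.K1
  have hs0 : 0 < s := by
    obtain ⟨_, i, rfl⟩ := hs
    positivity
  have hM : 0 ≤ K * (ρ * s) ^ ((j : ℝ) + d) * k6a4_pm π (ρ * s) x :=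
    mul_nonneg (mul_nonneg (by linarith) (Real.rpow_nonneg (by positivity) _)) (k6a4_pm_nonneg _ _ _)
  refine k6a4_mass_sec ν _ (k6a4_ls_measA c h.mc E h.mE ρ s _ B n x) ((n 0 : ℝ) * s) s _ hs0.le hM ?_ ?_
  · intro l t hlt
    exact (k6a4_cell_InQ s hs0 _ t n hlt.2.2.1).1
  · intro t
    refine le_trans (measureReal_mono ?_) (h.cap s hs s (ρ * ((n (Fin.last (j + 1)) : ℝ) * s) + k5_x (k6a4_cor ρ B) t)
      (fun i => ρ * ((n i.castSucc.succ : ℝ) * s) + k5_y (k6a4_cor ρ B) t i) x t hs.1 le_rfl)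
    intro l hl
    obtain ⟨hE, hB, hn, hx⟩ := hl
    refine ⟨hE, ?_, hx⟩
    have h1 := (k6a4_cell_InQ s hs0 _ t n hn).2
    have h2 : k6a4_own ρ (c l) = k6a4_zm ρ B (c l) := by
      unfold k6a4_own
      rw [show k5_cbin ρ (c l) = B from hB]
    simp only [h2] at h1
    exact (k6a4_zm_InQ ρ hρ B (c l) t s _ _).1 h1

theorem k6a4_ls_arith (Tc s X K K1 : ℝ) (hs : 0 < s) (hX : 0 < X) (hK : 1 ≤ K) (hK1 : 0 < K1)
    (h : Tc * (s * X / (K * K1)) ≤ s * (K * X)) : Tc ≤ K ^ 2 * K1 := by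
  have hK0 : 0 < K := by linarith
  have h1 : Tc * (s * X / (K * K1)) = Tc * (s * X) / (K * K1) := by ring
  rw [h1, div_le_iff₀ (by positivity)] at h
  have h2 : Tc * (s * X) ≤ (K ^ 2 * K1) * (s * X) := by
    calc Tc * (s * X) ≤ s * (K * X) * (K * K1) := h
      _ = (K ^ 2 * K1) * (s * X) := by ring
  exact le_of_mul_le_mul_right h2 (by positivity)

/-- L4. at most `K² K1` surviving blocks per (cell, fine velocity bin) (06 l.731-736).   (`k6a4_count` in the set of L3 with `key` = block of side `β`, `c₀ = s β^(j+d) π(J) / (K K1)` by `floor`; if `π(J) = 0` no entry has positive mass.) -/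
theorem k6a4_blocks (h : k6a4_In j d K ζ ρ b η ν c E π w Ws m0 G0 Gy F) (hsc : k6a4_Sc j K ζ ρ b η) (s K1 : ℝ)
    (hs : s ∈ k5_Dy ζ) (hK1 : 0 < K1) (B : k6a4_Ix j) (n : Fin (j + 2) → ℤ) (x : Fin j → ℤ) :
    ∃ T : Finset (k6a4_Ix j), (T.card : ℝ) ≤ K ^ 2 * K1 ∧ ∀ e ∈ k6a4_E1 ν c E ρ s K1, k6a4_bk ρ c e = B →
      k6a4_cl ρ s c e = n → k6a4_vb (ρ * s) c e = x → k6a4_bk (ρ * s) c e ∈ T := by
  have := h.fin
  have hρ := hsc.ρ0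
  have hK := hsc.K1
  have hK0 : 0 < K := by linarith
  have hcap := k6a4_cell_cap h hsc s hs B n x
  have hs0 : 0 < s := by
    obtain ⟨_, i, rfl⟩ := hs
    positivity
  have hmA := k6a4_ls_measA c h.mc E h.mE ρ s (ρ * s) B n x
  have hfinA : (ν.prod volume) {e | e ∈ E ∧ k6a4_bk ρ c e = B ∧ k6a4_cl ρ s c e = n ∧ k6a4_vb (ρ * s) c e = x} ≠ ⊤ :=
    ne_top_of_le_ne_top (k6a4_mass_fin ν E h.tI) (measure_mono (fun e he => he.1))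
  have hinc : ∀ e ∈ E, k6a4_bk ρ c e = B → k6a4_cl ρ s c e = n → k6a4_vb (ρ * s) c e = x →
      E ∩ (fun e => (k6a4_bk (ρ * s) c e, k6a4_cl ρ s c e)) ⁻¹' {(k6a4_bk (ρ * s) c e, k6a4_cl ρ s c e)} ⊆
        {e | e ∈ E ∧ k6a4_bk ρ c e = B ∧ k6a4_cl ρ s c e = n ∧ k6a4_vb (ρ * s) c e = x} ∩
          k6a4_bk (ρ * s) c ⁻¹' {k6a4_bk (ρ * s) c e} := by
    intro e _ hB hn hx e' he'
    obtain ⟨heE', hk⟩ := he'
    have hk1 : k6a4_bk (ρ * s) c e' = k6a4_bk (ρ * s) c e := congrArg Prod.fst hk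
    have hk2 : k6a4_cl ρ s c e' = k6a4_cl ρ s c e := congrArg Prod.snd hk
    refine ⟨⟨heE', ?_, hk2.trans hn, ?_⟩, hk1⟩
    · obtain ⟨_, i, rfl⟩ := hs
      rw [← hB]
      exact k6a4_cbin_nest ρ hρ i _ _ hk1
    · rw [← hx]
      unfold k6a4_vb
      rw [k6a4_vbin_of_cbin, k6a4_vbin_of_cbin, show k5_cbin (ρ * s) (c e'.1) = k5_cbin (ρ * s) (c e.1) from hk1]
  by_cases hp : k6a4_pm π (ρ * s) x = 0
  · refine ⟨∅, by simp only [Finset.card_empty, Nat.cast_zero]; positivity, fun e he hB hn hx => ?_⟩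
    exfalso
    obtain ⟨heE, _, hpos⟩ := he
    have h1 := measureReal_mono ((hinc e heE hB hn hx).trans inter_subset_left) hfinA
    rw [hp] at hcap
    unfold k5_mass at hcap
    simp only [mul_zero] at hcap
    linarith
  · have hp0 : 0 < k6a4_pm π (ρ * s) x := lt_of_le_of_ne (k6a4_pm_nonneg _ _ _) (Ne.symm hp)
    have hX : 0 < (ρ * s) ^ ((j : ℝ) + d) * k6a4_pm π (ρ * s) x :=
      mul_pos (Real.rpow_pos_of_pos (by positivity) _) hp0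
    obtain ⟨T, hT, hT'⟩ := k6a4_count (ν.prod volume) _ hmA hfinA (k6a4_bk (ρ * s) c) (k6a4_meas_bk c h.mc _)
      (s * ((ρ * s) ^ ((j : ℝ) + d) * k6a4_pm π (ρ * s) x) / (K * K1))
      (s * (K * ((ρ * s) ^ ((j : ℝ) + d) * k6a4_pm π (ρ * s) x))) (by positivity)
      (by rw [← mul_assoc K]; exact hcap)
    refine ⟨T, k6a4_ls_arith _ s _ K K1 hs0 hX hK hK1 hT, fun e he hB hn hx => ?_⟩
    obtain ⟨heE, hthr, _⟩ := he
    apply hT'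
    have hfin2 : (ν.prod volume) ({e | e ∈ E ∧ k6a4_bk ρ c e = B ∧ k6a4_cl ρ s c e = n ∧ k6a4_vb (ρ * s) c e = x} ∩
          k6a4_bk (ρ * s) c ⁻¹' {k6a4_bk (ρ * s) c e}) ≠ ⊤ :=
      ne_top_of_le_ne_top hfinA (measure_mono inter_subset_left)
    refine le_trans ?_ (hthr.trans (measureReal_mono (hinc e heE hB hn hx) hfin2))
    have hfl := h.floor s hs e heE
    rw [hx] at hfl
    simp only
    rw [div_le_div_iff₀ (by positivity) hK1]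
    calc s * ((ρ * s) ^ ((j : ℝ) + d) * k6a4_pm π (ρ * s) x) * K1
        ≤ s * (K * ν.real {l | k5_cbin (ρ * s) (c l) = k6a4_bk (ρ * s) c e}) * K1 := by
          exact mul_le_mul_of_nonneg_right (mul_le_mul_of_nonneg_left hfl hs0.le) hK1.le
      _ = s * ν.real {l | k5_cbin (ρ * s) (c l) = k6a4_bk (ρ * s) c e} * (K * K1) := by ring

theorem k6a4_ls_own_cbin (ρ : ℝ) (hρ : 0 < ρ) (i : ℕ) (c c' : k5_Co j)
    (h : k5_cbin (ρ * (1 / 2 : ℝ) ^ i) c = k5_cbin (ρ * (1 / 2 : ℝ) ^ i) c') :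
    k5_cbin ((1 / 2 : ℝ) ^ i) (k6a4_own ρ c) = k5_cbin ((1 / 2 : ℝ) ^ i) (k6a4_own ρ c') := by
  unfold k6a4_own
  rw [k6a4_cbin_zoom ρ hρ i, k6a4_cbin_zoom ρ hρ i, h, k6a4_cbin_nest ρ hρ i c c' h]

/-- L5. two incidences of one block of side `β` in one zoomed cell have residuals within `(5 + 3 j K) s` (06 l.737-744).   (`k6a4_res_block`, `k6a4_cbin_zoom`, `k6a4_cbin_close`, `k6a_cc_close`, `FF`, `Fb`, `ρ ≤ s`.) -/
theorem k6a4_block_range (h : k6a4_In j d K ζ ρ b η ν c E π w Ws m0 G0 Gy F) (hsc : k6a4_Sc j K ζ ρ b η) (s : ℝ)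
    (hs : s ∈ k5_Dy ζ) (e e' : Λ × ℝ) (he : e ∈ E) (he' : e' ∈ E) (hb : k6a4_bk (ρ * s) c e = k6a4_bk (ρ * s) c e')
    (hc : k6a4_cl ρ s c e = k6a4_cl ρ s c e') : |k6a4_R ρ F c e - k6a4_R ρ F c e'| ≤ (5 + 3 * j * K) * s := by
  obtain ⟨hζs, i, rfl⟩ := hs
  have hρ := hsc.ρ0
  have hK := hsc.K1
  have hs0 : (0 : ℝ) < (1 / 2) ^ i := by positivity
  have hB : k5_cbin ρ (c e.1) = k5_cbin ρ (c e'.1) := k6a4_cbin_nest ρ hρ i _ _ hb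
  have hZ := k6a_cc_close hs0 hc
  have ht := ((k6a4_Z_norm _ _ _ _ _).1 hZ).1
  have hcc := k6a4_cbin_close _ hs0 _ _ (k6a4_ls_own_cbin ρ hρ i _ _ hb)
  have hFF := h.FF e he e' he' hB
  unfold k6a4_R
  refine k6a4_res_block K _ _ _ _ _ _ _ (by linarith) hs0.le (k6a4_own_norm ρ hρ _) (k6a4_own_norm ρ hρ _) hcc
    (h.tI _ _ he').1 (h.tI _ _ he').2.le ht (h.Fb _ _) ?_
  rw [← hB]
  refine hFF.trans ?_
  have h1 : ρ ≤ (1 / 2 : ℝ) ^ i := hsc.ρζ.trans hζs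
  have h2 : |e.2 - e'.2| + ρ ≤ 2 * (1 / 2 : ℝ) ^ i := by linarith
  calc K * (|e.2 - e'.2| + ρ) ≤ K * (2 * (1 / 2 : ℝ) ^ i) := mul_le_mul_of_nonneg_left h2 (by linarith)
    _ = 2 * K * (1 / 2 : ℝ) ^ i := by ring

/-- L6. a fine velocity bin supports at most `K² K1 (13 + 6 j K)` residual bins in a zoomed cell.   (L4, L5, `k6a4_bins_of_diam`.) -/
theorem k6a4_vel_bins (h : k6a4_In j d K ζ ρ b η ν c E π w Ws m0 G0 Gy F) (hsc : k6a4_Sc j K ζ ρ b η) (s K1 : ℝ)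
    (hs : s ∈ k5_Dy ζ) (hK1 : 0 < K1) (B : k6a4_Ix j) (n : Fin (j + 2) → ℤ) (x : Fin j → ℤ) :
    ∃ T : Finset ℤ, (T.card : ℝ) ≤ K ^ 2 * K1 * (13 + 6 * j * K) ∧ ∀ e ∈ k6a4_E1 ν c E ρ s K1, k6a4_bk ρ c e = B →
      k6a4_cl ρ s c e = n → k6a4_vb (ρ * s) c e = x → k5_bin s (k6a4_R ρ F c e) ∈ T := by
  classical
  obtain ⟨T, hT, hT'⟩ := k6a4_blocks h hsc s K1 hs hK1 B n x
  have hK := hsc.K1
  have hs0 : 0 < s := by
    obtain ⟨_, i, rfl⟩ := hs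
    positivity
  have hD : (0 : ℝ) ≤ 5 + 3 * j * K := by positivity
  have key : ∀ k : k6a4_Ix j, ∃ U : Finset ℤ, (U.card : ℝ) ≤ 2 * (5 + 3 * j * K) + 3 ∧
      ∀ e ∈ {e : Λ × ℝ | e ∈ E ∧ k6a4_bk (ρ * s) c e = k ∧ k6a4_cl ρ s c e = n}, k5_bin s (k6a4_R ρ F c e) ∈ U :=
    fun k => k6a4_bins_of_diam _ _ s (5 + 3 * j * K) hs0 hD (fun e he e' he' =>
      k6a4_block_range h hsc s hs e e' he.1 he'.1 (he.2.1.trans he'.2.1.symm) (he.2.2.trans he'.2.2.symm))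
  choose U hU hU' using key
  refine ⟨T.biUnion U, ?_, fun e he hB hn hx => ?_⟩
  · have h1 : ((T.biUnion U).card : ℝ) ≤ ∑ k ∈ T, ((U k).card : ℝ) := by
      exact_mod_cast Finset.card_biUnion_le
    have h2 : ∑ k ∈ T, ((U k).card : ℝ) ≤ ∑ _k ∈ T, (13 + 6 * j * K : ℝ) :=
      Finset.sum_le_sum (fun k _ => (hU k).trans (by linarith))
    rw [Finset.sum_const, nsmul_eq_mul] at h2
    refine h1.trans (h2.trans ?_)
    exact mul_le_mul_of_nonneg_right hT (by positivity)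
  · exact Finset.mem_biUnion.2 ⟨_, hT' e he hB hn hx, hU' _ e ⟨k6a4_keep_sub _ _ _ _ he, rfl, hn⟩⟩

theorem k6a4_ls_floor_close (x y : ℝ) (h : |x - y| ≤ 1) : |⌊x⌋ - ⌊y⌋| ≤ 1 := by
  have h1 := abs_le.1 h
  have a1 := Int.floor_le x
  have a2 := Int.lt_floor_add_one x
  have b1 := Int.floor_le y
  have b2 := Int.lt_floor_add_one y
  rw [abs_le]
  constructor
  · have : ((⌊y⌋ : ℤ) : ℝ) < ((⌊x⌋ + 2 : ℤ) : ℝ) := by push_cast; linarith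
    have := Int.cast_lt.1 this
    omega
  · have : ((⌊x⌋ : ℤ) : ℝ) < ((⌊y⌋ + 2 : ℤ) : ℝ) := by push_cast; linarith
    have := Int.cast_lt.1 this
    omega

/-- L7. near constancy of the residual BIN on a fine state inside a block.   (`k6a4_res_const`, `wd`, `graph`, `FG`, `ζ ≤ s`.) -/
theorem k6a4_state_bin (h : k6a4_In j d K ζ ρ b η ν c E π w Ws m0 G0 Gy F) (hsc : k6a4_Sc j K ζ ρ b η) (s : ℝ)
    (hs : s ∈ k5_Dy ζ) (e e' : Λ × ℝ) (he : e ∈ E) (he' : e' ∈ E) (hw : w e = w e')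
    (hb : k6a4_bk ρ c e = k6a4_bk ρ c e') : |k5_bin s (k6a4_R ρ F c e) - k5_bin s (k6a4_R ρ F c e')| ≤ 1 := by
  have hs0 : 0 < s := by
    obtain ⟨_, i, rfl⟩ := hs
    positivity
  have ht := ((k6a4_Z_norm _ _ _ _ _).1 (h.wd e he e' he' hw)).1
  have hg' := h.graph e' he'
  have hf' := h.FG e' he'
  rw [← hw] at hg' hf'
  have hR : |k6a4_R ρ F c e - k6a4_R ρ F c e'| ≤ ζ :=
    k6a4_res_const K ζ ρ b η hsc (c e.1) (c e'.1) e.2 e'.2 (G0 (w e)) (Gy (w e)) _ _ (h.cb _) hb ht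
      (h.graph e he) hg' (h.FG e he) hf'
  unfold k5_bin
  apply k6a4_ls_floor_close
  rw [← sub_div, abs_div, abs_of_pos hs0, div_le_one hs0]
  exact hR.trans hs.1

/-- L8. **the residual list of a zoomed cell** (06 l.746-799).   (`k6a4_pay_list` with `A = E1 ∩ {B_ρ = B} ∩ {cell = n}`, `J = [V]_β`, `Js`, `pI = π([V]_ρ)` from `k6a4_pm_sub` (`[V]_ρ = B.2 1`), `hconst` = L7, `hcount` = L6, `hjoint` = `joint`.) -/
theorem k6a4_list_cell (h : k6a4_In j d K ζ ρ b η ν c E π w Ws m0 G0 Gy F) (hsc : k6a4_Sc j K ζ ρ b η) (s K1 : ℝ)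
    (hs : s ∈ k5_Dy ζ) (hK1 : 0 < K1) (B : k6a4_Ix j) (n : Fin (j + 2) → ℤ) :
    ∃ T : Finset ℤ, (T.card : ℝ) ≤ 3 * (K ^ 2 * K1 * (13 + 6 * j * K)) * K * K1 ∧
      ∀ e ∈ k6a4_E2 ν c E π w m0 ρ s K1, k6a4_bk ρ c e = B → k6a4_cl ρ s c e = n → k5_bin s (k6a4_R ρ F c e) ∈ T := by
  have := h.fin
  have := h.pfin
  have hρ := hsc.ρ0
  have hK := hsc.K1
  have hK0 : 0 < K := by linarith
  obtain ⟨C, _, h1⟩ := k6a4_loss1 j
  have hm1 : MeasurableSet (k6a4_E1 ν c E ρ s K1) := (h1 ν c E K ρ s K1 h.mc h.mE h.tI h.cb hρ hs.2 hK1).1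
  have hsub1 : k6a4_E1 ν c E ρ s K1 ⊆ E := k6a4_keep_sub _ _ _ _
  have hfinE := k6a4_mass_fin ν E h.tI
  obtain ⟨A, hA⟩ : ∃ A : Set (Λ × ℝ), A = k6a4_E1 ν c E ρ s K1 ∩ (k6a4_bk ρ c ⁻¹' {B} ∩ k6a4_cl ρ s c ⁻¹' {n}) := ⟨_, rfl⟩
  have hAE1 : A ⊆ k6a4_E1 ν c E ρ s K1 := by rw [hA]; exact inter_subset_left
  have hAE : A ⊆ E := hAE1.trans hsub1
  have hAB : ∀ x ∈ A, k6a4_bk ρ c x = B := by
    intro x hx; rw [hA] at hx; exact hx.2.1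
  have hAn : ∀ x ∈ A, k6a4_cl ρ s c x = n := by
    intro x hx; rw [hA] at hx; exact hx.2.2
  have hmA : MeasurableSet A := by
    rw [hA]; exact hm1.inter ((k6a4_meas_bk c h.mc ρ B).inter (k6a4_meas_cl c h.mc ρ s n))
  have hfinA : (ν.prod volume) A ≠ ⊤ := ne_top_of_le_ne_top hfinE (measure_mono hAE)
  obtain ⟨Js, hJs, hJsum⟩ : ∃ Js : Finset (Fin j → ℤ), (∀ u, k5_vbin ρ u = B.2 1 → k5_vbin (ρ * s) u ∈ Js) ∧
      ∑ x ∈ Js, k6a4_pm π (ρ * s) x ≤ k6a4_pm π ρ (B.2 1) := by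
    obtain ⟨_, i, rfl⟩ := hs
    exact k6a4_pm_sub π ρ hρ i (B.2 1)
  have hvb : ∀ x, k6a4_bk ρ c x = B → k6a4_vb ρ c x = B.2 1 := by
    intro x hx
    unfold k6a4_vb
    rw [k6a4_vbin_of_cbin, show k5_cbin ρ (c x.1) = B from hx]
  obtain ⟨T, hT, hT'⟩ := k6a4_pay_list (ν.prod volume) A hmA hfinA w (k6a4_vb (ρ * s) c)
    (fun e => k5_bin s (k6a4_R ρ F c e)) h.mw (k6a4_meas_vb c h.mc _) Js (k6a4_pm π (ρ * s)) (k6a4_pm π ρ (B.2 1))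
    K K1 (K ^ 2 * K1 * (13 + 6 * j * K)) m0
    (fun x hx => hJs _ (hvb x (hAB x hx)))
    (fun x _ => k6a4_pm_nonneg _ _ _) hJsum hK0 hK1 (by positivity) h.m0n
    (fun x hx x' hx' hw => k6a4_state_bin h hsc s hs x x' (hAE hx) (hAE hx') hw ((hAB x hx).trans (hAB x' hx').symm))
    (fun y _ => by
      obtain ⟨T, hT, hT'⟩ := k6a4_vel_bins h hsc s K1 hs hK1 B n y
      exact ⟨T, hT, fun x hx hy => hT' x (hAE1 hx) (hAB x hx) (hAn x hx) hy⟩)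
    (fun i y => by
      refine le_trans (measureReal_mono ?_ ?_) (h.joint s hs i y)
      · intro x hx
        exact ⟨hAE hx.1.1, hx.1.2, hx.2⟩
      · exact ne_top_of_le_ne_top hfinE (measure_mono (fun x hx => hx.1)))
  refine ⟨T, hT, fun e he hB hn => ?_⟩
  obtain ⟨heE1, hthr, hpos⟩ := he
  have heA : e ∈ A := by rw [hA]; exact ⟨heE1, hB, hn⟩
  have hinc : k6a4_E1 ν c E ρ s K1 ∩ (fun e => ((w e, k6a4_vb ρ c e), (k6a4_bk ρ c e, k6a4_cl ρ s c e))) ⁻¹'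
      {((w e, k6a4_vb ρ c e), (k6a4_bk ρ c e, k6a4_cl ρ s c e))} ⊆ A ∩ w ⁻¹' {w e} := by
    intro e' he'
    obtain ⟨h1', hk⟩ := he'
    have hk1 : w e' = w e := congrArg (fun k => k.1.1) hk
    have hk2 : k6a4_bk ρ c e' = k6a4_bk ρ c e := congrArg (fun k => k.2.1) hk
    have hk3 : k6a4_cl ρ s c e' = k6a4_cl ρ s c e := congrArg (fun k => k.2.2) hk
    refine ⟨?_, hk1⟩
    rw [hA]
    exact ⟨h1', hk2.trans hB, hk3.trans hn⟩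
  have hfin2 : (ν.prod volume) (A ∩ w ⁻¹' {w e}) ≠ ⊤ := ne_top_of_le_ne_top hfinA (measure_mono inter_subset_left)
  have hmono := measureReal_mono hinc hfin2
  refine hT' e heA ?_ (lt_of_lt_of_le hpos hmono)
  rw [← hvb e hB]
  exact hthr.trans hmono

end

/-- **one width** -/
theorem k6a4_list_one (j : ℕ) : ∃ C : ℝ, 1 ≤ C ∧ ∀ {Λ ι : Type} [MeasurableSpace Λ] {d K ζ ρ b η : ℝ} {ν : Measure Λ}
    {c : Λ → k5_Co j} {E : Set (Λ × ℝ)} {π : Measure (Fin j → ℝ)} {w : Λ × ℝ → ι} {Ws : Finset ι} {m0 : ι → ℝ}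
    {G0 : ι → ℝ} {Gy : ι → Fin j → ℝ} {F : k6a4_Ix j → ℝ → Fin j → ℝ},
    k6a4_In j d K ζ ρ b η ν c E π w Ws m0 G0 Gy F → k6a4_Sc j K ζ ρ b η → ∀ s K1 : ℝ, s ∈ k5_Dy ζ → 1 ≤ K1 →
    ∃ E2 : Set (Λ × ℝ), MeasurableSet E2 ∧ E2 ⊆ E ∧ k5_mass ν (E \ E2) ≤ C * K ^ 2 / K1 ∧
      ∀ (B : k6a4_Ix j) (n : Fin (j + 2) → ℤ), ∃ T : Finset ℤ, (T.card : ℝ) ≤ C * K ^ 4 * K1 ^ 2 ∧
        ∀ e ∈ E2, k6a4_bk ρ c e = B → k6a4_cl ρ s c e = n → k5_bin s (k6a4_R ρ F c e) ∈ T := by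
  obtain ⟨C1, hC1, h1⟩ := k6a4_loss1 j
  have hp : (0 : ℝ) < 2 ^ (j + 2) := by positivity
  refine ⟨max (C1 + 2 ^ (j + 2)) (3 * (13 + 6 * j)), le_trans (by linarith) (le_max_left _ _), ?_⟩
  intro Λ ι _ d K ζ ρ b η ν c E π w Ws m0 G0 Gy F h hsc s K1 hs hK1
  have := h.fin
  have hK10 : 0 < K1 := by linarith
  have hK := hsc.K1
  obtain ⟨hm1, hl1⟩ := h1 ν c E K ρ s K1 h.mc h.mE h.tI h.cb hsc.ρ0 hs.2 hK10
  obtain ⟨hm2, hl2⟩ := k6a4_loss2 h hsc s K1 hs hK10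
  have hs21 : k6a4_E2 ν c E π w m0 ρ s K1 ⊆ k6a4_E1 ν c E ρ s K1 := k6a4_keep_sub _ _ _ _
  have hs1 : k6a4_E1 ν c E ρ s K1 ⊆ E := k6a4_keep_sub _ _ _ _
  set C : ℝ := max (C1 + 2 ^ (j + 2)) (3 * (13 + 6 * j)) with hC
  refine ⟨k6a4_E2 ν c E π w m0 ρ s K1, hm2, hs21.trans hs1, ?_, ?_⟩
  · have hfin : (ν.prod volume) E ≠ ⊤ := k6a4_mass_fin ν E h.tI
    have hsub : E \ k6a4_E2 ν c E π w m0 ρ s K1 ⊆
        (E \ k6a4_E1 ν c E ρ s K1) ∪ (k6a4_E1 ν c E ρ s K1 \ k6a4_E2 ν c E π w m0 ρ s K1) := by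
      intro x hx
      by_cases hx1 : x ∈ k6a4_E1 ν c E ρ s K1
      · exact Or.inr ⟨hx1, hx.2⟩
      · exact Or.inl ⟨hx.1, hx1⟩
    have hfin2 : (ν.prod volume) ((E \ k6a4_E1 ν c E ρ s K1) ∪
        (k6a4_E1 ν c E ρ s K1 \ k6a4_E2 ν c E π w m0 ρ s K1)) ≠ ⊤ := by
      refine ne_top_of_le_ne_top hfin (measure_mono ?_)
      rintro x (hx | hx)
      · exact hx.1
      · exact hs1 hx.1
    have e1 : k5_mass ν (E \ k6a4_E2 ν c E π w m0 ρ s K1) ≤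
        k5_mass ν (E \ k6a4_E1 ν c E ρ s K1) + k5_mass ν (k6a4_E1 ν c E ρ s K1 \ k6a4_E2 ν c E π w m0 ρ s K1) :=
      (measureReal_mono hsub hfin2).trans (measureReal_union_le _ _)
    have hK2 : 1 ≤ K ^ 2 := one_le_pow₀ hK
    have e2 : C1 * ν.real univ / K1 ≤ C1 * K ^ 2 / K1 := by
      apply div_le_div_of_nonneg_right _ hK10.le
      exact mul_le_mul_of_nonneg_left (h.nu1.trans hK2) (by linarith)
    have e3 : C1 * K ^ 2 / K1 + 2 ^ (j + 2) * K ^ 2 / K1 ≤ C * K ^ 2 / K1 := by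
      rw [← add_div, ← add_mul]
      apply div_le_div_of_nonneg_right _ hK10.le
      exact mul_le_mul_of_nonneg_right (le_max_left _ _) (by positivity)
    linarith
  · intro B n
    obtain ⟨T, hT, hT'⟩ := k6a4_list_cell h hsc s K1 hs hK10 B n
    refine ⟨T, hT.trans ?_, hT'⟩
    have hj : (0 : ℝ) ≤ j := Nat.cast_nonneg j
    have a1 : 13 + 6 * (j : ℝ) * K ≤ (13 + 6 * j) * K := by nlinarith
    have a2 : 3 * (K ^ 2 * K1 * (13 + 6 * j * K)) * K * K1 ≤ 3 * (K ^ 2 * K1 * ((13 + 6 * j) * K)) * K * K1 := by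
      gcongr
    have a3 : 3 * (K ^ 2 * K1 * ((13 + 6 * j) * K)) * K * K1 = (3 * (13 + 6 * j)) * K ^ 4 * K1 ^ 2 := by ring
    have a4 : (3 * (13 + 6 * (j : ℝ))) * K ^ 4 * K1 ^ 2 ≤ C * K ^ 4 * K1 ^ 2 := by
      gcongr
      exact le_max_right _ _
    linarith

/-- **all widths of the grid** (06 l.801-812): the summed loss is at most half of the entering mass -/
theorem k6a4_lists (j : ℕ) : ∃ C : ℝ, 1 ≤ C ∧ ∀ {Λ ι : Type} [MeasurableSpace Λ] {d K ζ ρ b η : ℝ} {ν : Measure Λ}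
    {c : Λ → k5_Co j} {E : Set (Λ × ℝ)} {π : Measure (Fin j → ℝ)} {w : Λ × ℝ → ι} {Ws : Finset ι} {m0 : ι → ℝ}
    {G0 : ι → ℝ} {Gy : ι → Fin j → ℝ} {F : k6a4_Ix j → ℝ → Fin j → ℝ},
    k6a4_In j d K ζ ρ b η ν c E π w Ws m0 G0 Gy F → k6a4_Sc j K ζ ρ b η → ∀ (L : ℕ) (s : ℕ → ℝ) (δ : ℝ),
    (∀ i ≤ L, s i ∈ k5_Dy ζ) → 0 < δ → δ ≤ 1 → δ ≤ k5_mass ν E →
    ∃ E' : Set (Λ × ℝ), MeasurableSet E' ∧ E' ⊆ E ∧ δ / 2 ≤ k5_mass ν E' ∧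
      ∀ i ≤ L, ∀ (B : k6a4_Ix j) (n : Fin (j + 2) → ℤ), ∃ T : Finset ℤ,
        (T.card : ℝ) ≤ C * K ^ 8 * (((L : ℝ) + 1) / δ) ^ 2 ∧
        ∀ e ∈ E', k6a4_bk ρ c e = B → k6a4_cl ρ (s i) c e = n → k5_bin (s i) (k6a4_R ρ F c e) ∈ T := by
  obtain ⟨C1, hC1, h1⟩ := k6a4_list_one j
  refine ⟨4 * C1 ^ 3, by nlinarith [one_le_pow₀ hC1 (n := 3)], ?_⟩
  intro Λ ι _ d K ζ ρ b η ν c E π w Ws m0 G0 Gy F h hsc L s δ hs hδ hδ1 hm
  have := h.fin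
  have hK := hsc.K1
  have hL : (0 : ℝ) < (L : ℝ) + 1 := by positivity
  set K1 : ℝ := 2 * C1 * K ^ 2 * ((L : ℝ) + 1) / δ with hK1d
  have hK2 : 1 ≤ K ^ 2 := one_le_pow₀ hK
  have hK1 : 1 ≤ K1 := by
    rw [hK1d, le_div_iff₀ hδ]
    have : (1 : ℝ) ≤ (L : ℝ) + 1 := by linarith [(Nat.cast_nonneg L : (0 : ℝ) ≤ L)]
    have h3 : 1 ≤ C1 * K ^ 2 := by nlinarith
    nlinarith
  have hK10 : 0 < K1 := by linarith
  have hex : ∀ i, ∃ E2 : Set (Λ × ℝ), i ≤ L → (MeasurableSet E2 ∧ E2 ⊆ E ∧ k5_mass ν (E \ E2) ≤ C1 * K ^ 2 / K1 ∧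
      ∀ (B : k6a4_Ix j) (n : Fin (j + 2) → ℤ), ∃ T : Finset ℤ, (T.card : ℝ) ≤ C1 * K ^ 4 * K1 ^ 2 ∧
        ∀ e ∈ E2, k6a4_bk ρ c e = B → k6a4_cl ρ (s i) c e = n → k5_bin (s i) (k6a4_R ρ F c e) ∈ T) := by
    intro i
    by_cases hi : i ≤ L
    · obtain ⟨E2, hE2⟩ := h1 h hsc (s i) K1 (hs i hi) hK1
      exact ⟨E2, fun _ => hE2⟩
    · exact ⟨∅, fun h' => absurd h' hi⟩
  choose E2 hE2 using hex
  have hfin : (ν.prod volume) E ≠ ⊤ := k6a4_mass_fin ν E h.tI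
  refine ⟨E ∩ ⋂ i ∈ Finset.range (L + 1), E2 i, ?_, inter_subset_left, ?_, ?_⟩
  · exact h.mE.inter (Finset.measurableSet_biInter _ fun i hi =>
      (hE2 i (Nat.lt_succ_iff.1 (Finset.mem_range.1 hi))).1)
  · have hsub : E ⊆ (E ∩ ⋂ i ∈ Finset.range (L + 1), E2 i) ∪ ⋃ i ∈ Finset.range (L + 1), (E \ E2 i) := by
      intro x hx
      by_cases hx1 : ∀ i ∈ Finset.range (L + 1), x ∈ E2 i
      · exact Or.inl ⟨hx, by simpa using fun i hi => hx1 i (Finset.mem_range.2 hi)⟩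
      · push Not at hx1
        obtain ⟨i, hi, hxi⟩ := hx1
        exact Or.inr (mem_biUnion hi ⟨hx, hxi⟩)
    have hfin2 : (ν.prod volume) ((E ∩ ⋂ i ∈ Finset.range (L + 1), E2 i) ∪
        ⋃ i ∈ Finset.range (L + 1), (E \ E2 i)) ≠ ⊤ := by
      refine ne_top_of_le_ne_top hfin (measure_mono ?_)
      rintro x (hx | hx)
      · exact hx.1
      · obtain ⟨i, -, hx⟩ := mem_iUnion₂.1 hx
        exact hx.1
    have e1 : k5_mass ν E ≤ k5_mass ν (E ∩ ⋂ i ∈ Finset.range (L + 1), E2 i) +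
        ∑ i ∈ Finset.range (L + 1), k5_mass ν (E \ E2 i) :=
      ((measureReal_mono hsub hfin2).trans (measureReal_union_le _ _)).trans
        (add_le_add le_rfl (measureReal_biUnion_finset_le _ _))
    have e2 : ∑ i ∈ Finset.range (L + 1), k5_mass ν (E \ E2 i) ≤
        ∑ _i ∈ Finset.range (L + 1), C1 * K ^ 2 / K1 :=
      Finset.sum_le_sum fun i hi => (hE2 i (Nat.lt_succ_iff.1 (Finset.mem_range.1 hi))).2.2.1
    have e3 : ∑ _i ∈ Finset.range (L + 1), C1 * K ^ 2 / K1 = δ / 2 := by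
      rw [Finset.sum_const, Finset.card_range, nsmul_eq_mul, hK1d]
      have : C1 ≠ 0 := by positivity
      have : K ≠ 0 := by positivity
      push_cast
      field_simp
    linarith
  · intro i hi B n
    obtain ⟨T, hT, hT'⟩ := (hE2 i hi).2.2.2 B n
    refine ⟨T, hT.trans (le_of_eq ?_), fun e he => hT' e ?_⟩
    · rw [hK1d]
      field_simp
      ring
    · have := he.2
      simp only [mem_iInter] at this
      exact this i (Finset.mem_range.2 (Nat.lt_succ_iff.2 hi))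

end Claimed.Agent.R252
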