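import Claimed.Agent.R252.S6a.Hubs
import Claimed.Agent.R252.S6a.Q4Bridge

/-!
# ROW 252, unit S6a (sub-architect helper198; prefix `k6a4_`), file 8: PROPOSITION 6.3 FROM THE DISCOVERY FORM (06 l.563-575, 862-885) = `k6a_hub_qual_stmt` of `Hubs.lean`.

The failure set `U` = the incidences of `E` that are not qualified by a polynomial with RATIONAL coefficients (a countable family: `U` is measurable).
If `U` had mass `> eN μ(E) ≥ e`, the discovery inside `U` gives a real polynomial with error `h^M / 2`; rounding it contradicts the definition of `U`.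
Leaves: `k6a4_QB_meas` (Q1), `k6a4_round`, `k6a4_poly_close` (Q2).   The glue `k6a_hub_qual` is proved here.
-/

set_option autoImplicit false

namespace Claimed.Agent.R252

open MeasureTheory Set
open scoped BigOperators ENNReal

variable {j : ℕ}

/-- the incidence `e` is qualified by the polynomial `a` in the family `E` : error `η`, duration `c₀` -/
def k6a4_QB (D : K6aDat j) (kh M : ℕ) (c₀ η : ℝ) (nb : ℕ) (E : Set (D.L × ℝ)) (g : K6aWc j → K6aRow j)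
    (a : Fin (M + 1) → K6aRow j) (e : D.L × ℝ) : Prop :=
  ‖g (D.wc nb e) - k6aPoly a e.2‖ ≤ η ∧
    c₀ ≤ volume.real {t | (e.1, t) ∈ E ∧ k6aBin kh t = k6aBin kh e.2 ∧ ‖g (D.wc nb (e.1, t)) - k6aPoly a t‖ ≤ η}

/-- a polynomial with rational coefficients -/
def k6a4_rat {M : ℕ} (q : Fin (M + 1) → ℚ × (Fin j → ℚ)) : Fin (M + 1) → K6aRow j :=
  fun i => (((q i).1 : ℝ), fun a => ((q i).2 a : ℝ))

theorem k6a4_qual_eqns_cite : True := by
  have := @k6a4_QB.eq_1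
  have := @k6a4_rat.eq_1
  trivial

theorem k6a4q_poly_cont {M : ℕ} (a : Fin (M + 1) → K6aRow j) : Continuous (k6aPoly a) := by
  unfold k6aPoly
  fun_prop

/-- Q1. measurability.   `A = {e ∈ E | ‖g (wc e) - a(e.2)‖ ≤ η}` is measurable (`D.wc nb` has countably many values with measurable fibres, `k6aPoly a` is continuous);
the set is `⋃ n : ℤ, {e ∈ A | k6aBin kh e.2 = n} ∩ {e | c₀ ≤ (volume {t | (e.1, t) ∈ A ∧ k6aBin kh t = n}).toReal}` (`measurable_measure_prodMk_left`, composed with `measurable_fst`). -/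
theorem k6a4_QB_meas (D : K6aDat j) (K : ℝ) (hWF : D.WF K) (kh M : ℕ) (c₀ η : ℝ) (nb : ℕ) (E : Set (D.L × ℝ))
    (hE : MeasurableSet E) (g : K6aWc j → K6aRow j) (a : Fin (M + 1) → K6aRow j) :
    MeasurableSet {e | e ∈ E ∧ k6a4_QB D kh M c₀ η nb E g a e} := by
  have hg : Measurable fun e : D.L × ℝ => g (D.wc nb e) := (Measurable.of_discrete (f := g)).comp (k6a4b_wc_measurable D K hWF nb)
  have hp : Measurable fun e : D.L × ℝ => k6aPoly a e.2 := (k6a4q_poly_cont a).measurable.comp measurable_snd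
  set A : Set (D.L × ℝ) := {e | e ∈ E ∧ ‖g (D.wc nb e) - k6aPoly a e.2‖ ≤ η} with hA
  have hAm : MeasurableSet A := hE.inter (measurableSet_le (hg.sub hp).norm measurable_const)
  set An : ℤ → Set (D.L × ℝ) := fun n => A ∩ {e | k6aBin kh e.2 = n} with hAn
  have hAnm : ∀ n, MeasurableSet (An n) := fun n =>
    hAm.inter (((k6a4b_bin_measurable kh).comp measurable_snd) (measurableSet_singleton n))
  have heq : {e | e ∈ E ∧ k6a4_QB D kh M c₀ η nb E g a e}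
      = ⋃ n : ℤ, An n ∩ {e | c₀ ≤ (volume (Prod.mk e.1 ⁻¹' An n)).toReal} := by
    ext e
    simp only [mem_iUnion, mem_inter_iff, mem_ofPred_eq, k6a4_QB]
    have hset : {t | (e.1, t) ∈ E ∧ k6aBin kh t = k6aBin kh e.2 ∧ ‖g (D.wc nb (e.1, t)) - k6aPoly a t‖ ≤ η}
        = Prod.mk e.1 ⁻¹' An (k6aBin kh e.2) := by
      ext t
      simp only [hAn, hA, mem_preimage, mem_inter_iff, mem_ofPred_eq]
      tauto
    constructor
    · rintro ⟨h1, h2, h3⟩
      refine ⟨k6aBin kh e.2, ⟨⟨h1, h2⟩, rfl⟩, ?_⟩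
      rw [← hset]
      exact h3
    · rintro ⟨n, ⟨⟨h1, h2⟩, h3⟩, h4⟩
      have h3' : k6aBin kh e.2 = n := h3
      refine ⟨h1, h2, ?_⟩
      rw [hset, h3']
      exact h4
  rw [heq]
  refine MeasurableSet.iUnion fun n => (hAnm n).inter ?_
  have h1 : Measurable fun l : D.L => (volume : Measure ℝ) (Prod.mk l ⁻¹' An n) := measurable_measure_prodMk_left (hAnm n)
  exact measurableSet_le measurable_const (h1.ennreal_toReal.comp measurable_fst)

/-- Q2. rounding of the coefficients -/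
theorem k6a4_round {M : ℕ} (a : Fin (M + 1) → K6aRow j) (τ : ℝ) (hτ : 0 < τ) :
    ∃ q : Fin (M + 1) → ℚ × (Fin j → ℚ), ∀ i, ‖k6a4_rat q i - a i‖ ≤ τ := by
  have key : ∀ x : ℝ, ∃ q : ℚ, |(q : ℝ) - x| ≤ τ := by
    intro x
    obtain ⟨q, h1, h2⟩ := exists_rat_btwn (show x < x + τ by linarith)
    refine ⟨q, ?_⟩
    rw [abs_le]
    constructor <;> linarith
  choose f hf using key
  refine ⟨fun i => (f (a i).1, fun b => f ((a i).2 b)), fun i => ?_⟩
  rw [Prod.norm_def]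
  refine max_le (hf _) ((pi_norm_le_iff_of_nonneg hτ.le).2 fun b => hf _)

/-- Q2'. evaluation on `[0,1]` -/
theorem k6a4_poly_close {M : ℕ} (a a' : Fin (M + 1) → K6aRow j) (τ t : ℝ) (h : ∀ i, ‖a' i - a i‖ ≤ τ) (ht0 : 0 ≤ t)
    (ht1 : t ≤ 1) : ‖k6aPoly a t - k6aPoly a' t‖ ≤ ((M : ℝ) + 1) * τ := by
  unfold k6aPoly
  rw [← Finset.sum_sub_distrib]
  calc ‖∑ i : Fin (M + 1), (t ^ (i : ℕ) • a i - t ^ (i : ℕ) • a' i)‖
      ≤ ∑ i : Fin (M + 1), ‖t ^ (i : ℕ) • a i - t ^ (i : ℕ) • a' i‖ := norm_sum_le _ _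
    _ ≤ ∑ _i : Fin (M + 1), τ := by
        refine Finset.sum_le_sum fun i _ => ?_
        rw [← smul_sub, norm_smul, Real.norm_eq_abs, abs_of_nonneg (pow_nonneg ht0 _), norm_sub_rev]
        calc t ^ (i : ℕ) * ‖a' i - a i‖ ≤ 1 * τ :=
              mul_le_mul (pow_le_one₀ ht0 ht1) (h i) (norm_nonneg _) zero_le_one
          _ = τ := one_mul τ
    _ = ((M : ℝ) + 1) * τ := by simp

/-- **Proposition 6.3** from the discovery form -/
theorem k6a_hub_qual : k6a_hub_qual_stmt := by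
  intro hdisc j M d θ κ hj hM hd0 hd hθ hθ1 hFJ hκ hκ1
  obtain ⟨Zx, hZx, h1⟩ := hdisc j M d θ κ hj hM hd0 hd hθ hθ1 hFJ hκ hκ1
  refine ⟨Zx, hZx, fun Rm ε hε => ?_⟩
  obtain ⟨η, k0, hη, h2⟩ := h1 Rm (ε / 2) (by positivity)
  refine ⟨η, max k0 ⌈2 / ε⌉₊, hη, ?_⟩
  intro D K δ w e eN kh nz nr nb n0 E Lc m0 g hk hK hKη hLv hWF hPh hGr hw hKw hBrd hδ hδe hKe heN hmass
  have hh0 : 0 < k6aW kh := by unfold k6aW; positivity
  -- `2^(ε/2 kh) + 1 ≤ 2^(ε kh)`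
  have hkh : 2 / ε ≤ kh := (Nat.le_ceil _).trans (by exact_mod_cast le_of_max_le_right hk)
  have hq1 : (2 : ℝ) ≤ (2 : ℝ) ^ (ε / 2 * kh) := by
    have : (1 : ℝ) ≤ ε / 2 * kh := by
      rw [div_le_iff₀ hε] at hkh
      linarith
    calc (2 : ℝ) = (2 : ℝ) ^ (1 : ℝ) := (Real.rpow_one 2).symm
      _ ≤ _ := Real.rpow_le_rpow_of_exponent_le (by norm_num) this
  have hq2 : (2 : ℝ) ^ (ε * kh) = (2 : ℝ) ^ (ε / 2 * kh) * (2 : ℝ) ^ (ε / 2 * kh) := by
    rw [← Real.rpow_add (by norm_num)]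
    congr 1
    ring
  have hq3 : (2 : ℝ) ^ (ε / 2 * kh) + 1 ≤ (2 : ℝ) ^ (ε * kh) := by
    rw [hq2]
    nlinarith
  set Kq : ℝ := (2 : ℝ) ^ (ε * kh) with hKq
  set Kh : ℝ := (2 : ℝ) ^ (ε / 2 * kh) with hKh
  have hKh0 : 0 < Kh := by positivity
  have hKq0 : 0 < Kq := by positivity
  set U : Set (D.L × ℝ) := {x | x ∈ E ∧ ∀ q : Fin (M + 1) → ℚ × (Fin j → ℚ), (∀ i, ‖k6a4_rat q i‖ ≤ Kq) →
    ¬ k6a4_QB D kh M (k6aW kh / Kq) (k6aW kh ^ M) nb E g (k6a4_rat q) x} with hU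
  have hUE : U ⊆ E := fun x hx => hx.1
  have hUm : MeasurableSet U := by
    have : U = E \ ⋃ q : Fin (M + 1) → ℚ × (Fin j → ℚ), {x | (∀ i, ‖k6a4_rat q i‖ ≤ Kq) ∧
        (x ∈ E ∧ k6a4_QB D kh M (k6aW kh / Kq) (k6aW kh ^ M) nb E g (k6a4_rat q) x)} := by
      ext x
      simp only [hU, mem_setOf_eq, mem_diff, mem_iUnion, not_exists, not_and]
      constructor
      · rintro ⟨hx, hq⟩
        exact ⟨hx, fun q hb _ => hq q hb⟩
      · rintro ⟨hx, hq⟩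
        exact ⟨hx, fun q hb => hq q hb hx⟩
    rw [this]
    refine hPh.E_meas.diff (MeasurableSet.iUnion fun q => ?_)
    by_cases hb : ∀ i, ‖k6a4_rat q i‖ ≤ Kq
    · simpa [hb] using k6a4_QB_meas D K hWF kh M (k6aW kh / Kq) (k6aW kh ^ M) nb E hPh.E_meas g (k6a4_rat q)
    · simp [hb]
  refine ⟨U, hUm, hUE, ?_, ?_⟩
  · by_contra hcon
    rw [not_le] at hcon
    obtain ⟨x, hxU, a, ha, hax, hvol⟩ := h2 D K δ w e kh nz nr nb n0 E U Lc m0 g (le_of_max_le_left hk) hK hKη hLv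
      hWF hPh hGr hw hKw hBrd hδ hδe hKe hUm hUE (hmass.trans hcon.le)
    have hM0 : (0 : ℝ) < (M : ℝ) + 1 := by positivity
    set τ : ℝ := min 1 (k6aW kh ^ M / (2 * ((M : ℝ) + 1))) with hτ
    have hτ0 : 0 < τ := lt_min one_pos (by positivity)
    obtain ⟨q, hq⟩ := k6a4_round a τ hτ0
    have hcl : ∀ t : ℝ, 0 ≤ t → t ≤ 1 → ‖k6aPoly a t - k6aPoly (k6a4_rat q) t‖ ≤ k6aW kh ^ M / 2 := by
      intro t ht0 ht1
      refine (k6a4_poly_close a (k6a4_rat q) τ t hq ht0 ht1).trans ?_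
      calc ((M : ℝ) + 1) * τ ≤ ((M : ℝ) + 1) * (k6aW kh ^ M / (2 * ((M : ℝ) + 1))) :=
            mul_le_mul_of_nonneg_left (min_le_right _ _) hM0.le
        _ = k6aW kh ^ M / 2 := by field_simp
    have htI : ∀ l t, (l, t) ∈ E → 0 ≤ t ∧ t ≤ 1 := fun l t hlt => (hPh.E_sub hlt).2
    have hstep : ∀ l t, (l, t) ∈ E → ‖g (D.wc nb (l, t)) - k6aPoly a t‖ ≤ k6aW kh ^ M / 2 →
        ‖g (D.wc nb (l, t)) - k6aPoly (k6a4_rat q) t‖ ≤ k6aW kh ^ M := by
      intro l t hlt h3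
      have h4 := hcl t (htI l t hlt).1 (htI l t hlt).2
      calc ‖g (D.wc nb (l, t)) - k6aPoly (k6a4_rat q) t‖
          = ‖(g (D.wc nb (l, t)) - k6aPoly a t) + (k6aPoly a t - k6aPoly (k6a4_rat q) t)‖ := by
            congr 1
            abel
        _ ≤ _ := norm_add_le _ _
        _ ≤ k6aW kh ^ M / 2 + k6aW kh ^ M / 2 := add_le_add h3 h4
        _ = _ := by ring
    refine hxU.2 q (fun i => ?_) ⟨hstep x.1 x.2 hxU.1 hax, ?_⟩
    · calc ‖k6a4_rat q i‖ = ‖(k6a4_rat q i - a i) + a i‖ := by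
            congr 1
            abel
        _ ≤ ‖k6a4_rat q i - a i‖ + ‖a i‖ := norm_add_le _ _
        _ ≤ 1 + Kh := add_le_add ((hq i).trans (min_le_left _ _)) (ha i)
        _ ≤ Kq := by linarith
    · have h5 : k6aW kh / Kq ≤ k6aW kh / Kh :=
        div_le_div_of_nonneg_left hh0.le hKh0 (by linarith)
      refine h5.trans (hvol.trans (measureReal_mono ?_ ?_))
      · rintro t ⟨ht1, ht2, ht3⟩
        exact ⟨hUE ht1, ht2, hstep x.1 t (hUE ht1) ht3⟩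
      · refine ne_top_of_le_ne_top (measure_Icc_lt_top (a := (0 : ℝ)) (b := 1)).ne (measure_mono ?_)
        rintro t ⟨ht1, -, -⟩
        exact htI x.1 t ht1
  · intro x hxE hxU
    by_contra hcon
    exact hxU ⟨hxE, fun q hq hQB => hcon ⟨k6a4_rat q, hq, hQB⟩⟩

end Claimed.Agent.R252
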