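import Claimed.Agent.R252.S6a.Q4List
import Claimed.Agent.R252.S5.FitContract

/-!
# ROW 252, unit S6a, post BP-252-S6a4 (sub-architect helper198; prefix `k6a4_`), file 5: THE SCALAR-NORMAL DATA IN ONE WORLD (06 l.690-700 (6.20), l.801-850).   CONTRACT: each `sorry` is a leaf `L-252-S6a4-S*`.

Order (simpler than the paper): lists on the whole parent (`k6a4_lists`) → choice of ONE world `B` (`k6a4_world`) → common choice in that world (`k6a_common_choice`, one world) → `k5_Snd`.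
-/

set_option autoImplicit false

namespace Claimed.Agent.R252

open MeasureTheory Set
open scoped BigOperators ENNReal

variable {j : ℕ}

section

variable {Λ ι : Type} [MeasurableSpace Λ] {d K ζ ρ b η : ℝ} {ν : Measure Λ} {c : Λ → k5_Co j} {E : Set (Λ × ℝ)}
  {π : Measure (Fin j → ℝ)} {w : Λ × ℝ → ι} {Ws : Finset ι} {m0 : ι → ℝ} {G0 : ι → ℝ} {Gy : ι → Fin j → ℝ}
  {F : k6a4_Ix j → ℝ → Fin j → ℝ}

/-- S1. (6.20) **the conditional spatial cap** in physical form: for a labelled line `l₀` at the time `t`, the part of its block of side `ρ r` whose position at `t` lies in a physical cube of side `ρ q`.   (`cap`, `floor`, `k6a4_vbin_of_cbin`.) -/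
theorem k6a4_cond_cap (h : k6a4_In j d K ζ ρ b η ν c E π w Ws m0 G0 Gy F) (hsc : k6a4_Sc j K ζ ρ b η) (hd0 : 0 ≤ d)
    (r : ℝ) (hr : r ∈ k5_Dy ζ) (q a : ℝ) (y₀ : Fin j → ℝ) (t : ℝ) (hq : ζ ≤ q) (hqr : q ≤ r) (B' : k6a4_Ix j) :
    ν.real {l | (l, t) ∈ E ∧ k5_cbin (ρ * r) (c l) = B' ∧ k5_InQ (ρ * q) a y₀ (c l) t}
      ≤ K ^ 2 * (q / r) ^ ((j : ℝ) + d) * ν.real {l | k5_cbin (ρ * r) (c l) = B'} := by
  have := h.fin
  have hζ0 : 0 < ζ := lt_of_lt_of_le hsc.ρ0 hsc.ρζ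
  have hq0 : 0 < q := lt_of_lt_of_le hζ0 hq
  have hr0 : 0 < r := lt_of_lt_of_le hq0 hqr
  have hρ0 := hsc.ρ0
  have hK0 : 0 < K := lt_of_lt_of_le one_pos hsc.K1
  rcases Set.eq_empty_or_nonempty {l | (l, t) ∈ E ∧ k5_cbin (ρ * r) (c l) = B' ∧ k5_InQ (ρ * q) a y₀ (c l) t} with he | ⟨l₀, hl₀⟩
  · rw [he, measureReal_empty]
    have : 0 ≤ (q / r) ^ ((j : ℝ) + d) := Real.rpow_nonneg (by positivity) _
    have h2 : 0 ≤ ν.real {l | k5_cbin (ρ * r) (c l) = B'} := measureReal_nonneg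
    positivity
  · obtain ⟨hE0, hB0, -⟩ := hl₀
    have hsub : {l | (l, t) ∈ E ∧ k5_cbin (ρ * r) (c l) = B' ∧ k5_InQ (ρ * q) a y₀ (c l) t}
        ⊆ {l | (l, t) ∈ E ∧ k5_InQ (ρ * q) a y₀ (c l) t ∧ k5_vbin (ρ * r) (k5_yd (c l)) = B'.2 1} := by
      rintro l ⟨h1, h2, h3⟩
      exact ⟨h1, h3, by rw [k6a4_vbin_of_cbin, h2]⟩
    have h1 := (measureReal_mono hsub (measure_ne_top ν _)).trans (h.cap r hr q a y₀ (B'.2 1) t hq hqr)
    have h2 := h.floor r hr (l₀, t) hE0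
    have e1 : k6a4_vb (ρ * r) c (l₀, t) = B'.2 1 := by
      unfold k6a4_vb
      rw [k6a4_vbin_of_cbin, hB0]
    have e2 : k6a4_bk (ρ * r) c (l₀, t) = B' := hB0
    rw [e1, e2] at h2
    obtain ⟨s, hs⟩ : ∃ s : ℝ, s = (j : ℝ) + d := ⟨_, rfl⟩
    rw [← hs] at h1 h2 ⊢
    obtain ⟨P, hP⟩ : ∃ P : ℝ, P = k6a4_pm π (ρ * r) (B'.2 1) := ⟨_, rfl⟩
    obtain ⟨N, hN⟩ : ∃ N : ℝ, N = ν.real {l | k5_cbin (ρ * r) (c l) = B'} := ⟨_, rfl⟩
    rw [← hP] at h1 h2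
    rw [← hN] at h2 ⊢
    have hP0 : 0 ≤ P := by rw [hP]; exact k6a4_pm_nonneg _ _ _
    have e3 : (ρ * q) ^ s = (q / r) ^ s * (ρ * r) ^ s := by
      rw [← Real.mul_rpow (by positivity) (by positivity)]
      congr 1
      field_simp
    refine h1.trans ?_
    rw [e3]
    have h4 : 0 ≤ (q / r) ^ s := Real.rpow_nonneg (by positivity) _
    calc K * ((q / r) ^ s * (ρ * r) ^ s) * P = K * (q / r) ^ s * ((ρ * r) ^ s * P) := by ring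
      _ ≤ K * (q / r) ^ s * (K * N) := mul_le_mul_of_nonneg_left h2 (by positivity)
      _ = K ^ 2 * (q / r) ^ s * N := by ring

theorem k6a4_zc_of_mem (ρ : ℝ) (B : k6a4_Ix j) (c : k5_Co j) (h : k5_cbin ρ c = B) : k6a4_zc ρ B c = k6a4_zm ρ B c := by
  unfold k6a4_zc
  rw [if_pos h]

theorem k6a4_cbin_zoom_inj (ρ : ℝ) (hρ : 0 < ρ) (i : ℕ) (B : k6a4_Ix j) (c c' : k5_Co j) :
    k5_cbin ((1 / 2 : ℝ) ^ i) (k6a4_zm ρ B c) = k5_cbin ((1 / 2 : ℝ) ^ i) (k6a4_zm ρ B c') ↔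
      k5_cbin (ρ * (1 / 2 : ℝ) ^ i) c = k5_cbin (ρ * (1 / 2 : ℝ) ^ i) c' := by
  rw [k6a4_cbin_zoom ρ hρ i B c, k6a4_cbin_zoom ρ hρ i B c']
  constructor
  · intro e
    refine Prod.ext ?_ ?_
    · funext a
      have := congrFun (congrArg Prod.fst e) a
      simp only at this
      linarith
    · funext a a'
      have := congrFun (congrFun (congrArg Prod.snd e) a) a'
      simp only at this
      linarith
  · intro e
    rw [e]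

theorem k6a4_tm_bcap (h : k6a4_In j d K ζ ρ b η ν c E π w Ws m0 G0 Gy F) (hsc : k6a4_Sc j K ζ ρ b η) (hd0 : 0 ≤ d)
    (B : k6a4_Ix j) (hB : 0 < ν.real {l | k5_cbin ρ (c l) = B}) (E' : Set (Λ × ℝ)) (hE' : E' ⊆ E) (t : ℝ)
    (r : ℝ) (hr : r ∈ k5_Dy ζ) (q a : ℝ) (e : Fin j → ℝ) (Bz : k6a4_Ix j) (hq : ζ ≤ q) (hqr : q ≤ r) :
    (k6a4_nu ν ρ c B).real {l | l ∈ k5_sec E' t ∧ k5_cbin r (k6a4_zc ρ B (c l)) = Bz ∧ k5_InQ q a e (k6a4_zc ρ B (c l)) t}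
      ≤ K ^ 2 * (q / r) ^ ((j : ℝ) + d) * (k6a4_nu ν ρ c B).real {l | k5_cbin r (k6a4_zc ρ B (c l)) = Bz} := by
  have := h.fin
  have hρ0 := hsc.ρ0
  have hζ0 : 0 < ζ := lt_of_lt_of_le hsc.ρ0 hsc.ρζ
  have hq0 : 0 < q := lt_of_lt_of_le hζ0 hq
  have hr0 : 0 < r := lt_of_lt_of_le hq0 hqr
  have hmB := k6a4_meas_cbin c h.mc ρ B
  rw [k6a4_nu_real ν ρ c B hmB, k6a4_nu_real ν ρ c B hmB, ← mul_div_assoc]
  refine div_le_div_of_nonneg_right ?_ hB.le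
  have hpw : 0 ≤ (q / r) ^ ((j : ℝ) + d) := Real.rpow_nonneg (by positivity) _
  rcases Set.eq_empty_or_nonempty ({l | l ∈ k5_sec E' t ∧ k5_cbin r (k6a4_zc ρ B (c l)) = Bz ∧
      k5_InQ q a e (k6a4_zc ρ B (c l)) t} ∩ {l | k5_cbin ρ (c l) = B}) with he | ⟨l₀, hl₀⟩
  · rw [he, measureReal_empty]
    have h2 : 0 ≤ ν.real ({l | k5_cbin r (k6a4_zc ρ B (c l)) = Bz} ∩ {l | k5_cbin ρ (c l) = B}) := measureReal_nonneg
    positivity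
  · obtain ⟨⟨-, hz0, -⟩, hB0⟩ := hl₀
    have hB0' : k5_cbin ρ (c l₀) = B := hB0
    rw [k6a4_zc_of_mem ρ B _ hB0'] at hz0
    obtain ⟨hζr, i, rfl⟩ := hr
    have hsub1 : ({l | l ∈ k5_sec E' t ∧ k5_cbin ((1 / 2 : ℝ) ^ i) (k6a4_zc ρ B (c l)) = Bz ∧
        k5_InQ q a e (k6a4_zc ρ B (c l)) t} ∩ {l | k5_cbin ρ (c l) = B})
        ⊆ {l | (l, t) ∈ E ∧ k5_cbin (ρ * (1 / 2 : ℝ) ^ i) (c l) = k5_cbin (ρ * (1 / 2 : ℝ) ^ i) (c l₀) ∧
          k5_InQ (ρ * q) (ρ * a + k5_x (k6a4_cor ρ B) t) (fun i => ρ * e i + k5_y (k6a4_cor ρ B) t i) (c l) t} := by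
      rintro l ⟨⟨h1, h2, h3⟩, h4⟩
      have h4' : k5_cbin ρ (c l) = B := h4
      rw [k6a4_zc_of_mem ρ B _ h4'] at h2 h3
      refine ⟨hE' h1, ?_, (k6a4_zm_InQ ρ hρ0 B (c l) t q a e).1 h3⟩
      exact (k6a4_cbin_zoom_inj ρ hρ0 i B (c l) (c l₀)).1 (h2.trans hz0.symm)
    have hsub2 : {l | k5_cbin (ρ * (1 / 2 : ℝ) ^ i) (c l) = k5_cbin (ρ * (1 / 2 : ℝ) ^ i) (c l₀)}
        ⊆ {l | k5_cbin ((1 / 2 : ℝ) ^ i) (k6a4_zc ρ B (c l)) = Bz} ∩ {l | k5_cbin ρ (c l) = B} := by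
      intro l hl
      have hl' : k5_cbin (ρ * (1 / 2 : ℝ) ^ i) (c l) = k5_cbin (ρ * (1 / 2 : ℝ) ^ i) (c l₀) := hl
      have h5 : k5_cbin ρ (c l) = B := (k6a4_cbin_nest ρ hρ0 i (c l) (c l₀) hl').trans hB0'
      refine ⟨?_, h5⟩
      show k5_cbin ((1 / 2 : ℝ) ^ i) (k6a4_zc ρ B (c l)) = Bz
      rw [k6a4_zc_of_mem ρ B _ h5]
      exact ((k6a4_cbin_zoom_inj ρ hρ0 i B (c l) (c l₀)).2 hl').trans hz0
    calc ν.real ({l | l ∈ k5_sec E' t ∧ k5_cbin ((1 / 2 : ℝ) ^ i) (k6a4_zc ρ B (c l)) = Bz ∧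
            k5_InQ q a e (k6a4_zc ρ B (c l)) t} ∩ {l | k5_cbin ρ (c l) = B})
        ≤ _ := measureReal_mono hsub1 (measure_ne_top ν _)
      _ ≤ K ^ 2 * (q / (1 / 2 : ℝ) ^ i) ^ ((j : ℝ) + d)
            * ν.real {l | k5_cbin (ρ * (1 / 2 : ℝ) ^ i) (c l) = k5_cbin (ρ * (1 / 2 : ℝ) ^ i) (c l₀)} :=
          k6a4_cond_cap h hsc hd0 _ ⟨hζr, i, rfl⟩ q _ _ t hq hqr _
      _ ≤ _ := by
          refine mul_le_mul_of_nonneg_left (measureReal_mono hsub2 (measure_ne_top ν _)) ?_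
          have := hsc.K1
          positivity

/-- S2. **the hypotheses of Definition 5.2 at one time** in the zoom of the block `B`.   (`supp` = field `supp`; `cap` = `bcap` with `r = 1`; `bcap` = S1 through `k6a4_zm_InQ`, `k6a4_cbin_zoom`, `k6a4_nu_real`.) -/
theorem k6a4_tm (h : k6a4_In j d K ζ ρ b η ν c E π w Ws m0 G0 Gy F) (hsc : k6a4_Sc j K ζ ρ b η) (hd0 : 0 ≤ d)
    (B : k6a4_Ix j) (hB : 0 < ν.real {l | k5_cbin ρ (c l) = B}) (E' : Set (Λ × ℝ)) (hE' : E' ⊆ E)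
    (hEB : ∀ e ∈ E', k6a4_bk ρ c e = B) (t : ℝ) (ht0 : 0 ≤ t) (ht1 : t < 1) :
    k5_Tm j d (K ^ 2) ζ (k5_Dy ζ) (fun A => (k6a4_nu ν ρ c B).real A) (fun l => k6a4_zc ρ B (c l)) t (F B t)
      (k5_sec E' t) := by
  have := h.fin
  have hρ0 := hsc.ρ0
  have hK1 := hsc.K1
  have hζ0 : 0 < ζ := lt_of_lt_of_le hsc.ρ0 hsc.ρζ
  have hKK : K ≤ K ^ 2 := by nlinarith
  have hmB := k6a4_meas_cbin c h.mc ρ B
  refine ⟨hζ0, ht0, ht1.le, (h.Fb B t).trans hKK, ?_, ?_, ?_⟩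
  · intro q r a hq hqr hr1
    have hq0 : 0 < q := lt_of_lt_of_le hζ0 hq
    have hr0 : 0 < r := lt_of_lt_of_le hq0 hqr
    obtain ⟨Z, hZ, hZ'⟩ := h.supp B t q r a hq hqr hr1
    refine ⟨Z, hZ.trans (mul_le_mul_of_nonneg_right hKK (Real.rpow_nonneg (by positivity) _)), ?_⟩
    intro l hl h1 h2
    have hlB : k5_cbin ρ (c l) = B := hEB (l, t) hl
    simp only [k6a4_zc_of_mem ρ B _ hlB] at h1 h2 ⊢
    exact hZ' l (hE' hl) hlB h1 h2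
  · intro q a e hq hq1
    have hq0 : 0 < q := lt_of_lt_of_le hζ0 hq
    show (k6a4_nu ν ρ c B).real {l | l ∈ k5_sec E' t ∧ k5_InQ q a e (k6a4_zc ρ B (c l)) t} ≤ _
    rw [k6a4_nu_real ν ρ c B hmB, div_le_iff₀ hB]
    have hsub : ({l | l ∈ k5_sec E' t ∧ k5_InQ q a e (k6a4_zc ρ B (c l)) t} ∩ {l | k5_cbin ρ (c l) = B})
        ⊆ {l | (l, t) ∈ E ∧ k5_cbin (ρ * 1) (c l) = B ∧
          k5_InQ (ρ * q) (ρ * a + k5_x (k6a4_cor ρ B) t) (fun i => ρ * e i + k5_y (k6a4_cor ρ B) t i) (c l) t} := by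
      rintro l ⟨⟨h1, h3⟩, h4⟩
      have h4' : k5_cbin ρ (c l) = B := h4
      rw [k6a4_zc_of_mem ρ B _ h4'] at h3
      exact ⟨hE' h1, by rw [mul_one]; exact h4', (k6a4_zm_InQ ρ hρ0 B (c l) t q a e).1 h3⟩
    have h1 := (measureReal_mono hsub (measure_ne_top ν _)).trans
      (k6a4_cond_cap h hsc hd0 1 ⟨hsc.ζ1, 0, by simp⟩ q _ _ t hq hq1 B)
    rw [div_one, mul_one] at h1
    exact h1
  · intro r hr q a e Bz hq hqr
    exact k6a4_tm_bcap h hsc hd0 B hB E' hE' t r hr q a e Bz hq hqr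

/-- S3. **the common residual choice in one world** (06 l.813-828, (6.22)).   (`k6a_common_choice` with `μ = ν.prod volume`, `Ω₀ = E'`, `D = j + 2`, `q = 1`, `Z e = k6a4_Z (zm ρ B (c e.1)) e.2`, `Y e = fun _ => k5_R (F B e.2) (zm ρ B (c e.1)) e.2`, bound `3 + j K`.) -/
theorem k6a4_choice (h : k6a4_In j d K ζ ρ b η ν c E π w Ws m0 G0 Gy F) (hsc : k6a4_Sc j K ζ ρ b η) (B : k6a4_Ix j)
    (E' : Set (Λ × ℝ)) (hm : MeasurableSet E') (hE' : E' ⊆ E) (hEB : ∀ e ∈ E', k6a4_bk ρ c e = B) (L : ℕ) (s : ℕ → ℝ)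
    (A : ℝ) (hA : 1 ≤ A) (hs0 : s 0 = 1) (hsL : s L = ζ) (hpos : ∀ i ≤ L, 0 < s i) (hmono : ∀ i < L, s (i + 1) ≤ s i)
    (hrat : ∀ i < L, s i ≤ A * s (i + 1)) (Kl : ℕ)
    (hl : ∀ i ≤ L, ∀ n : Fin (j + 2) → ℤ, ∃ T : Finset ℤ, T.card ≤ Kl ∧
      ∀ e ∈ E', k6a4_cl ρ (s i) c e = n → k5_bin (s i) (k6a4_R ρ F c e) ∈ T) :
    ∃ S : Set (Λ × ℝ), MeasurableSet S ∧ S ⊆ E' ∧ k5_mass ν E' ≤ (4 ^ (j + 2) * (Kl : ℝ)) ^ (L + 1) * k5_mass ν S ∧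
      ∀ e ∈ S, ∀ e' ∈ S, |k6a4_R ρ F c e - k6a4_R ρ F c e'| ≤ (A + 2 * (3 + j * K)) *
        (‖k6a4_Z (k6a4_own ρ (c e.1)) e.2 - k6a4_Z (k6a4_own ρ (c e'.1)) e'.2‖ + ζ) := by
  classical
  have := h.fin
  have hρ := hsc.ρ0
  have hown : ∀ e ∈ E', k6a4_own ρ (c e.1) = k6a4_zm ρ B (c e.1) := by
    intro e he
    have h1 : k5_cbin ρ (c e.1) = B := hEB e he
    rw [k6a4_own, h1]
  have hR : ∀ e ∈ E', k6a4_R ρ F c e = k5_R (F B e.2) (k6a4_zm ρ B (c e.1)) e.2 := by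
    intro e he
    have h1 : k5_cbin ρ (c e.1) = B := hEB e he
    rw [k6a4_R, hown e he, h1]
  have hzm : Measurable fun l => k6a4_zm ρ B (c l) := (k6a4p_zm_measurable ρ B).comp h.mc
  have hZm : Measurable fun e : Λ × ℝ => k6a4_Z (k6a4_zm ρ B (c e.1)) e.2 := k6a4_meas_Z _ hzm
  have hYm : Measurable fun e : Λ × ℝ => (fun _ : Fin 1 => k5_R (F B e.2) (k6a4_zm ρ B (c e.1)) e.2) :=
    measurable_pi_iff.2 fun _ => k6a4_meas_R _ hzm (F B) (h.mF B)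
  obtain ⟨S, hSm, hSs, hSmass, hSres, -⟩ := k6a_common_choice (ν.prod volume) E' hm (j + 2) 1 L
    (fun e => k6a4_Z (k6a4_zm ρ B (c e.1)) e.2) (fun e => fun _ => k5_R (F B e.2) (k6a4_zm ρ B (c e.1)) e.2) hZm hYm
    (3 + j * K) A ζ
    (by
      intro e he
      have hj : (0 : ℝ) ≤ j := Nat.cast_nonneg j
      have hK1 := hsc.K1
      refine (pi_norm_le_iff_of_nonneg (by positivity)).2 fun _ => ?_
      have ht := h.tI e.1 e.2 (hE' he)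
      exact k6a4_R_bound K _ _ _ (hown e he ▸ k6a4_own_norm ρ hρ (c e.1)) ht.1 ht.2.le (h.Fb B e.2))
    hA s hs0 hsL hpos hmono hrat (fun _ => Kl)
    (by
      intro i hi n
      obtain ⟨T, hT1, hT2⟩ := hl i hi n
      refine ⟨T.image (fun m => fun _ : Fin 1 => m), Finset.card_image_le.trans hT1, ?_⟩
      intro e he hn
      have h1 : k6a4_cl ρ (s i) c e = n := by
        rw [k6a4_cl, hown e he]
        exact hn
      have h2 := hT2 e he h1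
      rw [hR e he] at h2
      exact Finset.mem_image.2 ⟨_, h2, rfl⟩)
  refine ⟨S, hSm, hSs, ?_, ?_⟩
  · have hfin : (ν.prod volume) E' ≠ ⊤ := k6a4_mass_fin ν E' (fun l t hlt => h.tI l t (hE' hlt))
    have hfinS : (ν.prod volume) S ≠ ⊤ := ne_top_of_le_ne_top hfin (measure_mono hSs)
    rw [Finset.prod_const, Finset.card_range] at hSmass
    have h1 : ((4 : ℝ≥0∞) ^ (j + 2) * (Kl : ℝ≥0∞)) ^ (L + 1) * (ν.prod volume) S ≠ ⊤ :=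
      ENNReal.mul_ne_top (ENNReal.pow_ne_top (ENNReal.mul_ne_top (ENNReal.pow_ne_top (by norm_num))
        (ENNReal.natCast_ne_top Kl))) hfinS
    have h2 := ENNReal.toReal_mono h1 hSmass
    rw [ENNReal.toReal_mul, ENNReal.toReal_pow, ENNReal.toReal_mul, ENNReal.toReal_pow, ENNReal.toReal_natCast] at h2
    exact h2
  · intro e he e' he'
    have h1 := hSres e he e' he'
    rw [hR e (hSs he), hR e' (hSs he'), hown e (hSs he), hown e' (hSs he')]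
    exact (norm_le_pi_norm ((fun _ : Fin 1 => k5_R (F B e.2) (k6a4_zm ρ B (c e.1)) e.2)
      - fun _ : Fin 1 => k5_R (F B e'.2) (k6a4_zm ρ B (c e'.1)) e'.2) 0).trans h1

theorem k6a4_tm_mono_K {Λ' : Type} [MeasurableSpace Λ'] {μ : Measure Λ'} {c' : Λ' → k5_Co j} {d K K' ζ : ℝ} {Rs : Set ℝ}
    {t : ℝ} {f : Fin j → ℝ} {G : Set Λ'} (h : k5_Tm j d K ζ Rs (fun A => μ.real A) c' t f G) (hK : K ≤ K') :
    k5_Tm j d K' ζ Rs (fun A => μ.real A) c' t f G := by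
  refine ⟨h.z0, h.t0, h.t1, h.fb.trans hK, fun q r a hq hqr hr1 => ?_, fun q a e hq hq1 => ?_, fun r hr q a e B hq hqr => ?_⟩
  · obtain ⟨Z, hZ, hZ2⟩ := h.supp q r a hq hqr hr1
    have hq0 : 0 < q := h.z0.trans_le hq
    have hr0 : 0 < r := hq0.trans_le hqr
    exact ⟨Z, hZ.trans (mul_le_mul_of_nonneg_right hK (Real.rpow_nonneg (by positivity) _)), hZ2⟩
  · have hq0 : 0 < q := h.z0.trans_le hq
    exact (h.cap q a e hq hq1).trans (mul_le_mul_of_nonneg_right hK (Real.rpow_nonneg hq0.le _))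
  · have hq0 : 0 < q := h.z0.trans_le hq
    have hr0 : 0 < r := hq0.trans_le hqr
    refine (h.bcap r hr q a e B hq hqr).trans ?_
    refine mul_le_mul_of_nonneg_right ?_ measureReal_nonneg
    exact mul_le_mul_of_nonneg_right hK (Real.rpow_nonneg (by positivity) _)

/-- S4. **assembly of Definition 5.2**.   `K'` dominates `K²`, and the constant of the residual comparison. -/
theorem k6a4_snd_of (h : k6a4_In j d K ζ ρ b η ν c E π w Ws m0 G0 Gy F) (hsc : k6a4_Sc j K ζ ρ b η) (hd0 : 0 ≤ d)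
    (B : k6a4_Ix j) (hB : 0 < ν.real {l | k5_cbin ρ (c l) = B}) (S : Set (Λ × ℝ)) (hm : MeasurableSet S) (hS : S ⊆ E)
    (hSB : ∀ e ∈ S, k6a4_bk ρ c e = B) (K' : ℝ) (hK' : K ^ 2 ≤ K')
    (hres : ∀ e ∈ S, ∀ e' ∈ S, |k6a4_R ρ F c e - k6a4_R ρ F c e'| ≤ K' *
        (‖k6a4_Z (k6a4_own ρ (c e.1)) e.2 - k6a4_Z (k6a4_own ρ (c e'.1)) e'.2‖ + ζ)) :
    k5_Snd j d K' ζ (k6a4_nu ν ρ c B) (fun l => k6a4_zc ρ B (c l)) S (F B) := by
  have := h.fin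
  have hρ0 := hsc.ρ0
  have hK1 := hsc.K1
  have hKK : K ≤ K ^ 2 := by nlinarith
  have h1K' : 1 ≤ K' := by nlinarith
  have hmB := k6a4_meas_cbin c h.mc ρ B
  refine ⟨k6a4_nu_prob ν ρ c B hmB hB, k6a4_meas_zc c h.mc ρ B, hm, h.mF B, fun l t hl => h.tI l t (hS hl),
    fun l => (k6a4_zc_norm ρ hρ0 B (c l)).trans h1K',
    fun t t0 t1 => k6a4_tm_mono_K (k6a4_tm h hsc hd0 B hB S hS hSB t t0 t1) hK', ?_, ?_⟩
  · intro l t l' u hl hl'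
    have h1 := h.FF (l, t) (hS hl) (l', u) (hS hl') ((hSB _ hl).trans (hSB _ hl').symm)
    rw [hSB _ hl] at h1
    refine h1.trans ?_
    have h2 : 0 ≤ |t - u| := abs_nonneg _
    have h3 : |t - u| + ρ ≤ |t - u| + ζ := by linarith [hsc.ρζ]
    calc K * (|t - u| + ρ) ≤ K * (|t - u| + ζ) := mul_le_mul_of_nonneg_left h3 (by linarith)
      _ ≤ K' * (|t - u| + ζ) := mul_le_mul_of_nonneg_right (hKK.trans hK') (by linarith [hsc.ρζ])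
  · intro l t l' u hl hl'
    have hlB : k5_cbin ρ (c l) = B := hSB _ hl
    have hlB' : k5_cbin ρ (c l') = B := hSB _ hl'
    have h1 := hres (l, t) hl (l', u) hl'
    have e1 : k6a4_R ρ F c (l, t) = k5_R (F B t) (k6a4_zc ρ B (c l)) t := by
      unfold k6a4_R k6a4_own
      simp only [hlB, k6a4_zc_of_mem ρ B _ hlB]
    have e2 : k6a4_R ρ F c (l', u) = k5_R (F B u) (k6a4_zc ρ B (c l')) u := by
      unfold k6a4_R k6a4_own
      simp only [hlB', k6a4_zc_of_mem ρ B _ hlB']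
    have e3 : k6a4_own ρ (c l) = k6a4_zc ρ B (c l) := by
      unfold k6a4_own
      rw [hlB, k6a4_zc_of_mem ρ B _ hlB]
    have e4 : k6a4_own ρ (c l') = k6a4_zc ρ B (c l') := by
      unfold k6a4_own
      rw [hlB', k6a4_zc_of_mem ρ B _ hlB']
    simp only [e1, e2, e3, e4] at h1
    refine h1.trans (mul_le_mul_of_nonneg_left ?_ (by linarith))
    have := k6a4_Z_norm_le (k6a4_zc ρ B (c l)) (k6a4_zc ρ B (c l')) t u
    linarith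

end

/-- the slack of the output -/
noncomputable def k6a4_Ko (C K δ A : ℝ) (L : ℕ) : ℝ := A + (C * K * ((L : ℝ) + 1) / δ) ^ (C * ((L : ℝ) + 1))

theorem k6a4_Ko_eqns_cite : True := by
  have := @k6a4_Ko.eq_1
  trivial

/-- S5. arithmetic of the slack.   `Cl` = the constant of `k6a4_lists`. -/
theorem k6a4_Ko_arith (j : ℕ) (Cl : ℝ) (hCl : 1 ≤ Cl) : ∃ C : ℝ, 1 ≤ C ∧ ∀ (K δ A : ℝ) (L Kl : ℕ), 1 ≤ K → 0 < δ → δ ≤ 1 →
    1 ≤ A → (Kl : ℝ) ≤ Cl * K ^ 8 * (((L : ℝ) + 1) / δ) ^ 2 + 1 →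
    K ^ 2 ≤ k6a4_Ko C K δ A L ∧ A + 2 * (3 + j * K) ≤ k6a4_Ko C K δ A L ∧
      2 / δ * (4 ^ (j + 2) * (Kl : ℝ)) ^ (L + 1) ≤ k6a4_Ko C K δ A L := by
  have h4 : (0 : ℝ) < 4 ^ (j + 2) := by positivity
  have hj0 : (0 : ℝ) ≤ j := Nat.cast_nonneg j
  obtain ⟨C, hCdef⟩ : ∃ C : ℝ, C = 2 * 4 ^ (j + 2) * Cl + 9 + 2 * j := ⟨_, rfl⟩
  have hp0 : 0 ≤ 2 * 4 ^ (j + 2) * Cl := by positivity
  have hC1 : 2 * 4 ^ (j + 2) * Cl ≤ C := by rw [hCdef]; linarith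
  have hC9 : 9 ≤ C := by rw [hCdef]; linarith
  have hCj : 6 + 2 * (j : ℝ) ≤ C := by rw [hCdef]; linarith
  refine ⟨C, by linarith, ?_⟩
  intro K δ A L Kl hK hδ hδ1 hA hKl
  have hL0 : (0 : ℝ) ≤ L := Nat.cast_nonneg L
  obtain ⟨T, hTdef⟩ : ∃ T : ℝ, T = ((L : ℝ) + 1) / δ := ⟨_, rfl⟩
  have hT : 1 ≤ T := by rw [hTdef, le_div_iff₀ hδ]; linarith
  have hδT : 1 / δ ≤ T := by
    rw [hTdef]; exact div_le_div_of_nonneg_right (by linarith) hδ.le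
  obtain ⟨Y, hYdef⟩ : ∃ Y : ℝ, Y = C * (K * T) := ⟨_, rfl⟩
  have hX : 1 ≤ K * T := by nlinarith
  have hXY : K * T ≤ Y := by rw [hYdef]; nlinarith
  have hY1 : 1 ≤ Y := hX.trans hXY
  have hY0 : 0 < Y := by linarith
  have hYe : C * K * ((L : ℝ) + 1) / δ = Y := by rw [hYdef, hTdef]; ring
  have hpow : ∀ k : ℕ, (k : ℝ) ≤ C * ((L : ℝ) + 1) → Y ^ k ≤ Y ^ (C * ((L : ℝ) + 1)) := by
    intro k hk
    rw [← Real.rpow_natCast]
    exact Real.rpow_le_rpow_of_exponent_le hY1 hk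
  have hKo : k6a4_Ko C K δ A L = A + Y ^ (C * ((L : ℝ) + 1)) := by
    unfold k6a4_Ko; rw [hYe]
  rw [hKo]
  have hKY : K ≤ Y := le_trans (by nlinarith) hXY
  refine ⟨?_, ?_, ?_⟩
  · have h2 : Y ^ 2 ≤ Y ^ (C * ((L : ℝ) + 1)) := hpow 2 (by push_cast; nlinarith)
    have h3 : K ^ 2 ≤ Y ^ 2 := pow_le_pow_left₀ (by linarith) hKY 2
    linarith
  · have h2 : Y ^ 1 ≤ Y ^ (C * ((L : ℝ) + 1)) := hpow 1 (by push_cast; nlinarith)
    have h3 : 2 * (3 + j * K) ≤ Y := by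
      have : (6 + 2 * (j : ℝ)) * K ≤ C * (K * T) := by
        have h5 : (6 + 2 * (j : ℝ)) * K ≤ C * K := mul_le_mul_of_nonneg_right hCj (by linarith)
        have h6 : C * K ≤ C * (K * T) := mul_le_mul_of_nonneg_left (by nlinarith) (by linarith)
        linarith
      rw [hYdef]; nlinarith
    rw [pow_one] at h2
    linarith
  · have h2 : Y ^ (9 * (L + 1)) ≤ Y ^ (C * ((L : ℝ) + 1)) := hpow _ (by push_cast; nlinarith)
    have hT28 : T ^ 2 ≤ T ^ 8 := pow_le_pow_right₀ hT (by norm_num)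
    have hK8 : 1 ≤ K ^ 8 := one_le_pow₀ hK
    have hT2 : 1 ≤ T ^ 2 := one_le_pow₀ hT
    have hKl2 : (Kl : ℝ) ≤ 2 * Cl * (K * T) ^ 8 := by
      rw [← hTdef] at hKl
      have h5 : 1 ≤ Cl * K ^ 8 * T ^ 2 := by
        have : 1 ≤ Cl * K ^ 8 := by nlinarith
        nlinarith
      have h6 : Cl * K ^ 8 * T ^ 2 ≤ Cl * K ^ 8 * T ^ 8 :=
        mul_le_mul_of_nonneg_left hT28 (by positivity)
      rw [mul_pow]
      nlinarith
    have hX8 : 0 ≤ (K * T) ^ 8 := by positivity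
    have hb : 4 ^ (j + 2) * (Kl : ℝ) ≤ Y ^ 8 := by
      calc 4 ^ (j + 2) * (Kl : ℝ) ≤ 4 ^ (j + 2) * (2 * Cl * (K * T) ^ 8) :=
            mul_le_mul_of_nonneg_left hKl2 h4.le
        _ = (2 * 4 ^ (j + 2) * Cl) * (K * T) ^ 8 := by ring
        _ ≤ C * (K * T) ^ 8 := mul_le_mul_of_nonneg_right hC1 hX8
        _ ≤ C ^ 8 * (K * T) ^ 8 := by
            refine mul_le_mul_of_nonneg_right ?_ hX8
            calc C = C ^ 1 := (pow_one C).symm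
              _ ≤ C ^ 8 := pow_le_pow_right₀ (by linarith) (by norm_num)
        _ = Y ^ 8 := by rw [hYdef]; ring
    have hb2 : (4 ^ (j + 2) * (Kl : ℝ)) ^ (L + 1) ≤ Y ^ (8 * (L + 1)) := by
      rw [pow_mul]
      exact pow_le_pow_left₀ (by positivity) hb _
    have hd : 2 / δ ≤ Y ^ (L + 1) := by
      have h7 : 2 / δ ≤ Y := by
        have : 2 / δ = 2 * (1 / δ) := by ring
        rw [this, hYdef]
        have h8 : T ≤ K * T := le_mul_of_one_le_left (by linarith) hK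
        have h9 : 2 * (K * T) ≤ C * (K * T) := mul_le_mul_of_nonneg_right (by linarith) (by linarith)
        linarith
      calc 2 / δ ≤ Y := h7
        _ = Y ^ 1 := (pow_one Y).symm
        _ ≤ Y ^ (L + 1) := pow_le_pow_right₀ hY1 (by omega)
    have hfin : 2 / δ * (4 ^ (j + 2) * (Kl : ℝ)) ^ (L + 1) ≤ Y ^ (9 * (L + 1)) := by
      calc 2 / δ * (4 ^ (j + 2) * (Kl : ℝ)) ^ (L + 1) ≤ Y ^ (L + 1) * Y ^ (8 * (L + 1)) :=
            mul_le_mul hd hb2 (by positivity) (by positivity)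
        _ = Y ^ (9 * (L + 1)) := by rw [← pow_add]; congr 1; ring
    linarith

/-- **EXIT 1 of S6a4: scalar-normal data in one world.**   Grid `s 0 = 1 ≥ … ≥ s L = ζ` of dyadic widths with ratios `≤ A`; entering mass `δ`. -/
theorem k6a4_snd (j : ℕ) : ∃ C : ℝ, 1 ≤ C ∧ ∀ {Λ ι : Type} [MeasurableSpace Λ] {d K ζ ρ b η : ℝ} {ν : Measure Λ}
    {c : Λ → k5_Co j} {E : Set (Λ × ℝ)} {π : Measure (Fin j → ℝ)} {w : Λ × ℝ → ι} {Ws : Finset ι} {m0 : ι → ℝ}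
    {G0 : ι → ℝ} {Gy : ι → Fin j → ℝ} {F : k6a4_Ix j → ℝ → Fin j → ℝ},
    k6a4_In j d K ζ ρ b η ν c E π w Ws m0 G0 Gy F → k6a4_Sc j K ζ ρ b η → 0 ≤ d → ∀ (L : ℕ) (s : ℕ → ℝ) (A δ : ℝ),
    1 ≤ A → s 0 = 1 → s L = ζ → (∀ i ≤ L, s i ∈ k5_Dy ζ) → (∀ i < L, s (i + 1) ≤ s i) → (∀ i < L, s i ≤ A * s (i + 1)) →
    0 < δ → δ ≤ 1 → δ ≤ k5_mass ν E →
    ∃ (B : k6a4_Ix j) (S : Set (Λ × ℝ)), MeasurableSet S ∧ S ⊆ E ∧ (∀ e ∈ S, k6a4_bk ρ c e = B) ∧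
      k5_Snd j d (k6a4_Ko C K δ A L) ζ (k6a4_nu ν ρ c B) (fun l => k6a4_zc ρ B (c l)) S (F B) ∧
      1 / k6a4_Ko C K δ A L ≤ k5_mass (k6a4_nu ν ρ c B) S := by
  obtain ⟨Cl, hCl, hl⟩ := k6a4_lists j
  obtain ⟨C, hC, hAr⟩ := k6a4_Ko_arith j Cl hCl
  refine ⟨C, hC, ?_⟩
  intro Λ ι _ d K ζ ρ b η ν c E π w Ws m0 G0 Gy F h hsc hd0 L s A δ hA1 hs0 hsL hsD hmono hrat hδ hδ1 hm
  have := h.fin
  have hζ0 : 0 < ζ := lt_of_lt_of_le hsc.ρ0 hsc.ρζ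
  obtain ⟨E', hE'm, hE's, hE'mass, hlist⟩ := hl h hsc L s δ hsD hδ hδ1 hm
  obtain ⟨Sb, hSb⟩ := k6a4_cbin_fin (j := j) ρ K hsc.ρ0
  obtain ⟨B, hB0, hBm⟩ := k6a4_world ν h.nu1 (fun l => k5_cbin ρ (c l)) (fun k => k6a4_meas_cbin c h.mc ρ k) Sb
    (fun l => hSb _ (h.cb l)) E' hE'm (fun l t hlt => h.tI l t (hE's hlt)) (δ / 2) (by positivity) hE'mass
  have hB0' : 0 < ν.real {l | k5_cbin ρ (c l) = B} := hB0
  have hBm' : δ / 2 * ν.real {l | k5_cbin ρ (c l) = B} ≤ k5_mass ν {e | e ∈ E' ∧ k5_cbin ρ (c e.1) = B} := hBm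
  set EB : Set (Λ × ℝ) := {e | e ∈ E' ∧ k5_cbin ρ (c e.1) = B} with hEB
  have hEBm : MeasurableSet EB := hE'm.inter (k6a4_meas_bk c h.mc ρ B)
  have hEBs : EB ⊆ E := fun e he => hE's he.1
  set Kl : ℕ := ⌈Cl * K ^ 8 * (((L : ℝ) + 1) / δ) ^ 2⌉₊ with hKl
  have hKl1 : (Kl : ℝ) ≤ Cl * K ^ 8 * (((L : ℝ) + 1) / δ) ^ 2 + 1 :=
    (Nat.ceil_lt_add_one (by have := hsc.K1; positivity)).le
  obtain ⟨a1, a2, a3⟩ := hAr K δ A L Kl hsc.K1 hδ hδ1 hA1 hKl1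
  obtain ⟨S, hSm, hSs, hSmass, hSres⟩ := k6a4_choice h hsc B EB hEBm hEBs (fun e he => he.2) L s A hA1 hs0 hsL
    (fun i hi => lt_of_lt_of_le hζ0 (hsD i hi).1) hmono hrat Kl (by
      intro i hi n
      obtain ⟨T, hT, hT'⟩ := hlist i hi B n
      refine ⟨T, ?_, fun e he hn => hT' e he.1 he.2 hn⟩
      have h5 : (T.card : ℝ) ≤ (Kl : ℝ) := hT.trans (Nat.le_ceil _)
      exact Nat.cast_le.1 h5)
  have hSB : ∀ e ∈ S, k6a4_bk ρ c e = B := fun e he => (hSs he).2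
  have hKo : 0 < k6a4_Ko C K δ A L := lt_of_lt_of_le (by have := hsc.K1; positivity) a1
  refine ⟨B, S, hSm, hSs.trans hEBs, hSB, ?_, ?_⟩
  · refine k6a4_snd_of h hsc hd0 B hB0' S hSm (hSs.trans hEBs) hSB _ a1 ?_
    intro e he e' he'
    refine (hSres e he e' he').trans ?_
    exact mul_le_mul_of_nonneg_right a2 (by positivity)
  · rw [k6a4_nu_mass ν ρ c B (k6a4_meas_cbin c h.mc ρ B) S hSm hSB, div_le_div_iff₀ hKo hB0', one_mul]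
    have hS0 : 0 ≤ k5_mass ν S := measureReal_nonneg
    have b1 : ν.real {l | k5_cbin ρ (c l) = B} ≤ 2 / δ * k5_mass ν EB := by
      rw [div_mul_eq_mul_div, le_div_iff₀ hδ]
      linarith
    have b2 : 2 / δ * k5_mass ν EB ≤ 2 / δ * ((4 ^ (j + 2) * (Kl : ℝ)) ^ (L + 1) * k5_mass ν S) :=
      mul_le_mul_of_nonneg_left hSmass (by positivity)
    have b3 : 2 / δ * ((4 ^ (j + 2) * (Kl : ℝ)) ^ (L + 1) * k5_mass ν S) ≤ k6a4_Ko C K δ A L * k5_mass ν S := by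
      rw [← mul_assoc]
      exact mul_le_mul_of_nonneg_right a3 hS0
    linarith

end Claimed.Agent.R252
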